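import Crest.Agent.R160.Defs

/-! Row 160, module A2: balls, spheres, geodesic points, relocation of sums over paths. -/

set_option autoImplicit false

open MeasureTheory
open scoped Classical

namespace Crest.Agent.R160

open Crest.Agent.R160.TreeAut

variable {V : Type*} {G : SimpleGraph V} [G.LocallyFinite]

theorem mem_bal (hT : G.IsTree) (v w : V) (n : ℕ) : w ∈ bal G v n ↔ G.dist v w ≤ n := by
  induction n generalizing w with
  | zero =>
    simp only [bal, Finset.mem_singleton, Nat.le_zero]
    rw [hT.connected.dist_eq_zero_iff]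
    exact eq_comm
  | succ n ih =>
    simp only [bal, Finset.mem_biUnion, Finset.mem_insert, SimpleGraph.mem_neighborFinset]
    constructor
    · rintro ⟨x, hx, rfl | hxw⟩
      · have := (ih w).1 hx; omega
      · have h1 := (ih x).1 hx
        have h2 : G.dist v w ≤ G.dist v x + G.dist x w := hT.connected.dist_triangle
        rw [SimpleGraph.dist_eq_one_iff_adj.mpr hxw] at h2
        omega
    · intro h
      by_cases hw : G.dist v w ≤ n
      · exact ⟨w, (ih w).2 hw, Or.inl rfl⟩
      · have hne : w ≠ v := by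
          rintro rfl
          rw [SimpleGraph.dist_self] at hw
          omega
        refine ⟨par G v w, (ih _).2 ?_, Or.inr (par_adj hT hne).symm⟩
        have := par_dist hT hne
        omega

theorem mem_sph (hT : G.IsTree) (v w : V) (n : ℕ) : w ∈ sph G v n ↔ G.dist v w = n := by
  rw [sph, Finset.mem_filter, mem_bal hT]
  omega

theorem sph_zero (hT : G.IsTree) (v : V) : sph G v 0 = {v} := by
  ext w
  rw [mem_sph hT, hT.connected.dist_eq_zero_iff, Finset.mem_singleton]
  exact eq_comm

/-- children as a finset -/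
noncomputable def chl (hT : G.IsTree) (r u : V) : Finset V := (children_finite hT r u).toFinset

theorem mem_chl (hT : G.IsTree) (r u v : V) : v ∈ chl hT r u ↔ v ≠ r ∧ par G r v = u := by
  simp [chl, children]

theorem card_chl_root (hT : G.IsTree) {d : ℕ} (hreg : G.IsRegularOfDegree d) (r : V) :
    (chl hT r r).card = d := by
  rw [chl, ← Set.ncard_eq_toFinset_card _ (children_finite hT r r), ncard_children_root hT hreg]

theorem card_chl (hT : G.IsTree) {d : ℕ} (hreg : G.IsRegularOfDegree d) {r u : V} (hu : u ≠ r) :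
    (chl hT r u).card = d - 1 := by
  rw [chl, ← Set.ncard_eq_toFinset_card _ (children_finite hT r u), ncard_children hT hreg hu]

theorem sph_succ (hT : G.IsTree) (v : V) (n : ℕ) :
    sph G v (n + 1) = (sph G v n).biUnion (chl hT v) := by
  ext w
  rw [mem_sph hT, Finset.mem_biUnion]
  constructor
  · intro h
    have hne : w ≠ v := by
      rintro rfl
      rw [SimpleGraph.dist_self] at h
      omega
    refine ⟨par G v w, ?_, ?_⟩
    · rw [mem_sph hT]
      have := par_dist hT hne
      omega
    · rw [mem_chl]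
      exact ⟨hne, rfl⟩
  · rintro ⟨u, hu, hw⟩
    rw [mem_sph hT] at hu
    rw [mem_chl] at hw
    have := par_dist hT hw.1
    rw [hw.2] at this
    omega

theorem disjoint_chl (hT : G.IsTree) (v : V) (s : Set V) : s.PairwiseDisjoint (chl hT v) := by
  intro a _ b _ hab
  simp only [Function.onFun]
  rw [Finset.disjoint_left]
  intro w hw hw'
  rw [mem_chl] at hw hw'
  exact hab (hw.2.symm.trans hw'.2)

/-- Sums over spheres, one level at a time. -/
theorem sum_sph_succ {M : Type*} [AddCommMonoid M] (hT : G.IsTree) (v : V) (n : ℕ) (f : V → M) :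
    ∑ w ∈ sph G v (n + 1), f w = ∑ u ∈ sph G v n, ∑ w ∈ chl hT v u, f w := by
  rw [sph_succ hT, Finset.sum_biUnion]
  exact fun a ha b hb hab => disjoint_chl hT v _ ha hb hab

theorem card_sph (hT : G.IsTree) {b : ℕ} (hreg : G.IsRegularOfDegree (b + 1)) (v : V)
    (n : ℕ) : (sph G v (n + 1)).card = (b + 1) * b ^ n := by
  induction n with
  | zero =>
    rw [Finset.card_eq_sum_ones, sum_sph_succ hT, sph_zero hT, Finset.sum_singleton,
      ← Finset.card_eq_sum_ones, card_chl_root hT hreg]
    simp
  | succ n ih =>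
    rw [Finset.card_eq_sum_ones, sum_sph_succ hT]
    have : ∀ u ∈ sph G v (n + 1), ∑ w ∈ chl hT v u, 1 = b := by
      intro u hu
      rw [← Finset.card_eq_sum_ones, card_chl hT hreg]
      · simp
      · rintro rfl
        rw [mem_sph hT, SimpleGraph.dist_self] at hu
        omega
    rw [Finset.sum_congr rfl this, Finset.sum_const, ih, smul_eq_mul]
    ring


theorem card_sph_le' (hT : G.IsTree) {b : ℕ} (hb : 1 ≤ b) (hreg : G.IsRegularOfDegree (b + 1))
    (v : V) (n : ℕ) : (sph G v n).card ≤ 2 * b ^ n := by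
  cases n with
  | zero => rw [sph_zero hT]; simp
  | succ n =>
    rw [card_sph hT hreg, pow_succ]
    nlinarith [pow_pos (by omega : 0 < b) n]

theorem sph_nonempty (hT : G.IsTree) {b : ℕ} (hb : 1 ≤ b) (hreg : G.IsRegularOfDegree (b + 1))
    (v : V) (n : ℕ) : (sph G v n).Nonempty := by
  rw [← Finset.card_pos]
  cases n with
  | zero => rw [sph_zero hT]; simp
  | succ n =>
    rw [card_sph hT hreg]
    positivity

/-! ### Behaviour under automorphisms -/

omit [G.LocallyFinite] in
theorem dist_map (g : G ≃g G) (u v : V) : G.dist (g u) (g v) = G.dist u v := by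
  have h1 : ∀ (g : G ≃g G) (u v : V), G.Reachable u v → G.dist (g u) (g v) ≤ G.dist u v := by
    intro g u v h
    obtain ⟨p, hp⟩ := h.exists_walk_length_eq_dist
    have := G.dist_le (p.map g.toHom)
    rw [SimpleGraph.Walk.length_map, hp] at this
    exact this
  by_cases h : G.Reachable u v
  · refine le_antisymm (h1 g u v h) ?_
    have := h1 g.symm (g u) (g v) (h.map g.toHom)
    simpa using this
  · rw [SimpleGraph.dist_eq_zero_of_not_reachable h, SimpleGraph.dist_eq_zero_of_not_reachable]
    intro h2
    apply h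
    have := h2.map g.symm.toHom
    simpa using this

omit [G.LocallyFinite] in
theorem dist_symm_map (g : G ≃g G) (v w : V) : G.dist v (g.toEquiv.symm w) = G.dist (g v) w := by
  rw [← dist_map g v]
  congr 1
  exact g.toEquiv.apply_symm_apply w

omit [G.LocallyFinite] in
theorem par_map (hT : G.IsTree) (g : G ≃g G) {r v : V} (hv : v ≠ r) :
    par G (g r) (g v) = g (par G r v) := by
  apply eq_par hT
  · exact g.map_adj_iff.2 (par_adj hT hv)
  · rw [dist_map, dist_map]
    exact par_dist hT hv

theorem sph_map (hT : G.IsTree) (g : G ≃g G) (v : V) (n : ℕ) :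
    sph G (g v) n = (sph G v n).map g.toEquiv.toEmbedding := by
  ext w
  rw [mem_sph hT, Finset.mem_map_equiv, mem_sph hT, dist_symm_map]

theorem bal_map (hT : G.IsTree) (g : G ≃g G) (v : V) (n : ℕ) :
    bal G (g v) n = (bal G v n).map g.toEquiv.toEmbedding := by
  ext w
  rw [mem_bal hT, Finset.mem_map_equiv, mem_bal hT, dist_symm_map]

/-! ### Relocation -/

/-- two-point invariant functions only depend on the distance -/
theorem inv_eq (hT : G.IsTree) {d : ℕ} (hreg : G.IsRegularOfDegree d) {β : Type*}
    {F : V → V → β} (hF : ∀ (g : G ≃g G) (u v : V), F (g u) (g v) = F u v) {u v u' v' : V}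
    (h : G.dist u v = G.dist u' v') : F u v = F u' v' := by
  obtain ⟨g, h1, h2⟩ := exists_aut_of_dist_eq hT hreg h
  rw [← h1, ← h2, hF]

theorem inv_swap (hT : G.IsTree) {d : ℕ} (hreg : G.IsRegularOfDegree d) {β : Type*}
    {F : V → V → β} (hF : ∀ (g : G ≃g G) (u v : V), F (g u) (g v) = F u v) (u v : V) :
    F u v = F v u :=
  inv_eq hT hreg hF SimpleGraph.dist_comm

theorem card_sph_eq (hT : G.IsTree) {d : ℕ} (hreg : G.IsRegularOfDegree d) (v o : V) (n : ℕ) :
    (sph G v n).card = (sph G o n).card := by
  obtain ⟨g, rfl⟩ := exists_aut_vertex hT hreg o v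
  rw [sph_map hT, Finset.card_map]

/-- **two-point relocation** (mass transport). -/
theorem relocate2 (hT : G.IsTree) {d : ℕ} (hreg : G.IsRegularOfDegree d) {F : V → V → ℝ}
    (hF : ∀ (g : G ≃g G) (u v : V), F (g u) (g v) = F u v) (v o : V) (n : ℕ) :
    ∑ w ∈ sph G v n, F v w = ∑ w ∈ sph G o n, F w o := by
  by_cases hne : (sph G v n).Nonempty
  · obtain ⟨x, hx⟩ := hne
    rw [mem_sph hT] at hx
    have h1 : ∀ w ∈ sph G v n, F v w = F v x := by
      intro w hw
      rw [mem_sph hT] at hw
      exact inv_eq hT hreg hF (by rw [hw, hx])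
    have h2 : ∀ w ∈ sph G o n, F w o = F v x := by
      intro w hw
      rw [mem_sph hT] at hw
      exact inv_eq hT hreg hF (by rw [SimpleGraph.dist_comm, hw, hx])
    rw [Finset.sum_congr rfl h1, Finset.sum_congr rfl h2, Finset.sum_const, Finset.sum_const,
      card_sph_eq hT hreg v o]
  · have h1 : sph G v n = ∅ := Finset.not_nonempty_iff_eq_empty.1 hne
    have h2 : sph G o n = ∅ := by
      rw [← Finset.card_eq_zero, ← card_sph_eq hT hreg v o, h1, Finset.card_empty]
    rw [h1, h2, Finset.sum_empty, Finset.sum_empty]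

/-- same, both sums with the root as first argument -/
theorem relocate2' (hT : G.IsTree) {d : ℕ} (hreg : G.IsRegularOfDegree d) {F : V → V → ℝ}
    (hF : ∀ (g : G ≃g G) (u v : V), F (g u) (g v) = F u v) (v o : V) (n : ℕ) :
    ∑ w ∈ sph G v n, F v w = ∑ w ∈ sph G o n, F o w := by
  rw [relocate2 hT hreg hF v o]
  exact Finset.sum_congr rfl fun w _ => inv_swap hT hreg hF w o

/-- The vertex at distance `i` from `v` on the geodesic from `v` to `w` (if `i ≤ dist v w`). -/
noncomputable def gpt (G : SimpleGraph V) (v w : V) (i : ℕ) : V :=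
  (par G v)^[G.dist v w - i] w

omit [G.LocallyFinite] in
theorem dist_iterate_par (hT : G.IsTree) (v w : V) (k : ℕ) (hk : k ≤ G.dist v w) :
    G.dist v ((par G v)^[k] w) = G.dist v w - k ∧ G.dist ((par G v)^[k] w) w = k := by
  induction k with
  | zero => simp
  | succ k ih =>
    have h1 := ih (by omega)
    rw [Function.iterate_succ_apply']
    set x := (par G v)^[k] w with hx
    have hne : x ≠ v := by
      intro h
      rw [h, SimpleGraph.dist_self] at h1
      omega
    have h2 := par_dist hT hne
    have h3 : G.dist v (par G v x) = G.dist v w - (k + 1) := by omega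
    refine ⟨h3, ?_⟩
    have h4 : G.dist (par G v x) w ≤ G.dist (par G v x) x + G.dist x w :=
      hT.connected.dist_triangle
    have h5 : G.dist (par G v x) x = 1 :=
      SimpleGraph.dist_eq_one_iff_adj.mpr (par_adj hT hne).symm
    have h6 : G.dist v w ≤ G.dist v (par G v x) + G.dist (par G v x) w :=
      hT.connected.dist_triangle
    omega

omit [G.LocallyFinite] in
theorem dist_gpt (hT : G.IsTree) {v w : V} {i : ℕ} (hi : i ≤ G.dist v w) :
    G.dist v (gpt G v w i) = i := by
  rw [gpt, (dist_iterate_par hT v w _ (by omega)).1]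
  omega

omit [G.LocallyFinite] in
theorem gpt_dist (hT : G.IsTree) {v w : V} {i : ℕ} (hi : i ≤ G.dist v w) :
    G.dist (gpt G v w i) w = G.dist v w - i := by
  rw [gpt, (dist_iterate_par hT v w _ (by omega)).2]



omit [G.LocallyFinite] in
theorem gpt_succ (hT : G.IsTree) {v w : V} {i : ℕ} (hi : i + 1 ≤ G.dist v w) :
    par G v (gpt G v w (i + 1)) = gpt G v w i := by
  have h : G.dist v w - i = (G.dist v w - (i + 1)) + 1 := by omega
  rw [gpt, gpt, h, Function.iterate_succ_apply']

omit [G.LocallyFinite] in
theorem iterate_par_map (hT : G.IsTree) (g : G ≃g G) (v w : V) (k : ℕ) (hk : k ≤ G.dist v w) :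
    (par G (g v))^[k] (g w) = g ((par G v)^[k] w) := by
  induction k with
  | zero => rfl
  | succ k ih =>
    rw [Function.iterate_succ_apply', Function.iterate_succ_apply', ih (by omega)]
    apply par_map hT
    intro h
    have := (dist_iterate_par hT v w k (by omega)).1
    rw [h, SimpleGraph.dist_self] at this
    omega

omit [G.LocallyFinite] in
theorem gpt_map (hT : G.IsTree) (g : G ≃g G) (v w : V) (i : ℕ) :
    gpt G (g v) (g w) i = g (gpt G v w i) := by
  rw [gpt, gpt, dist_map, iterate_par_map hT g v w _ (by omega)]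

omit [G.LocallyFinite] in
theorem par_self (v : V) : par G v v = v := by
  unfold par
  rw [dif_neg]
  rintro ⟨w, -, h⟩
  rw [SimpleGraph.dist_self] at h
  omega

omit [G.LocallyFinite] in
theorem par_map' (hT : G.IsTree) (g : G ≃g G) (r v : V) :
    par G (g r) (g v) = g (par G r v) := by
  by_cases hv : v = r
  · rw [hv, par_self, par_self]
  · exact par_map hT g hv

omit [G.LocallyFinite] in
theorem gpt_pred {v w : V} {i : ℕ} (hT : G.IsTree) (h1 : 1 ≤ i) (hi : i ≤ G.dist v w) :
    gpt G v w (i - 1) = par G v (gpt G v w i) := by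
  obtain ⟨j, rfl⟩ : ∃ j, i = j + 1 := ⟨i - 1, by omega⟩
  rw [gpt_succ hT hi]
  simp

/-- sums over (filtered) spheres are transported by automorphisms -/
theorem sum_sph_filter_map (hT : G.IsTree) (g : G ≃g G) (v : V) (n : ℕ) {p p' : V → Prop}
    (hp : ∀ w, p' (g w) ↔ p w) {f f' : V → ℝ} (hf : ∀ w, f' (g w) = f w) :
    ∑ w ∈ (sph G (g v) n).filter p', f' w = ∑ w ∈ (sph G v n).filter p, f w := by
  rw [sph_map hT]
  refine (Finset.sum_bij' (fun w _ => g w) (fun w _ => g.symm w) ?_ ?_ ?_ ?_ ?_).symm
  · intro w hw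
    rw [Finset.mem_filter] at hw ⊢
    refine ⟨?_, (hp w).2 hw.2⟩
    rw [Finset.mem_map_equiv]
    have : g.toEquiv.symm (g w) = w := g.toEquiv.symm_apply_apply w
    rw [this]
    exact hw.1
  · intro w hw
    rw [Finset.mem_filter, Finset.mem_map_equiv] at hw
    rw [Finset.mem_filter]
    refine ⟨hw.1, (hp _).1 ?_⟩
    rw [g.apply_symm_apply]
    exact hw.2
  · intro w _
    exact g.symm_apply_apply w
  · intro w _
    exact g.apply_symm_apply w
  · intro w _
    exact (hf w).symm

/-- **three-point relocation**, exact form. -/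
theorem relocate3_eq (hT : G.IsTree) {d : ℕ} (hreg : G.IsRegularOfDegree d) {F : V → V → V → ℝ}
    (hF : ∀ (g : G ≃g G) (u v w : V), F (g u) (g v) (g w) = F u v w) (v o : V) {n i : ℕ}
    (hi : i ≤ n) :
    ∑ w ∈ sph G v n, F v (gpt G v w i) w =
      ∑ u ∈ sph G o i, ∑ w ∈ (sph G u n).filter (fun w => gpt G u w i = o), F u o w := by
  have h1 : ∑ w ∈ sph G v n, F v (gpt G v w i) w =
      ∑ x ∈ sph G v i, ∑ w ∈ (sph G v n).filter (fun w => gpt G v w i = x), F v x w := by
    rw [← Finset.sum_fiberwise_of_maps_to (s := sph G v n) (t := sph G v i)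
      (g := fun w => gpt G v w i)]
    · refine Finset.sum_congr rfl fun x _ => Finset.sum_congr rfl fun w hw => ?_
      rw [(Finset.mem_filter.1 hw).2]
    · intro w hw
      rw [mem_sph hT] at hw ⊢
      exact dist_gpt hT (by omega)
  rw [h1, relocate2 hT hreg
    (F := fun v x => ∑ w ∈ (sph G v n).filter (fun w => gpt G v w i = x), F v x w) ?_ v o]
  intro g u x
  refine sum_sph_filter_map hT g u n (fun w => ?_) fun w => hF g u x w
  rw [gpt_map hT]
  exact g.injective.eq_iff


/-- **dart relocation**: sum over the end points of a path whose `i`-th edge is marked, seen from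
a fixed dart `(y, z)`. -/
theorem relocate4 (hT : G.IsTree) {b : ℕ} (hreg : G.IsRegularOfDegree (b + 1))
    {F : V → V → V → V → ℝ}
    (hF : ∀ (g : G ≃g G) (u v w x : V), F (g u) (g v) (g w) (g x) = F u v w x)
    (hF0 : ∀ u v w x, 0 ≤ F u v w x) (o : V) {y z : V} (hyz : G.Adj y z) {n i : ℕ}
    (h1 : 1 ≤ i) (hi : i ≤ n) :
    ∑ w ∈ sph G o n, F o (gpt G o w (i - 1)) (gpt G o w i) w ≤
      ((b : ℝ) + 1) * ∑ u ∈ sph G y (i - 1), ∑ w ∈ sph G z (n - i), F u y z w := by
  have e1 : ∑ w ∈ sph G o n, F o (gpt G o w (i - 1)) (gpt G o w i) w =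
      ∑ w ∈ sph G o n, (fun u x w => F u (par G u x) x w) o (gpt G o w i) w := by
    refine Finset.sum_congr rfl fun w hw => ?_
    rw [mem_sph hT] at hw
    simp only
    rw [gpt_pred hT h1 (by omega)]
  rw [e1, relocate3_eq hT hreg (F := fun u x w => F u (par G u x) x w)
    (fun g u v w => by rw [par_map' hT, hF]) o z hi]
  have e2 : ∑ u ∈ sph G z i, ∑ w ∈ (sph G u n).filter (fun w => gpt G u w i = z),
        F u (par G u z) z w =
      ∑ y' ∈ G.neighborFinset z, ∑ u ∈ (sph G z i).filter (fun u => par G u z = y'),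
        ∑ w ∈ (sph G u n).filter (fun w => gpt G u w i = z), F u y' z w := by
    rw [← Finset.sum_fiberwise_of_maps_to (s := sph G z i) (t := G.neighborFinset z)
      (g := fun u => par G u z)]
    · refine Finset.sum_congr rfl fun x _ => Finset.sum_congr rfl fun w hw => ?_
      rw [(Finset.mem_filter.1 hw).2]
    · intro u hu
      rw [mem_sph hT] at hu
      rw [SimpleGraph.mem_neighborFinset]
      apply par_adj hT
      rintro rfl
      rw [SimpleGraph.dist_self] at hu
      omega
  rw [e2]
  have e3 : ∀ y' ∈ G.neighborFinset z,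
      (∑ u ∈ (sph G z i).filter (fun u => par G u z = y'),
        ∑ w ∈ (sph G u n).filter (fun w => gpt G u w i = z), F u y' z w) =
      ∑ u ∈ (sph G z i).filter (fun u => par G u z = y),
        ∑ w ∈ (sph G u n).filter (fun w => gpt G u w i = z), F u y z w := by
    intro y' hy'
    rw [SimpleGraph.mem_neighborFinset] at hy'
    refine inv_eq hT hreg (F := fun z y => ∑ u ∈ (sph G z i).filter (fun u => par G u z = y),
        ∑ w ∈ (sph G u n).filter (fun w => gpt G u w i = z), F u y z w) ?_ ?_
    · intro g z y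
      refine sum_sph_filter_map hT g z i (fun u => ?_) fun u => ?_
      · rw [par_map' hT]
        exact g.injective.eq_iff
      · refine sum_sph_filter_map hT g u n (fun w => ?_) fun w => hF g u y z w
        rw [gpt_map hT]
        exact g.injective.eq_iff
    · rw [SimpleGraph.dist_eq_one_iff_adj.mpr hy', SimpleGraph.dist_eq_one_iff_adj.mpr hyz.symm]
  rw [Finset.sum_congr rfl e3, Finset.sum_const, SimpleGraph.card_neighborFinset_eq_degree,
    hreg z, nsmul_eq_mul]
  push_cast
  refine mul_le_mul_of_nonneg_left ?_ (by positivity)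
  calc ∑ u ∈ (sph G z i).filter (fun u => par G u z = y),
        ∑ w ∈ (sph G u n).filter (fun w => gpt G u w i = z), F u y z w
      ≤ ∑ u ∈ (sph G z i).filter (fun u => par G u z = y),
        ∑ w ∈ sph G z (n - i), F u y z w := by
        refine Finset.sum_le_sum fun u hu => ?_
        refine Finset.sum_le_sum_of_subset_of_nonneg ?_ fun w _ _ => hF0 _ _ _ _
        intro w hw
        rw [Finset.mem_filter, mem_sph hT] at hw
        rw [mem_sph hT, ← hw.2, gpt_dist hT (by omega), hw.1]
    _ ≤ ∑ u ∈ sph G y (i - 1), ∑ w ∈ sph G z (n - i), F u y z w := by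
        refine Finset.sum_le_sum_of_subset_of_nonneg ?_ fun u _ _ =>
          Finset.sum_nonneg fun w _ => hF0 _ _ _ _
        intro u hu
        rw [Finset.mem_filter, mem_sph hT] at hu
        rw [mem_sph hT]
        have hne : z ≠ u := by
          rintro rfl
          rw [SimpleGraph.dist_self] at hu
          omega
        have h2 := par_dist hT hne
        rw [hu.2, SimpleGraph.dist_comm (u := u) (v := y),
          SimpleGraph.dist_comm (u := u) (v := z)] at h2
        omega

end Crest.Agent.R160
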