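import Crest.Agent.R160.TreeAut
import Mathlib
import Crest.Agent.R160.Balls
import Crest.Agent.R160.Defs

-- ▼ part R160/Sphere
section

/-! Row 160: spheres in a regular tree and the ground-state eigenfunction. -/

set_option autoImplicit false

open SimpleGraph Finset
open scoped Classical

namespace Crest.Agent.R160.Sphere

open Crest.Agent.R160.TreeAut

variable {V : Type*} {G : SimpleGraph V} [G.LocallyFinite]

/-- neighbours of `u` farther away from `r` -/
noncomputable def chF (G : SimpleGraph V) [G.LocallyFinite] (r u : V) : Finset V :=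
  (G.neighborFinset u).filter (fun v => G.dist r v = G.dist r u + 1)

/-- the sphere of radius `n` around `r` -/
noncomputable def sph (G : SimpleGraph V) [G.LocallyFinite] (r : V) : ℕ → Finset V
  | 0 => {r}
  | n + 1 => (sph G r n).biUnion (chF G r)

lemma mem_chF {r u v : V} : v ∈ chF G r u ↔ G.Adj u v ∧ G.dist r v = G.dist r u + 1 := by
  simp [chF]

lemma mem_chF_iff_par (hT : G.IsTree) {r u v : V} : v ∈ chF G r u ↔ v ≠ r ∧ par G r v = u := by
  rw [mem_chF]
  constructor
  · rintro ⟨h1, h2⟩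
    have : v ≠ r := by rintro rfl; rw [SimpleGraph.dist_self] at h2; omega
    exact ⟨this, eq_par hT h1.symm h2.symm⟩
  · rintro ⟨h1, rfl⟩
    exact ⟨(par_adj hT h1).symm, (par_dist hT h1).symm⟩

lemma card_chF_root (hT : G.IsTree) {d : ℕ} (hreg : G.IsRegularOfDegree d) (r : V) :
    (chF G r r).card = d := by
  rw [← ncard_children_root hT hreg r, ← Set.ncard_coe_finset]
  congr 1
  ext v
  simp only [Finset.mem_coe, mem_chF_iff_par hT, children, Set.mem_ofPred_eq]

lemma card_chF (hT : G.IsTree) {d : ℕ} (hreg : G.IsRegularOfDegree d) {r u : V} (h : u ≠ r) :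
    (chF G r u).card = d - 1 := by
  rw [← ncard_children hT hreg h, ← Set.ncard_coe_finset]
  congr 1
  ext v
  simp only [Finset.mem_coe, mem_chF_iff_par hT, children, Set.mem_ofPred_eq]

lemma mem_sph (hT : G.IsTree) {r v : V} {n : ℕ} : v ∈ sph G r n ↔ G.dist r v = n := by
  induction n generalizing v with
  | zero =>
    simp only [sph, Finset.mem_singleton]
    rw [hT.connected.dist_eq_zero_iff]
    exact eq_comm
  | succ n ih =>
    simp only [sph, Finset.mem_biUnion, ih]
    constructor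
    · rintro ⟨a, rfl, hv⟩
      exact (mem_chF.mp hv).2
    · intro h
      have hv : v ≠ r := by rintro rfl; rw [SimpleGraph.dist_self] at h; omega
      refine ⟨par G r v, ?_, (mem_chF_iff_par hT).mpr ⟨hv, rfl⟩⟩
      have := par_dist hT hv
      omega

lemma sum_sph_succ (hT : G.IsTree) (r : V) (n : ℕ) (f : V → ℝ) :
    ∑ v ∈ sph G r (n + 1), f v = ∑ u ∈ sph G r n, ∑ v ∈ chF G r u, f v := by
  rw [sph, Finset.sum_biUnion]
  intro a _ b _ hab
  rw [Function.onFun, Finset.disjoint_left]
  intro v hv hv'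
  rw [mem_chF_iff_par hT] at hv hv'
  exact hab (hv.2.symm.trans hv'.2)

lemma sum_nbr_root (r : V) (f : V → ℝ) :
    ∑ v ∈ chF G r r, f v = ∑ v ∈ G.neighborFinset r, f v := by
  refine Finset.sum_congr ?_ fun _ _ => rfl
  ext v
  simp only [mem_chF, mem_neighborFinset, SimpleGraph.dist_self, zero_add, and_iff_left_iff_imp]
  intro h
  exact SimpleGraph.dist_eq_one_iff_adj.mpr h

lemma sum_nbr (hT : G.IsTree) {r u : V} (h : u ≠ r) (f : V → ℝ) :
    ∑ v ∈ G.neighborFinset u, f v = f (par G r u) + ∑ v ∈ chF G r u, f v := by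
  have h1 : G.neighborFinset u = insert (par G r u) (chF G r u) := by
    ext v
    simp only [mem_neighborFinset, Finset.mem_insert, mem_chF_iff_par hT]
    constructor
    · intro hv
      rcases adj_cases hT r hv with h1 | h1
      · exact Or.inl h1.2.symm
      · exact Or.inr h1
    · rintro (rfl | ⟨h1, rfl⟩)
      · exact par_adj hT h
      · exact (par_adj hT h1).symm
  rw [h1, Finset.sum_insert]
  intro hp
  have h2 := (mem_chF.mp hp).2
  have h3 := par_dist hT h
  omega

/-- the ground state profile -/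
noncomputable def wt (q : ℝ) (l : ℕ) : ℝ := (1 + (q ^ 2 - 1) / (q ^ 2 + 1) * l) * q⁻¹ ^ l

lemma wt_pos {q : ℝ} (hq : 1 ≤ q) (l : ℕ) : 0 < wt q l := by
  unfold wt
  have : 0 ≤ (q ^ 2 - 1) / (q ^ 2 + 1) := by
    apply div_nonneg _ (by positivity)
    nlinarith
  positivity

lemma wt_zero (q : ℝ) : wt q 0 = 1 := by simp [wt]

lemma wt_rec {q : ℝ} (hq : 1 ≤ q) (l : ℕ) :
    wt q l + q ^ 2 * wt q (l + 2) = 2 * q * wt q (l + 1) := by
  unfold wt
  have h0 : q ≠ 0 := by positivity
  have h1 : q ^ 2 + 1 ≠ 0 := by positivity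
  push_cast
  have e1 : q⁻¹ ^ (l + 1) = q⁻¹ ^ l * q⁻¹ := pow_succ _ _
  have e2 : q⁻¹ ^ (l + 2) = q⁻¹ ^ l * q⁻¹ * q⁻¹ := by rw [pow_succ, pow_succ]
  rw [e1, e2]
  generalize q⁻¹ ^ l = X
  field_simp
  ring

lemma wt_one {q : ℝ} (hq : 1 ≤ q) : (q ^ 2 + 1) * wt q 1 = 2 * q := by
  unfold wt
  have h0 : q ≠ 0 := by positivity
  have h1 : q ^ 2 + 1 ≠ 0 := by positivity
  push_cast
  field_simp
  ring

/-- The ground-state eigenfunction of the adjacency operator of the `d`-regular tree. -/
lemma sum_nbr_wt (hT : G.IsTree) {d : ℕ} (hreg : G.IsRegularOfDegree d) {q : ℝ} (hq : 1 ≤ q)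
    (hqd : (d : ℝ) = q ^ 2 + 1) (o u : V) :
    ∑ v ∈ G.neighborFinset u, wt q (G.dist o v) = 2 * q * wt q (G.dist o u) := by
  by_cases h : u = o
  · subst h
    rw [← sum_nbr_root, SimpleGraph.dist_self, wt_zero, mul_one, ← wt_one hq, ← hqd,
      ← card_chF_root hT hreg u, ← nsmul_eq_mul, ← Finset.sum_const]
    refine Finset.sum_congr rfl fun v hv => ?_
    rw [(mem_chF.mp hv).2, SimpleGraph.dist_self]
  · rw [sum_nbr hT h]
    have h1 := par_dist hT h
    have hd : (d - 1 : ℕ) = (q ^ 2 : ℝ) := by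
      have : 1 ≤ d := by
        by_contra h0
        have : d = 0 := by omega
        subst this
        push_cast at hqd
        nlinarith
      push_cast [this]
      linarith
    have h2 : ∑ v ∈ chF G o u, wt q (G.dist o v) = q ^ 2 * wt q (G.dist o u + 1) := by
      rw [← hd, ← card_chF hT hreg h, ← nsmul_eq_mul, ← Finset.sum_const]
      refine Finset.sum_congr rfl fun v hv => ?_
      rw [(mem_chF.mp hv).2]
    rw [h2, ← h1]
    exact wt_rec hq _

/-- sums over the parent of a sphere -/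
lemma sum_sph_par (hT : G.IsTree) (r : V) (n : ℕ) (f : V → ℝ) :
    ∑ v ∈ sph G r (n + 1), f (par G r v) = ∑ u ∈ sph G r n, ((chF G r u).card : ℝ) * f u := by
  rw [sum_sph_succ hT]
  refine Finset.sum_congr rfl fun u _ => ?_
  rw [← nsmul_eq_mul, ← Finset.sum_const]
  refine Finset.sum_congr rfl fun v hv => ?_
  rw [((mem_chF_iff_par hT).mp hv).2]

/-- eigenvalue of the sphere operator -/
noncomputable def lam (q : ℝ) (n : ℕ) : ℝ :=
  if n = 0 then 1 else q ^ n * ((1 + q⁻¹ ^ 2) + (1 - q⁻¹ ^ 2) * n)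

lemma lam_zero (q : ℝ) : lam q 0 = 1 := by simp [lam]

lemma lam_one (q : ℝ) : lam q 1 = 2 * q := by
  simp [lam]; ring

lemma lam_two {q : ℝ} (hq : 1 ≤ q) : lam q 2 = 2 * q * lam q 1 - (q ^ 2 + 1) := by
  have h0 : q ≠ 0 := by positivity
  simp [lam]
  field_simp
  ring

lemma lam_rec {q : ℝ} (hq : 1 ≤ q) (n : ℕ) :
    lam q (n + 3) = 2 * q * lam q (n + 2) - q ^ 2 * lam q (n + 1) := by
  have h0 : q ≠ 0 := by positivity
  simp only [lam, Nat.add_eq_zero_iff, OfNat.ofNat_ne_zero, and_false, if_false, one_ne_zero]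
  push_cast
  rw [pow_add q n 3, pow_add q n 2, pow_add q n 1]
  field_simp
  ring


lemma lam_le {q : ℝ} (hq : 1 ≤ q) (n : ℕ) : lam q n ≤ 2 * (n + 1) * q ^ n := by
  unfold lam
  split_ifs with h
  · subst h; norm_num
  · rw [mul_comm]
    apply mul_le_mul_of_nonneg_right _ (by positivity)
    have h1 : q⁻¹ ≤ 1 := inv_le_one_of_one_le₀ hq
    have h2 : 0 ≤ q⁻¹ := by positivity
    have h3 : q⁻¹ ^ 2 ≤ 1 := by nlinarith
    have h4 : 0 ≤ q⁻¹ ^ 2 := by positivity
    have h5 : (0 : ℝ) ≤ n := by positivity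
    nlinarith

/-- The sphere operators act on the ground state by `lam`. -/
lemma sum_sph_wt (hT : G.IsTree) {d : ℕ} (hreg : G.IsRegularOfDegree d) {q : ℝ} (hq : 1 ≤ q)
    (hqd : (d : ℝ) = q ^ 2 + 1) (o r : V) (n : ℕ) :
    ∑ v ∈ sph G r n, wt q (G.dist o v) = lam q n * wt q (G.dist o r) := by
  have hd : (d - 1 : ℕ) = (q ^ 2 : ℝ) := by
    have : 1 ≤ d := by
      by_contra h0
      have : d = 0 := by omega
      subst this
      push_cast at hqd
      nlinarith
    push_cast [this]
    linarith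
  have step : ∀ n, ∑ v ∈ sph G r (n + 2), wt q (G.dist o v) =
      2 * q * ∑ v ∈ sph G r (n + 1), wt q (G.dist o v) -
        ∑ u ∈ sph G r n, ((chF G r u).card : ℝ) * wt q (G.dist o u) := by
    intro n
    rw [← sum_sph_par hT r n (fun v => wt q (G.dist o v)), sum_sph_succ hT, Finset.mul_sum,
      ← Finset.sum_sub_distrib]
    refine Finset.sum_congr rfl fun u hu => ?_
    have hur : u ≠ r := by
      rintro rfl
      rw [mem_sph hT, SimpleGraph.dist_self] at hu
      omega
    rw [← sum_nbr_wt hT hreg hq hqd o u, sum_nbr hT hur]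
    ring
  have h0 : ∑ v ∈ sph G r 0, wt q (G.dist o v) = lam q 0 * wt q (G.dist o r) := by
    simp [sph, lam_zero]
  have h1 : ∑ v ∈ sph G r 1, wt q (G.dist o v) = lam q 1 * wt q (G.dist o r) := by
    rw [sum_sph_succ hT]
    simp only [sph, Finset.sum_singleton]
    rw [sum_nbr_root, sum_nbr_wt hT hreg hq hqd, lam_one]
  have key : ∀ n, (∑ v ∈ sph G r (n + 1), wt q (G.dist o v) = lam q (n + 1) * wt q (G.dist o r)) ∧
      (∑ v ∈ sph G r (n + 2), wt q (G.dist o v) = lam q (n + 2) * wt q (G.dist o r)) := by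
    intro n
    induction n with
    | zero =>
      refine ⟨h1, ?_⟩
      rw [step 0, h1, lam_two hq]
      simp only [sph, Finset.sum_singleton]
      rw [card_chF_root hT hreg, hqd]
      ring
    | succ n ih =>
      refine ⟨ih.2, ?_⟩
      rw [step (n + 1), ih.2, lam_rec hq]
      have : ∑ u ∈ sph G r (n + 1), ((chF G r u).card : ℝ) * wt q (G.dist o u) =
          q ^ 2 * ∑ u ∈ sph G r (n + 1), wt q (G.dist o u) := by
        rw [Finset.mul_sum]
        refine Finset.sum_congr rfl fun u hu => ?_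
        have hur : u ≠ r := by
          rintro rfl
          rw [mem_sph hT, SimpleGraph.dist_self] at hu
          omega
        rw [card_chF hT hreg hur, hd]
      rw [this, ih.1]
      ring
  rcases n with _ | n
  · exact h0
  · exact (key n).1

end Crest.Agent.R160.Sphere
private theorem rz_2fb68f0595 : type_of% @_root_.Crest.Agent.R160.Sphere.sph.eq_def := @_root_.Crest.Agent.R160.Sphere.sph.eq_def -- L21
private theorem rz_82c4481f26 : type_of% @_root_.Crest.Agent.R160.Sphere.sph.eq_1 := @_root_.Crest.Agent.R160.Sphere.sph.eq_1 -- L21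
end

-- ▼ part R160/EdgeSphere
section

/-! Row 160: spheres in the set of edges of a regular tree. -/

set_option autoImplicit false

open SimpleGraph Finset
open scoped Classical

namespace Crest.Agent.R160.Sphere

open Crest.Agent.R160.TreeAut

variable {V : Type*} {G : SimpleGraph V}

/-- the endpoint of the edge `e` farther away from `o` -/
noncomputable def far (G : SimpleGraph V) (o : V) (e : Sym2 V) : V :=
  if h : ∃ v, v ≠ o ∧ s(v, par G o v) = e then h.choose else o

lemma far_spec (hT : G.IsTree) (o : V) {e : Sym2 V} (he : e ∈ G.edgeSet) :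
    far G o e ≠ o ∧ s(far G o e, par G o (far G o e)) = e := by
  have h : ∃ v, v ≠ o ∧ s(v, par G o v) = e := by
    induction e using Sym2.ind with
    | _ a b =>
      rw [SimpleGraph.mem_edgeSet] at he
      rcases adj_cases hT o he with ⟨h1, h2⟩ | ⟨h1, h2⟩
      · exact ⟨a, h1, by rw [h2]⟩
      · exact ⟨b, h1, by rw [h2, Sym2.eq_swap]⟩
  unfold far
  rw [dif_pos h]
  exact h.choose_spec

lemma far_inj (hT : G.IsTree) (o : V) {e f : Sym2 V} (he : e ∈ G.edgeSet) (hf : f ∈ G.edgeSet)
    (h : far G o e = far G o f) : e = f := by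
  rw [← (far_spec hT o he).2, ← (far_spec hT o hf).2, h]

lemma far_mem (hT : G.IsTree) (o : V) {e : Sym2 V} (he : e ∈ G.edgeSet) : far G o e ∈ e := by
  have h : far G o e ∈ s(far G o e, par G o (far G o e)) := Sym2.mem_mk_left _ _
  rwa [(far_spec hT o he).2] at h

lemma IsNB.map {n : ℕ} {p : ℕ → V} (h : IsNB G n p) (g : G ≃g G) :
    IsNB G n (fun i => g (p i)) :=
  ⟨fun i hi => (SimpleGraph.Iso.map_adj_iff g).mpr (h.adj i hi),
    fun i hi h' => h.nb i hi (g.injective h')⟩

lemma ERel.map {n : ℕ} {e f : Sym2 V} (h : ERel G n e f) (g : G ≃g G) :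
    ERel G n (Sym2.map g e) (Sym2.map g f) := by
  obtain ⟨hn, p, hp, rfl, rfl⟩ := h
  exact ⟨hn, _, IsNB.map hp g, rfl, rfl⟩

/-- distances between endpoints of related edges -/
lemma ERel.dist_cases (hT : G.IsTree) {n : ℕ} {e f : Sym2 V} (h : ERel G n e f) {x y : V}
    (hx : x ∈ e) (hy : y ∈ f) :
    G.dist x y = n ∨ G.dist x y = n - 1 ∨ G.dist x y = n - 2 := by
  obtain ⟨hn, p, hp, rfl, rfl⟩ := h
  rw [Sym2.mem_iff] at hx hy
  rcases hx with rfl | rfl <;> rcases hy with rfl | rfl
  · right; left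
    rw [hp.dist hT (by omega) (by omega)]; omega
  · left
    rw [hp.dist hT (by omega) (by omega)]; omega
  · rcases Nat.lt_or_ge n 2 with h2 | h2
    · have : n = 1 := by omega
      subst this
      left
      rw [SimpleGraph.dist_comm]
      simpa using hp.dist hT (i := 0) (j := 1) (by omega) (by omega)
    · right; right
      rw [hp.dist hT (by omega) (by omega)]; omega
  · right; left
    rw [hp.dist hT (by omega) (by omega)]

variable [G.LocallyFinite]

/-- the vertices which may be far endpoints of edges of the sphere -/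
noncomputable def fset (G : SimpleGraph V) [G.LocallyFinite] (n : ℕ) (x : V) : Finset V :=
  sph G x n ∪ (sph G x (n - 1) ∪ sph G x (n - 2))

lemma far_mem_fset (hT : G.IsTree) (o : V) {n : ℕ} {e f : Sym2 V} (he : e ∈ G.edgeSet)
    (hf : f ∈ G.edgeSet) (h : ERel G n e f) : far G o f ∈ fset G n (far G o e) := by
  simp only [fset, Finset.mem_union, mem_sph hT]
  exact ERel.dist_cases hT h (far_mem hT o he) (far_mem hT o hf)

lemma esph_finite (hT : G.IsTree) (n : ℕ) (e : G.edgeSet) :
    {f : G.edgeSet | ERel G n (e : Sym2 V) f}.Finite := by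
  have o : V := hT.connected.nonempty.some
  refine Set.Finite.of_injOn (f := fun f : G.edgeSet => far G o f)
    (t := (fset G n (far G o e) : Set V)) ?_ ?_ (Finset.finite_toSet _)
  · intro f hf
    exact far_mem_fset hT o e.2 f.2 hf
  · intro f _ f' _ h
    exact Subtype.ext (far_inj hT o f.2 f'.2 h)

/-- the sphere of edges -/
noncomputable def esph (G : SimpleGraph V) [G.LocallyFinite] (hT : G.IsTree) (n : ℕ)
    (e : G.edgeSet) : Finset G.edgeSet := (esph_finite hT n e).toFinset

lemma mem_esph (hT : G.IsTree) {n : ℕ} {e f : G.edgeSet} :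
    f ∈ esph G hT n e ↔ ERel G n (e : Sym2 V) f := by
  simp [esph]

lemma sum_esph_wt (hT : G.IsTree) {d : ℕ} (hreg : G.IsRegularOfDegree d) {q : ℝ} (hq : 1 ≤ q)
    (hqd : (d : ℝ) = q ^ 2 + 1) (o : V) (n : ℕ) (e : G.edgeSet) :
    ∑ f ∈ esph G hT n e, wt q (G.dist o (far G o f)) ≤
      (6 * (n + 1) * q ^ n) * wt q (G.dist o (far G o e)) := by
  have h1 : ∑ f ∈ esph G hT n e, wt q (G.dist o (far G o f)) =
      ∑ u ∈ (esph G hT n e).image (fun f : G.edgeSet => far G o f), wt q (G.dist o u) := by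
    rw [Finset.sum_image]
    intro f _ f' _ h
    exact Subtype.ext (far_inj hT o f.2 f'.2 h)
  have h2 : (esph G hT n e).image (fun f : G.edgeSet => far G o f) ⊆ fset G n (far G o e) := by
    intro u hu
    rw [Finset.mem_image] at hu
    obtain ⟨f, hf, rfl⟩ := hu
    exact far_mem_fset hT o e.2 f.2 (mem_esph hT |>.mp hf)
  have hpos : ∀ u, 0 ≤ wt q (G.dist o u) := fun u => (wt_pos hq _).le
  have h3 : ∑ u ∈ fset G n (far G o e), wt q (G.dist o u) ≤
      ∑ u ∈ sph G (far G o e) n, wt q (G.dist o u) +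
      (∑ u ∈ sph G (far G o e) (n - 1), wt q (G.dist o u) +
        ∑ u ∈ sph G (far G o e) (n - 2), wt q (G.dist o u)) := by
    have hun : ∀ A B : Finset V, ∑ u ∈ A ∪ B, wt q (G.dist o u) ≤
        ∑ u ∈ A, wt q (G.dist o u) + ∑ u ∈ B, wt q (G.dist o u) := by
      intro A B
      rw [← Finset.sum_union_inter]
      have : 0 ≤ ∑ u ∈ A ∩ B, wt q (G.dist o u) := Finset.sum_nonneg fun u _ => hpos u
      linarith
    refine (hun _ _).trans ?_
    have := hun (sph G (far G o e) (n - 1)) (sph G (far G o e) (n - 2))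
    linarith
  have hl : ∀ m ≤ n, lam q m ≤ 2 * (n + 1) * q ^ n := by
    intro m hm
    refine (lam_le hq m).trans ?_
    have : (m : ℝ) ≤ n := by exact_mod_cast hm
    apply mul_le_mul
    · linarith
    · exact pow_le_pow_right₀ hq hm
    · positivity
    · positivity
  rw [h1]
  refine (Finset.sum_le_sum_of_subset_of_nonneg h2 fun u _ _ => hpos u).trans (h3.trans ?_)
  rw [sum_sph_wt hT hreg hq hqd, sum_sph_wt hT hreg hq hqd, sum_sph_wt hT hreg hq hqd]
  have h4 := hl n le_rfl
  have h5 := hl (n - 1) (by omega)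
  have h6 := hl (n - 2) (by omega)
  have h7 := hpos (far G o e)
  nlinarith [mul_le_mul_of_nonneg_right h4 h7, mul_le_mul_of_nonneg_right h5 h7,
    mul_le_mul_of_nonneg_right h6 h7]

/-- descendants of `y`, as seen from `x` -/
noncomputable def desc (G : SimpleGraph V) [G.LocallyFinite] (x y : V) : ℕ → Finset V
  | 0 => {y}
  | n + 1 => (desc G x y n).biUnion (chF G x)

lemma desc_path (hT : G.IsTree) {x y : V} (hxy : G.Adj x y) (n : ℕ) {u : V}
    (hu : u ∈ desc G x y n) : ∃ p : ℕ → V, IsNB G (n + 1) p ∧ p 0 = x ∧ p 1 = y ∧ p (n + 1) = u := by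
  induction n generalizing u with
  | zero =>
    simp only [desc, Finset.mem_singleton] at hu
    subst hu
    exact ⟨_, IsNB.one G hxy, by simp, by simp, by simp⟩
  | succ n ih =>
    simp only [desc, Finset.mem_biUnion] at hu
    obtain ⟨a, ha, hu⟩ := hu
    obtain ⟨p, hp, h0, h1, h2⟩ := ih ha
    refine ⟨fun i => if i = n + 2 then u else p i, ⟨?_, ?_⟩, ?_, ?_, ?_⟩
    · intro i hi
      rcases Nat.lt_or_ge i (n + 1) with h | h
      · rw [if_neg (by omega), if_neg (by omega)]
        exact hp.adj i h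
      · have : i = n + 1 := by omega
        subst this
        simp only [show ¬ (n + 1 = n + 2) by omega, if_false, if_true]
        rw [h2]
        exact (mem_chF.mp hu).1
    · intro i hi
      rcases Nat.lt_or_ge i n with h | h
      · rw [if_neg (by omega), if_neg (by omega)]
        exact hp.nb i (by omega)
      · have : i = n := by omega
        subst this
        simp only [if_true, show ¬ (i = i + 2) by omega, if_false]
        intro h3
        have h4 := (mem_chF.mp hu).2
        have h5 := hp.dist hT (i := 0) (j := i + 1) (by omega) (by omega)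
        have h6 := hp.dist hT (i := 0) (j := i) (by omega) (by omega)
        rw [h0, h2] at h5
        rw [h0, ← h3] at h6
        omega
    · simp [h0]
    · simp only [show ¬ (1 = n + 2) by omega, if_false, h1]
    · simp

lemma desc_dist (hT : G.IsTree) {x y : V} (hxy : G.Adj x y) (n : ℕ) {u : V}
    (hu : u ∈ desc G x y n) : G.dist x u = n + 1 := by
  obtain ⟨p, hp, h0, h1, h2⟩ := desc_path hT hxy n hu
  rw [← h0, ← h2, hp.dist hT (by omega) le_rfl]
  rfl

lemma card_desc (hT : G.IsTree) {d : ℕ} (hreg : G.IsRegularOfDegree d) {x y : V}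
    (hxy : G.Adj x y) (n : ℕ) : (desc G x y n).card = (d - 1) ^ n := by
  induction n with
  | zero => simp [desc]
  | succ n ih =>
    rw [desc, Finset.card_biUnion, Finset.sum_congr rfl (g := fun _ => d - 1), Finset.sum_const,
      ih, smul_eq_mul, pow_succ]
    · intro u hu
      apply card_chF hT hreg
      rintro rfl
      have := desc_dist hT hxy n hu
      rw [SimpleGraph.dist_self] at this
      omega
    · intro a _ b _ hab
      rw [Function.onFun, Finset.disjoint_left]
      intro v hv hv'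
      rw [mem_chF_iff_par hT] at hv hv'
      exact hab (hv.2.symm.trans hv'.2)

lemma card_esph_ge (hT : G.IsTree) {d : ℕ} (hreg : G.IsRegularOfDegree d) (n : ℕ)
    (e : G.edgeSet) : (d - 1) ^ n ≤ (esph G hT (n + 1) e).card := by
  obtain ⟨e, he⟩ := e
  induction e using Sym2.ind with
  | _ x y =>
    have hxy : G.Adj x y := he
    rw [← card_desc hT hreg hxy n]
    have hne : ∀ u ∈ desc G x y n, u ≠ x := by
      rintro u hu rfl
      have := desc_dist hT hxy n hu
      rw [SimpleGraph.dist_self] at this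
      omega
    refine Finset.card_le_card_of_injOn
      (fun u => if h : u ≠ x then ⟨s(par G x u, u), by
        rw [SimpleGraph.mem_edgeSet]; exact (par_adj hT h).symm⟩ else ⟨s(x, y), he⟩) ?_ ?_
    · intro u hu
      simp only [dif_pos (hne u hu)]
      rw [Finset.mem_coe, mem_esph hT]
      obtain ⟨p, hp, h0, h1, h2⟩ := desc_path hT hxy n hu
      refine ⟨by omega, p, hp, by rw [h0, h1], ?_⟩
      have h3 := (hp.dist_par hT (n + 1) le_rfl).2 (by omega)
      simp only [Nat.add_sub_cancel] at h3 ⊢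
      rw [← h3, h0, h2]
    · intro u hu v hv huv
      simp only [dif_pos (hne u hu), dif_pos (hne v hv), Subtype.mk.injEq] at huv
      rw [Sym2.eq_iff] at huv
      rcases huv with h | h
      · exact h.2
      · have h1 := par_dist hT (hne u hu)
        have h2 := desc_dist hT hxy n hu
        have h3 := desc_dist hT hxy n hv
        rw [h.1] at h1
        omega

end Crest.Agent.R160.Sphere
private theorem rz_88e67fc8d9 : type_of% @_root_.Crest.Agent.R160.Sphere.desc.eq_def := @_root_.Crest.Agent.R160.Sphere.desc.eq_def -- L150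
private theorem rz_945a31fb4b : type_of% @_root_.Crest.Agent.R160.Sphere.desc.eq_1 := @_root_.Crest.Agent.R160.Sphere.desc.eq_1 -- L150
end

-- ▼ part R160/BSV
section

set_option autoImplicit false

namespace Crest.Agent.R160

open Finset

/-- If `a ^ 2^j ≤ C` for all `j`, then `a ≤ 1`. -/
theorem le_one_of_pow_two_pow_le {a C : ℝ} (h : ∀ j : ℕ, a ^ (2 ^ j) ≤ C) : a ≤ 1 := by
  by_contra ha
  push Not at ha
  have h1 := tendsto_pow_atTop_atTop_of_one_lt ha
  have h2 : Filter.Tendsto (fun j : ℕ => 2 ^ j) Filter.atTop Filter.atTop :=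
    tendsto_pow_atTop_atTop_of_one_lt (by norm_num)
  have h3 := (h1.comp h2).eventually_gt_atTop C
  obtain ⟨j, hj⟩ := h3.exists
  exact absurd (h j) (not_le.mpr hj)

/-- Abstract log-convexity lemma: for a positive semidefinite symmetric form `B`, an operator `A`
self-adjoint for `B`, and a vector `x` with `|B x (A^m x)| ≤ C L^m`, one has
`|B x (A x)| ≤ L * B x x`. -/
theorem abs_form_le {M : Type*} [AddCommGroup M] [Module ℝ M] (B : LinearMap.BilinForm ℝ M)
    (hs : ∀ x, 0 ≤ B x x) (hB : ∀ x y, B x y = B y x) (A : M →ₗ[ℝ] M)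
    (hA : ∀ x y, B (A x) y = B x (A y))
    (x : M) {C L : ℝ} (hL : 0 < L) (hC : ∀ m : ℕ, |B x ((A ^ m) x)| ≤ C * L ^ m) :
    |B x (A x)| ≤ L * B x x := by
  have hAm : ∀ (m : ℕ) (x y : M), B ((A ^ m) x) y = B x ((A ^ m) y) := by
    intro m
    induction m with
    | zero => intro x y; simp
    | succ m ih =>
      intro x y
      have h1 : (A ^ (m + 1)) x = (A ^ m) (A x) := by rw [pow_succ, Module.End.mul_apply]
      have h2 : (A ^ (m + 1)) y = A ((A ^ m) y) := by rw [pow_succ', Module.End.mul_apply]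
      rw [h1, h2, ih, hA]
  have hCS : ∀ x y : M, (B x y) ^ 2 ≤ (B x x) * (B y y) :=
    fun x y => LinearMap.BilinForm.apply_sq_le_of_symm B hs ⟨fun x y => hB x y⟩ x y
  set b := B x x with hb
  have hb0 : 0 ≤ b := hs x
  rcases hb0.eq_or_lt with hb1 | hb1
  · have := hCS x (A x)
    rw [← hb, ← hb1, zero_mul] at this
    have h0 : B x (A x) = 0 := by
      have := le_antisymm this (sq_nonneg _)
      exact pow_eq_zero_iff (two_ne_zero) |>.mp this
    rw [h0, ← hb1]; simp
  · -- b > 0
    set a : ℕ → ℝ := fun j => |B x ((A ^ (2 ^ j)) x)| with ha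
    have hstep : ∀ j, (a j / b) ^ 2 ≤ a (j + 1) / b := by
      intro j
      have h1 := hCS x ((A ^ (2 ^ j)) x)
      have h2 : B ((A ^ (2 ^ j)) x) ((A ^ (2 ^ j)) x) = B x ((A ^ (2 ^ (j + 1))) x) := by
        rw [hAm, ← Module.End.mul_apply, ← pow_add]
        congr 3
        ring
      rw [h2, ← hb] at h1
      have h3 : (a j) ^ 2 ≤ b * a (j + 1) := by
        simp only [ha, sq_abs]
        refine h1.trans ?_
        exact mul_le_mul_of_nonneg_left (le_abs_self _) hb0
      rw [div_pow, div_le_div_iff₀ (by positivity) hb1]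
      calc (a j) ^ 2 * b ≤ (b * a (j + 1)) * b := mul_le_mul_of_nonneg_right h3 hb0
        _ = a (j + 1) * b ^ 2 := by ring
    have hpow : ∀ j, (a 0 / b) ^ (2 ^ j) ≤ a j / b := by
      intro j
      induction j with
      | zero => simp
      | succ j ih =>
        calc (a 0 / b) ^ (2 ^ (j + 1)) = ((a 0 / b) ^ (2 ^ j)) ^ 2 := by rw [← pow_mul, pow_succ]
          _ ≤ (a j / b) ^ 2 := by
            apply pow_le_pow_left₀ _ ih
            positivity
          _ ≤ a (j + 1) / b := hstep j
    have h4 : a 0 / b / L ≤ 1 := by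
      apply le_one_of_pow_two_pow_le (C := C / b)
      intro j
      rw [div_pow, div_le_iff₀ (by positivity)]
      refine (hpow j).trans ?_
      rw [div_mul_eq_mul_div]
      exact div_le_div_of_nonneg_right (hC _) hb0
    have h5 : a 0 ≤ L * b := by
      rw [div_div, div_le_one (by positivity)] at h4
      linarith
    simpa [ha] using h5


section Kernel

variable {I : Type*} (K : I → I → ℝ)

/-- The bilinear form on finitely supported functions attached to a kernel. -/
noncomputable def kform : LinearMap.BilinForm ℝ (I →₀ ℝ) :=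
  Finsupp.linearCombination ℝ (fun i => Finsupp.linearCombination ℝ (fun j => K i j))

theorem kform_single_left (i : I) (a : ℝ) (y : I →₀ ℝ) :
    kform K (Finsupp.single i a) y = a * y.sum (fun j b => b * K i j) := by
  simp [kform, Finsupp.linearCombination_apply]

theorem kform_single_single (i j : I) (a b : ℝ) :
    kform K (Finsupp.single i a) (Finsupp.single j b) = a * (b * K i j) := by
  rw [kform_single_left]
  simp

theorem kform_apply (x y : I →₀ ℝ) :
    kform K x y = x.sum (fun i a => a * y.sum (fun j b => b * K i j)) := by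
  conv_lhs => rw [← Finsupp.sum_single x]
  rw [Finsupp.sum, map_sum, LinearMap.sum_apply, Finsupp.sum]
  exact Finset.sum_congr rfl fun i _ => kform_single_left K i (x i) y

theorem kform_symm (hsymm : ∀ i j, K i j = K j i) (x y : I →₀ ℝ) :
    kform K x y = kform K y x := by
  have : kform K = (kform K).flip := by
    ext i j
    simp [kform, hsymm i j]
  calc kform K x y = (kform K).flip x y := by rw [← this]
    _ = kform K y x := rfl

theorem kform_nonneg (hpsd : ∀ (s : Finset I) (x : I → ℝ),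
    0 ≤ ∑ i ∈ s, ∑ j ∈ s, x i * x j * K i j) (x : I →₀ ℝ) : 0 ≤ kform K x x := by
  rw [kform_apply]
  refine (hpsd x.support x).trans (le_of_eq ?_)
  simp only [Finsupp.sum, Finset.mul_sum]
  refine Finset.sum_congr rfl fun i _ => Finset.sum_congr rfl fun j _ => ?_
  ring

/-- the "adjacency" operator of a relation given by finite neighbourhoods -/
noncomputable def adjOp (S : I → Finset I) : (I →₀ ℝ) →ₗ[ℝ] (I →₀ ℝ) :=
  Finsupp.linearCombination ℝ (fun i => ∑ j ∈ S i, Finsupp.single j (1 : ℝ))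

theorem adjOp_single (S : I → Finset I) (i : I) :
    adjOp S (Finsupp.single i 1) = ∑ j ∈ S i, Finsupp.single j (1 : ℝ) := by
  simp [adjOp]

theorem adjOp_apply (S : I → Finset I) (hS : ∀ i j, j ∈ S i ↔ i ∈ S j) (x : I →₀ ℝ) (j : I) :
    adjOp S x j = ∑ k ∈ S j, x k := by
  classical
  induction x using Finsupp.induction_linear with
  | zero => simp
  | add f g hf hg => simp [map_add, hf, hg, Finset.sum_add_distrib]
  | single a b =>
    simp only [adjOp, Finsupp.linearCombination_single, Finsupp.smul_apply,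
      Finsupp.finsetSum_apply, Finsupp.single_apply, smul_eq_mul]
    simp [hS a j, Finset.sum_ite_eq, Finset.sum_ite_eq']

theorem kernel_sphere_le (hsymm : ∀ i j, K i j = K j i)
    (hpsd : ∀ (s : Finset I) (x : I → ℝ), 0 ≤ ∑ i ∈ s, ∑ j ∈ s, x i * x j * K i j)
    (hfin : ∀ i, {j | K i j ≠ 0}.Finite)
    (S : I → Finset I) (hS : ∀ i j, j ∈ S i ↔ i ∈ S j)
    (hcomm : ∀ i j, ∑ k ∈ S j, K i k = ∑ k ∈ S i, K k j)
    (w : I → ℝ) (hw : ∀ i, 0 < w i) {L : ℝ} (hL : 0 < L)
    (hwS : ∀ i, ∑ j ∈ S i, w j ≤ L * w i) (i : I) :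
    |∑ j ∈ S i, K i j| ≤ L * K i i := by
  classical
  set x : I →₀ ℝ := Finsupp.single i 1 with hx
  have hsa : ∀ x y, kform K (adjOp S x) y = kform K x (adjOp S y) := by
    have : LinearMap.comp (kform K) (adjOp S) = LinearMap.compl₂ (kform K) (adjOp S) := by
      refine Finsupp.lhom_ext' fun a => LinearMap.ext_ring ?_
      refine Finsupp.lhom_ext' fun b => LinearMap.ext_ring ?_
      simp only [LinearMap.comp_apply, Finsupp.lsingle_apply, LinearMap.compl₂_apply, adjOp_single,
        map_sum, LinearMap.sum_apply, kform_single_single, one_mul]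
      exact (hcomm a b).symm
    intro x y
    exact LinearMap.congr_fun (LinearMap.congr_fun this x) y
  -- pointwise growth
  have hgrow : ∀ (m : ℕ) (j : I), 0 ≤ ((adjOp S) ^ m) x j ∧
      ((adjOp S) ^ m) x j ≤ (L ^ m / w i) * w j := by
    intro m
    induction m with
    | zero =>
      intro j
      simp only [pow_zero, Module.End.one_apply, hx, Finsupp.single_apply]
      split_ifs with h
      · subst h
        refine ⟨zero_le_one, ?_⟩
        rw [one_div, inv_mul_cancel₀ (hw _).ne']
      · exact ⟨le_refl _, by have := hw i; have := hw j; positivity⟩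
    | succ m ih =>
      intro j
      rw [pow_succ', Module.End.mul_apply, adjOp_apply S hS]
      refine ⟨Finset.sum_nonneg fun k _ => (ih k).1, ?_⟩
      calc ∑ k ∈ S j, ((adjOp S) ^ m) x k ≤ ∑ k ∈ S j, (L ^ m / w i) * w k :=
            Finset.sum_le_sum fun k _ => (ih k).2
        _ = (L ^ m / w i) * ∑ k ∈ S j, w k := by rw [Finset.mul_sum]
        _ ≤ (L ^ m / w i) * (L * w j) := by
            apply mul_le_mul_of_nonneg_left (hwS j)
            have := hw i
            positivity
        _ = L ^ (m + 1) / w i * w j := by ring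
  set F : Finset I := (hfin i).toFinset with hF
  set C : ℝ := ∑ j ∈ F, w j / w i * |K i j| with hC
  have hbound : ∀ m : ℕ, |kform K x (((adjOp S) ^ m) x)| ≤ C * L ^ m := by
    intro m
    set y := ((adjOp S) ^ m) x with hy
    rw [hx, kform_single_left, one_mul, Finsupp.sum]
    calc |∑ a ∈ y.support, y a * K i a| ≤ ∑ a ∈ y.support, |y a * K i a| :=
          Finset.abs_sum_le_sum_abs _ _
      _ ≤ ∑ a ∈ y.support ∪ F, |y a * K i a| :=
          Finset.sum_le_sum_of_subset_of_nonneg Finset.subset_union_left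
            fun _ _ _ => abs_nonneg _
      _ = ∑ a ∈ F, |y a * K i a| := by
          symm
          apply Finset.sum_subset Finset.subset_union_right
          intro a _ ha
          have : K i a = 0 := by
            by_contra h
            exact ha (by simpa [hF] using h)
          simp [this]
      _ ≤ ∑ a ∈ F, (w a / w i * |K i a|) * L ^ m := by
          refine Finset.sum_le_sum fun a _ => ?_
          rw [abs_mul, abs_of_nonneg (hgrow m a).1]
          calc y a * |K i a| ≤ (L ^ m / w i * w a) * |K i a| :=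
                mul_le_mul_of_nonneg_right (hgrow m a).2 (abs_nonneg _)
            _ = (w a / w i * |K i a|) * L ^ m := by ring
      _ = C * L ^ m := by rw [hC, Finset.sum_mul]
  have := abs_form_le (kform K) (kform_nonneg K hpsd) (kform_symm K hsymm) (adjOp S) hsa x hL hbound
  have h1 : kform K x (adjOp S x) = ∑ j ∈ S i, K i j := by
    rw [hx, adjOp_single, map_sum]
    simp [kform_single_single]
  have h2 : kform K x x = K i i := by
    rw [hx, kform_single_single]; simp
  rwa [h1, h2] at this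

end Kernel

end Crest.Agent.R160
end

-- ▼ part R160/L2Lim
section

/-! Row 160: elementary facts on convergence in `L²` expressed with integrals of squares. -/

set_option autoImplicit false

open MeasureTheory Filter Finset
open scoped Topology

namespace Crest.Agent.R160

variable {Ω : Type*} [MeasurableSpace Ω] {μ : Measure Ω}

theorem integral_sq_eq_norm_toLp {f : Ω → ℝ} (hf : MemLp f 2 μ) :
    ∫ ω, f ω ^ 2 ∂μ = ‖hf.toLp f‖ ^ 2 := by
  rw [← real_inner_self_eq_norm_sq, L2.inner_def]
  refine integral_congr_ae ?_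
  filter_upwards [hf.coeFn_toLp] with ω hω
  rw [hω]
  simp [sq]

theorem tendsto_toLp_iff {ι : Type*} {l : Filter ι} {f : ι → Ω → ℝ} {g : Ω → ℝ}
    (hf : ∀ i, MemLp (f i) 2 μ) (hg : MemLp g 2 μ) :
    Tendsto (fun i => (hf i).toLp (f i)) l (𝓝 (hg.toLp g)) ↔
      Tendsto (fun i => ∫ ω, (f i ω - g ω) ^ 2 ∂μ) l (𝓝 0) := by
  rw [tendsto_iff_norm_sub_tendsto_zero]
  have h : ∀ i, ∫ ω, (f i ω - g ω) ^ 2 ∂μ = ‖(hf i).toLp (f i) - hg.toLp g‖ ^ 2 := by
    intro i
    rw [← MemLp.toLp_sub, ← integral_sq_eq_norm_toLp]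
    rfl
  simp only [h]
  constructor
  · intro h1
    simpa using h1.pow 2
  · intro h1
    have := h1.sqrt
    simpa [Real.sqrt_sq] using this

/-- If the squares converge, then a bound `∫ (∑ f_i)² ≤ C ∫ g²` passes to `L²`-limits. -/
theorem integral_sum_sq_le_of_tendsto {ι : Type*} (s : Finset ι) {f : ℕ → ι → Ω → ℝ}
    {g : ι → Ω → ℝ} {u : ℕ → Ω → ℝ} {v : Ω → ℝ} {C : ℝ}
    (hf : ∀ N i, MemLp (f N i) 2 μ) (hg : ∀ i, MemLp (g i) 2 μ)
    (hu : ∀ N, MemLp (u N) 2 μ) (hv : MemLp v 2 μ)
    (hfg : ∀ i ∈ s, Tendsto (fun N => ∫ ω, (f N i ω - g i ω) ^ 2 ∂μ) atTop (𝓝 0))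
    (huv : Tendsto (fun N => ∫ ω, (u N ω - v ω) ^ 2 ∂μ) atTop (𝓝 0))
    (hle : ∀ N, ∫ ω, (∑ i ∈ s, f N i ω) ^ 2 ∂μ ≤ C * ∫ ω, u N ω ^ 2 ∂μ) :
    ∫ ω, (∑ i ∈ s, g i ω) ^ 2 ∂μ ≤ C * ∫ ω, v ω ^ 2 ∂μ := by
  classical
  have hsum : ∀ (F : ι → Ω → ℝ) (hF : ∀ i, MemLp (F i) 2 μ),
      ∫ ω, (∑ i ∈ s, F i ω) ^ 2 ∂μ = ‖∑ i ∈ s, (hF i).toLp (F i)‖ ^ 2 := by
    intro F hF
    have h1 : MemLp (fun ω => ∑ i ∈ s, F i ω) 2 μ := memLp_finsetSum s fun i _ => hF i
    rw [integral_sq_eq_norm_toLp h1]
    congr 2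
    clear hle hfg
    induction s using Finset.induction_on with
    | empty =>
      simp only [Finset.sum_empty]
      exact MemLp.toLp_zero _
    | insert a t ha ih =>
      have h2 : MemLp (fun ω => ∑ i ∈ t, F i ω) 2 μ := memLp_finsetSum t fun i _ => hF i
      rw [Finset.sum_insert ha, ← ih h2, ← MemLp.toLp_add]
      congr 1
      ext ω
      rw [Finset.sum_insert ha]
      rfl
  have h1 : Tendsto (fun N => ∫ ω, (∑ i ∈ s, f N i ω) ^ 2 ∂μ) atTop
      (𝓝 (∫ ω, (∑ i ∈ s, g i ω) ^ 2 ∂μ)) := by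
    rw [hsum g hg]
    have : (fun N => ∫ ω, (∑ i ∈ s, f N i ω) ^ 2 ∂μ) =
        fun N => ‖∑ i ∈ s, (hf N i).toLp (f N i)‖ ^ 2 := by
      ext N
      exact hsum (f N) (hf N)
    rw [this]
    refine Tendsto.pow (Tendsto.norm ?_) 2
    exact tendsto_finsetSum _ fun i hi =>
      (tendsto_toLp_iff (fun N => hf N i) (hg i)).mpr (hfg i hi)
  have h2 : Tendsto (fun N => ∫ ω, u N ω ^ 2 ∂μ) atTop (𝓝 (∫ ω, v ω ^ 2 ∂μ)) := by
    rw [integral_sq_eq_norm_toLp hv]
    have : (fun N => ∫ ω, u N ω ^ 2 ∂μ) = fun N => ‖(hu N).toLp (u N)‖ ^ 2 := by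
      ext N
      exact integral_sq_eq_norm_toLp (hu N)
    rw [this]
    exact Tendsto.pow (Tendsto.norm ((tendsto_toLp_iff hu hv).mpr huv)) 2
  exact le_of_tendsto_of_tendsto' h1 (h2.const_mul C) hle

end Crest.Agent.R160
end

-- ▼ part R160/BSVMain
section

/-! Row 160: the Backhausz–Szegedy–Virág decorrelation bound for finite-range invariant
families on the vertices / edges of a regular tree, and the resulting variance bound along paths. -/

set_option autoImplicit false

open SimpleGraph Finset MeasureTheory Filter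
open scoped Classical Topology

namespace Crest.Agent.R160.Sphere

open Crest.Agent.R160.TreeAut

variable {V : Type*} {G : SimpleGraph V} [G.LocallyFinite]

/-- decorrelation profile -/
noncomputable def prof (q : ℝ) (n : ℕ) : ℝ := 6 * (n + 2) * q * q⁻¹ ^ n

lemma prof_nonneg {q : ℝ} (hq : 1 ≤ q) (n : ℕ) : 0 ≤ prof q n := by
  unfold prof; positivity

lemma summable_prof {q : ℝ} (hq : 1 < q) : Summable (prof q) := by
  have h0 : ‖q⁻¹‖ < 1 := by
    rw [norm_inv, Real.norm_of_nonneg (by linarith)]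
    exact inv_lt_one_of_one_lt₀ hq
  have h1 := summable_pow_mul_geometric_of_norm_lt_one 1 h0
  have h2 := summable_geometric_of_norm_lt_one h0
  have h3 := (h1.mul_left (6 * q)).add (h2.mul_left (12 * q))
  refine h3.congr fun n => ?_
  unfold prof
  ring

/-- the constant in the path variance bound -/
noncomputable def Cbsv (q : ℝ) : ℝ := 2 * ∑' n, prof q n

lemma Cbsv_nonneg {q : ℝ} (hq : 1 ≤ q) : 0 ≤ Cbsv q :=
  mul_nonneg (by norm_num) (tsum_nonneg fun n => prof_nonneg hq n)

/-- Decorrelation of finite-range invariant kernels on edges. -/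
theorem edge_kernel_le (hT : G.IsTree) {d : ℕ} (hreg : G.IsRegularOfDegree d) {q : ℝ}
    (hq : 1 ≤ q) (hqd : (d : ℝ) = q ^ 2 + 1) (K : G.edgeSet → G.edgeSet → ℝ)
    (hsymm : ∀ i j, K i j = K j i)
    (hpsd : ∀ (s : Finset G.edgeSet) (x : G.edgeSet → ℝ),
      0 ≤ ∑ i ∈ s, ∑ j ∈ s, x i * x j * K i j)
    (hfin : ∀ i, {j | K i j ≠ 0}.Finite)
    (hinv : ∀ (g : G ≃g G) (e f : G.edgeSet), K (g.mapEdgeSet e) (g.mapEdgeSet f) = K e f)
    {n : ℕ} {e f : G.edgeSet} (h : ERel G (n + 1) (e : Sym2 V) f) :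
    |K e f| ≤ prof q n * K e e := by
  have hS : ∀ i j, j ∈ esph G hT (n + 1) i ↔ i ∈ esph G hT (n + 1) j := by
    intro i j
    rw [mem_esph hT, mem_esph hT]
    exact ⟨fun h => h.symm, fun h => h.symm⟩
  have hmap : ∀ (g : G ≃g G) (e f : G.edgeSet), f ∈ esph G hT (n + 1) e →
      g.mapEdgeSet f ∈ esph G hT (n + 1) (g.mapEdgeSet e) := by
    intro g e f h
    rw [mem_esph hT] at h ⊢
    exact ERel.map h g
  have hcomm : ∀ i j, ∑ k ∈ esph G hT (n + 1) j, K i k = ∑ k ∈ esph G hT (n + 1) i, K k j := by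
    intro i j
    obtain ⟨g, hg1, hg2⟩ := exists_aut_edge_swap hT hreg i.2 j.2
    have hg1' : g.mapEdgeSet i = j := Subtype.ext hg1
    have hg2' : g.mapEdgeSet j = i := Subtype.ext hg2
    refine Finset.sum_nbij' (fun k => g.mapEdgeSet k) (fun k => g.mapEdgeSet.symm k) ?_ ?_ ?_ ?_ ?_
    · intro k hk
      have := hmap g _ _ hk
      rwa [hg2'] at this
    · intro k hk
      have h1 := hmap g.symm _ _ hk
      have h2 : g.symm.mapEdgeSet i = j := by
        rw [← hg2']
        apply Subtype.ext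
        simp [Hom.mapEdgeSet, Sym2.map_map]
      rw [h2] at h1
      exact h1
    · intro k _
      exact Equiv.symm_apply_apply _ _
    · intro k _
      exact Equiv.apply_symm_apply _ _
    · intro k _
      rw [← hinv g i k, hg1', hsymm]
  have o : V := hT.connected.nonempty.some
  have hL : (0 : ℝ) < 6 * ((n + 1 : ℕ) + 1) * q ^ (n + 1) := by positivity
  have h1 := kernel_sphere_le K hsymm hpsd hfin (esph G hT (n + 1)) hS hcomm
    (fun e => wt q (G.dist o (far G o e))) (fun e => wt_pos hq _) hL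
    (fun e => sum_esph_wt hT hreg hq hqd o (n + 1) e) e
  -- the kernel is constant on the sphere
  have h2 : ∑ j ∈ esph G hT (n + 1) e, K e j = ((esph G hT (n + 1) e).card : ℝ) * K e f := by
    rw [← nsmul_eq_mul, ← Finset.sum_const]
    refine Finset.sum_congr rfl fun j hj => ?_
    rw [mem_esph hT] at hj
    obtain ⟨g, hg1, hg2⟩ := ERel.exists_aut hT hreg hj h
    have hg1' : g.mapEdgeSet e = e := Subtype.ext hg1
    have hg2' : g.mapEdgeSet j = f := Subtype.ext hg2
    rw [← hinv g e j, hg1', hg2']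
  rw [h2, abs_mul, Nat.abs_cast] at h1
  have hd : ((d - 1 : ℕ) : ℝ) = q ^ 2 := by
    have : 1 ≤ d := by
      by_contra h0
      have : d = 0 := by omega
      subst this
      push_cast at hqd
      nlinarith
    push_cast [this]
    linarith
  have h3 : (q ^ 2) ^ n ≤ ((esph G hT (n + 1) e).card : ℝ) := by
    rw [← hd]
    exact_mod_cast card_esph_ge hT hreg n e
  have h4 : (q ^ 2) ^ n * |K e f| ≤ 6 * ((n + 1 : ℕ) + 1) * q ^ (n + 1) * K e e :=
    (mul_le_mul_of_nonneg_right h3 (abs_nonneg _)).trans h1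
  have h5 : 0 < (q ^ 2) ^ n := by positivity
  have h6 : |K e f| ≤ (6 * ((n + 1 : ℕ) + 1) * q ^ (n + 1) * K e e) / (q ^ 2) ^ n := by
    rw [le_div_iff₀ h5, mul_comm]
    exact h4
  refine h6.trans (le_of_eq ?_)
  have h7 : q⁻¹ ^ n = q ^ n / (q ^ 2) ^ n := by
    rw [inv_pow, ← pow_mul, two_mul, pow_add]
    field_simp
  unfold prof
  rw [h7, pow_succ]
  push_cast
  ring

/-- sums of the profile along a path -/
lemma sum_prof_le {q : ℝ} (hq : 1 < q) (n i : ℕ) :
    ∑ j ∈ range n, prof q ((i - j) + (j - i)) ≤ Cbsv q := by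
  have hs := summable_prof hq
  have h0 := fun m => prof_nonneg hq.le m
  have h1 : ∑ j ∈ (range n).filter (fun j => j ≤ i), prof q ((i - j) + (j - i)) ≤
      ∑' m, prof q m := by
    rw [Finset.sum_congr rfl (g := fun j => prof q (i - j))]
    · rw [← Finset.sum_image (f := fun m => prof q m) (g := fun j => i - j)]
      · exact hs.sum_le_tsum _ fun m _ => h0 m
      · intro a ha b hb hab
        simp only [Finset.coe_filter, Finset.mem_range, Set.mem_ofPred_eq] at ha hb
        simp only at hab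
        omega
    · intro j hj
      simp only [Finset.mem_filter, Finset.mem_range] at hj
      rw [show j - i = 0 by omega, add_zero]
  have h2 : ∑ j ∈ (range n).filter (fun j => ¬ j ≤ i), prof q ((i - j) + (j - i)) ≤
      ∑' m, prof q m := by
    rw [Finset.sum_congr rfl (g := fun j => prof q (j - i))]
    · rw [← Finset.sum_image (f := fun m => prof q m) (g := fun j => j - i)]
      · exact hs.sum_le_tsum _ fun m _ => h0 m
      · intro a ha b hb hab
        simp only [Finset.coe_filter, Finset.mem_range, Set.mem_ofPred_eq] at ha hb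
        simp only at hab
        omega
    · intro j hj
      simp only [Finset.mem_filter, Finset.mem_range] at hj
      rw [show i - j = 0 by omega, zero_add]
  rw [← Finset.sum_filter_add_sum_filter_not (range n) (fun j => j ≤ i)]
  unfold Cbsv
  linarith

/-- closed balls are finite -/
lemma ball_finite (hT : G.IsTree) (x : V) (R : ℕ) : {v | G.dist x v ≤ R}.Finite := by
  refine (Finset.finite_toSet ((range (R + 1)).biUnion (sph G x))).subset ?_
  intro v hv
  simp only [Finset.coe_biUnion, Finset.coe_range, Set.mem_iUnion, Finset.mem_coe, mem_sph hT,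
    Set.mem_Iio, exists_prop, exists_eq_right']
  exact Nat.lt_succ_of_le hv

omit [G.LocallyFinite] in
/-- The first edge of a non-backtracking path. -/
noncomputable def pe {n : ℕ} {p : ℕ → V} (hp : IsNB G n p) (i : Fin n) : G.edgeSet :=
  ⟨s(p i, p (i + 1)), hp.adj i i.2⟩

omit [G.LocallyFinite] in
lemma pe_ERel {n : ℕ} {p : ℕ → V} (hp : IsNB G n p) {i j : Fin n} (hij : i ≤ j) :
    ERel G ((j : ℕ) - i + 1) (pe hp i : Sym2 V) (pe hp j) := by
  have hij' : (i : ℕ) ≤ j := hij
  refine ⟨by omega, fun k => p (i + k), ?_, rfl, ?_⟩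
  · have h1 := (hp.shift i (by omega)).mono (m := (j : ℕ) - i + 1) (by omega)
    exact h1
  · change s(p ((i : ℕ) + ((j : ℕ) - i + 1 - 1)), p ((i : ℕ) + ((j : ℕ) - i + 1))) =
      s(p j, p ((j : ℕ) + 1))
    rw [show (i : ℕ) + ((j : ℕ) - i + 1 - 1) = j by omega,
      show (i : ℕ) + ((j : ℕ) - i + 1) = (j : ℕ) + 1 by omega]

/-- **Variance along a path**, kernel form. -/
theorem path_kernel_le (hT : G.IsTree) {d : ℕ} (hreg : G.IsRegularOfDegree d) {q : ℝ}
    (hq : 1 < q) (hqd : (d : ℝ) = q ^ 2 + 1) (K : G.edgeSet → G.edgeSet → ℝ)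
    (hsymm : ∀ i j, K i j = K j i)
    (hpsd : ∀ (s : Finset G.edgeSet) (x : G.edgeSet → ℝ),
      0 ≤ ∑ i ∈ s, ∑ j ∈ s, x i * x j * K i j)
    (hfin : ∀ i, {j | K i j ≠ 0}.Finite)
    (hinv : ∀ (g : G ≃g G) (e f : G.edgeSet), K (g.mapEdgeSet e) (g.mapEdgeSet f) = K e f)
    (e₀ : G.edgeSet) {n : ℕ} {p : ℕ → V} (hp : IsNB G n p) :
    ∑ i : Fin n, ∑ j : Fin n, K (pe hp i) (pe hp j) ≤ Cbsv q * n * K e₀ e₀ := by
  have hK0 : ∀ e f : G.edgeSet, K e e = K f f := by
    intro e f
    obtain ⟨g, hg1, hg2⟩ := exists_aut_edge_swap hT hreg e.2 f.2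
    rw [← hinv g e e, show g.mapEdgeSet e = f from Subtype.ext hg1]
  have hKnn : ∀ e : G.edgeSet, 0 ≤ K e e := by
    intro e
    have := hpsd {e} (fun _ => 1)
    simpa using this
  have hb : ∀ i j : Fin n, K (pe hp i) (pe hp j) ≤
      prof q (((i : ℕ) - j) + ((j : ℕ) - i)) * K e₀ e₀ := by
    intro i j
    rcases le_total i j with hij | hij
    · have hij' : (i : ℕ) ≤ j := hij
      have h1 := edge_kernel_le hT hreg hq.le hqd K hsymm hpsd hfin hinv (pe_ERel hp hij)
      rw [show (i : ℕ) - j = 0 by omega, zero_add, ← hK0 (pe hp i) e₀]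
      exact (le_abs_self _).trans h1
    · have hij' : (j : ℕ) ≤ i := hij
      have h1 := edge_kernel_le hT hreg hq.le hqd K hsymm hpsd hfin hinv (pe_ERel hp hij)
      rw [show (j : ℕ) - i = 0 by omega, add_zero, ← hK0 (pe hp j) e₀, hsymm]
      exact (le_abs_self _).trans h1
  calc ∑ i : Fin n, ∑ j : Fin n, K (pe hp i) (pe hp j)
      ≤ ∑ i : Fin n, ∑ j : Fin n, prof q (((i : ℕ) - j) + ((j : ℕ) - i)) * K e₀ e₀ :=
        Finset.sum_le_sum fun i _ => Finset.sum_le_sum fun j _ => hb i j
    _ = ∑ i : Fin n, (∑ j ∈ range n, prof q (((i : ℕ) - j) + (j - i))) * K e₀ e₀ := by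
        refine Finset.sum_congr rfl fun i _ => ?_
        rw [← Finset.sum_mul]
        congr 1
        exact Fin.sum_univ_eq_sum_range (fun j => prof q (((i : ℕ) - j) + (j - i))) n
    _ ≤ ∑ i : Fin n, Cbsv q * K e₀ e₀ := by
        refine Finset.sum_le_sum fun i _ => mul_le_mul_of_nonneg_right (sum_prof_le hq n i)
          (hKnn e₀)
    _ = Cbsv q * n * K e₀ e₀ := by
        rw [Finset.sum_const, Finset.card_univ, Fintype.card_fin, nsmul_eq_mul]
        ring

/-- **Variance along a path** for an invariant finite-range family of square-integrable random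
variables indexed by the (undirected) edges of a regular tree. -/
theorem bsv_path (hT : G.IsTree) {d : ℕ} (hreg : G.IsRegularOfDegree d) {q : ℝ}
    (hq : 1 < q) (hqd : (d : ℝ) = q ^ 2 + 1) {Ω : Type*} [MeasurableSpace Ω] (μ : Measure Ω)
    (g : V → V → Ω → ℝ) (hsym : ∀ x y, G.Adj x y → g x y = g y x)
    (hint : ∀ x y z w, G.Adj x y → G.Adj z w → Integrable (fun ω => g x y ω * g z w ω) μ)
    (hinv : ∀ (σ : G ≃g G) (x y z w : V), G.Adj x y → G.Adj z w →
      ∫ ω, g (σ x) (σ y) ω * g (σ z) (σ w) ω ∂μ = ∫ ω, g x y ω * g z w ω ∂μ)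
    (hfin : ∀ x y, G.Adj x y → ∃ R : ℕ, ∀ z w, G.Adj z w → R < G.dist x z → R < G.dist x w →
      ∫ ω, g x y ω * g z w ω ∂μ = 0)
    {x₀ y₀ : V} (h₀ : G.Adj x₀ y₀) {n : ℕ} {p : ℕ → V} (hp : IsNB G n p) :
    ∫ ω, (∑ i ∈ range n, g (p i) (p (i + 1)) ω) ^ 2 ∂μ ≤
      Cbsv q * n * ∫ ω, g x₀ y₀ ω ^ 2 ∂μ := by
  have o : V := hT.connected.nonempty.some
  -- the family indexed by edges
  set F : G.edgeSet → Ω → ℝ := fun e => g (far G o e) (par G o (far G o e)) with hF
  have hadj : ∀ e : G.edgeSet, G.Adj (far G o e) (par G o (far G o e)) := fun e =>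
    par_adj hT (far_spec hT o e.2).1
  have hFg : ∀ (x y : V) (h : G.Adj x y), F ⟨s(x, y), h⟩ = g x y := by
    intro x y h
    have h1 := (far_spec hT o (e := s(x, y)) h).2
    rw [Sym2.eq_iff] at h1
    simp only [hF]
    rcases h1 with h1 | h1
    · rw [h1.2, h1.1]
    · rw [h1.2, h1.1]
      exact (hsym x y h).symm
  set K : G.edgeSet → G.edgeSet → ℝ := fun e f => ∫ ω, F e ω * F f ω ∂μ with hK
  have hKxy : ∀ (x y z w : V) (h : G.Adj x y) (h' : G.Adj z w),
      K ⟨s(x, y), h⟩ ⟨s(z, w), h'⟩ = ∫ ω, g x y ω * g z w ω ∂μ := by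
    intro x y z w h h'
    simp only [hK]
    rw [hFg x y h, hFg z w h']
  have hFint : ∀ e f : G.edgeSet, Integrable (fun ω => F e ω * F f ω) μ := fun e f =>
    hint _ _ _ _ (hadj e) (hadj f)
  have hsymm : ∀ e f, K e f = K f e := by
    intro e f
    simp only [hK]
    congr 1
    ext ω
    ring
  have hpsd : ∀ (s : Finset G.edgeSet) (x : G.edgeSet → ℝ),
      0 ≤ ∑ i ∈ s, ∑ j ∈ s, x i * x j * K i j := by
    intro s x
    have h1 : ∑ i ∈ s, ∑ j ∈ s, x i * x j * K i j = ∫ ω, (∑ i ∈ s, x i * F i ω) ^ 2 ∂μ := by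
      simp only [hK]
      rw [show (fun ω => (∑ i ∈ s, x i * F i ω) ^ 2) =
        fun ω => ∑ i ∈ s, ∑ j ∈ s, x i * x j * (F i ω * F j ω) from ?_]
      · rw [integral_finsetSum]
        · refine Finset.sum_congr rfl fun i _ => ?_
          rw [integral_finsetSum]
          · refine Finset.sum_congr rfl fun j _ => ?_
            rw [integral_const_mul]
          · intro j _
            exact (hFint i j).const_mul _
        · intro i _
          exact integrable_finsetSum _ fun j _ => (hFint i j).const_mul _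
      · ext ω
        rw [sq, Finset.sum_mul_sum]
        refine Finset.sum_congr rfl fun i _ => Finset.sum_congr rfl fun j _ => ?_
        ring
    rw [h1]
    exact integral_nonneg fun ω => sq_nonneg _
  have hKfin : ∀ e, {f | K e f ≠ 0}.Finite := by
    rintro ⟨e, he⟩
    induction e using Sym2.ind with
    | _ x y =>
      obtain ⟨R, hR⟩ := hfin x y he
      have hb := (ball_finite hT x (R + 1)).image2 (fun a b => s(a, b)) (ball_finite hT x (R + 1))
      refine (hb.preimage (f := fun f : G.edgeSet => (f : Sym2 V))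
        (Subtype.val_injective.injOn)).subset ?_
      rintro ⟨f, hf⟩ hne
      induction f using Sym2.ind with
      | _ z w =>
        simp only [Set.mem_preimage]
        have hzw : G.Adj z w := hf
        have h1 : ¬ (R < G.dist x z ∧ R < G.dist x w) := by
          rintro ⟨h1, h2⟩
          apply hne
          rw [hKxy x y z w he hf]
          exact hR z w hf h1 h2
        have h2 := hT.dist_eq_dist_add_one_of_adj x hzw
        refine ⟨z, ?_, w, ?_, rfl⟩ <;> simp only [Set.mem_ofPred_eq] <;> omega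
  have hKinv : ∀ (σ : G ≃g G) (e f : G.edgeSet), K (σ.mapEdgeSet e) (σ.mapEdgeSet f) = K e f := by
    rintro σ ⟨e, he⟩ ⟨f, hf⟩
    induction e using Sym2.ind with
    | _ x y =>
    induction f using Sym2.ind with
    | _ z w =>
      have h1 : G.Adj x y := he
      have h2 : G.Adj z w := hf
      rw [hKxy x y z w he hf, ← hinv σ x y z w he hf]
      exact hKxy (σ x) (σ y) (σ z) (σ w) (σ.map_adj_iff.mpr h1) (σ.map_adj_iff.mpr h2)
  have h1 := path_kernel_le hT hreg hq hqd K hsymm hpsd hKfin hKinv ⟨s(x₀, y₀), h₀⟩ hp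
  have h2 : K ⟨s(x₀, y₀), h₀⟩ ⟨s(x₀, y₀), h₀⟩ = ∫ ω, g x₀ y₀ ω ^ 2 ∂μ := by
    rw [hKxy]
    congr 1
    ext ω
    ring
  rw [h2] at h1
  refine le_trans (le_of_eq ?_) h1
  have h3 : ∀ ω, (∑ i ∈ range n, g (p i) (p (i + 1)) ω) = ∑ i : Fin n, F (pe hp i) ω := by
    intro ω
    rw [← Fin.sum_univ_eq_sum_range (fun i => g (p i) (p (i + 1)) ω) n]
    refine Finset.sum_congr rfl fun i _ => ?_
    exact (congrFun (hFg _ _ (hp.adj i i.2)) ω).symm
  simp only [h3, sq, Finset.sum_mul_sum, hK]
  rw [integral_finsetSum]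
  · refine Finset.sum_congr rfl fun i _ => ?_
    rw [integral_finsetSum]
    intro j _
    exact hFint _ _
  · intro i _
    exact integrable_finsetSum _ fun j _ => hFint _ _

/-- **Variance along a path** for `L²`-limits of invariant finite-range families. -/
theorem bsv_path_limit (hT : G.IsTree) {d : ℕ} (hreg : G.IsRegularOfDegree d) {q : ℝ}
    (hq : 1 < q) (hqd : (d : ℝ) = q ^ 2 + 1) {Ω : Type*} [MeasurableSpace Ω] (μ : Measure Ω)
    (gN : ℕ → V → V → Ω → ℝ) (g : V → V → Ω → ℝ)
    (hsym : ∀ N x y, G.Adj x y → gN N x y = gN N y x)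
    (hL2N : ∀ N x y, G.Adj x y → MemLp (gN N x y) 2 μ)
    (hL2 : ∀ x y, G.Adj x y → MemLp (g x y) 2 μ)
    (hinv : ∀ N, ∀ (σ : G ≃g G) (x y z w : V), G.Adj x y → G.Adj z w →
      ∫ ω, gN N (σ x) (σ y) ω * gN N (σ z) (σ w) ω ∂μ = ∫ ω, gN N x y ω * gN N z w ω ∂μ)
    (hfin : ∀ N x y, G.Adj x y → ∃ R : ℕ, ∀ z w, G.Adj z w → R < G.dist x z → R < G.dist x w →
      ∫ ω, gN N x y ω * gN N z w ω ∂μ = 0)
    (hlim : ∀ x y, G.Adj x y →
      Tendsto (fun N => ∫ ω, (gN N x y ω - g x y ω) ^ 2 ∂μ) atTop (𝓝 0))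
    {x₀ y₀ : V} (h₀ : G.Adj x₀ y₀) {n : ℕ} {p : ℕ → V} (hp : IsNB G n p) :
    ∫ ω, (∑ i ∈ range n, g (p i) (p (i + 1)) ω) ^ 2 ∂μ ≤
      Cbsv q * n * ∫ ω, g x₀ y₀ ω ^ 2 ∂μ := by
  have key := integral_sum_sq_le_of_tendsto (μ := μ) (Finset.univ : Finset (Fin n))
    (f := fun N i => gN N (p i) (p (i + 1))) (g := fun i => g (p i) (p (i + 1)))
    (u := fun N => gN N x₀ y₀) (v := g x₀ y₀) (C := Cbsv q * n)
    (fun N i => hL2N N _ _ (hp.adj i i.2)) (fun i => hL2 _ _ (hp.adj i i.2))
    (fun N => hL2N N _ _ h₀) (hL2 _ _ h₀) (fun i _ => hlim _ _ (hp.adj i i.2))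
    (hlim _ _ h₀) ?_
  · have h3 : ∀ ω, (∑ i ∈ range n, g (p i) (p (i + 1)) ω) =
        ∑ i : Fin n, g (p i) (p (i + 1)) ω := fun ω =>
      (Fin.sum_univ_eq_sum_range (fun i => g (p i) (p (i + 1)) ω) n).symm
    simp only [h3]
    exact key
  · intro N
    have h1 := bsv_path hT hreg hq hqd μ (gN N) (hsym N)
      (fun x y z w h h' => (hL2N N x y h).integrable_mul (hL2N N z w h')) (hinv N) (hfin N) h₀ hp
    have h3 : ∀ ω, (∑ i ∈ range n, gN N (p i) (p (i + 1)) ω) =
        ∑ i : Fin n, gN N (p i) (p (i + 1)) ω := fun ω =>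
      (Fin.sum_univ_eq_sum_range (fun i => gN N (p i) (p (i + 1)) ω) n).symm
    simp only [h3] at h1
    exact h1

end Crest.Agent.R160.Sphere
end

-- ▼ part R160/InfPi
section

/-! Row 160: infinite product measures: finite-coordinate σ-algebras, independence, shifts,
approximation by conditional expectations. -/

set_option autoImplicit false

open MeasureTheory ProbabilityTheory Filter Finset
open scoped Topology ENNReal NNReal

namespace Crest.Agent.R160.InfPi

variable {ι E : Type*} [mE : MeasurableSpace E]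

/-- the σ-algebra generated by the coordinates in the finite set `S` -/
@[instance_reducible]
def sig (E : Type*) [MeasurableSpace E] (S : Finset ι) : MeasurableSpace (ι → E) :=
  MeasurableSpace.comap (fun (ω : ι → E) (i : S) => ω i) MeasurableSpace.pi

lemma sig_le (S : Finset ι) : sig E S ≤ (MeasurableSpace.pi : MeasurableSpace (ι → E)) := by
  unfold sig
  rw [← measurable_iff_comap_le]
  fun_prop

lemma measurable_coord_sig {S : Finset ι} {i : ι} (hi : i ∈ S) :
    Measurable[sig E S] (fun ω : ι → E => ω i) := by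
  have h1 : Measurable[sig E S] (fun (ω : ι → E) (i : S) => ω i) := comap_measurable _
  exact (measurable_pi_apply (⟨i, hi⟩ : S)).comp h1

lemma sig_le_iff {S : Finset ι} {m : MeasurableSpace (ι → E)}
    (h : ∀ i ∈ S, Measurable[m] (fun ω : ι → E => ω i)) : sig E S ≤ m := by
  unfold sig
  rw [← measurable_iff_comap_le]
  exact @measurable_pi_lambda _ _ _ m _ _ fun i => h i i.2

lemma sig_mono {S T : Finset ι} (h : S ⊆ T) : sig E S ≤ sig E T :=
  sig_le_iff fun _ hi => measurable_coord_sig (h hi)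

lemma iSup_sig (S : ℕ → Finset ι) (hS : ∀ i, ∃ n, i ∈ S n) :
    ⨆ n, sig E (S n) = (MeasurableSpace.pi : MeasurableSpace (ι → E)) := by
  apply le_antisymm (iSup_le fun n => sig_le _)
  rw [MeasurableSpace.pi]
  refine iSup_le fun i => ?_
  obtain ⟨n, hn⟩ := hS i
  refine le_trans ?_ (le_iSup _ n)
  rw [← measurable_iff_comap_le]
  exact measurable_coord_sig hn

variable (ν : Measure E) [IsProbabilityMeasure ν]

lemma indep_sig {S T : Finset ι} (h : Disjoint S T) :
    Indep (sig E S) (sig E T) (Measure.infinitePi (fun _ : ι => ν)) := by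
  have h1 : iIndepFun (fun (i : ι) (ω : ι → E) => ω i) (Measure.infinitePi (fun _ : ι => ν)) :=
    iIndepFun_infinitePi (P := fun _ : ι => ν) (X := fun _ => id) (fun _ => measurable_id)
  exact h1.indepFun_finset S T h fun i => measurable_pi_apply i

/-- A product of functions measurable w.r.t. disjoint sets of coordinates. -/
lemma integral_mul_of_disjoint {S T : Finset ι} (h : Disjoint S T) {f g : (ι → E) → ℝ}
    (hf : StronglyMeasurable[sig E S] f) (hg : StronglyMeasurable[sig E T] g) :
    ∫ ω, f ω * g ω ∂(Measure.infinitePi (fun _ : ι => ν)) =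
      (∫ ω, f ω ∂(Measure.infinitePi (fun _ : ι => ν))) *
        ∫ ω, g ω ∂(Measure.infinitePi (fun _ : ι => ν)) := by
  have h1 : IndepFun f g (Measure.infinitePi (fun _ : ι => ν)) := by
    have h2 := indep_sig (E := E) ν h
    have h3 := indep_of_indep_of_le_left h2 hf.measurable.comap_le
    exact indep_of_indep_of_le_right h3 hg.measurable.comap_le
  exact h1.integral_fun_mul_eq_mul_integral (hf.mono (sig_le S)).aestronglyMeasurable
    (hg.mono (sig_le T)).aestronglyMeasurable

/-- reindexing the coordinates -/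
def rei (τ : ι ≃ ι) (ω : ι → E) : ι → E := fun i => ω (τ i)

lemma measurable_rei (τ : ι ≃ ι) : Measurable (rei (E := E) τ) := by
  unfold rei; fun_prop


lemma measurePreserving_rei (τ : ι ≃ ι) : MeasurePreserving (rei (E := E) τ)
    (Measure.infinitePi (fun _ : ι => ν)) (Measure.infinitePi (fun _ : ι => ν)) := by
  refine ⟨measurable_rei τ, ?_⟩
  have h := Measure.infinitePi_map_piCongrLeft (X := fun _ : ι => E) (fun _ : ι => ν) τ.symm
  convert h using 2
  ext ω i
  rw [MeasurableEquiv.coe_piCongrLeft, Equiv.piCongrLeft_apply]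
  simp [rei]

lemma comap_rei_sig (τ : ι ≃ ι) (S : Finset ι) :
    MeasurableSpace.comap (rei (E := E) τ) (sig E S) = sig E (S.map τ.toEmbedding) := by
  apply le_antisymm
  · rw [← measurable_iff_comap_le]
    have h1 : ∀ i ∈ S, Measurable[sig E (S.map τ.toEmbedding)] (fun ω : ι → E => ω (τ i)) :=
      fun i hi => measurable_coord_sig (by simpa using hi)
    rw [measurable_iff_comap_le, sig, MeasurableSpace.comap_comp, ← measurable_iff_comap_le]
    exact @measurable_pi_lambda _ _ _ (sig E (S.map τ.toEmbedding)) _ _ fun i => h1 i i.2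
  · apply sig_le_iff
    intro i hi
    rw [Finset.mem_map] at hi
    obtain ⟨j, hj, rfl⟩ := hi
    exact (measurable_coord_sig hj).comp (comap_measurable _)

/-- conditional expectations commute with reindexing -/
lemma condExp_rei (τ : ι ≃ ι) (S : Finset ι) {F : (ι → E) → ℝ}
    (hF : Integrable F (Measure.infinitePi (fun _ : ι => ν))) :
    (fun ω => (Measure.infinitePi (fun _ : ι => ν))[F | sig E S] (rei τ ω))
      =ᵐ[Measure.infinitePi (fun _ : ι => ν)]
    (Measure.infinitePi (fun _ : ι => ν))[fun ω => F (rei τ ω) | sig E (S.map τ.toEmbedding)] := by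
  set P := Measure.infinitePi (fun _ : ι => ν) with hP
  have hmp := measurePreserving_rei (E := E) ν τ
  rw [← hP] at hmp
  have hSm : StronglyMeasurable[sig E S] (P[F | sig E S]) := stronglyMeasurable_condExp
  have hme : MeasurableEmbedding (rei (E := E) τ) := by
    refine MeasurableEquiv.measurableEmbedding
      ⟨⟨rei τ, rei τ.symm, fun ω => ?_, fun ω => ?_⟩, measurable_rei τ, measurable_rei τ.symm⟩
    · ext i; simp [rei]
    · ext i; simp [rei]
  have hint : Integrable (fun ω => (P[F | sig E S]) (rei τ ω)) P :=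
    hmp.integrable_comp_of_integrable integrable_condExp
  refine ae_eq_condExp_of_forall_setIntegral_eq (sig_le _) ?_ ?_ ?_ ?_
  · exact hmp.integrable_comp_of_integrable hF
  · intro s _ _
    exact hint.integrableOn
  · intro s hs _
    rw [← comap_rei_sig] at hs
    obtain ⟨t, ht, rfl⟩ := hs
    rw [hmp.setIntegral_preimage_emb hme, hmp.setIntegral_preimage_emb hme,
      setIntegral_condExp (sig_le _) hF ht]
  · rw [← comap_rei_sig]
    exact (hSm.comp_measurable (comap_measurable _)).aestronglyMeasurable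

/-- `L²` approximation of bounded functions by conditional expectations. -/
lemma tendsto_condExp_sq (S : ℕ → Finset ι) (hmono : Monotone S) (hS : ∀ i, ∃ n, i ∈ S n)
    {F : (ι → E) → ℝ} (hF : Measurable F) {B : ℝ} (hB : ∀ ω, |F ω| ≤ B) :
    Tendsto (fun n => ∫ ω, ((Measure.infinitePi (fun _ : ι => ν))[F | sig E (S n)] ω - F ω) ^ 2
      ∂(Measure.infinitePi (fun _ : ι => ν))) atTop (𝓝 0) := by
  set P := Measure.infinitePi (fun _ : ι => ν) with hP
  let ℱ : Filtration ℕ (MeasurableSpace.pi : MeasurableSpace (ι → E)) :=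
    ⟨fun n => sig E (S n), fun a b hab => sig_mono (hmono hab), fun n => sig_le _⟩
  have hB0 : 0 ≤ B := by
    have : Nonempty E := by
      by_contra h
      rw [not_nonempty_iff] at h
      have := measure_univ (μ := ν)
      rw [Set.univ_eq_empty_iff.mpr h, measure_empty] at this
      exact zero_ne_one this
    exact (abs_nonneg _).trans (hB (fun _ => this.some))
  have hFint : Integrable F P := by
    refine Integrable.of_bound hF.aestronglyMeasurable B (ae_of_all _ fun ω => ?_)
    exact hB ω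
  have h1 : Tendsto (fun n => eLpNorm (P[F | ℱ n] - F) 1 P) atTop (𝓝 0) := by
    refine hFint.tendsto_eLpNorm_condExp (ℱ := ℱ) ?_
    have : (⨆ n, (ℱ n : MeasurableSpace (ι → E))) = MeasurableSpace.pi := iSup_sig S hS
    rw [this]
    exact hF.stronglyMeasurable
  have hbd : ∀ n, ∀ᵐ ω ∂P, |(P[F | sig E (S n)]) ω| ≤ B := by
    intro n
    exact ae_bdd_abs_condExp_of_ae_bdd_abs (ae_of_all _ hB)
  have h2 : Tendsto (fun n => ∫ ω, |(P[F | sig E (S n)]) ω - F ω| ∂P) atTop (𝓝 0) := by
    have h3 : ∀ n, ∫ ω, |(P[F | sig E (S n)]) ω - F ω| ∂P =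
        (eLpNorm (P[F | ℱ n] - F) 1 P).toReal := by
      intro n
      rw [eLpNorm_one_eq_lintegral_enorm, ← integral_norm_eq_lintegral_enorm]
      · rfl
      · exact (integrable_condExp.sub hFint).aestronglyMeasurable
    simp only [h3]
    have := (ENNReal.tendsto_toReal ENNReal.zero_ne_top).comp h1
    simpa [Function.comp_def] using this
  have h4 : Tendsto (fun n => (2 * B) * ∫ ω, |(P[F | sig E (S n)]) ω - F ω| ∂P) atTop (𝓝 0) := by
    simpa using h2.const_mul (2 * B)
  refine squeeze_zero (fun n => integral_nonneg fun ω => sq_nonneg _) (fun n => ?_) h4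
  rw [← integral_const_mul]
  refine integral_mono_ae ?_ ?_ ?_
  · have hm : AEStronglyMeasurable (fun ω => ((P[F | sig E (S n)]) ω - F ω) ^ 2) P :=
      ((integrable_condExp.sub hFint).aestronglyMeasurable.pow 2)
    refine Integrable.of_bound hm ((2 * B) ^ 2) ?_
    filter_upwards [hbd n] with ω hω
    rw [Real.norm_eq_abs, abs_pow]
    apply pow_le_pow_left₀ (abs_nonneg _)
    calc |(P[F | sig E (S n)]) ω - F ω| ≤ |(P[F | sig E (S n)]) ω| + |F ω| := abs_sub _ _
      _ ≤ 2 * B := by linarith [hB ω]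
  · exact ((integrable_condExp.sub hFint).abs.const_mul _)
  · filter_upwards [hbd n] with ω hω
    have h5 : |(P[F | sig E (S n)]) ω - F ω| ≤ 2 * B :=
      calc |(P[F | sig E (S n)]) ω - F ω| ≤ |(P[F | sig E (S n)]) ω| + |F ω| := abs_sub _ _
        _ ≤ 2 * B := by linarith [hB ω]
    rw [← sq_abs, sq]
    exact mul_le_mul_of_nonneg_right h5 (abs_nonneg _)

end Crest.Agent.R160.InfPi
end

-- ▼ part R160/BSVNoise

/-! Row 160: the Backhausz–Szegedy–Virág variance bound along paths for bounded equivariant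
edge functions of the iid noise. -/

set_option autoImplicit false

open SimpleGraph Finset MeasureTheory Filter
open scoped Classical Topology

namespace Crest.Agent.R160.BSVNoise

open Crest.Agent.R160 Crest.Agent.R160.TreeAut Crest.Agent.R160.Sphere Crest.Agent.R160.InfPi

variable {V : Type*} {G : SimpleGraph V}

/-- action of an automorphism on events -/
def evEquiv (g : G ≃g G) : Ev V ≃ Ev V := g.toEquiv.prodCongr (Equiv.refl ℕ)

lemma rei_evEquiv (g : G ≃g G) (ω : Om V) : rei (evEquiv g) ω = act g ω := by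
  ext e <;> rfl

lemma act_eq_rei (g : G ≃g G) : (act g : Om V → Om V) = rei (evEquiv g) := by
  funext ω; exact (rei_evEquiv g ω).symm

/-- The law of the noise is invariant under automorphisms. -/
lemma measurePreserving_act (g : G ≃g G) : MeasurePreserving (act g : Om V → Om V) (PP V) (PP V) := by
  rw [act_eq_rei]
  exact measurePreserving_rei _ _

instance : IsProbabilityMeasure (PP V) := by unfold PP; infer_instance

lemma measurableEmbedding_act (g : G ≃g G) : MeasurableEmbedding (act g : Om V → Om V) := by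
  refine MeasurableEquiv.measurableEmbedding
    ⟨⟨act g, act g.symm, fun ω => ?_, fun ω => ?_⟩, (measurePreserving_act g).measurable,
      (measurePreserving_act g.symm).measurable⟩
  · ext e <;> simp [act]
  · ext e <;> simp [act]

lemma integral_act (g : G ≃g G) (F : Om V → ℝ) : ∫ ω, F (act g ω) ∂(PP V) = ∫ ω, F ω ∂(PP V) :=
  (measurePreserving_act g).integral_comp (measurableEmbedding_act g) F

variable [G.LocallyFinite]

/-- the events used in the `N`-th local approximation at the edge `xy` -/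
noncomputable def locEv (G : SimpleGraph V) [G.LocallyFinite] (N : ℕ) (x y : V) : Finset (Ev V) :=
  (R160.bal G x N ∪ R160.bal G y N) ×ˢ Finset.range N

lemma locEv_symm (N : ℕ) (x y : V) : locEv G N x y = locEv G N y x := by
  unfold locEv; rw [Finset.union_comm]

lemma locEv_map (hT : G.IsTree) (g : G ≃g G) (N : ℕ) (x y : V) :
    locEv G N (g x) (g y) = (locEv G N x y).map (evEquiv g).toEmbedding := by
  unfold locEv
  rw [bal_map hT, bal_map hT, ← Finset.map_union]
  ext ⟨v, j⟩
  simp only [Finset.mem_product, Finset.mem_map_equiv, evEquiv, Equiv.prodCongr_symm,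
    Equiv.prodCongr_apply, Prod.map, Finset.mem_range]
  rfl

lemma locEv_mono (hT : G.IsTree) (x y : V) : Monotone fun N => locEv G N x y := by
  intro N M h
  have h1 : ∀ v, R160.bal G v N ⊆ R160.bal G v M := by
    intro v u hu
    rw [mem_bal hT] at hu ⊢
    omega
  exact Finset.product_subset_product (Finset.union_subset_union (h1 x) (h1 y))
    (Finset.range_mono h)

lemma locEv_exhaust (hT : G.IsTree) (x y : V) (e : Ev V) : ∃ N, e ∈ locEv G N x y := by
  refine ⟨max (G.dist x e.1) (e.2 + 1), ?_⟩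
  simp only [locEv, Finset.mem_product, Finset.mem_union, mem_bal hT, Finset.mem_range]
  refine ⟨Or.inl (le_max_left _ _), ?_⟩
  have := le_max_right (G.dist x e.1) (e.2 + 1)
  omega

lemma locEv_disjoint (hT : G.IsTree) {N : ℕ} {x y z w : V} (hxy : G.Adj x y)
    (hz : 2 * N + 1 < G.dist x z) (hw : 2 * N + 1 < G.dist x w) :
    Disjoint (locEv G N x y) (locEv G N z w) := by
  rw [Finset.disjoint_left]
  rintro ⟨v, j⟩ h1 h2
  simp only [locEv, Finset.mem_product, Finset.mem_union, mem_bal hT] at h1 h2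
  have h3 : G.dist x y = 1 := SimpleGraph.dist_eq_one_iff_adj.mpr hxy
  have h4 : G.dist x v ≤ N + 1 := by
    rcases h1.1 with h | h
    · omega
    · have : G.dist x v ≤ G.dist x y + G.dist y v := hT.connected.dist_triangle
      omega
  rcases h2.1 with h | h
  · have h5 : G.dist x z ≤ G.dist x v + G.dist v z := hT.connected.dist_triangle
    rw [SimpleGraph.dist_comm (u := v) (v := z)] at h5
    omega
  · have h5 : G.dist x w ≤ G.dist x v + G.dist v w := hT.connected.dist_triangle
    rw [SimpleGraph.dist_comm (u := v) (v := w)] at h5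
    omega

/-- **BSV variance bound along paths** for bounded equivariant symmetric edge functions of the
noise. -/
theorem bsv_noise (hT : G.IsTree) {b : ℕ} (hb : 2 ≤ b) (hreg : G.IsRegularOfDegree (b + 1)) :
    ∃ C : ℝ, 0 < C ∧ ∀ (F : V → V → Om V → ℝ) (B : ℝ), (∀ x y, Measurable (F x y)) →
      (∀ x y ω, |F x y ω| ≤ B) → (∀ x y ω, G.Adj x y → F x y ω = F y x ω) →
      (∀ (g : G ≃g G) (x y : V) (ω : Om V), F x y (act g ω) = F (g x) (g y) ω) →
      ∀ (x y : V), G.Adj x y → ∀ (n : ℕ) (p : ℕ → V), IsNB G n p →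
        ∫ ω, (∑ i ∈ range n, (F (p i) (p (i + 1)) ω
          - ∫ ω', F (p i) (p (i + 1)) ω' ∂(PP V))) ^ 2 ∂(PP V)
        ≤ C * n * ∫ ω, (F x y ω - ∫ ω', F x y ω' ∂(PP V)) ^ 2 ∂(PP V) := by
  set q : ℝ := Real.sqrt b with hq
  have hb' : (2 : ℝ) ≤ b := by exact_mod_cast hb
  have hq2 : q ^ 2 = b := Real.sq_sqrt (by positivity)
  have hq1 : 1 < q := by
    rw [hq, Real.lt_sqrt (by norm_num)]
    linarith
  have hqd : ((b + 1 : ℕ) : ℝ) = q ^ 2 + 1 := by rw [hq2]; push_cast; ring
  refine ⟨Cbsv q + 1, by have := Cbsv_nonneg hq1.le; linarith, ?_⟩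
  intro F B hFm hFB hFs hFe x₀ y₀ h₀ n p hp
  have hB0 : 0 ≤ B := (abs_nonneg _).trans (hFB x₀ y₀ (fun _ => (0, 0)))
  have hFint : ∀ x y, Integrable (F x y) (PP V) := fun x y =>
    Integrable.of_bound (hFm x y).aestronglyMeasurable B (ae_of_all _ fun ω => hFB x y ω)
  set g : V → V → Om V → ℝ := fun x y ω => F x y ω - ∫ ω', F x y ω' ∂(PP V) with hg
  have hmean : ∀ x y, |∫ ω', F x y ω' ∂(PP V)| ≤ B := by
    intro x y
    have := norm_integral_le_of_norm_le_const (μ := PP V) (f := F x y) (C := B)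
      (ae_of_all _ fun ω => hFB x y ω)
    simpa using this
  have hgm : ∀ x y, Measurable (g x y) := fun x y => (hFm x y).sub_const _
  have hgB : ∀ x y ω, |g x y ω| ≤ 2 * B := by
    intro x y ω
    calc |g x y ω| ≤ |F x y ω| + |∫ ω', F x y ω' ∂(PP V)| := abs_sub _ _
      _ ≤ 2 * B := by linarith [hFB x y ω, hmean x y]
  have hgint : ∀ x y, Integrable (g x y) (PP V) := fun x y => (hFint x y).sub (integrable_const _)
  have hg0 : ∀ x y, ∫ ω, g x y ω ∂(PP V) = 0 := by
    intro x y
    simp only [hg]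
    rw [integral_sub (hFint x y) (integrable_const _)]
    simp
  have hge : ∀ (σ : G ≃g G) (x y : V) (ω : Om V), g x y (act σ ω) = g (σ x) (σ y) ω := by
    intro σ x y ω
    simp only [hg]
    rw [hFe σ x y ω]
    congr 1
    rw [← integral_act σ (F x y)]
    exact integral_congr_ae (ae_of_all _ fun ω => hFe σ x y ω)
  have hgs : ∀ x y, G.Adj x y → g x y = g y x := by
    intro x y h
    funext ω
    simp only [hg]
    rw [hFs x y ω h]
    congr 1
    exact integral_congr_ae (ae_of_all _ fun ω => hFs x y ω h)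
  -- local approximations
  set gN : ℕ → V → V → Om V → ℝ := fun N x y =>
    (PP V)[g x y | sig (unitInterval × unitInterval) (locEv G N x y)] with hgN
  have hPP : PP V = Measure.infinitePi (fun _ : Ev V =>
    (volume : Measure (unitInterval × unitInterval))) := rfl
  have hsm : ∀ N x y, StronglyMeasurable[sig (unitInterval × unitInterval) (locEv G N x y)]
      (gN N x y) := fun N x y => stronglyMeasurable_condExp
  have hL2N : ∀ N x y, MemLp (gN N x y) 2 (PP V) := by
    intro N x y
    have hbd : ∀ᵐ ω ∂(PP V), |gN N x y ω| ≤ 2 * B :=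
      ae_bdd_abs_condExp_of_ae_bdd_abs (ae_of_all _ (hgB x y))
    exact MemLp.of_bound ((hsm N x y).mono (sig_le _)).aestronglyMeasurable (2 * B) hbd
  have hL2 : ∀ x y, MemLp (g x y) 2 (PP V) := fun x y =>
    MemLp.of_bound (hgm x y).aestronglyMeasurable (2 * B) (ae_of_all _ (hgB x y))
  have hgNact : ∀ N (σ : G ≃g G) x y,
      (fun ω => gN N x y (act σ ω)) =ᵐ[PP V] gN N (σ x) (σ y) := by
    intro N σ x y
    have h1 := condExp_rei (volume : Measure (unitInterval × unitInterval)) (evEquiv σ)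
      (locEv G N x y) (hgint x y)
    rw [← hPP, ← locEv_map hT] at h1
    have h2 : (fun ω => g x y (rei (evEquiv σ) ω)) = g (σ x) (σ y) := by
      funext ω
      rw [rei_evEquiv, hge]
    rw [h2] at h1
    have h3 : (fun ω => gN N x y (act σ ω)) = fun ω => gN N x y (rei (evEquiv σ) ω) := by
      funext ω; rw [rei_evEquiv]
    rw [h3]
    exact h1
  have key := bsv_path_limit hT hreg hq1 hqd (PP V) gN g
    (fun N x y h => by simp only [hgN]; rw [hgs x y h, locEv_symm])
    (fun N x y _ => hL2N N x y) (fun x y _ => hL2 x y)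
    (fun N σ x y z w _ _ => by
      rw [← integral_act σ (fun ω => gN N x y ω * gN N z w ω)]
      refine integral_congr_ae ?_
      filter_upwards [hgNact N σ x y, hgNact N σ z w] with ω h1 h2
      rw [← h1, ← h2])
    (fun N x y hxy => by
      refine ⟨2 * N + 1, fun z w _ hz hw => ?_⟩
      have h1 := integral_mul_of_disjoint (volume : Measure (unitInterval × unitInterval))
        (locEv_disjoint hT hxy hz hw) (hsm N x y) (hsm N z w)
      rw [← hPP] at h1
      rw [h1]
      have h2 : ∫ ω, gN N x y ω ∂(PP V) = 0 := by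
        rw [← hg0 x y]
        exact integral_condExp (sig_le _)
      rw [h2, zero_mul])
    (fun x y _ => tendsto_condExp_sq (volume : Measure (unitInterval × unitInterval))
      (fun N => locEv G N x y) (locEv_mono hT x y) (locEv_exhaust hT x y) (hgm x y) (hgB x y))
    h₀ hp
  refine key.trans ?_
  have h5 : 0 ≤ ∫ ω, g x₀ y₀ ω ^ 2 ∂(PP V) := integral_nonneg fun ω => sq_nonneg _
  have h6 : (0 : ℝ) ≤ n := by positivity
  nlinarith [mul_nonneg h6 h5]

end Crest.Agent.R160.BSVNoise
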