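import Mathlib
import Crest.Agent.R160.Core

/-! Row 160: basic facts on the observation process. -/

set_option autoImplicit false
set_option linter.unusedSectionVars false

open MeasureTheory Finset

namespace Crest.Agent.R160

open scoped Classical

variable {V : Type*}

/-! ### bounds on scalars -/

lemma clk_mem (ω : Om V) (e : Ev V) : 0 ≤ clk ω e ∧ clk ω e ≤ 1 := ⟨(ω e).1.2.1, (ω e).1.2.2⟩

lemma nz_mem (ω : Om V) (e : Ev V) : |nz ω e| ≤ 1 := by
  have h1 := (ω e).2.2.1
  have h2 := (ω e).2.2.2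
  rw [abs_le]; unfold nz; constructor <;> linarith

lemma str_nonneg (j : ℕ) {u : ℝ} (hu : 0 ≤ u) : 0 ≤ str j u := by
  unfold str; split_ifs <;> linarith

lemma str_le (j : ℕ) {u : ℝ} : str j u ≤ 1 / 2 := by
  unfold str; split_ifs <;> linarith

lemma st_nonneg (ω : Om V) (e : Ev V) : 0 ≤ st ω e := str_nonneg _ (clk_mem ω e).1

lemma st_le (ω : Om V) (e : Ev V) : st ω e ≤ 1 / 2 := str_le _

lemma TT_arg_nonneg {s z : ℝ} (_hs : |s| ≤ 1) (hz : |z| ≤ 1) : 0 ≤ 1 + 2 * s * z + s ^ 2 := by
  have h : |s * z| ≤ |s| := by rw [abs_mul]; nlinarith [abs_nonneg s, abs_nonneg z]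
  have h2 := neg_abs_le (s * z)
  nlinarith [sq_abs s, abs_nonneg s, sq_nonneg (1 - |s|)]


lemma TT_quad {s z : ℝ} (hs : |s| ≤ 1) (hz : |z| ≤ 1) :
    TT s z + s * (TT s z ^ 2 - 1) / 2 = z := by
  have h := TT_arg_nonneg hs hz
  have h0 := Real.sqrt_nonneg (1 + 2 * s * z + s ^ 2)
  have h1 := Real.sq_sqrt h
  unfold TT
  set r := √(1 + 2 * s * z + s ^ 2)
  have h2 : (1 + r) ≠ 0 := by positivity
  have h3 : r ^ 2 = 1 + 2 * s * z + s ^ 2 := h1
  field_simp
  have : (2 * z + s) * (1 + r) * 2 + s * ((2 * z + s) ^ 2 - (1 + r) ^ 2) - 2 * z * (1 + r) ^ 2 = 0 := by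
    have e1 : (1 + r) ^ 2 = 1 + 2 * r + (1 + 2 * s * z + s ^ 2) := by rw [← h3]; ring
    rw [e1]; ring
  linarith

lemma abs_TT_le {s z : ℝ} (hs : |s| ≤ 1) (hz : |z| ≤ 1) : |TT s z| ≤ 1 := by
  have h := TT_arg_nonneg hs hz
  have h0 := Real.sqrt_nonneg (1 + 2 * s * z + s ^ 2)
  have hz' := abs_le.mp hz
  have hs' := abs_le.mp hs
  unfold TT
  set r := √(1 + 2 * s * z + s ^ 2) with hr
  have hpos : 0 < 1 + r := by linarith
  rw [abs_le]
  constructor
  · rw [le_div_iff₀ hpos]
    -- -(1+r) ≤ 2z+s, i.e. -1-2z-s ≤ r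
    have : -1 - 2 * z - s ≤ r := by
      by_cases hc : 2 * z + s ≤ 0
      · rw [hr]
        apply Real.le_sqrt_of_sq_le
        nlinarith [mul_nonneg (by linarith : (0:ℝ) ≤ 1 + z) (by linarith : (0:ℝ) ≤ -(2 * z + s))]
      · push Not at hc
        linarith
    linarith
  · rw [div_le_iff₀ hpos]
    have : 2 * z + s - 1 ≤ r := by
      by_cases hc : 0 ≤ 2 * z + s
      · rw [hr]
        apply Real.le_sqrt_of_sq_le
        nlinarith [mul_nonneg (by linarith : (0:ℝ) ≤ 1 - z) hc]
      · push Not at hc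
        linarith
    linarith


/-! ### the posterior -/

section Post

variable (G : SimpleGraph V) (θ : ℝ) (S : Finset V) (E : Finset (Ev V)) (o : Ev V → ℝ)

lemma abs_sg (A : Finset V) (v : V) : |sg A v| = 1 := by
  unfold sg; split_ifs <;> simp


lemma abs_sgE_one (A : Finset V) (e : Sym2 V) : |sgE A e| = 1 := by
  induction e with
  | h a b => simp [sgE, abs_mul, abs_sg]

lemma ow_congr {E : Finset (Ev V)} {o o' : Ev V → ℝ} (h : ∀ e ∈ E, o e = o' e) (A : Finset V) :
    ow E o A = ow E o' A :=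
  Finset.prod_congr rfl fun e he => by rw [h e he]

variable {E} {o} in
lemma num_congr {o' : Ev V → ℝ} (h : ∀ e ∈ E, o e = o' e) (f : Finset V → ℝ) :
    num G θ S E o f = num G θ S E o' f :=
  Finset.sum_congr rfl fun A _ => by rw [ow_congr h]

lemma ZZ_eq_num : ZZ G θ S E o = num G θ S E o (fun _ => 1) := rfl

lemma mean_eq_num (f : Finset V → ℝ) : mean G θ S E o f = num G θ S E o f / ZZ G θ S E o := rfl

variable {E} {o} in
lemma mean_congr {o' : Ev V → ℝ} (h : ∀ e ∈ E, o e = o' e) (f : Finset V → ℝ) :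
    mean G θ S E o f = mean G θ S E o' f := by
  rw [mean_eq_num, mean_eq_num, ZZ_eq_num, ZZ_eq_num, num_congr G θ S h, num_congr G θ S h]

variable {E} {o} in
lemma mm_congr {o' : Ev V → ℝ} (h : ∀ e ∈ E, o e = o' e) (v : V) :
    mm G θ S E o v = mm G θ S E o' v := mean_congr G θ S h _


variable {θ} in
lemma ew_pos (hθ : |θ| < 1) (A : Finset V) : 0 < ew G θ S A := by
  refine Finset.prod_pos fun e _ => ?_
  have h1 : |θ * sgE A e| < 1 := by rw [abs_mul, abs_sgE_one, mul_one]; exact hθ
  linarith [(abs_lt.mp h1).1]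

variable {E} {o} in
lemma ow_pos (ho : ∀ e ∈ E, |o e| < 1) (A : Finset V) : 0 < ow E o A := by
  refine Finset.prod_pos fun e he => ?_
  have h1 : |sg A e.1 * o e| < 1 := by rw [abs_mul, abs_sg, one_mul]; exact ho e he
  linarith [(abs_lt.mp h1).1]

variable {θ} {E} {o} in
lemma ZZ_pos (hθ : |θ| < 1) (ho : ∀ e ∈ E, |o e| < 1) : 0 < ZZ G θ S E o := by
  unfold ZZ num
  refine Finset.sum_pos (fun A _ => ?_) ⟨∅, Finset.empty_mem_powerset _⟩
  have := ew_pos G S hθ A
  have := ow_pos ho A
  positivity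


lemma num_smul (c : ℝ) (f : Finset V → ℝ) :
    num G θ S E o (fun A => c * f A) = c * num G θ S E o f := by
  unfold num; rw [Finset.mul_sum]; exact Finset.sum_congr rfl fun A _ => by ring

variable {θ} {E} {o} in
lemma abs_num_le (hθ : |θ| < 1) (ho : ∀ e ∈ E, |o e| < 1) {f : Finset V → ℝ} {c : ℝ}
    (hf : ∀ A, |f A| ≤ c) : |num G θ S E o f| ≤ c * ZZ G θ S E o := by
  unfold ZZ num
  rw [Finset.mul_sum]
  refine (Finset.abs_sum_le_sum_abs _ _).trans (Finset.sum_le_sum fun A _ => ?_)
  have h1 := ew_pos G S hθ A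
  have h2 := ow_pos ho A
  rw [abs_mul, abs_of_pos (by positivity : 0 < ew G θ S A * ow E o A), one_mul]
  exact mul_le_mul_of_nonneg_right (hf A) (by positivity)

variable {θ} {E} {o} in
lemma abs_mean_le (hθ : |θ| < 1) (ho : ∀ e ∈ E, |o e| < 1) {f : Finset V → ℝ} {c : ℝ}
    (hf : ∀ A, |f A| ≤ c) : |mean G θ S E o f| ≤ c := by
  have hZ := ZZ_pos G S hθ ho
  rw [mean_eq_num, abs_div, abs_of_pos hZ, div_le_iff₀ hZ]
  exact abs_num_le G S hθ ho hf

variable {θ} {E} {o} in
lemma abs_mm_le (hθ : |θ| < 1) (ho : ∀ e ∈ E, |o e| < 1) (v : V) : |mm G θ S E o v| ≤ 1 :=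
  abs_mean_le G S hθ ho fun A => (abs_sg A v).le

variable {θ} {E} {o} in
lemma abs_cov_le (hθ : |θ| < 1) (ho : ∀ e ∈ E, |o e| < 1) (v w : V) :
    |cov G θ S E o v w| ≤ 2 := by
  have h1 : |mean G θ S E o (fun A => sg A v * sg A w)| ≤ 1 :=
    abs_mean_le G S hθ ho fun A => by rw [abs_mul, abs_sg, abs_sg, one_mul]
  have h2 := abs_mm_le G S hθ ho v
  have h3 := abs_mm_le G S hθ ho w
  unfold cov
  have h4 : |mm G θ S E o v * mm G θ S E o w| ≤ 1 := by
    rw [abs_mul]; exact mul_le_one₀ h2 (abs_nonneg _) h3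
  refine (abs_sub _ _).trans ?_
  linarith

/-! ### inserting an event -/

variable {E} {o} in
lemma ow_insert {e : Ev V} (he : e ∉ E) (A : Finset V) :
    ow (insert e E) o A = (1 + sg A e.1 * o e) * ow E o A := by
  unfold ow; rw [Finset.prod_insert he]

variable {E} {o} in
lemma num_insert {e : Ev V} (he : e ∉ E) (f : Finset V → ℝ) :
    num G θ S (insert e E) o f
      = num G θ S E o f + o e * num G θ S E o (fun A => f A * sg A e.1) := by
  unfold num
  rw [Finset.mul_sum, ← Finset.sum_add_distrib]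
  refine Finset.sum_congr rfl fun A _ => ?_
  rw [ow_insert he]; ring

variable {E} {o} in
lemma ZZ_insert {e : Ev V} (he : e ∉ E) (hZ : ZZ G θ S E o ≠ 0) :
    ZZ G θ S (insert e E) o = ZZ G θ S E o * (1 + mm G θ S E o e.1 * o e) := by
  rw [ZZ_eq_num, num_insert G θ S he, ← ZZ_eq_num]
  have h : mm G θ S E o e.1 = num G θ S E o (fun A => sg A e.1) / ZZ G θ S E o := rfl
  rw [h]
  simp only [one_mul]
  field_simp

variable {E} {o} in
/-- the Bayes jump for a general functional -/
lemma mean_insert {e : Ev V} (he : e ∉ E) (hZ : ZZ G θ S E o ≠ 0)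
    (h1 : 1 + mm G θ S E o e.1 * o e ≠ 0) (f : Finset V → ℝ) :
    mean G θ S (insert e E) o f
      = mean G θ S E o f
        + (mean G θ S E o (fun A => f A * sg A e.1) - mean G θ S E o f * mm G θ S E o e.1)
          * (o e / (1 + mm G θ S E o e.1 * o e)) := by
  rw [mean_eq_num G θ S (insert e E) o f]
  rw [ZZ_insert G θ S he hZ, num_insert G θ S he]
  have e1 : num G θ S E o f = mean G θ S E o f * ZZ G θ S E o := by
    rw [mean_eq_num]; field_simp
  have e2 : num G θ S E o (fun A => f A * sg A e.1)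
      = mean G θ S E o (fun A => f A * sg A e.1) * ZZ G θ S E o := by
    rw [mean_eq_num]; field_simp
  rw [e1, e2]
  generalize mean G θ S E o f = a
  generalize mean G θ S E o (fun A => f A * sg A e.1) = b
  generalize hm : mm G θ S E o e.1 = m at h1 ⊢
  generalize ZZ G θ S E o = Z at hZ ⊢
  generalize o e = y at h1 ⊢
  have h2 : a + (b - a * m) * (y / (1 + m * y)) = (a * (1 + m * y) + (b - a * m) * y) / (1 + m * y) := by
    rw [add_div, mul_div_assoc a, div_self h1, mul_one, mul_div_assoc]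
  rw [h2, div_eq_div_iff (mul_ne_zero hZ h1) h1]
  ring


end Post

/-! ### the observation process: fixed point and causality -/

section Obs

variable (G : SimpleGraph V) (θ : ℝ) (S : Finset V)

lemma mem_before {E : Finset (Ev V)} {ω : Om V} {s : ℝ} {e : Ev V} :
    e ∈ before E ω s ↔ e ∈ E ∧ tm ω e < s := by simp [before]

lemma before_subset (E : Finset (Ev V)) (ω : Om V) (s : ℝ) : before E ω s ⊆ E :=
  Finset.filter_subset _ _

lemma before_card_lt {E : Finset (Ev V)} {ω : Om V} {e e' : Ev V}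
    (h : e' ∈ before E ω (tm ω e)) :
    (before E ω (tm ω e')).card < (before E ω (tm ω e)).card := by
  have hh := mem_before.mp h
  apply Finset.card_lt_card
  refine ⟨fun x hx => ?_, fun hc => ?_⟩
  · rw [mem_before] at hx ⊢
    exact ⟨hx.1, hx.2.trans hh.2⟩
  · have := mem_before.mp (hc h)
    exact lt_irrefl _ this.2

lemma before_card_lt_card {E : Finset (Ev V)} {ω : Om V} {e : Ev V} (h : e ∈ E) :
    (before E ω (tm ω e)).card < E.card := by
  apply Finset.card_lt_card
  refine ⟨before_subset _ _ _, fun hc => ?_⟩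
  exact lt_irrefl _ (mem_before.mp (hc h)).2

lemma stepObs_eq (E : Finset (Ev V)) (ω : Om V) (o : Ev V → ℝ) (e : Ev V) :
    stepObs G θ S E ω o e = if e ∈ E then
      st ω e * TT (st ω e * mm G θ S (before E ω (tm ω e)) o e.1) (nz ω e) else 0 := rfl

lemma stepObs_congr {E : Finset (Ev V)} {ω : Om V} {o o' : Ev V → ℝ} {e : Ev V}
    (h : ∀ e' ∈ before E ω (tm ω e), o e' = o' e') :
    stepObs G θ S E ω o e = stepObs G θ S E ω o' e := by
  rw [stepObs_eq, stepObs_eq, mm_congr G θ S h]

lemma stepObs_of_not_mem {E : Finset (Ev V)} {ω : Om V} {o : Ev V → ℝ} {e : Ev V}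
    (h : e ∉ E) : stepObs G θ S E ω o e = 0 := by
  unfold stepObs; rw [if_neg h]

lemma iter_stable (E : Finset (Ev V)) (ω : Om V) (k : ℕ) (e : Ev V)
    (h : (before E ω (tm ω e)).card < k) :
    (stepObs G θ S E ω)^[k] (fun _ => 0) e = (stepObs G θ S E ω)^[k + 1] (fun _ => 0) e := by
  induction k generalizing e with
  | zero => omega
  | succ k ih =>
    rw [Function.iterate_succ_apply' (n := k), Function.iterate_succ_apply' (n := k + 1)]
    apply stepObs_congr
    intro e' he'
    apply ih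
    have := before_card_lt he'
    omega

/-- the fixed point equation of the observations -/
lemma obs_eq (E : Finset (Ev V)) (ω : Om V) (e : Ev V) :
    obs G θ S E ω e = stepObs G θ S E ω (obs G θ S E ω) e := by
  by_cases he : e ∈ E
  · have h := iter_stable G θ S E ω E.card e (before_card_lt_card he)
    rw [Function.iterate_succ_apply'] at h
    exact h
  · rw [stepObs_of_not_mem G θ S he]
    unfold obs
    cases hc : E.card with
    | zero => rfl
    | succ n => rw [Function.iterate_succ_apply', stepObs_of_not_mem G θ S he]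

lemma obs_of_mem {E : Finset (Ev V)} {ω : Om V} {e : Ev V} (he : e ∈ E) :
    obs G θ S E ω e
      = st ω e * TT (st ω e * mt G θ S E ω (tm ω e) e.1) (nz ω e) := by
  rw [obs_eq]; unfold stepObs; rw [if_pos he]; rfl

lemma obs_of_not_mem {E : Finset (Ev V)} {ω : Om V} {e : Ev V} (he : e ∉ E) :
    obs G θ S E ω e = 0 := by
  rw [obs_eq, stepObs_of_not_mem G θ S he]

/-- causality: on a subset closed under predecessors the observations agree -/
lemma obs_causal {D E : Finset (Ev V)} {ω : Om V} (hDE : D ⊆ E)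
    (hD : ∀ e ∈ D, before E ω (tm ω e) ⊆ D) {e : Ev V} (he : e ∈ D) :
    obs G θ S D ω e = obs G θ S E ω e := by
  induction hn : (before E ω (tm ω e)).card using Nat.strong_induction_on generalizing e with
  | _ n ih =>
    subst hn
    rw [obs_of_mem G θ S he, obs_of_mem G θ S (hDE he)]
    have hb : before D ω (tm ω e) = before E ω (tm ω e) := by
      ext x
      rw [mem_before]
      constructor
      · rintro ⟨h1, h2⟩; exact mem_before.mpr ⟨hDE h1, h2⟩
      · intro h; exact ⟨hD e he h, (mem_before.mp h).2⟩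
    have : mt G θ S D ω (tm ω e) e.1 = mt G θ S E ω (tm ω e) e.1 := by
      unfold mt
      rw [hb]
      apply mm_congr
      intro e' he'
      exact ih _ (before_card_lt he') (hD e he he') rfl
    rw [this]

lemma obs_before {E : Finset (Ev V)} {ω : Om V} {s : ℝ} {e : Ev V}
    (he : e ∈ before E ω s) :
    obs G θ S (before E ω s) ω e = obs G θ S E ω e := by
  refine obs_causal G θ S (before_subset _ _ _) (fun e he x hx => ?_) he
  rw [mem_before] at hx he ⊢
  exact ⟨hx.1, hx.2.trans he.2⟩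

/-- the observations only depend on the noise of the events in `E` -/
lemma obs_congr_noise {E : Finset (Ev V)} {ω ω' : Om V} (h : ∀ e ∈ E, ω e = ω' e) :
    obs G θ S E ω = obs G θ S E ω' := by
  have hb : ∀ e ∈ E, before E ω (tm ω e) = before E ω' (tm ω' e) := by
    intro e he
    have h1 : tm ω e = tm ω' e := by unfold tm clk; rw [h e he]
    rw [h1]
    apply Finset.filter_congr
    intro x hx
    have : tm ω x = tm ω' x := by unfold tm clk; rw [h x hx]
    rw [this]
  have hs : ∀ o, stepObs G θ S E ω o = stepObs G θ S E ω' o := by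
    intro o
    funext e
    rw [stepObs_eq, stepObs_eq]
    by_cases he : e ∈ E
    · rw [if_pos he, if_pos he, hb e he]
      have h2 : st ω e = st ω' e := by unfold st clk; rw [h e he]
      have h3 : nz ω e = nz ω' e := by unfold nz; rw [h e he]
      rw [h2, h3]
    · rw [if_neg he, if_neg he]
  unfold obs
  rw [show stepObs G θ S E ω = stepObs G θ S E ω' from funext hs]

lemma before_congr_noise {E : Finset (Ev V)} {ω ω' : Om V} (h : ∀ e ∈ E, ω e = ω' e) (s : ℝ) :
    before E ω s = before E ω' s := by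
  apply Finset.filter_congr
  intro x hx
  have : tm ω x = tm ω' x := by unfold tm clk; rw [h x hx]
  rw [this]



variable {θ} in
lemma obs_bound (hθ : |θ| < 1) (E : Finset (Ev V)) (ω : Om V) (e : Ev V) :
    |obs G θ S E ω e| ≤ st ω e := by
  induction hn : (before E ω (tm ω e)).card using Nat.strong_induction_on generalizing e with
  | _ n ih =>
    subst hn
    by_cases he : e ∈ E
    · rw [obs_of_mem G θ S he, abs_mul, abs_of_nonneg (st_nonneg ω e)]
      have hm : |mt G θ S E ω (tm ω e) e.1| ≤ 1 := by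
        unfold mt
        apply abs_mm_le G S hθ
        intro e' he'
        have h1 := ih _ (before_card_lt he') e' rfl
        have h2 := st_le ω e'
        linarith
      have h3 : |st ω e * mt G θ S E ω (tm ω e) e.1| ≤ 1 := by
        rw [abs_mul, abs_of_nonneg (st_nonneg ω e)]
        have := st_le ω e
        have := st_nonneg ω e
        nlinarith [abs_nonneg (mt G θ S E ω (tm ω e) e.1)]
      have h4 := abs_TT_le h3 (nz_mem ω e)
      have := st_nonneg ω e
      nlinarith
    · rw [obs_of_not_mem G θ S he, abs_zero]; exact st_nonneg ω e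

variable {θ} in
lemma obs_lt_one (hθ : |θ| < 1) (E : Finset (Ev V)) (ω : Om V) (e : Ev V) :
    |obs G θ S E ω e| < 1 := by
  have h1 := obs_bound G S hθ E ω e
  have h2 := st_le ω e
  linarith

variable {θ} in
lemma abs_mt_le (hθ : |θ| < 1) (E : Finset (Ev V)) (ω : Om V) (s : ℝ) (v : V) :
    |mt G θ S E ω s v| ≤ 1 :=
  abs_mm_le G S hθ (fun e _ => obs_lt_one G S hθ E ω e) v

variable {θ} in
lemma abs_ct_le (hθ : |θ| < 1) (E : Finset (Ev V)) (ω : Om V) (s : ℝ) (v w : V) :
    |ct G θ S E ω s v w| ≤ 2 :=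
  abs_cov_le G S hθ (fun e _ => obs_lt_one G S hθ E ω e) v w

end Obs

end Crest.Agent.R160
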