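import Mathlib
import Crest.Agent.R160.Proc
import Crest.Agent.R160.Defs

-- ▼ part R160/Meas
section

/-! Row 160: measurability of the process. -/

set_option autoImplicit false
set_option linter.unusedSectionVars false

open MeasureTheory Finset

namespace Crest.Agent.R160

open scoped Classical

variable {V : Type*}

/-! ### coordinates -/

lemma measurable_coord (e : Ev V) : Measurable fun ω : Om V => ω e :=
  measurable_pi_apply e

@[fun_prop]
lemma measurable_clk (e : Ev V) : Measurable fun ω : Om V => clk ω e := by
  unfold clk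
  exact measurable_subtype_coe.comp (measurable_fst.comp (measurable_coord e))

@[fun_prop]
lemma measurable_nz (e : Ev V) : Measurable fun ω : Om V => nz ω e := by
  unfold nz
  exact ((measurable_subtype_coe.comp (measurable_snd.comp (measurable_coord e))).const_mul 2).sub_const 1

@[fun_prop]
lemma measurable_tm (e : Ev V) : Measurable fun ω : Om V => tm ω e := by
  unfold tm
  exact (measurable_clk e).const_add _

@[fun_prop]
lemma measurable_str (j : ℕ) : Measurable (str j) := by
  unfold str
  refine Measurable.ite measurableSet_Iio ?_ measurable_const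
  by_cases h : j = 0
  · simp only [h, if_true]; fun_prop
  · simp only [h, if_false]; fun_prop

@[fun_prop]
lemma measurable_st (e : Ev V) : Measurable fun ω : Om V => st ω e := by
  unfold st
  exact (measurable_str e.2).comp (measurable_clk e)

lemma measurable_TT : Measurable fun p : ℝ × ℝ => TT p.1 p.2 := by
  unfold TT
  fun_prop

@[fun_prop]
lemma Measurable.TT {α : Type*} [MeasurableSpace α] {f g : α → ℝ} (hf : Measurable f)
    (hg : Measurable g) : Measurable fun a => TT (f a) (g a) :=
  measurable_TT.comp (hf.prodMk hg)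

@[fun_prop]
lemma measurable_nul (e : Ev V) : Measurable fun ω : Om V => nul ω e := by
  unfold nul; fun_prop

/-! ### posterior with a time filter -/

section Post

variable {α : Type*} [MeasurableSpace α]

variable (G : SimpleGraph V) (θ : ℝ) (S : Finset V) (E : Finset (Ev V))

variable {o : α → Ev V → ℝ} {T : Ev V → α → ℝ} {τ : α → ℝ}

lemma measurable_ow_filter (ho : ∀ e ∈ E, Measurable fun a => o a e) (hT : ∀ e ∈ E, Measurable (T e))
    (hτ : Measurable τ) (A : Finset V) :
    Measurable fun a => ow (E.filter fun e => T e a < τ a) (o a) A := by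
  have h : (fun a => ow (E.filter fun e => T e a < τ a) (o a) A)
      = fun a => ∏ e ∈ E, (if T e a < τ a then 1 + sg A e.1 * o a e else 1) := by
    funext a
    unfold ow
    rw [Finset.prod_filter]
  rw [h]
  refine Finset.measurable_fun_prod _ fun e he => ?_
  refine Measurable.ite (measurableSet_lt (hT e he) hτ) ?_ measurable_const
  exact ((ho e he).const_mul _).const_add _

lemma measurable_num_filter (ho : ∀ e ∈ E, Measurable fun a => o a e) (hT : ∀ e ∈ E, Measurable (T e))
    (hτ : Measurable τ) (f : Finset V → ℝ) :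
    Measurable fun a => num G θ S (E.filter fun e => T e a < τ a) (o a) f := by
  unfold num
  exact Finset.measurable_fun_sum _ fun A _ =>
    ((measurable_ow_filter E ho hT hτ A).const_mul _).const_mul _

lemma measurable_ZZ_filter (ho : ∀ e ∈ E, Measurable fun a => o a e) (hT : ∀ e ∈ E, Measurable (T e))
    (hτ : Measurable τ) :
    Measurable fun a => ZZ G θ S (E.filter fun e => T e a < τ a) (o a) := by
  exact measurable_num_filter G θ S E ho hT hτ _

lemma measurable_mean_filter (ho : ∀ e ∈ E, Measurable fun a => o a e) (hT : ∀ e ∈ E, Measurable (T e))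
    (hτ : Measurable τ) (f : Finset V → ℝ) :
    Measurable fun a => mean G θ S (E.filter fun e => T e a < τ a) (o a) f := by
  simp only [mean_eq_num]
  exact (measurable_num_filter G θ S E ho hT hτ f).div (measurable_ZZ_filter G θ S E ho hT hτ)

lemma measurable_mm_filter (ho : ∀ e ∈ E, Measurable fun a => o a e) (hT : ∀ e ∈ E, Measurable (T e))
    (hτ : Measurable τ) (v : V) :
    Measurable fun a => mm G θ S (E.filter fun e => T e a < τ a) (o a) v :=
  measurable_mean_filter G θ S E ho hT hτ _

lemma measurable_cov_filter (ho : ∀ e ∈ E, Measurable fun a => o a e) (hT : ∀ e ∈ E, Measurable (T e))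
    (hτ : Measurable τ) (v w : V) :
    Measurable fun a => cov G θ S (E.filter fun e => T e a < τ a) (o a) v w := by
  unfold cov
  exact (measurable_mean_filter G θ S E ho hT hτ _).sub
    ((measurable_mm_filter G θ S E ho hT hτ v).mul (measurable_mm_filter G θ S E ho hT hτ w))


lemma measurable_num (f : Finset V → ℝ) :
    Measurable fun o : Ev V → ℝ => num G θ S E o f := by
  unfold num ow; fun_prop

lemma measurable_ZZ : Measurable fun o : Ev V → ℝ => ZZ G θ S E o := by
  unfold ZZ num ow; fun_prop

lemma measurable_mean (f : Finset V → ℝ) :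
    Measurable fun o : Ev V → ℝ => mean G θ S E o f := by
  simp only [mean_eq_num]
  exact (measurable_num G θ S E f).div (measurable_ZZ G θ S E)

lemma measurable_mm (v : V) : Measurable fun o : Ev V → ℝ => mm G θ S E o v :=
  measurable_mean G θ S E _


end Post

/-! ### the process -/

section Obs

variable (G : SimpleGraph V) (θ : ℝ) (S : Finset V) (E : Finset (Ev V))

lemma measurable_stepObs {o : Om V → Ev V → ℝ} (ho : ∀ e, Measurable fun ω => o ω e) (e : Ev V) :
    Measurable fun ω : Om V => stepObs G θ S E ω (o ω) e := by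
  unfold stepObs
  by_cases he : e ∈ E
  · simp only [he, if_true]
    have h := measurable_mm_filter G θ S E (o := o) (T := fun e ω => tm ω e) (τ := fun ω => tm ω e)
      (fun e _ => ho e) (fun e _ => measurable_tm e) (measurable_tm e) e.1
    exact (measurable_st e).mul (Measurable.TT ((measurable_st e).mul h) (measurable_nz e))
  · simp only [he, if_false]; exact measurable_const

@[fun_prop]
lemma measurable_obs (e : Ev V) : Measurable fun ω : Om V => obs G θ S E ω e := by
  unfold obs
  generalize E.card = n
  induction n generalizing e with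
  | zero => exact measurable_const
  | succ n ih =>
    simp only [Function.iterate_succ_apply']
    exact measurable_stepObs G θ S E ih e

@[fun_prop]
lemma measurable_obs' : Measurable fun ω : Om V => obs G θ S E ω :=
  measurable_pi_iff.mpr fun e => measurable_obs G θ S E e

/-- joint measurability of the magnetization -/
lemma measurable_mt_joint (v : V) :
    Measurable fun p : Om V × ℝ => mt G θ S E p.1 p.2 v := by
  unfold mt before
  exact measurable_mm_filter G θ S E (o := fun p : Om V × ℝ => obs G θ S E p.1)
    (T := fun e p => tm p.1 e) (τ := fun p => p.2)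
    (fun e _ => (measurable_obs G θ S E e).comp measurable_fst)
    (fun e _ => (measurable_tm e).comp measurable_fst) measurable_snd v

lemma measurable_ct_joint (v w : V) :
    Measurable fun p : Om V × ℝ => ct G θ S E p.1 p.2 v w := by
  unfold ct before
  exact measurable_cov_filter G θ S E (o := fun p : Om V × ℝ => obs G θ S E p.1)
    (T := fun e p => tm p.1 e) (τ := fun p => p.2)
    (fun e _ => (measurable_obs G θ S E e).comp measurable_fst)
    (fun e _ => (measurable_tm e).comp measurable_fst) measurable_snd v w

lemma measurable_mean_joint (f : Finset V → ℝ) :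
    Measurable fun p : Om V × ℝ => mean G θ S (before E p.1 p.2) (obs G θ S E p.1) f := by
  unfold before
  exact measurable_mean_filter G θ S E (o := fun p : Om V × ℝ => obs G θ S E p.1)
    (T := fun e p => tm p.1 e) (τ := fun p => p.2)
    (fun e _ => (measurable_obs G θ S E e).comp measurable_fst)
    (fun e _ => (measurable_tm e).comp measurable_fst) measurable_snd f

lemma measurable_pair_const (t : ℝ) : Measurable fun ω : Om V => (ω, t) :=
  measurable_prodMk_right

lemma measurable_pair_tm (e : Ev V) : Measurable fun ω : Om V => (ω, tm ω e) :=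
  Measurable.prodMk measurable_id (measurable_tm e)

@[fun_prop]
lemma measurable_mt (t : ℝ) (v : V) : Measurable fun ω : Om V => mt G θ S E ω t v := by
  have h := (measurable_mt_joint G θ S E v).comp (measurable_pair_const t)
  exact h

@[fun_prop]
lemma measurable_ct (t : ℝ) (v w : V) : Measurable fun ω : Om V => ct G θ S E ω t v w := by
  have h := (measurable_ct_joint G θ S E v w).comp (measurable_pair_const t)
  exact h

@[fun_prop]
lemma measurable_mt_tm (e : Ev V) (v : V) :
    Measurable fun ω : Om V => mt G θ S E ω (tm ω e) v := by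
  have h := (measurable_mt_joint G θ S E v).comp (measurable_pair_tm e)
  exact h

@[fun_prop]
lemma measurable_ct_tm (e : Ev V) (v w : V) :
    Measurable fun ω : Om V => ct G θ S E ω (tm ω e) v w := by
  have h := (measurable_ct_joint G θ S E v w).comp (measurable_pair_tm e)
  exact h

@[fun_prop]
lemma measurable_mfin (t : ℝ) (v : V) : Measurable fun ω : Om V => mfin G θ S ω t v :=
  measurable_mt G θ S _ t v

lemma measurable_minf [G.LocallyFinite] (t : ℝ) (v : V) :
    Measurable fun ω : Om V => minf G θ t v ω := by
  unfold minf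
  exact Measurable.limsup fun n => measurable_mfin G θ _ t v

end Obs

end Crest.Agent.R160
end

-- ▼ part R160/Resample
section

/-! Row 160: resampling one coordinate of the noise; the channel lemma. -/

set_option autoImplicit false
set_option linter.unusedSectionVars false

open MeasureTheory Finset
open scoped Classical ENNReal

namespace Crest.Agent.R160

/-! ### updating one coordinate of a product measure -/

theorem measurePreserving_update {ι : Type*} [DecidableEq ι] {X : ι → Type*}
    [∀ i, MeasurableSpace (X i)]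
    (μ : ∀ i, Measure (X i)) [∀ i, IsProbabilityMeasure (μ i)] (i : ι) :
    MeasurePreserving (fun p : (∀ j, X j) × X i => Function.update p.1 i p.2)
      ((Measure.infinitePi μ).prod (μ i)) (Measure.infinitePi μ) := by
  refine ⟨measurable_update', ?_⟩
  refine Measure.eq_infinitePi μ fun s t ht => ?_
  rw [Measure.map_apply measurable_update' (MeasurableSet.pi s.countable_toSet fun j _ => ht j)]
  have hpre : (fun p : (∀ j, X j) × X i => Function.update p.1 i p.2) ⁻¹' (Set.pi s t)
      = (Set.pi (s.erase i : Finset ι) t) ×ˢ (if i ∈ s then t i else Set.univ) := by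
    ext p
    simp only [Set.mem_preimage, Set.mem_pi, Finset.mem_coe, Set.mem_prod, Finset.mem_erase]
    constructor
    · intro h
      refine ⟨fun j hj => ?_, ?_⟩
      · have := h j hj.2
        rwa [Function.update_of_ne hj.1] at this
      · split_ifs with hi
        · have := h i hi
          rwa [Function.update_self] at this
        · trivial
    · rintro ⟨h1, h2⟩ j hj
      by_cases hji : j = i
      · subst hji
        rw [Function.update_self]
        rwa [if_pos hj] at h2
      · rw [Function.update_of_ne hji]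
        exact h1 j ⟨hji, hj⟩
  rw [hpre, Measure.prod_prod, Measure.infinitePi_pi μ fun j _ => ht j]
  by_cases hi : i ∈ s
  · rw [if_pos hi, mul_comm, Finset.mul_prod_erase s (fun j => μ j (t j)) hi]
  · rw [if_neg hi, measure_univ, mul_one, Finset.erase_eq_of_notMem hi]

variable {V : Type*}

instance : IsProbabilityMeasure (PP V) := by unfold PP; infer_instance

/-- resample the clock and the noise of `e` -/
theorem mp_update (e : Ev V) :
    MeasurePreserving (fun p : Om V × (unitInterval × unitInterval) => Function.update p.1 e p.2)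
      ((PP V).prod volume) (PP V) :=
  measurePreserving_update (fun _ : Ev V => (volume : Measure (unitInterval × unitInterval))) e

/-- replace the noise of `e` by `z` -/
noncomputable def updz (ω : Om V) (e : Ev V) (z : unitInterval) : Om V :=
  Function.update ω e ((ω e).1, z)

lemma updz_same (ω : Om V) (e : Ev V) (z : unitInterval) : updz ω e z e = ((ω e).1, z) := by
  unfold updz; rw [Function.update_self]

lemma updz_ne (ω : Om V) {e e' : Ev V} (h : e' ≠ e) (z : unitInterval) : updz ω e z e' = ω e' := by
  unfold updz; rw [Function.update_of_ne h]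

lemma updz_fst (ω : Om V) (e e' : Ev V) (z : unitInterval) : (updz ω e z e').1 = (ω e').1 := by
  by_cases h : e' = e
  · subst h; rw [updz_same]
  · rw [updz_ne ω h]

@[simp] lemma clk_updz (ω : Om V) (e e' : Ev V) (z : unitInterval) :
    clk (updz ω e z) e' = clk ω e' := by unfold clk; rw [updz_fst]

@[simp] lemma tm_updz (ω : Om V) (e e' : Ev V) (z : unitInterval) :
    tm (updz ω e z) e' = tm ω e' := by unfold tm; rw [clk_updz]

@[simp] lemma st_updz (ω : Om V) (e e' : Ev V) (z : unitInterval) :
    st (updz ω e z) e' = st ω e' := by unfold st; rw [clk_updz]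

lemma nz_updz_same (ω : Om V) (e : Ev V) (z : unitInterval) :
    nz (updz ω e z) e = 2 * (z : ℝ) - 1 := by unfold nz; rw [updz_same]


@[simp] lemma before_updz (E : Finset (Ev V)) (ω : Om V) (e : Ev V) (z : unitInterval) (s : ℝ) :
    before (E := E) (updz ω e z) s = before E ω s := by
  unfold before
  simp only [tm_updz]

lemma measurable_updz (e : Ev V) : Measurable fun p : Om V × unitInterval => updz p.1 e p.2 := by
  unfold updz
  have h : Measurable fun p : Om V × unitInterval => (p.1, ((p.1 e).1, p.2)) :=
    measurable_fst.prodMk (((measurable_fst.comp ((measurable_coord e).comp measurable_fst))).prodMk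
      measurable_snd)
  exact (measurable_update' (a := e)).comp h

/-- resample the noise of `e` -/
theorem mp_updz (e : Ev V) :
    MeasurePreserving (fun p : Om V × unitInterval => updz p.1 e p.2) ((PP V).prod volume) (PP V) := by
  refine ⟨measurable_updz e, ?_⟩
  -- write `ω = update ω' e (u, z')`
  have h1 := mp_update (V := V) e
  have h2 : MeasurePreserving (fun p : (Om V × (unitInterval × unitInterval)) × unitInterval =>
      (Function.update p.1.1 e p.1.2, p.2)) (((PP V).prod volume).prod volume)
      ((PP V).prod volume) := h1.prod (MeasurePreserving.id _)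
  have h3 : MeasurePreserving (fun p : (Om V × (unitInterval × unitInterval)) × unitInterval =>
      (p.1.1, (p.1.2.1, p.2))) (((PP V).prod volume).prod volume)
      ((PP V).prod (volume : Measure (unitInterval × unitInterval))) := by
    have ha : MeasurePreserving
        (MeasurableEquiv.prodAssoc : (Om V × (unitInterval × unitInterval)) × unitInterval ≃ᵐ _)
        (((PP V).prod volume).prod volume) ((PP V).prod (volume.prod volume)) :=
      measurePreserving_prodAssoc _ _ _
    have hb : MeasurePreserving (fun q : (unitInterval × unitInterval) × unitInterval =>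
        (q.1.1, q.2)) ((volume : Measure (unitInterval × unitInterval)).prod volume)
        (volume : Measure (unitInterval × unitInterval)) := by
      have hf : MeasurePreserving (Prod.fst : unitInterval × unitInterval → unitInterval)
          volume volume := measurePreserving_fst
      exact hf.prod (MeasurePreserving.id _)
    exact ((MeasurePreserving.id (PP V)).prod hb).comp ha
  have h4 := h1.comp h3
  have h5 : (fun p : Om V × unitInterval => updz p.1 e p.2) ∘
      (fun p : (Om V × (unitInterval × unitInterval)) × unitInterval =>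
      (Function.update p.1.1 e p.1.2, p.2))
      = (fun p : Om V × (unitInterval × unitInterval) => Function.update p.1 e p.2) ∘
      (fun p : (Om V × (unitInterval × unitInterval)) × unitInterval =>
      (p.1.1, (p.1.2.1, p.2))) := by
    funext p
    simp only [Function.comp_apply, updz, Function.update_self, Function.update_idem]
  rw [← h2.map_eq, Measure.map_map (measurable_updz e) h2.measurable, h5, h4.map_eq]

/-! ### the channel lemma -/

lemma TT_inv {s y : ℝ} (hs : |s| ≤ 1) (hy : |y| ≤ 1) : TT s (y + s * (y ^ 2 - 1) / 2) = y := by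
  unfold TT
  have h1 : |s * y| ≤ 1 := by rw [abs_mul]; exact mul_le_one₀ hs (abs_nonneg _) hy
  have h2 := (abs_le.mp h1).1
  have h3 : 1 + 2 * s * (y + s * (y ^ 2 - 1) / 2) + s ^ 2 = (1 + s * y) ^ 2 := by ring
  rw [h3, Real.sqrt_sq (by linarith)]
  rw [div_eq_iff (by linarith)]
  ring

/-- the inverse of the sampling map on `[0,1]` -/
noncomputable def gT (s x : ℝ) : ℝ := x + s * (x ^ 2 - x)

lemma TT_gT {s x : ℝ} (hs : |s| ≤ 1) (hx0 : 0 ≤ x) (hx1 : x ≤ 1) :
    TT s (2 * gT s x - 1) = 2 * x - 1 := by
  have h : |2 * x - 1| ≤ 1 := by rw [abs_le]; constructor <;> linarith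
  rw [← TT_inv hs h]
  congr 1
  unfold gT
  ring

lemma gT_mono {s : ℝ} (hs : |s| ≤ 1) : MonotoneOn (gT s) (Set.Icc 0 1) := by
  intro x hx y hy hxy
  unfold gT
  have h1 := abs_le.mp hs
  have : y + s * (y ^ 2 - y) - (x + s * (x ^ 2 - x)) = (y - x) * (1 + s * (x + y - 1)) := by ring
  have h2 : |s * (x + y - 1)| ≤ 1 := by
    rw [abs_mul]
    refine mul_le_one₀ hs (abs_nonneg _) ?_
    rw [abs_le]; constructor <;> linarith [hx.1, hx.2, hy.1, hy.2]
  have h3 := (abs_le.mp h2).1
  nlinarith [mul_nonneg (sub_nonneg.mpr hxy) (by linarith : 0 ≤ 1 + s * (x + y - 1))]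

lemma gT_image {s : ℝ} (hs : |s| ≤ 1) : gT s '' Set.Icc 0 1 = Set.Icc 0 1 := by
  have h0 : gT s 0 = 0 := by unfold gT; ring
  have h1 : gT s 1 = 1 := by unfold gT; ring
  apply Set.Subset.antisymm
  · rintro _ ⟨x, hx, rfl⟩
    have ha := gT_mono hs (Set.left_mem_Icc.mpr zero_le_one) hx hx.1
    have hb := gT_mono hs hx (Set.right_mem_Icc.mpr zero_le_one) hx.2
    rw [h0] at ha
    rw [h1] at hb
    exact ⟨ha, hb⟩
  · have hc : ContinuousOn (gT s) (Set.Icc 0 1) := by unfold gT; fun_prop
    have := intermediate_value_Icc zero_le_one hc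
    rwa [h0, h1] at this

lemma gT_deriv (s x : ℝ) : HasDerivAt (gT s) (1 + s * (2 * x - 1)) x := by
  unfold gT
  have h := (hasDerivAt_id' x).fun_add (((hasDerivAt_pow 2 x).fun_sub (hasDerivAt_id' x)).const_mul s)
  exact h.congr_deriv (by norm_num)


/-- the channel lemma, Bochner form -/
theorem integral_TT {s : ℝ} (hs : |s| ≤ 1) (φ : ℝ → ℝ) :
    ∫ z : unitInterval, φ (TT s (2 * (z : ℝ) - 1))
      = ∫ x : unitInterval, (1 + s * (2 * (x : ℝ) - 1)) * φ (2 * (x : ℝ) - 1) := by
  have hm := unitInterval.measurePreserving_coe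
  have he := unitInterval.measurableEmbedding_coe
  have e1 : ∫ z : unitInterval, φ (TT s (2 * (z : ℝ) - 1))
      = ∫ z in Set.Icc (0:ℝ) 1, φ (TT s (2 * z - 1)) := by
    rw [← hm.integral_comp he (fun z => φ (TT s (2 * z - 1)))]
  have e2 : ∫ x : unitInterval, (1 + s * (2 * (x : ℝ) - 1)) * φ (2 * (x : ℝ) - 1)
      = ∫ x in Set.Icc (0:ℝ) 1, (1 + s * (2 * x - 1)) * φ (2 * x - 1) := by
    rw [← hm.integral_comp he (fun x => (1 + s * (2 * x - 1)) * φ (2 * x - 1))]
  rw [e1, e2]
  have h := integral_image_eq_integral_deriv_smul_of_monotoneOn (f := gT s)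
    (f' := fun x => 1 + s * (2 * x - 1)) (s := Set.Icc (0:ℝ) 1) measurableSet_Icc
    (fun x _ => (gT_deriv s x).hasDerivWithinAt) (gT_mono hs) (fun z => φ (TT s (2 * z - 1)))
  rw [gT_image hs] at h
  rw [h]
  refine setIntegral_congr_fun measurableSet_Icc fun x hx => ?_
  simp only [smul_eq_mul]
  rw [TT_gT hs hx.1 hx.2]

/-- mean of the noise is zero -/
lemma integral_noise : ∫ x : unitInterval, (2 * (x : ℝ) - 1) = 0 := by
  have hm := unitInterval.measurePreserving_coe
  have he := unitInterval.measurableEmbedding_coe
  have e1 : ∫ z : unitInterval, (2 * (z : ℝ) - 1) = ∫ z in Set.Icc (0:ℝ) 1, (2 * z - 1) := by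
    rw [← hm.integral_comp he (fun z => 2 * z - 1)]
  rw [e1, integral_Icc_eq_integral_Ioc, ← intervalIntegral.integral_of_le zero_le_one]
  have h : ∀ x ∈ Set.uIcc (0:ℝ) 1, HasDerivAt (fun x : ℝ => x ^ 2 - x) (2 * x - 1) x := by
    intro x _
    have h := (hasDerivAt_pow 2 x).fun_sub (hasDerivAt_id' x)
    exact h.congr_deriv (by norm_num)
  rw [intervalIntegral.integral_eq_sub_of_hasDerivAt h
    ((by fun_prop : Continuous fun x : ℝ => 2 * x - 1).intervalIntegrable 0 1)]
  norm_num

end Crest.Agent.R160
end

-- ▼ part R160/Causal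

/-! Row 160: causality facts for the process. -/

set_option autoImplicit false
set_option linter.unusedSectionVars false

open MeasureTheory Finset
open scoped Classical

namespace Crest.Agent.R160

variable {V : Type*} (G : SimpleGraph V) (θ : ℝ) (S : Finset V)

/-! ### events with zero observation can be dropped -/

lemma ow_of_zero {E E' : Finset (Ev V)} {o : Ev V → ℝ} (h : E' ⊆ E) (h0 : ∀ e ∈ E, e ∉ E' → o e = 0)
    (A : Finset V) : ow E o A = ow E' o A := by
  unfold ow
  symm
  refine Finset.prod_subset h fun e he he' => ?_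
  rw [h0 e he he', mul_zero, add_zero]

lemma num_of_zero {E E' : Finset (Ev V)} {o : Ev V → ℝ} (h : E' ⊆ E)
    (h0 : ∀ e ∈ E, e ∉ E' → o e = 0) (f : Finset V → ℝ) :
    num G θ S E o f = num G θ S E' o f := by
  unfold num
  exact Finset.sum_congr rfl fun A _ => by rw [ow_of_zero h h0]

lemma ZZ_of_zero {E E' : Finset (Ev V)} {o : Ev V → ℝ} (h : E' ⊆ E)
    (h0 : ∀ e ∈ E, e ∉ E' → o e = 0) : ZZ G θ S E o = ZZ G θ S E' o :=
  num_of_zero G θ S h h0 _

lemma mean_of_zero {E E' : Finset (Ev V)} {o : Ev V → ℝ} (h : E' ⊆ E)
    (h0 : ∀ e ∈ E, e ∉ E' → o e = 0) (f : Finset V → ℝ) :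
    mean G θ S E o f = mean G θ S E' o f := by
  unfold mean
  rw [num_of_zero G θ S h h0, ZZ_of_zero G θ S h h0]

lemma mm_of_zero {E E' : Finset (Ev V)} {o : Ev V → ℝ} (h : E' ⊆ E)
    (h0 : ∀ e ∈ E, e ∉ E' → o e = 0) (v : V) :
    mm G θ S E o v = mm G θ S E' o v := mean_of_zero G θ S h h0 _


/-! ### the state only depends on the events before time `t` -/

/-- general posterior functional at time `t` -/
noncomputable def mnt (G : SimpleGraph V) (θ : ℝ) (S : Finset V) (E : Finset (Ev V)) (ω : Om V)
    (t : ℝ) (f : Finset V → ℝ) : ℝ := mean G θ S (before E ω t) (obs G θ S E ω) f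

lemma mt_eq_mnt (E : Finset (Ev V)) (ω : Om V) (t : ℝ) (v : V) :
    mt G θ S E ω t v = mnt G θ S E ω t (fun A => sg A v) := rfl

lemma ct_eq_mnt (E : Finset (Ev V)) (ω : Om V) (t : ℝ) (v w : V) :
    ct G θ S E ω t v w = mnt G θ S E ω t (fun A => sg A v * sg A w)
      - mnt G θ S E ω t (fun A => sg A v) * mnt G θ S E ω t (fun A => sg A w) := rfl

lemma mnt_eq_before (E : Finset (Ev V)) (ω : Om V) (t : ℝ) (f : Finset V → ℝ) :
    mnt G θ S E ω t f
      = mean G θ S (before E ω t) (obs G θ S (before E ω t) ω) f := by
  unfold mnt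
  exact mean_congr G θ S (fun e he => (obs_before G θ S he).symm) f

/-- the state only depends on the set of past events -/
lemma mnt_congr_before {E E' : Finset (Ev V)} {ω : Om V} {t t' : ℝ}
    (h : before E ω t = before E' ω t') (f : Finset V → ℝ) :
    mnt G θ S E ω t f = mnt G θ S E' ω t' f := by
  rw [mnt_eq_before, mnt_eq_before, h]

lemma mnt_congr_noise {E : Finset (Ev V)} {ω ω' : Om V} (h : ∀ e ∈ E, ω e = ω' e) (s : ℝ)
    (f : Finset V → ℝ) : mnt G θ S E ω s f = mnt G θ S E ω' s f := by
  unfold mnt; rw [obs_congr_noise G θ S h, before_congr_noise h]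

/-- the state at time `t` only depends on the clocks and on the noises of the past events -/
lemma mnt_congr_past {E : Finset (Ev V)} {ω ω' : Om V} {t : ℝ}
    (hc : ∀ e ∈ E, (ω e).1 = (ω' e).1) (hn : ∀ e ∈ before E ω t, ω e = ω' e) (f : Finset V → ℝ) :
    mnt G θ S E ω t f = mnt G θ S E ω' t f := by
  have hb : before E ω t = before E ω' t := by
    apply Finset.filter_congr
    intro x hx
    have : tm ω x = tm ω' x := by unfold tm clk; rw [hc x hx]
    rw [this]
  rw [mnt_eq_before, mnt_eq_before, ← hb, obs_congr_noise G θ S hn]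

lemma obs_congr_past {E : Finset (Ev V)} {ω ω' : Om V} {t : ℝ}
    (hc : ∀ e ∈ E, (ω e).1 = (ω' e).1) (hn : ∀ e ∈ before E ω t, ω e = ω' e) {e : Ev V}
    (he : e ∈ before E ω t) : obs G θ S E ω e = obs G θ S E ω' e := by
  have hb : before E ω t = before E ω' t := by
    apply Finset.filter_congr
    intro x hx
    have : tm ω x = tm ω' x := by unfold tm clk; rw [hc x hx]
    rw [this]
  have he' : e ∈ before E ω' t := hb ▸ he
  have h1 := obs_before G θ S he
  have h2 := obs_before G θ S he'
  rw [← h1, ← h2, ← hb, obs_congr_noise G θ S hn]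

/-- resampling the noise of `e` does not change the state up to the time of `e` -/
lemma mnt_updz {E : Finset (Ev V)} {ω : Om V} {e : Ev V} {t : ℝ} (h : t ≤ tm ω e)
    (z : unitInterval) (f : Finset V → ℝ) :
    mnt G θ S E (updz ω e z) t f = mnt G θ S E ω t f := by
  symm
  refine mnt_congr_past G θ S (fun e' _ => (updz_fst ω e e' z).symm) (fun e' he' => ?_) f
  have : e' ≠ e := by
    rintro rfl
    exact absurd (mem_before.mp he').2 (not_lt.mpr h)
  rw [updz_ne ω this]

lemma mt_updz {E : Finset (Ev V)} {ω : Om V} {e : Ev V} {t : ℝ} (h : t ≤ tm ω e)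
    (z : unitInterval) (v : V) : mt G θ S E (updz ω e z) t v = mt G θ S E ω t v :=
  mnt_updz G θ S h z _


lemma obs_updz_lt {E : Finset (Ev V)} {ω : Om V} {e e' : Ev V} (h : tm ω e' < tm ω e)
    (z : unitInterval) : obs G θ S E (updz ω e z) e' = obs G θ S E ω e' := by
  by_cases he : e' ∈ E
  · symm
    refine obs_congr_past G θ S (t := tm ω e) (fun x _ => (updz_fst ω e x z).symm)
      (fun x hx => ?_) (mem_before.mpr ⟨he, h⟩)
    have : x ≠ e := by
      rintro rfl
      exact absurd (mem_before.mp hx).2 (lt_irrefl _)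
    rw [updz_ne ω this]
  · rw [obs_of_not_mem G θ S he, obs_of_not_mem G θ S he]

/-- the observation of `e` as a function of its own noise -/
lemma obs_updz_same {E : Finset (Ev V)} {ω : Om V} {e : Ev V} (he : e ∈ E) (z : unitInterval) :
    obs G θ S E (updz ω e z) e
      = st ω e * TT (st ω e * mt G θ S E ω (tm ω e) e.1) (2 * (z : ℝ) - 1) := by
  rw [obs_of_mem G θ S he, st_updz, tm_updz, mt_updz G θ S le_rfl, nz_updz_same]

/-! ### removing an event from the event set -/

lemma before_erase {E : Finset (Ev V)} {ω : Om V} {e : Ev V} {t : ℝ} (h : t ≤ tm ω e) :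
    before (E.erase e) ω t = before E ω t := by
  ext x
  rw [mem_before, mem_before, Finset.mem_erase]
  constructor
  · rintro ⟨⟨-, h2⟩, h3⟩; exact ⟨h2, h3⟩
  · rintro ⟨h2, h3⟩
    refine ⟨⟨?_, h2⟩, h3⟩
    rintro rfl
    exact absurd h3 (not_lt.mpr h)

lemma mnt_erase_of_le {E : Finset (Ev V)} {ω : Om V} {e : Ev V} {t : ℝ} (h : t ≤ tm ω e)
    (f : Finset V → ℝ) : mnt G θ S (E.erase e) ω t f = mnt G θ S E ω t f :=
  mnt_congr_before G θ S (before_erase h) f

/-- inactive events have no influence: observations -/
lemma obs_erase_of_inactive {θ : ℝ} (hθ : |θ| < 1) {E : Finset (Ev V)} {ω : Om V} {e : Ev V}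
    (h : st ω e = 0) : obs G θ S (E.erase e) ω = obs G θ S E ω := by
  have h0 : ∀ E : Finset (Ev V), obs G θ S E ω e = 0 := by
    intro E
    have := obs_bound G S hθ E ω e
    rw [h] at this
    exact abs_eq_zero.mp (le_antisymm this (abs_nonneg _))
  funext e'
  induction hn : (before E ω (tm ω e')).card using Nat.strong_induction_on generalizing e' with
  | _ n ih =>
    subst hn
    by_cases hee : e' = e
    · subst hee; rw [h0, h0]
    by_cases he : e' ∈ E
    · rw [obs_of_mem G θ S he, obs_of_mem G θ S (Finset.mem_erase.mpr ⟨hee, he⟩)]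
      congr 3
      unfold mt
      have hsub : before (E.erase e) ω (tm ω e') ⊆ before E ω (tm ω e') := by
        intro x hx
        rw [mem_before] at hx ⊢
        exact ⟨Finset.mem_of_mem_erase hx.1, hx.2⟩
      rw [mm_of_zero G θ S hsub (o := obs G θ S E ω)]
      · exact mm_congr G θ S (fun x hx => ih _ (before_card_lt (hsub hx)) x rfl) _
      · intro x hx hx'
        have : x = e := by
          by_contra hne
          apply hx'
          rw [mem_before] at hx ⊢
          exact ⟨Finset.mem_erase.mpr ⟨hne, hx.1⟩, hx.2⟩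
        rw [this, h0]
    · rw [obs_of_not_mem G θ S he,
        obs_of_not_mem G θ S (fun hc => he (Finset.mem_of_mem_erase hc))]

/-- inactive events have no influence: state -/
lemma mnt_erase_of_inactive {θ : ℝ} (hθ : |θ| < 1) {E : Finset (Ev V)} {ω : Om V} {e : Ev V}
    (h : st ω e = 0) (t : ℝ) (f : Finset V → ℝ) :
    mnt G θ S (E.erase e) ω t f = mnt G θ S E ω t f := by
  have h0 : obs G θ S E ω e = 0 := by
    have := obs_bound G S hθ E ω e
    rw [h] at this
    exact abs_eq_zero.mp (le_antisymm this (abs_nonneg _))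
  unfold mnt
  rw [obs_erase_of_inactive G S hθ h]
  symm
  refine mean_of_zero G θ S ?_ ?_ f
  · intro x hx
    rw [mem_before] at hx ⊢
    exact ⟨Finset.mem_of_mem_erase hx.1, hx.2⟩
  · intro x hx hx'
    have : x = e := by
      by_contra hne
      apply hx'
      rw [mem_before] at hx ⊢
      exact ⟨Finset.mem_erase.mpr ⟨hne, hx.1⟩, hx.2⟩
    rw [this, h0]


lemma st_zero_of_clk {ω : Om V} {e : Ev V} (h : 1 / 2 ≤ clk ω e) : st ω e = 0 := by
  unfold st str
  rw [if_neg (not_lt.mpr h)]



/-- (C4) the number of rounds is irrelevant -/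
theorem before_evs {S : Finset V} {R : ℕ} {t : ℝ} (h : t ≤ R) (ω : Om V) :
    before (evs S R) ω t = before (evs S ⌈t⌉₊) ω t := by
  ext e
  rw [mem_before, mem_before]
  unfold evs
  rw [Finset.mem_product, Finset.mem_product, Finset.mem_range, Finset.mem_range]
  constructor
  · rintro ⟨⟨h1, _⟩, h3⟩
    refine ⟨⟨h1, ?_⟩, h3⟩
    rw [Nat.lt_ceil]
    have := (clk_mem ω e).1
    unfold tm at h3
    linarith
  · rintro ⟨⟨h1, h2⟩, h3⟩
    refine ⟨⟨h1, ?_⟩, h3⟩
    exact lt_of_lt_of_le h2 (Nat.ceil_le.mpr h)

theorem mt_evs {S : Finset V} {R : ℕ} {t : ℝ} (h : t ≤ R) (ω : Om V) (v : V) :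
    mt G θ S (evs S R) ω t v = mfin G θ S ω t v := by
  unfold mfin
  exact mnt_congr_before G θ S (before_evs h ω) _


theorem abs_mfin_le {θ : ℝ} (hθ : |θ| < 1) (S : Finset V) (ω : Om V) (t : ℝ) (v : V) :
    |mfin G θ S ω t v| ≤ 1 := abs_mt_le G S hθ _ ω t v

end Crest.Agent.R160
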