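import Crest.Agent.R160.Homog
import Crest.Agent.R160.Scalar
import Crest.Agent.R160.MinfBasic
import Crest.Agent.R160.BSVNoise

-- ▼ part R160/Tel
section

/-! # Row 160, module G: the telescoping inequality for path products, and its expectation. -/

set_option autoImplicit false

open MeasureTheory
open scoped Classical

namespace Crest.Agent.R160

open Crest.Agent.R160.TreeAut

section seq

theorem tel_right (u : ℕ → ℝ) (n : ℕ) :
    ∑ i ∈ Finset.range n, (1 - u i) * ∏ k ∈ Finset.Ico (i + 1) n, u k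
      = 1 - ∏ k ∈ Finset.range n, u k := by
  induction n with
  | zero => simp
  | succ n ih =>
    rw [Finset.sum_range_succ, Finset.Ico_self, Finset.prod_empty, mul_one,
      Finset.prod_range_succ]
    have : ∑ i ∈ Finset.range n, (1 - u i) * ∏ k ∈ Finset.Ico (i + 1) (n + 1), u k
        = (∑ i ∈ Finset.range n, (1 - u i) * ∏ k ∈ Finset.Ico (i + 1) n, u k) * u n := by
      rw [Finset.sum_mul]
      apply Finset.sum_congr rfl
      intro i hi
      rw [Finset.mem_range] at hi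
      rw [Finset.prod_Ico_succ_top (by omega)]
      ring
    rw [this, ih]
    ring

theorem tel_left (u : ℕ → ℝ) (n : ℕ) :
    ∑ i ∈ Finset.range n, (∏ k ∈ Finset.range i, u k) * (1 - u i)
      = 1 - ∏ k ∈ Finset.range n, u k := by
  induction n with
  | zero => simp
  | succ n ih =>
    rw [Finset.sum_range_succ, ih, Finset.prod_range_succ]
    ring

theorem tel_prod (u u' : ℕ → ℝ) (n : ℕ) :
    ∏ k ∈ Finset.range n, u k - ∏ k ∈ Finset.range n, u' k
      = ∑ i ∈ Finset.range n, (∏ k ∈ Finset.range i, u' k) * (u i - u' i)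
          * ∏ k ∈ Finset.Ico (i + 1) n, u k := by
  induction n with
  | zero => simp
  | succ n ih =>
    rw [Finset.sum_range_succ, Finset.Ico_self, Finset.prod_empty, mul_one,
      Finset.prod_range_succ, Finset.prod_range_succ]
    have : ∑ i ∈ Finset.range n, (∏ k ∈ Finset.range i, u' k) * (u i - u' i)
          * ∏ k ∈ Finset.Ico (i + 1) (n + 1), u k
        = (∑ i ∈ Finset.range n, (∏ k ∈ Finset.range i, u' k) * (u i - u' i)
          * ∏ k ∈ Finset.Ico (i + 1) n, u k) * u n := by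
      rw [Finset.sum_mul]
      apply Finset.sum_congr rfl
      intro i hi
      rw [Finset.mem_range] at hi
      rw [Finset.prod_Ico_succ_top (by omega)]
      ring
    rw [this, ← ih]
    ring

theorem sq_prod_sub_prod_le (u u' g : ℕ → ℝ) (C : ℝ) (hC : 0 ≤ C) (n : ℕ)
    (hu : ∀ i < n, 0 ≤ u i ∧ u i ≤ 1) (hu' : ∀ i < n, 0 ≤ u' i ∧ u' i ≤ 1)
    (hg : ∀ i < n, 0 ≤ g i)
    (hd : ∀ i < n, (u i - u' i) ^ 2 ≤ C * ((1 - u i) + (1 - u' i)) * g i) :
    (∏ k ∈ Finset.range n, u k - ∏ k ∈ Finset.range n, u' k) ^ 2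
      ≤ 2 * C * ∑ i ∈ Finset.range n, (∏ k ∈ Finset.range i, u' k)
          * (∏ k ∈ Finset.Ico (i + 1) n, u k) * g i := by
  have hP : ∀ i < n, 0 ≤ ∏ k ∈ Finset.range i, u' k ∧ ∏ k ∈ Finset.range i, u' k ≤ 1 := by
    intro i hi
    exact ⟨Finset.prod_nonneg fun k hk => (hu' k (by rw [Finset.mem_range] at hk; omega)).1,
      Finset.prod_le_one (fun k hk => (hu' k (by rw [Finset.mem_range] at hk; omega)).1)
        fun k hk => (hu' k (by rw [Finset.mem_range] at hk; omega)).2⟩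
  have hQ : ∀ i < n, 0 ≤ ∏ k ∈ Finset.Ico (i + 1) n, u k ∧ ∏ k ∈ Finset.Ico (i + 1) n, u k ≤ 1 := by
    intro i hi
    exact ⟨Finset.prod_nonneg fun k hk => (hu k (by rw [Finset.mem_Ico] at hk; omega)).1,
      Finset.prod_le_one (fun k hk => (hu k (by rw [Finset.mem_Ico] at hk; omega)).1)
        fun k hk => (hu k (by rw [Finset.mem_Ico] at hk; omega)).2⟩
  rw [tel_prod]
  have h1 := Finset.sum_sq_le_sum_mul_sum_of_sq_le_mul (Finset.range n)
    (r := fun i => (∏ k ∈ Finset.range i, u' k) * (u i - u' i) * ∏ k ∈ Finset.Ico (i + 1) n, u k)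
    (f := fun i => (∏ k ∈ Finset.range i, u' k) * (∏ k ∈ Finset.Ico (i + 1) n, u k)
      * ((1 - u i) + (1 - u' i)))
    (g := fun i => C * ((∏ k ∈ Finset.range i, u' k) * (∏ k ∈ Finset.Ico (i + 1) n, u k) * g i))
    (fun i hi => by
      rw [Finset.mem_range] at hi
      have := hP i hi; have := hQ i hi; have := hu i hi; have := hu' i hi
      apply mul_nonneg (mul_nonneg (hP i hi).1 (hQ i hi).1)
      linarith)
    (fun i hi => by
      rw [Finset.mem_range] at hi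
      exact mul_nonneg hC (mul_nonneg (mul_nonneg (hP i hi).1 (hQ i hi).1) (hg i hi)))
    (fun i hi => by
      rw [Finset.mem_range] at hi
      have h2 := hd i hi
      have h3 : 0 ≤ ((∏ k ∈ Finset.range i, u' k) * (∏ k ∈ Finset.Ico (i + 1) n, u k)) ^ 2 :=
        sq_nonneg _
      calc ((∏ k ∈ Finset.range i, u' k) * (u i - u' i) * ∏ k ∈ Finset.Ico (i + 1) n, u k) ^ 2
          = ((∏ k ∈ Finset.range i, u' k) * (∏ k ∈ Finset.Ico (i + 1) n, u k)) ^ 2
            * (u i - u' i) ^ 2 := by ring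
        _ ≤ ((∏ k ∈ Finset.range i, u' k) * (∏ k ∈ Finset.Ico (i + 1) n, u k)) ^ 2
            * (C * ((1 - u i) + (1 - u' i)) * g i) := mul_le_mul_of_nonneg_left h2 h3
        _ = _ := by ring)
  refine h1.trans ?_
  have h4 : ∑ i ∈ Finset.range n, (∏ k ∈ Finset.range i, u' k) * (∏ k ∈ Finset.Ico (i + 1) n, u k)
      * ((1 - u i) + (1 - u' i)) ≤ 2 := by
    have h5 : ∑ i ∈ Finset.range n, (∏ k ∈ Finset.range i, u' k)
          * (∏ k ∈ Finset.Ico (i + 1) n, u k) * ((1 - u i) + (1 - u' i))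
        ≤ ∑ i ∈ Finset.range n, ((1 - u i) * ∏ k ∈ Finset.Ico (i + 1) n, u k)
          + ∑ i ∈ Finset.range n, ((∏ k ∈ Finset.range i, u' k) * (1 - u' i)) := by
      rw [← Finset.sum_add_distrib]
      apply Finset.sum_le_sum
      intro i hi
      rw [Finset.mem_range] at hi
      have a1 := hP i hi
      have a2 := hQ i hi
      have a3 := hu i hi
      have a4 := hu' i hi
      set P := ∏ k ∈ Finset.range i, u' k
      set Q := ∏ k ∈ Finset.Ico (i + 1) n, u k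
      have b1 : P * Q * (1 - u i) ≤ (1 - u i) * Q := by
        have : 0 ≤ Q * (1 - u i) := mul_nonneg a2.1 (by linarith)
        nlinarith
      have b2 : P * Q * (1 - u' i) ≤ P * (1 - u' i) := by
        have : 0 ≤ P * (1 - u' i) := mul_nonneg a1.1 (by linarith)
        nlinarith
      linarith
    rw [tel_right, tel_left] at h5
    have h6 : 0 ≤ ∏ k ∈ Finset.range n, u k :=
      Finset.prod_nonneg fun k hk => (hu k (by rw [Finset.mem_range] at hk; omega)).1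
    have h7 : 0 ≤ ∏ k ∈ Finset.range n, u' k :=
      Finset.prod_nonneg fun k hk => (hu' k (by rw [Finset.mem_range] at hk; omega)).1
    linarith
  have h8 : 0 ≤ ∑ i ∈ Finset.range n,
      C * ((∏ k ∈ Finset.range i, u' k) * (∏ k ∈ Finset.Ico (i + 1) n, u k) * g i) :=
    Finset.sum_nonneg fun i hi => by
      rw [Finset.mem_range] at hi
      exact mul_nonneg hC (mul_nonneg (mul_nonneg (hP i hi).1 (hQ i hi).1) (hg i hi))
  refine (mul_le_mul_of_nonneg_right h4 h8).trans (le_of_eq ?_)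
  rw [← Finset.mul_sum]
  ring

end seq

/-- the one-edge difference bound in the form needed for the telescoping -/
theorem rho_sub_sq_le {θ θ' a b a' b' : ℝ} (h0 : 0 ≤ θ) (h2 : θ ^ 2 ≤ 1 / 2) (h0' : 0 ≤ θ')
    (h2' : θ' ^ 2 ≤ 1 / 2) (ha : |a| ≤ 1) (hb : |b| ≤ 1) (ha' : |a'| ≤ 1) (hb' : |b'| ≤ 1) :
    (rho θ a b - rho θ' a' b') ^ 2 ≤ (24 * 10 ^ 12) * ((1 - rho θ a b) + (1 - rho θ' a' b'))
      * ((a - a') ^ 2 + (b - b') ^ 2 + (θ - θ') ^ 2) := by
  have h := gain_diff h0 h2 h0' h2' ha hb ha' hb'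
  have g1 := gain_ge h0 h2 ha hb
  have g2 := gain_ge h0' h2' ha' hb'
  rw [← one_sub_gain h0 h2 ha hb, ← one_sub_gain h0' h2' ha' hb']
  set g := gain θ a b
  set g' := gain θ' a' b'
  set y := b - θ * a
  set y' := b' - θ' * a'
  have e1 : (1 - g - (1 - g')) ^ 2 = |g - g'| ^ 2 := by rw [sq_abs]; ring
  have e2 : (1 - (1 - g) + (1 - (1 - g'))) = g + g' := by ring
  rw [e1, e2]
  have h3 : |g - g'| ^ 2 ≤ (10 ^ 6 * (|y| + |y'|) * (|a - a'| + |b - b'| + |θ - θ'|)) ^ 2 := by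
    gcongr
  refine h3.trans ?_
  have h4 : (|y| + |y'|) ^ 2 ≤ 8 * (g + g') := by
    have : (|y| + |y'|) ^ 2 ≤ 2 * (y ^ 2 + y' ^ 2) := by
      rw [← sq_abs y, ← sq_abs y']
      nlinarith [sq_nonneg (|y| - |y'|)]
    linarith
  have h5 : (|a - a'| + |b - b'| + |θ - θ'|) ^ 2
      ≤ 3 * ((a - a') ^ 2 + (b - b') ^ 2 + (θ - θ') ^ 2) := by
    rw [← sq_abs (a - a'), ← sq_abs (b - b'), ← sq_abs (θ - θ')]
    nlinarith [sq_nonneg (|a - a'| - |b - b'|), sq_nonneg (|a - a'| - |θ - θ'|),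
      sq_nonneg (|b - b'| - |θ - θ'|)]
  calc (10 ^ 6 * (|y| + |y'|) * (|a - a'| + |b - b'| + |θ - θ'|)) ^ 2
      = 10 ^ 12 * ((|y| + |y'|) ^ 2 * (|a - a'| + |b - b'| + |θ - θ'|) ^ 2) := by ring
    _ ≤ 10 ^ 12 * ((8 * (g + g')) * (3 * ((a - a') ^ 2 + (b - b') ^ 2 + (θ - θ') ^ 2))) := by
        have hgg : 0 ≤ 8 * (g + g') := le_trans (sq_nonneg _) h4
        gcongr
    _ = _ := by ring

section ptw

variable {V : Type*} {G : SimpleGraph V}

theorem nb_gpt_eq (hT : G.IsTree) {n : ℕ} {p : ℕ → V} (hp : IsNB G n p) {i : ℕ} (hi : i ≤ n) :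
    gpt G (p 0) (p n) i = p i := by
  have h0 : G.dist (p 0) (p n) = n := (hp.dist_par hT n le_rfl).1
  unfold gpt
  rw [h0]
  have key : ∀ k ≤ n, (par G (p 0))^[k] (p n) = p (n - k) := by
    intro k
    induction k with
    | zero => intro _; rfl
    | succ k ih =>
      intro hk
      rw [Function.iterate_succ_apply', ih (by omega), (hp.dist_par hT (n - k) (by omega)).2
        (by omega)]
      rfl
  rw [key (n - i) (by omega), show n - (n - i) = i by omega]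

theorem rprod_sub_sq_le (hT : G.IsTree) {θ θ' : ℝ} (h0 : 0 ≤ θ) (h2 : θ ^ 2 ≤ 1 / 2)
    (h0' : 0 ≤ θ') (h2' : θ' ^ 2 ≤ 1 / 2) {m m' : V → ℝ} (hm : ∀ v, |m v| ≤ 1)
    (hm' : ∀ v, |m' v| ≤ 1) (v w : V) :
    (1 - m' v ^ 2) * (rprod G θ m v w - rprod G θ' m' v w) ^ 2 ≤
      (48 * 10 ^ 12) * ∑ i ∈ Finset.Icc 1 (G.dist v w),
        rprod G θ' m' (gpt G v w (i - 1)) v * rprod G θ m (gpt G v w i) w
          * ((m (gpt G v w (i - 1)) - m' (gpt G v w (i - 1))) ^ 2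
            + (m (gpt G v w i) - m' (gpt G v w i)) ^ 2 + (θ - θ') ^ 2) := by
  obtain ⟨p, hp, hp0, hp1⟩ := exists_geodesic hT v w
  set n := G.dist v w with hn
  have hg : ∀ i ≤ n, gpt G v w i = p i := by
    intro i hi
    have := nb_gpt_eq hT hp hi
    rwa [hp0, hp1] at this
  have t1 := theta_lt_one h0 h2
  have t1' := theta_lt_one h0' h2'
  have hv1 : m' v ^ 2 ≤ 1 := sq_le_one_of_abs (hm' v)
  have h3 := sq_prod_sub_prod_le (fun i => rho θ (m (p i)) (m (p (i + 1))))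
    (fun i => rho θ' (m' (p i)) (m' (p (i + 1))))
    (fun i => (m (p i) - m' (p i)) ^ 2 + (m (p (i + 1)) - m' (p (i + 1))) ^ 2 + (θ - θ') ^ 2)
    (24 * 10 ^ 12) (by norm_num) n
    (fun i _ => ⟨rho_nonneg h0 t1 (hm _) (hm _), rho_le_one h0 h2 (hm _) (hm _)⟩)
    (fun i _ => ⟨rho_nonneg h0' t1' (hm' _) (hm' _), rho_le_one h0' h2' (hm' _) (hm' _)⟩)
    (fun i _ => by positivity)
    (fun i _ => rho_sub_sq_le h0 h2 h0' h2' (hm _) (hm _) (hm' _) (hm' _))
  have e1 := rprod_path hT θ m hp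
  have e2 := rprod_path hT θ' m' hp
  rw [hp0, hp1] at e1 e2
  rw [e1, e2]
  refine (mul_le_mul_of_nonneg_left h3 (by linarith)).trans ?_
  rw [show (1 - m' v ^ 2) * (2 * (24 * 10 ^ 12) *
      ∑ i ∈ Finset.range n, (∏ k ∈ Finset.range i, rho θ' (m' (p k)) (m' (p (k + 1))))
          * (∏ k ∈ Finset.Ico (i + 1) n, rho θ (m (p k)) (m (p (k + 1))))
          * ((m (p i) - m' (p i)) ^ 2 + (m (p (i + 1)) - m' (p (i + 1))) ^ 2 + (θ - θ') ^ 2))
      = (48 * 10 ^ 12) * ∑ i ∈ Finset.range n,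
        (1 - m' v ^ 2) * ((∏ k ∈ Finset.range i, rho θ' (m' (p k)) (m' (p (k + 1))))
          * (∏ k ∈ Finset.Ico (i + 1) n, rho θ (m (p k)) (m (p (k + 1))))
          * ((m (p i) - m' (p i)) ^ 2 + (m (p (i + 1)) - m' (p (i + 1))) ^ 2 + (θ - θ') ^ 2)) by
    rw [← Finset.mul_sum]; ring]
  apply mul_le_mul_of_nonneg_left _ (by norm_num)
  have hI : Finset.Icc 1 n = (Finset.range n).image (fun i => i + 1) := by
    ext k
    simp only [Finset.mem_Icc, Finset.mem_image, Finset.mem_range]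
    constructor
    · intro h; exact ⟨k - 1, by omega, by omega⟩
    · rintro ⟨a, h, rfl⟩; omega
  rw [hI, Finset.sum_image (fun a _ b _ h => by simpa using h)]
  apply Finset.sum_le_sum
  intro i hi
  rw [Finset.mem_range] at hi
  rw [Nat.add_sub_cancel, hg i (by omega), hg (i + 1) (by omega)]
  have f1 := rprod_path_to hT θ' m' hp (i := i) (by omega)
  have f2 := rprod_path_from hT θ m hp (i := i + 1) (by omega)
  rw [hp0] at f1
  rw [hp1] at f2
  rw [← f1, ← f2]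
  have h5 := rprod_rev hT θ' m' v (p i)
  have h6 := rprod_mem hT h0' t1' hm' (p i) v
  have h7 := rprod_mem hT h0 t1 hm (p (i + 1)) w
  have h8 : (1 - m' v ^ 2) * rprod G θ' m' v (p i) ≤ rprod G θ' m' (p i) v := by
    rw [h5]
    have := sq_nonneg (m' (p i))
    nlinarith [h6.1]
  have h9 : 0 ≤ rprod G θ m (p (i + 1)) w
      * ((m (p i) - m' (p i)) ^ 2 + (m (p (i + 1)) - m' (p (i + 1))) ^ 2 + (θ - θ') ^ 2) :=
    mul_nonneg h7.1 (by positivity)
  calc _ = ((1 - m' v ^ 2) * rprod G θ' m' v (p i)) * (rprod G θ m (p (i + 1)) w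
      * ((m (p i) - m' (p i)) ^ 2 + (m (p (i + 1)) - m' (p (i + 1))) ^ 2 + (θ - θ') ^ 2)) := by ring
    _ ≤ rprod G θ' m' (p i) v * (rprod G θ m (p (i + 1)) w
      * ((m (p i) - m' (p i)) ^ 2 + (m (p (i + 1)) - m' (p (i + 1))) ^ 2 + (θ - θ') ^ 2)) :=
        mul_le_mul_of_nonneg_right h8 h9
    _ = _ := by ring

/-- the pointwise telescoping bound for the covariances -/
theorem MM_sub_sq_le (hT : G.IsTree) {θ θ' : ℝ} (h0' : 0 ≤ θ') (hle : θ' ≤ θ)
    (h2 : θ ^ 2 ≤ 1 / 2) {m m' : V → ℝ} (hm : ∀ v, |m v| ≤ 1)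
    (hm' : ∀ v, |m' v| ≤ 1) (v w : V) :
    (MM G θ m v w - MM G θ' m' v w) ^ 2 ≤
      12 * θ ^ (2 * G.dist v w) * ((m v - m' v) ^ 2 * rprod G θ m v w)
      + 3 * (θ ^ G.dist v w - θ' ^ G.dist v w) ^ 2 * rprod G θ m v w
      + (144 * 10 ^ 12) * θ' ^ (2 * G.dist v w) * ∑ i ∈ Finset.Icc 1 (G.dist v w),
        rprod G θ' m' (gpt G v w (i - 1)) v * rprod G θ m (gpt G v w i) w
          * ((m (gpt G v w (i - 1)) - m' (gpt G v w (i - 1))) ^ 2
            + (m (gpt G v w i) - m' (gpt G v w i)) ^ 2 + (θ - θ') ^ 2) := by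
  have h0 : 0 ≤ θ := h0'.trans hle
  have h2' : θ' ^ 2 ≤ 1 / 2 := le_trans (by gcongr) h2
  have t1 := theta_lt_one h0 h2
  have t1' := theta_lt_one h0' h2'
  have key := rprod_sub_sq_le hT h0 h2 h0' h2' hm hm' v w
  set n := G.dist v w with hn
  set R := rprod G θ m v w with hR
  set R' := rprod G θ' m' v w with hR'
  set Sg := ∑ i ∈ Finset.Icc 1 n,
        rprod G θ' m' (gpt G v w (i - 1)) v * rprod G θ m (gpt G v w i) w
          * ((m (gpt G v w (i - 1)) - m' (gpt G v w (i - 1))) ^ 2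
            + (m (gpt G v w i) - m' (gpt G v w i)) ^ 2 + (θ - θ') ^ 2) with hS
  have r1 := rprod_mem hT h0 t1 hm v w
  rw [← hR] at r1
  have hv1 : m' v ^ 2 ≤ 1 := sq_le_one_of_abs (hm' v)
  have hv0 := sq_nonneg (m' v)
  have e : MM G θ m v w - MM G θ' m' v w = (m' v ^ 2 - m v ^ 2) * θ ^ n * R
      + (1 - m' v ^ 2) * (θ ^ n - θ' ^ n) * R + (1 - m' v ^ 2) * θ' ^ n * (R - R') := by
    unfold MM
    rw [← hn, ← hR, ← hR']
    ring
  rw [e]
  set X := (m' v ^ 2 - m v ^ 2) * θ ^ n * R with hX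
  set Y := (1 - m' v ^ 2) * (θ ^ n - θ' ^ n) * R with hY
  set Z := (1 - m' v ^ 2) * θ' ^ n * (R - R') with hZ
  have h3 : (X + Y + Z) ^ 2 ≤ 3 * (X ^ 2 + Y ^ 2 + Z ^ 2) := by
    nlinarith [sq_nonneg (X - Y), sq_nonneg (X - Z), sq_nonneg (Y - Z)]
  have hRR : R ^ 2 ≤ R := by nlinarith [r1.1, r1.2]
  have hX2 : X ^ 2 ≤ 4 * θ ^ (2 * n) * ((m v - m' v) ^ 2 * R) := by
    have a1 : (m' v ^ 2 - m v ^ 2) ^ 2 ≤ 4 * (m v - m' v) ^ 2 := by
      have b1 : |m v + m' v| ≤ 2 := by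
        have := abs_add_le (m v) (m' v)
        linarith [hm v, hm' v]
      have b2 : (m v + m' v) ^ 2 ≤ 4 := by
        rw [← sq_abs]; nlinarith [abs_nonneg (m v + m' v)]
      calc (m' v ^ 2 - m v ^ 2) ^ 2 = (m v + m' v) ^ 2 * (m v - m' v) ^ 2 := by ring
        _ ≤ 4 * (m v - m' v) ^ 2 := mul_le_mul_of_nonneg_right b2 (sq_nonneg _)
    calc X ^ 2 = (m' v ^ 2 - m v ^ 2) ^ 2 * θ ^ (2 * n) * R ^ 2 := by rw [hX]; ring
      _ ≤ (4 * (m v - m' v) ^ 2) * θ ^ (2 * n) * R := by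
          apply mul_le_mul _ hRR (sq_nonneg _) (by positivity)
          apply mul_le_mul_of_nonneg_right a1; positivity
      _ = _ := by ring
  have hY2 : Y ^ 2 ≤ (θ ^ n - θ' ^ n) ^ 2 * R := by
    have a1 : (1 - m' v ^ 2) ^ 2 ≤ 1 := by nlinarith
    calc Y ^ 2 = (1 - m' v ^ 2) ^ 2 * (θ ^ n - θ' ^ n) ^ 2 * R ^ 2 := by rw [hY]; ring
      _ ≤ (1 * (θ ^ n - θ' ^ n) ^ 2) * R := by
          apply mul_le_mul _ hRR (sq_nonneg _) (by positivity)
          exact mul_le_mul_of_nonneg_right a1 (sq_nonneg _)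
      _ = _ := by ring
  have hZ2 : Z ^ 2 ≤ θ' ^ (2 * n) * ((48 * 10 ^ 12) * Sg) := by
    calc Z ^ 2 = (1 - m' v ^ 2) * (θ' ^ (2 * n) * ((1 - m' v ^ 2) * (R - R') ^ 2)) := by
          rw [hZ]; ring
      _ ≤ 1 * (θ' ^ (2 * n) * ((1 - m' v ^ 2) * (R - R') ^ 2)) := by
          apply mul_le_mul_of_nonneg_right (by linarith)
          apply mul_nonneg (by positivity)
          exact mul_nonneg (by linarith) (sq_nonneg _)
      _ = θ' ^ (2 * n) * ((1 - m' v ^ 2) * (R - R') ^ 2) := one_mul _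
      _ ≤ _ := mul_le_mul_of_nonneg_left key (by positivity)
  calc (X + Y + Z) ^ 2 ≤ 3 * (X ^ 2 + Y ^ 2 + Z ^ 2) := h3
    _ ≤ 3 * (4 * θ ^ (2 * n) * ((m v - m' v) ^ 2 * R) + (θ ^ n - θ' ^ n) ^ 2 * R
          + θ' ^ (2 * n) * ((48 * 10 ^ 12) * Sg)) := by linarith
    _ = _ := by ring

theorem MM_sq_mul_le (hT : G.IsTree) {θ : ℝ} (h0 : 0 ≤ θ)
    (h2 : θ ^ 2 ≤ 1 / 2) {m : V → ℝ} (hm : ∀ v, |m v| ≤ 1) (v w : V) :
    (MM G θ m v w) ^ 2 ≤ θ ^ (2 * G.dist v w) * rprod G θ m w v := by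
  have t1 := theta_lt_one h0 h2
  have r1 := rprod_mem hT h0 t1 hm v w
  have r2 := rprod_mem hT h0 t1 hm w v
  have hv1 : m v ^ 2 ≤ 1 := sq_le_one_of_abs (hm v)
  have hv0 := sq_nonneg (m v)
  have hw0 := sq_nonneg (m w)
  have hrev := rprod_rev hT θ m v w
  unfold MM
  calc ((1 - m v ^ 2) * θ ^ G.dist v w * rprod G θ m v w) ^ 2
      = θ ^ (2 * G.dist v w) * (((1 - m v ^ 2) * rprod G θ m v w)
          * ((1 - m v ^ 2) * rprod G θ m v w)) := by ring
    _ ≤ θ ^ (2 * G.dist v w) * (((1 - m v ^ 2) * rprod G θ m v w) * 1) := by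
        have : (1 - m v ^ 2) * rprod G θ m v w ≤ 1 := by nlinarith [r1.1, r1.2]
        have h3 : 0 ≤ (1 - m v ^ 2) * rprod G θ m v w := mul_nonneg (by linarith) r1.1
        gcongr
    _ = θ ^ (2 * G.dist v w) * ((1 - m w ^ 2) * rprod G θ m w v) := by rw [mul_one, hrev]
    _ ≤ θ ^ (2 * G.dist v w) * rprod G θ m w v := by
        apply mul_le_mul_of_nonneg_left _ (by positivity)
        nlinarith [r2.1]

end ptw

end Crest.Agent.R160
end

-- ▼ part R160/TelSum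
section

/-! # Row 160, module G: the telescoping inequality in expectation (relocated to a fixed dart). -/

set_option autoImplicit false

open MeasureTheory
open scoped Classical

namespace Crest.Agent.R160

open Crest.Agent.R160.TreeAut

/-! ### bounded measurable functions -/

/-- bounded measurable real functions -/
def BM {Ω : Type*} [MeasurableSpace Ω] (F : Ω → ℝ) : Prop :=
  Measurable F ∧ ∃ K : ℝ, ∀ ω, |F ω| ≤ K

section bm

variable {Ω : Type*} [MeasurableSpace Ω] {F F' : Ω → ℝ}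

theorem BM.const (c : ℝ) : BM (fun _ : Ω => c) := ⟨measurable_const, |c|, fun _ => le_rfl⟩

theorem BM.add (h : BM F) (h' : BM F') : BM (fun ω => F ω + F' ω) := by
  obtain ⟨h1, K, hK⟩ := h
  obtain ⟨h1', K', hK'⟩ := h'
  exact ⟨h1.add h1', K + K', fun ω => (abs_add_le _ _).trans (add_le_add (hK ω) (hK' ω))⟩

theorem BM.mul (h : BM F) (h' : BM F') : BM (fun ω => F ω * F' ω) := by
  obtain ⟨h1, K, hK⟩ := h
  obtain ⟨h1', K', hK'⟩ := h'
  refine ⟨h1.mul h1', K * K', fun ω => ?_⟩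
  rw [abs_mul]
  exact mul_le_mul (hK ω) (hK' ω) (abs_nonneg _) ((abs_nonneg _).trans (hK ω))

theorem BM.sub (h : BM F) (h' : BM F') : BM (fun ω => F ω - F' ω) := by
  obtain ⟨h1, K, hK⟩ := h
  obtain ⟨h1', K', hK'⟩ := h'
  exact ⟨h1.sub h1', K + K', fun ω => (abs_sub _ _).trans (add_le_add (hK ω) (hK' ω))⟩

theorem BM.pow (h : BM F) (n : ℕ) : BM (fun ω => F ω ^ n) := by
  obtain ⟨h1, K, hK⟩ := h
  refine ⟨h1.pow_const n, K ^ n, fun ω => ?_⟩
  rw [abs_pow]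
  exact pow_le_pow_left₀ (abs_nonneg _) (hK ω) n

theorem BM.sum {ι : Type*} (s : Finset ι) {F : ι → Ω → ℝ} (h : ∀ i ∈ s, BM (F i)) :
    BM (fun ω => ∑ i ∈ s, F i ω) := by
  induction s using Finset.induction_on with
  | empty => simpa using BM.const (0 : ℝ)
  | insert a s ha ih =>
    simp only [Finset.sum_insert ha]
    exact (h a (Finset.mem_insert_self a s)).add
      (ih fun i hi => h i (Finset.mem_insert_of_mem hi))

theorem BM.integrable {P : Measure Ω} [IsFiniteMeasure P] (h : BM F) : Integrable F P := by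
  obtain ⟨h1, K, hK⟩ := h
  exact Integrable.of_bound h1.aestronglyMeasurable K (Filter.Eventually.of_forall hK)

end bm

section main

variable {V Ω : Type*} [MeasurableSpace Ω] {G : SimpleGraph V} [G.LocallyFinite] {P : Measure Ω}
  {m m' : V → Ω → ℝ}

/-- the level-`n` contribution to the growth of the mean square difference -/
noncomputable def Sn (G : SimpleGraph V) [G.LocallyFinite] (P : Measure Ω) (θ θ' : ℝ)
    (m m' : V → Ω → ℝ) (v : V) (n : ℕ) : ℝ :=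
  ∑ w ∈ sph G v n, ∫ ω, ((MM G θ (fun x => m x ω) v w - MM G θ' (fun x => m' x ω) v w) ^ 2
    + (MM G θ (fun x => m x ω) v w) ^ 2 * (m w ω - m' w ω) ^ 2) ∂P

omit [G.LocallyFinite] in
theorem HomPair.bm (h : HomPair G P m m') (v : V) : BM (m v) := ⟨h.meas v, 1, h.le v⟩

omit [G.LocallyFinite] in
theorem HomPair.bm' (h : HomPair G P m m') (v : V) : BM (m' v) := ⟨h.meas' v, 1, h.le' v⟩

omit [G.LocallyFinite] in
theorem HomPair.bm_rprod (h : HomPair G P m m') (hT : G.IsTree) {θ : ℝ} (h0 : 0 ≤ θ) (h1 : θ < 1)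
    (v w : V) : BM (fun ω => rprod G θ (fun x => m x ω) v w) :=
  ⟨measurable_rprod θ h.meas v w, 1, fun ω => by
    have := rprod_mem hT h0 h1 (m := fun x => m x ω) (fun x => h.le x ω) v w
    rw [abs_of_nonneg this.1]
    exact this.2⟩

omit [G.LocallyFinite] in
theorem HomPair.bm_rprod' (h : HomPair G P m m') (hT : G.IsTree) {θ : ℝ} (h0 : 0 ≤ θ) (h1 : θ < 1)
    (v w : V) : BM (fun ω => rprod G θ (fun x => m' x ω) v w) :=
  h.symm.bm_rprod hT h0 h1 v w

omit [G.LocallyFinite] in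
theorem HomPair.bm_MM (h : HomPair G P m m') (hT : G.IsTree) {θ : ℝ} (h0 : 0 ≤ θ) (h1 : θ < 1)
    (v w : V) : BM (fun ω => MM G θ (fun x => m x ω) v w) :=
  ⟨measurable_MM θ h.meas v w, 1, fun ω => by
    have := MM_mem hT h0 h1 (m := fun x => m x ω) (fun x => h.le x ω) v w
    rw [abs_of_nonneg this.1]
    exact this.2⟩

theorem HomPair.bm_Alev (h : HomPair G P m m') (hT : G.IsTree) {b : ℕ} (hb : 1 ≤ b)
    (hreg : G.IsRegularOfDegree (b + 1)) {θ : ℝ} (h0 : 0 ≤ θ) (h1 : θ < 1)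
    (o : V) (k : ℕ) : BM (fun ω => Alev G b θ (fun x => m x ω) o k) :=
  ⟨measurable_Alev b θ h.meas o k, 2, fun ω => by
    have := Alev_mem hT hb hreg h0 h1 (m := fun x => m x ω) (fun x => h.le x ω) o k
    rw [abs_of_nonneg this.1]
    exact this.2⟩

/-- (P1) -/
theorem HomPair.sum_sq_out (h : HomPair G P m m') [IsProbabilityMeasure P] (hT : G.IsTree)
    {b : ℕ} (hb : 1 ≤ b) (hreg : G.IsRegularOfDegree (b + 1)) {θ : ℝ} (h0 : 0 ≤ θ) (h1 : θ < 1)
    (v y : V) (n : ℕ) :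
    ∑ w ∈ sph G v n, ∫ ω, (m v ω - m' v ω) ^ 2 * rprod G θ (fun x => m x ω) v w ∂P
      = (b : ℝ) ^ n * ∫ ω, (m y ω - m' y ω) ^ 2 * Alev G b θ (fun x => m x ω) y n ∂P := by
  have hb0 : (b : ℝ) ≠ 0 := by exact_mod_cast (by omega : b ≠ 0)
  rw [relocate2' hT hreg
    (F := fun v w => ∫ ω, (m v ω - m' v ω) ^ 2 * rprod G θ (fun x => m x ω) v w ∂P) ?_ v y]
  · rw [← integral_finsetSum, ← integral_const_mul]
    · congr 1
      funext ω
      rw [← Finset.mul_sum]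
      unfold Alev
      rw [inv_pow]
      field_simp
    · intro w _
      exact ((((h.bm y).sub (h.bm' y)).pow 2).mul (h.bm_rprod hT h0 h1 y w)).integrable
  · intro g u w
    have := h.integral_map g
      (fun μ μ' => (μ u - μ' u) ^ 2 * rprod G θ μ u w)
      ((((h.bm u).sub (h.bm' u)).pow 2).mul (h.bm_rprod hT h0 h1 u w)).1
    rw [← this]
    congr 1
    funext ω
    rw [rprod_map hT]

/-- (P2) -/
theorem HomPair.sum_out (h : HomPair G P m m') [IsProbabilityMeasure P] (hT : G.IsTree)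
    {b : ℕ} (hb : 1 ≤ b) (hreg : G.IsRegularOfDegree (b + 1)) {θ : ℝ} (h0 : 0 ≤ θ) (h1 : θ < 1)
    (v y : V) (n : ℕ) :
    ∑ w ∈ sph G v n, ∫ ω, rprod G θ (fun x => m x ω) v w ∂P
      = (b : ℝ) ^ n * ∫ ω, Alev G b θ (fun x => m x ω) y n ∂P := by
  have hb0 : (b : ℝ) ≠ 0 := by exact_mod_cast (by omega : b ≠ 0)
  rw [relocate2' hT hreg
    (F := fun v w => ∫ ω, rprod G θ (fun x => m x ω) v w ∂P) ?_ v y]
  · rw [← integral_finsetSum, ← integral_const_mul]
    · congr 1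
      funext ω
      unfold Alev
      rw [inv_pow]
      field_simp
    · intro w _
      exact (h.bm_rprod hT h0 h1 y w).integrable
  · intro g u w
    have := h.integral_map g (fun μ μ' => rprod G θ μ u w) (h.bm_rprod hT h0 h1 u w).1
    rw [← this]
    congr 1
    funext ω
    rw [rprod_map hT]

/-- (P3) -/
theorem HomPair.sum_sq_in (h : HomPair G P m m') [IsProbabilityMeasure P] (hT : G.IsTree)
    {b : ℕ} (hb : 1 ≤ b) (hreg : G.IsRegularOfDegree (b + 1)) {θ : ℝ} (h0 : 0 ≤ θ) (h1 : θ < 1)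
    (v y : V) (n : ℕ) :
    ∑ w ∈ sph G v n, ∫ ω, (m w ω - m' w ω) ^ 2 * rprod G θ (fun x => m x ω) w v ∂P
      = (b : ℝ) ^ n * ∫ ω, (m y ω - m' y ω) ^ 2 * Alev G b θ (fun x => m x ω) y n ∂P := by
  rw [← h.sum_sq_out hT hb hreg h0 h1 v y n]
  rw [relocate2 hT hreg
    (F := fun v w => ∫ ω, (m w ω - m' w ω) ^ 2 * rprod G θ (fun x => m x ω) w v ∂P) ?_ v v]
  intro g u w
  have := h.integral_map g
    (fun μ μ' => (μ w - μ' w) ^ 2 * rprod G θ μ w u)
    ((((h.bm w).sub (h.bm' w)).pow 2).mul (h.bm_rprod hT h0 h1 w u)).1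
  rw [← this]
  congr 1
  funext ω
  rw [rprod_map hT]

/-- (P4) -/
theorem HomPair.sum_mid (h : HomPair G P m m') [IsProbabilityMeasure P] (hT : G.IsTree)
    {b : ℕ} (hb : 1 ≤ b) (hreg : G.IsRegularOfDegree (b + 1)) {θ θ' : ℝ} (h0 : 0 ≤ θ) (h1 : θ < 1)
    (h0' : 0 ≤ θ') (h1' : θ' < 1) (κ : ℝ) (hκ : 0 ≤ κ)
    (v : V) {y z : V} (hyz : G.Adj y z) {n i : ℕ} (hi1 : 1 ≤ i) (hi : i ≤ n) :
    ∑ w ∈ sph G v n, ∫ ω, rprod G θ' (fun x => m' x ω) (gpt G v w (i - 1)) v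
        * rprod G θ (fun x => m x ω) (gpt G v w i) w
        * ((m (gpt G v w (i - 1)) ω - m' (gpt G v w (i - 1)) ω) ^ 2
            + (m (gpt G v w i) ω - m' (gpt G v w i) ω) ^ 2 + κ) ∂P
      ≤ 2 * (b : ℝ) ^ n * ∫ ω, ((m y ω - m' y ω) ^ 2 + (m z ω - m' z ω) ^ 2 + κ)
          * (Alev G b θ' (fun x => m' x ω) y (i - 1)
            * Alev G b θ (fun x => m x ω) z (n - i)) ∂P := by
  have hb0 : (b : ℝ) ≠ 0 := by exact_mod_cast (by omega : b ≠ 0)
  have hb1 : (1 : ℝ) ≤ b := by exact_mod_cast hb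
  have hbm : ∀ u y z w : V, BM (fun ω => rprod G θ' (fun x => m' x ω) y u
        * rprod G θ (fun x => m x ω) z w
        * ((m y ω - m' y ω) ^ 2 + (m z ω - m' z ω) ^ 2 + κ)) := by
    intro u y z w
    exact ((h.bm_rprod' hT h0' h1' y u).mul (h.bm_rprod hT h0 h1 z w)).mul
      (((((h.bm y).sub (h.bm' y)).pow 2).add (((h.bm z).sub (h.bm' z)).pow 2)).add (BM.const κ))
  have hrel := relocate4 hT hreg
    (F := fun u y z w => ∫ ω, rprod G θ' (fun x => m' x ω) y u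
        * rprod G θ (fun x => m x ω) z w
        * ((m y ω - m' y ω) ^ 2 + (m z ω - m' z ω) ^ 2 + κ) ∂P)
    (by
      intro g u y z w
      have := h.integral_map g
        (fun μ μ' => rprod G θ' μ' y u * rprod G θ μ z w
          * ((μ y - μ' y) ^ 2 + (μ z - μ' z) ^ 2 + κ)) (hbm u y z w).1
      rw [← this]
      congr 1
      funext ω
      rw [rprod_map hT, rprod_map hT])
    (by
      intro u y z w
      apply integral_nonneg
      intro ω
      have a1 := (rprod_mem hT h0' h1' (m := fun x => m' x ω) (fun x => h.le' x ω) y u).1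
      have a2 := (rprod_mem hT h0 h1 (m := fun x => m x ω) (fun x => h.le x ω) z w).1
      positivity)
    v hyz hi1 hi
  refine hrel.trans ?_
  have e1 : ∑ u ∈ sph G y (i - 1), ∑ w ∈ sph G z (n - i),
      ∫ ω, rprod G θ' (fun x => m' x ω) y u * rprod G θ (fun x => m x ω) z w
        * ((m y ω - m' y ω) ^ 2 + (m z ω - m' z ω) ^ 2 + κ) ∂P
      = (b : ℝ) ^ (n - 1) * ∫ ω, ((m y ω - m' y ω) ^ 2 + (m z ω - m' z ω) ^ 2 + κ)
          * (Alev G b θ' (fun x => m' x ω) y (i - 1)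
            * Alev G b θ (fun x => m x ω) z (n - i)) ∂P := by
    have e2 : ∀ u ∈ sph G y (i - 1), ∑ w ∈ sph G z (n - i),
      ∫ ω, rprod G θ' (fun x => m' x ω) y u * rprod G θ (fun x => m x ω) z w
        * ((m y ω - m' y ω) ^ 2 + (m z ω - m' z ω) ^ 2 + κ) ∂P
      = ∫ ω, ∑ w ∈ sph G z (n - i), rprod G θ' (fun x => m' x ω) y u
        * rprod G θ (fun x => m x ω) z w
        * ((m y ω - m' y ω) ^ 2 + (m z ω - m' z ω) ^ 2 + κ) ∂P := by
      intro u _
      rw [integral_finsetSum]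
      intro w _
      exact (hbm u y z w).integrable
    rw [Finset.sum_congr rfl e2, ← integral_finsetSum, ← integral_const_mul]
    · congr 1
      funext ω
      have e3 : (b : ℝ) ^ (n - 1) = (b : ℝ) ^ (i - 1) * (b : ℝ) ^ (n - i) := by
        rw [← pow_add]; congr 1; omega
      have e4 : (b : ℝ) ^ (i - 1) * Alev G b θ' (fun x => m' x ω) y (i - 1)
          = ∑ u ∈ sph G y (i - 1), rprod G θ' (fun x => m' x ω) y u := by
        unfold Alev
        rw [inv_pow]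
        field_simp
      have e5 : (b : ℝ) ^ (n - i) * Alev G b θ (fun x => m x ω) z (n - i)
          = ∑ w ∈ sph G z (n - i), rprod G θ (fun x => m x ω) z w := by
        unfold Alev
        rw [inv_pow]
        field_simp
      have e6 : (b : ℝ) ^ (n - 1) * (((m y ω - m' y ω) ^ 2 + (m z ω - m' z ω) ^ 2 + κ)
          * (Alev G b θ' (fun x => m' x ω) y (i - 1)
            * Alev G b θ (fun x => m x ω) z (n - i)))
          = ((b : ℝ) ^ (i - 1) * Alev G b θ' (fun x => m' x ω) y (i - 1))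
            * ((b : ℝ) ^ (n - i) * Alev G b θ (fun x => m x ω) z (n - i))
            * ((m y ω - m' y ω) ^ 2 + (m z ω - m' z ω) ^ 2 + κ) := by
        rw [e3]; ring
      rw [e6, e4, e5, Finset.sum_mul_sum, Finset.sum_mul]
      apply Finset.sum_congr rfl
      intro u _
      rw [Finset.sum_mul]
    · intro u _
      exact (BM.sum _ fun w _ => hbm u y z w).integrable
  rw [e1]
  have hnn : 0 ≤ ∫ ω, ((m y ω - m' y ω) ^ 2 + (m z ω - m' z ω) ^ 2 + κ)
          * (Alev G b θ' (fun x => m' x ω) y (i - 1)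
            * Alev G b θ (fun x => m x ω) z (n - i)) ∂P := by
    apply integral_nonneg
    intro ω
    have a1 := (Alev_mem hT hb hreg h0' h1' (m := fun x => m' x ω) (fun x => h.le' x ω) y
      (i - 1)).1
    have a2 := (Alev_mem hT hb hreg h0 h1 (m := fun x => m x ω) (fun x => h.le x ω) z
      (n - i)).1
    positivity
  rw [← mul_assoc]
  apply mul_le_mul_of_nonneg_right _ hnn
  have e7 : (b : ℝ) ^ n = (b : ℝ) ^ (n - 1) * b := by
    rw [← pow_succ]; congr 1; omega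
  rw [e7]
  have : 0 < (b : ℝ) ^ (n - 1) := by positivity
  nlinarith

/-- **The telescoping inequality in expectation**, relocated to a fixed dart `(y,z)`. -/
theorem HomPair.Sn_le (h : HomPair G P m m') [IsProbabilityMeasure P] (hT : G.IsTree)
    {b : ℕ} (hb : 2 ≤ b) (hreg : G.IsRegularOfDegree (b + 1)) {θ θ' : ℝ}
    (h0' : 0 ≤ θ') (hle : θ' ≤ θ) (h4 : 1 / 4 ≤ (b : ℝ) * θ ^ 2) (hlt : (b : ℝ) * θ ^ 2 ≤ 1)
    (v : V) {y z : V} (hyz : G.Adj y z) (n : ℕ) :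
    Sn G P θ θ' m m' v n ≤
      13 * ((b : ℝ) * θ ^ 2) ^ n
          * ∫ ω, (m y ω - m' y ω) ^ 2 * Alev G b θ (fun x => m x ω) y n ∂P
      + 12 * b * n ^ 2 * (θ - θ') ^ 2 * ((b : ℝ) * θ ^ 2) ^ n
          * ∫ ω, Alev G b θ (fun x => m x ω) y n ∂P
      + 288 * 10 ^ 12 * ((b : ℝ) * θ' ^ 2) ^ n * ∑ i ∈ Finset.range n,
          ∫ ω, ((m y ω - m' y ω) ^ 2 + (m z ω - m' z ω) ^ 2 + (θ - θ') ^ 2)
            * (Alev G b θ' (fun x => m' x ω) y i
              * Alev G b θ (fun x => m x ω) z (n - 1 - i)) ∂P := by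
  have hb1 : 1 ≤ b := by omega
  have hbR : (2 : ℝ) ≤ b := by exact_mod_cast hb
  have h0 : 0 ≤ θ := h0'.trans hle
  have h2 : θ ^ 2 ≤ 1 / 2 := by nlinarith [sq_nonneg θ]
  have h2' : θ' ^ 2 ≤ 1 / 2 := le_trans (by gcongr) h2
  have t1 := theta_lt_one h0 h2
  have t1' := theta_lt_one h0' h2'
  have hbmf : ∀ v, BM (fun ω => (m v ω - m' v ω) ^ 2) := fun v =>
    ((h.bm v).sub (h.bm' v)).pow 2
  -- pointwise bounds integrated
  have step1 : ∀ w ∈ sph G v n,
      ∫ ω, ((MM G θ (fun x => m x ω) v w - MM G θ' (fun x => m' x ω) v w) ^ 2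
        + (MM G θ (fun x => m x ω) v w) ^ 2 * (m w ω - m' w ω) ^ 2) ∂P ≤
      12 * θ ^ (2 * n) * ∫ ω, (m v ω - m' v ω) ^ 2 * rprod G θ (fun x => m x ω) v w ∂P
      + 3 * (θ ^ n - θ' ^ n) ^ 2 * ∫ ω, rprod G θ (fun x => m x ω) v w ∂P
      + (144 * 10 ^ 12) * θ' ^ (2 * n) * ∑ i ∈ Finset.Icc 1 n,
          ∫ ω, rprod G θ' (fun x => m' x ω) (gpt G v w (i - 1)) v
            * rprod G θ (fun x => m x ω) (gpt G v w i) w
            * ((m (gpt G v w (i - 1)) ω - m' (gpt G v w (i - 1)) ω) ^ 2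
              + (m (gpt G v w i) ω - m' (gpt G v w i) ω) ^ 2 + (θ - θ') ^ 2) ∂P
      + θ ^ (2 * n) * ∫ ω, (m w ω - m' w ω) ^ 2 * rprod G θ (fun x => m x ω) w v ∂P := by
    intro w hw
    rw [mem_sph hT] at hw
    have hmid : ∀ i, BM (fun ω => rprod G θ' (fun x => m' x ω) (gpt G v w (i - 1)) v
            * rprod G θ (fun x => m x ω) (gpt G v w i) w
            * ((m (gpt G v w (i - 1)) ω - m' (gpt G v w (i - 1)) ω) ^ 2
              + (m (gpt G v w i) ω - m' (gpt G v w i) ω) ^ 2 + (θ - θ') ^ 2)) := fun i =>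
      ((h.bm_rprod' hT h0' t1' _ _).mul (h.bm_rprod hT h0 t1 _ _)).mul
        (((hbmf _).add (hbmf _)).add (BM.const _))
    rw [← integral_const_mul, ← integral_const_mul, ← integral_const_mul,
      ← integral_finsetSum _ (fun i _ => (hmid i).integrable), ← integral_const_mul,
      ← integral_add, ← integral_add, ← integral_add]
    · apply integral_mono
      · exact ((((h.bm_MM hT h0 t1 v w).sub (h.symm.bm_MM hT h0' t1' v w)).pow 2).add
          (((h.bm_MM hT h0 t1 v w).pow 2).mul (hbmf w))).integrable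
      · exact ((((BM.const _).mul ((hbmf v).mul (h.bm_rprod hT h0 t1 v w))).add
          ((BM.const _).mul (h.bm_rprod hT h0 t1 v w))).add
          ((BM.const _).mul (BM.sum _ fun i _ => hmid i))).add
          ((BM.const _).mul ((hbmf w).mul (h.bm_rprod hT h0 t1 w v))) |>.integrable
      · intro ω
        have q1 := MM_sub_sq_le hT h0' hle h2 (m := fun x => m x ω) (m' := fun x => m' x ω)
          (fun x => h.le x ω) (fun x => h.le' x ω) v w
        have q2 := MM_sq_mul_le hT h0 h2 (m := fun x => m x ω) (fun x => h.le x ω) v w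
        rw [hw] at q1 q2
        have q3 := mul_le_mul_of_nonneg_right q2 (sq_nonneg (m w ω - m' w ω))
        simp only
        calc _ ≤ _ := add_le_add q1 q3
          _ = _ := by ring
    · exact (((BM.const _).mul ((hbmf v).mul (h.bm_rprod hT h0 t1 v w))).add
          ((BM.const _).mul (h.bm_rprod hT h0 t1 v w))).add
          ((BM.const _).mul (BM.sum _ fun i _ => hmid i)) |>.integrable
    · exact ((BM.const _).mul ((hbmf w).mul (h.bm_rprod hT h0 t1 w v))).integrable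
    · exact ((BM.const _).mul ((hbmf v).mul (h.bm_rprod hT h0 t1 v w))).add
          ((BM.const _).mul (h.bm_rprod hT h0 t1 v w)) |>.integrable
    · exact ((BM.const _).mul (BM.sum _ fun i _ => hmid i)).integrable
    · exact ((BM.const _).mul ((hbmf v).mul (h.bm_rprod hT h0 t1 v w))).integrable
    · exact ((BM.const _).mul (h.bm_rprod hT h0 t1 v w)).integrable
  unfold Sn
  refine (Finset.sum_le_sum step1).trans ?_
  rw [Finset.sum_add_distrib, Finset.sum_add_distrib, Finset.sum_add_distrib,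
    ← Finset.mul_sum, ← Finset.mul_sum, ← Finset.mul_sum, ← Finset.mul_sum,
    h.sum_sq_out hT hb1 hreg h0 t1 v y n, h.sum_out hT hb1 hreg h0 t1 v y n,
    h.sum_sq_in hT hb1 hreg h0 t1 v y n, Finset.sum_comm]
  -- the middle term
  have hmid2 : ∑ i ∈ Finset.Icc 1 n, ∑ w ∈ sph G v n,
      ∫ ω, rprod G θ' (fun x => m' x ω) (gpt G v w (i - 1)) v
            * rprod G θ (fun x => m x ω) (gpt G v w i) w
            * ((m (gpt G v w (i - 1)) ω - m' (gpt G v w (i - 1)) ω) ^ 2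
              + (m (gpt G v w i) ω - m' (gpt G v w i) ω) ^ 2 + (θ - θ') ^ 2) ∂P
      ≤ 2 * (b : ℝ) ^ n * ∑ i ∈ Finset.range n,
          ∫ ω, ((m y ω - m' y ω) ^ 2 + (m z ω - m' z ω) ^ 2 + (θ - θ') ^ 2)
            * (Alev G b θ' (fun x => m' x ω) y i
              * Alev G b θ (fun x => m x ω) z (n - 1 - i)) ∂P := by
    rw [Finset.mul_sum]
    have hI : Finset.Icc 1 n = (Finset.range n).image (fun i => i + 1) := by
      ext k
      simp only [Finset.mem_Icc, Finset.mem_image, Finset.mem_range]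
      constructor
      · intro h; exact ⟨k - 1, by omega, by omega⟩
      · rintro ⟨a, h, rfl⟩; omega
    rw [hI, Finset.sum_image (fun a _ b _ h => by simpa using h)]
    apply Finset.sum_le_sum
    intro i hi
    rw [Finset.mem_range] at hi
    have := h.sum_mid hT hb1 hreg h0 t1 h0' t1' ((θ - θ') ^ 2) (sq_nonneg _) v hyz
      (n := n) (i := i + 1) (by omega) (by omega)
    rw [Nat.add_sub_cancel] at this
    rw [show n - (i + 1) = n - 1 - i by omega] at this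
    exact this
  -- nonnegativity
  have hA0 : ∀ ω k, 0 ≤ Alev G b θ (fun x => m x ω) y k := fun ω k =>
    (Alev_mem hT hb1 hreg h0 t1 (m := fun x => m x ω) (fun x => h.le x ω) y k).1
  have hI2 : 0 ≤ ∫ ω, Alev G b θ (fun x => m x ω) y n ∂P :=
    integral_nonneg fun ω => hA0 ω n
  have hpow : (θ ^ n - θ' ^ n) ^ 2 ≤ 4 * b * n ^ 2 * (θ - θ') ^ 2 * θ ^ (2 * n) := by
    rcases Nat.eq_zero_or_pos n with rfl | hn
    · simp
    · have a1 := abs_pow_sub_pow_le θ θ' n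
      rw [abs_of_nonneg h0, abs_of_nonneg h0', max_eq_left hle] at a1
      have a2 : (θ ^ n - θ' ^ n) ^ 2 ≤ (|θ - θ'| * n * θ ^ (n - 1)) ^ 2 := by
        rw [← sq_abs (θ ^ n - θ' ^ n)]
        exact pow_le_pow_left₀ (abs_nonneg _) a1 2
      refine a2.trans ?_
      have a3 : θ ^ (2 * n) = θ ^ 2 * (θ ^ (n - 1)) ^ 2 := by
        rw [← pow_mul, ← pow_add]; congr 1; omega
      rw [a3]
      have a4 : (|θ - θ'| * n * θ ^ (n - 1)) ^ 2
          = (n : ℝ) ^ 2 * (θ - θ') ^ 2 * (θ ^ (n - 1)) ^ 2 := by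
        rw [mul_pow, mul_pow, sq_abs]; ring
      rw [a4]
      have a5 : 0 ≤ (n : ℝ) ^ 2 * (θ - θ') ^ 2 * (θ ^ (n - 1)) ^ 2 := by positivity
      calc (n : ℝ) ^ 2 * (θ - θ') ^ 2 * (θ ^ (n - 1)) ^ 2
          ≤ (4 * (b * θ ^ 2)) * ((n : ℝ) ^ 2 * (θ - θ') ^ 2 * (θ ^ (n - 1)) ^ 2) := by nlinarith
        _ = _ := by ring
  have e1 : ((b : ℝ) * θ ^ 2) ^ n = (b : ℝ) ^ n * θ ^ (2 * n) := by
    rw [mul_pow, ← pow_mul]
  have e2 : ((b : ℝ) * θ' ^ 2) ^ n = (b : ℝ) ^ n * θ' ^ (2 * n) := by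
    rw [mul_pow, ← pow_mul]
  rw [e1, e2]
  have hbn : 0 ≤ (b : ℝ) ^ n := by positivity
  have f1 : 3 * (θ ^ n - θ' ^ n) ^ 2 * ((b : ℝ) ^ n * ∫ ω, Alev G b θ (fun x => m x ω) y n ∂P)
      ≤ 12 * b * n ^ 2 * (θ - θ') ^ 2 * ((b : ℝ) ^ n * θ ^ (2 * n))
          * ∫ ω, Alev G b θ (fun x => m x ω) y n ∂P := by
    have := mul_le_mul_of_nonneg_right hpow (mul_nonneg hbn hI2)
    calc _ = 3 * ((θ ^ n - θ' ^ n) ^ 2 * ((b : ℝ) ^ n
            * ∫ ω, Alev G b θ (fun x => m x ω) y n ∂P)) := by ring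
      _ ≤ 3 * (4 * b * n ^ 2 * (θ - θ') ^ 2 * θ ^ (2 * n) * ((b : ℝ) ^ n
            * ∫ ω, Alev G b θ (fun x => m x ω) y n ∂P)) := by linarith
      _ = _ := by ring
  have f2 := mul_le_mul_of_nonneg_left hmid2
    (by positivity : 0 ≤ (144 * 10 ^ 12 : ℝ) * θ' ^ (2 * n))
  refine (add_le_add (add_le_add (add_le_add le_rfl f1) f2) le_rfl).trans (le_of_eq ?_)
  ring

end main

end Crest.Agent.R160
end

-- ▼ part R160/GBabs
section

/-! # Row 160, module G: estimate (B) in abstract form. -/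

set_option autoImplicit false

open MeasureTheory
open scoped Classical

namespace Crest.Agent.R160

open Crest.Agent.R160.TreeAut

/-! ### real sums -/

namespace GBsum

theorem geom_id (x : ℝ) (M : ℕ) :
    (1 - x) ^ 2 * ∑ n ∈ Finset.range M, ((n : ℝ) + 1) * x ^ n
      = 1 - (M + 1) * x ^ M + M * x ^ (M + 1) := by
  induction M with
  | zero => simp
  | succ M ih =>
    rw [Finset.sum_range_succ, mul_add, ih]
    push_cast
    ring

theorem geom_le {x : ℝ} (h0 : 0 ≤ x) (h1 : x < 1) (M : ℕ) :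
    ∑ n ∈ Finset.range M, ((n : ℝ) + 1) * x ^ n ≤ 1 / (1 - x) ^ 2 := by
  have h2 : 0 < (1 - x) ^ 2 := by have : 0 < 1 - x := by linarith
                                  positivity
  rw [le_div_iff₀ h2, mul_comm, geom_id]
  have h3 : x ^ (M + 1) ≤ x ^ M := by
    rw [pow_succ]
    have : 0 ≤ x ^ M := by positivity
    nlinarith
  have h4 : (M : ℝ) * x ^ (M + 1) ≤ (M : ℝ) * x ^ M := by gcongr
  have h5 : 0 ≤ x ^ M := by positivity
  linarith

/-- `∑ (n+1) e^{-κ(n-1)/2} ≤ e^{κ/2} (1+κ/2)²·4/κ²` -/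
theorem sum_exp_le {κ : ℝ} (hκ : 0 < κ) (M : ℕ) :
    ∑ n ∈ Finset.range M, ((n : ℝ) + 1) * Real.exp (-κ * ((n : ℝ) - 1) / 2)
      ≤ Real.exp (κ / 2) * (1 + κ / 2) ^ 2 * 4 / κ ^ 2 := by
  have h1 : ∀ n : ℕ, ((n : ℝ) + 1) * Real.exp (-κ * ((n : ℝ) - 1) / 2)
      = Real.exp (κ / 2) * (((n : ℝ) + 1) * (Real.exp (-κ / 2)) ^ n) := by
    intro n
    rw [← Real.exp_nat_mul, mul_left_comm, ← Real.exp_add]
    congr 2
    ring
  simp only [h1]
  rw [← Finset.mul_sum]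
  have hx0 : 0 ≤ Real.exp (-κ / 2) := (Real.exp_pos _).le
  have hx1 : Real.exp (-κ / 2) < 1 := by
    rw [Real.exp_lt_one_iff]; linarith
  have h2 := geom_le hx0 hx1 M
  have h3 : 1 / (1 - Real.exp (-κ / 2)) ^ 2 ≤ (1 + κ / 2) ^ 2 * 4 / κ ^ 2 := by
    have h4 : Real.exp (-κ / 2) ≤ 1 / (1 + κ / 2) := by
      rw [show -κ / 2 = -(κ / 2) by ring, Real.exp_neg, one_div]
      apply inv_anti₀ (by positivity)
      have := Real.add_one_le_exp (κ / 2)
      linarith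
    have h5 : (κ / 2) / (1 + κ / 2) ≤ 1 - Real.exp (-κ / 2) := by
      have : (κ / 2) / (1 + κ / 2) = 1 - 1 / (1 + κ / 2) := by field_simp; ring
      linarith
    have h6 : 0 < (κ / 2) / (1 + κ / 2) := by positivity
    have h7 : 1 / (1 - Real.exp (-κ / 2)) ^ 2 ≤ 1 / ((κ / 2) / (1 + κ / 2)) ^ 2 := by
      apply one_div_le_one_div_of_le (by positivity)
      gcongr
    refine h7.trans (le_of_eq ?_)
    field_simp
    ring
  calc Real.exp (κ / 2) * ∑ n ∈ Finset.range M, ((n : ℝ) + 1) * (Real.exp (-κ / 2)) ^ n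
      ≤ Real.exp (κ / 2) * ((1 + κ / 2) ^ 2 * 4 / κ ^ 2) :=
        mul_le_mul_of_nonneg_left (h2.trans h3) (Real.exp_pos _).le
    _ = _ := by ring

theorem sum_small_le (N : ℕ) (M : ℕ) :
    ∑ n ∈ (Finset.range M).filter (fun n => n ≤ 2 * N + 1), ((n : ℝ) + 1) ≤ 8 * (N : ℝ) ^ 2 + 8 := by
  have h1 : ∑ n ∈ (Finset.range M).filter (fun n => n ≤ 2 * N + 1), ((n : ℝ) + 1)
      ≤ ∑ n ∈ Finset.range (2 * N + 2), ((n : ℝ) + 1) := by
    apply Finset.sum_le_sum_of_subset_of_nonneg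
    · intro n hn
      rw [Finset.mem_filter] at hn
      rw [Finset.mem_range]
      omega
    · intro n _ _
      positivity
  have h2 : ∑ n ∈ Finset.range (2 * N + 2), ((n : ℝ) + 1)
      ≤ ∑ n ∈ Finset.range (2 * N + 2), ((2 * N + 2 : ℕ) : ℝ) := by
    apply Finset.sum_le_sum
    intro n hn
    rw [Finset.mem_range] at hn
    exact_mod_cast hn
  rw [Finset.sum_const, Finset.card_range, nsmul_eq_mul] at h2
  push_cast at h2
  nlinarith [sq_nonneg ((N : ℝ) - 1)]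

theorem sum_small2_le (N : ℕ) (M : ℕ) :
    ∑ n ∈ (Finset.range M).filter (fun n => n ≤ 2 * N + 1), ((n : ℝ) + 1) ^ 2
      ≤ (2 * (N : ℝ) + 2) ^ 3 := by
  have h1 : ∑ n ∈ (Finset.range M).filter (fun n => n ≤ 2 * N + 1), ((n : ℝ) + 1) ^ 2
      ≤ ∑ n ∈ Finset.range (2 * N + 2), ((n : ℝ) + 1) ^ 2 := by
    apply Finset.sum_le_sum_of_subset_of_nonneg
    · intro n hn
      rw [Finset.mem_filter] at hn
      rw [Finset.mem_range]
      omega
    · intro n _ _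
      positivity
  have h2 : ∑ n ∈ Finset.range (2 * N + 2), ((n : ℝ) + 1) ^ 2
      ≤ ∑ n ∈ Finset.range (2 * N + 2), (((2 * N + 2 : ℕ) : ℝ)) ^ 2 := by
    apply Finset.sum_le_sum
    intro n hn
    rw [Finset.mem_range] at hn
    have : (n : ℝ) + 1 ≤ ((2 * N + 2 : ℕ) : ℝ) := by exact_mod_cast hn
    gcongr
  rw [Finset.sum_const, Finset.card_range, nsmul_eq_mul] at h2
  push_cast at h2
  calc _ ≤ _ := h1.trans h2
    _ = _ := by ring

/-- `∑ (n+1)² e^{-κ(n-1)/2}` is bounded -/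
theorem sum_exp2_le {κ : ℝ} (hκ : 0 < κ) (M : ℕ) :
    ∑ n ∈ Finset.range M, ((n : ℝ) + 1) ^ 2 * Real.exp (-κ * ((n : ℝ) - 1) / 2)
      ≤ (4 / κ) * Real.exp κ * (Real.exp (κ / 4) * (1 + κ / 4) ^ 2 * 4 / (κ / 2) ^ 2) := by
  have h1 : ∀ n : ℕ, ((n : ℝ) + 1) ^ 2 * Real.exp (-κ * ((n : ℝ) - 1) / 2)
      ≤ (4 / κ) * Real.exp κ * (((n : ℝ) + 1) * Real.exp (-(κ / 2) * ((n : ℝ) - 1) / 2)) := by
    intro n
    have h2 : (n : ℝ) + 1 ≤ (4 / κ) * Real.exp (κ / 4 * ((n : ℝ) + 1)) := by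
      have := Real.add_one_le_exp (κ / 4 * ((n : ℝ) + 1))
      calc (n : ℝ) + 1 = (4 / κ) * (κ / 4 * ((n : ℝ) + 1)) := by field_simp
        _ ≤ (4 / κ) * Real.exp (κ / 4 * ((n : ℝ) + 1)) := by
            apply mul_le_mul_of_nonneg_left _ (by positivity)
            linarith
    have h3 : 0 ≤ ((n : ℝ) + 1) * Real.exp (-κ * ((n : ℝ) - 1) / 2) := by positivity
    calc ((n : ℝ) + 1) ^ 2 * Real.exp (-κ * ((n : ℝ) - 1) / 2)
        = ((n : ℝ) + 1) * (((n : ℝ) + 1) * Real.exp (-κ * ((n : ℝ) - 1) / 2)) := by ring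
      _ ≤ ((4 / κ) * Real.exp (κ / 4 * ((n : ℝ) + 1))) *
            (((n : ℝ) + 1) * Real.exp (-κ * ((n : ℝ) - 1) / 2)) :=
          mul_le_mul_of_nonneg_right h2 h3
      _ = (4 / κ) * (((n : ℝ) + 1) * (Real.exp (κ / 4 * ((n : ℝ) + 1))
            * Real.exp (-κ * ((n : ℝ) - 1) / 2))) := by ring
      _ = (4 / κ) * (((n : ℝ) + 1) * Real.exp (κ / 4 * ((n : ℝ) + 1)
            + -κ * ((n : ℝ) - 1) / 2)) := by rw [Real.exp_add]
      _ ≤ (4 / κ) * (((n : ℝ) + 1) * Real.exp (κ + -(κ / 2) * ((n : ℝ) - 1) / 2)) := by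
          apply mul_le_mul_of_nonneg_left _ (by positivity)
          apply mul_le_mul_of_nonneg_left _ (by positivity)
          apply Real.exp_le_exp.2
          nlinarith
      _ = _ := by rw [Real.exp_add]; ring
  refine (Finset.sum_le_sum fun n _ => h1 n).trans ?_
  rw [← Finset.mul_sum]
  apply mul_le_mul_of_nonneg_left _ (by positivity)
  have := sum_exp_le (κ := κ / 2) (by positivity) M
  have e : κ / 2 / 2 = κ / 4 := by ring
  rw [e] at this
  exact this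

/-- the double exponential part -/
theorem sum_dexp_le {c : ℝ} (hc : 0 < c) (N M : ℕ) :
    ∑ n ∈ (Finset.range M).filter (fun n => ¬ n ≤ 2 * N + 1),
      ((n : ℝ) + 1) * Real.exp (-Real.exp (c * ((n : ℝ) - 1) / 2))
      ≤ (2 * (Real.exp (c / 4) * (1 + c / 4) ^ 2 * 4 / (c / 2) ^ 2))
        * Real.exp (-Real.exp (c / 2 * N)) := by
  have h1 : ∀ n ∈ (Finset.range M).filter (fun n => ¬ n ≤ 2 * N + 1),
      ((n : ℝ) + 1) * Real.exp (-Real.exp (c * ((n : ℝ) - 1) / 2))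
      ≤ (2 * Real.exp (-Real.exp (c / 2 * N)))
        * (((n : ℝ) + 1) * Real.exp (-(c / 2) * ((n : ℝ) - 1) / 2)) := by
    intro n hn
    rw [Finset.mem_filter] at hn
    have hn2 : 2 * (N : ℝ) ≤ (n : ℝ) - 1 := by
      have : 2 * N + 1 ≤ n := by omega
      have : (2 * (N : ℝ) + 1) ≤ n := by exact_mod_cast this
      linarith
    have h2 : Real.exp (-Real.exp (c * ((n : ℝ) - 1) / 2))
        ≤ (2 * Real.exp (-Real.exp (c / 2 * N))) * Real.exp (-(c / 2) * ((n : ℝ) - 1) / 2) := by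
      have e1 : Real.exp (c * N) ≤ Real.exp (c * ((n : ℝ) - 1) / 2) := by
        apply Real.exp_le_exp.2
        nlinarith
      have e2 : Real.exp (c / 2 * N) ≤ Real.exp (c * N) / 2 + 1 / 2 := by
        have : Real.exp (c * N) = Real.exp (c / 2 * N) ^ 2 := by
          rw [← Real.exp_nat_mul]; congr 1; push_cast; ring
        rw [this]
        nlinarith [sq_nonneg (Real.exp (c / 2 * N) - 1)]
      have e3 : c * ((n : ℝ) - 1) / 2 + 1 ≤ Real.exp (c * ((n : ℝ) - 1) / 2) :=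
        Real.add_one_le_exp _
      have e4 : (1 : ℝ) ≤ 2 := by norm_num
      have e5 : Real.exp (-Real.exp (c * ((n : ℝ) - 1) / 2))
          ≤ Real.exp (-Real.exp (c / 2 * N)) * Real.exp (-(c / 2) * ((n : ℝ) - 1) / 2) := by
        rw [← Real.exp_add]
        apply Real.exp_le_exp.2
        linarith
      have e6 : 0 ≤ Real.exp (-Real.exp (c / 2 * N)) * Real.exp (-(c / 2) * ((n : ℝ) - 1) / 2) := by
        positivity
      linarith
    calc ((n : ℝ) + 1) * Real.exp (-Real.exp (c * ((n : ℝ) - 1) / 2))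
        ≤ ((n : ℝ) + 1) * ((2 * Real.exp (-Real.exp (c / 2 * N)))
            * Real.exp (-(c / 2) * ((n : ℝ) - 1) / 2)) :=
          mul_le_mul_of_nonneg_left h2 (by positivity)
      _ = _ := by ring
  refine (Finset.sum_le_sum h1).trans ?_
  rw [← Finset.mul_sum]
  have h2 : ∑ n ∈ (Finset.range M).filter (fun n => ¬ n ≤ 2 * N + 1),
      ((n : ℝ) + 1) * Real.exp (-(c / 2) * ((n : ℝ) - 1) / 2)
      ≤ ∑ n ∈ Finset.range M, ((n : ℝ) + 1) * Real.exp (-(c / 2) * ((n : ℝ) - 1) / 2) := by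
    apply Finset.sum_le_sum_of_subset_of_nonneg (Finset.filter_subset _ _)
    intro n _ _
    positivity
  have h3 := sum_exp_le (κ := c / 2) (by positivity) M
  have e : c / 2 / 2 = c / 4 := by ring
  rw [e] at h3
  calc _ ≤ (2 * Real.exp (-Real.exp (c / 2 * N)))
        * (Real.exp (c / 4) * (1 + c / 4) ^ 2 * 4 / (c / 2) ^ 2) :=
        mul_le_mul_of_nonneg_left (h2.trans h3) (by positivity)
    _ = _ := by ring

/-- summation of the per-level bounds -/
theorem total (S : ℕ → ℝ) (L c κ κ0 D Δ : ℝ) (hL : 0 ≤ L) (hc : 0 < c) (hκ0 : 0 < κ0)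
    (hκ : κ0 ≤ κ) (hκc : κ ≤ c) (hD : 0 ≤ D) (hΔ : 0 ≤ Δ) (N : ℕ)
    (hsmall : ∀ n, S n ≤ L * ((n : ℝ) + 1) * D + L * ((n : ℝ) + 1) ^ 2 * Δ)
    (hlarge : ∀ n, S n ≤ L * ((n : ℝ) + 1) * Real.exp (-κ * ((n : ℝ) - 1) / 2) * D
      + L * ((n : ℝ) + 1) * Real.exp (-Real.exp (c * ((n : ℝ) - 1) / 2))
      + L * ((n : ℝ) + 1) ^ 2 * Real.exp (-κ0 * ((n : ℝ) - 1) / 2) * Δ) (M : ℕ) :
    ∑ n ∈ Finset.range M, S n ≤
      L * (8 * (N : ℝ) ^ 2 + 8 + Real.exp (c / 2) * (1 + c / 2) ^ 2 * 4 / κ ^ 2) * D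
      + L * (2 * (Real.exp (c / 4) * (1 + c / 4) ^ 2 * 4 / (c / 2) ^ 2))
        * Real.exp (-Real.exp (c / 2 * N))
      + L * ((2 * N + 2) ^ 3 + (4 / κ0) * Real.exp κ0
          * (Real.exp (κ0 / 4) * (1 + κ0 / 4) ^ 2 * 4 / (κ0 / 2) ^ 2)) * Δ := by
  have hκp : 0 < κ := lt_of_lt_of_le hκ0 hκ
  rw [← Finset.sum_filter_add_sum_filter_not (Finset.range M) (fun n => n ≤ 2 * N + 1)]
  have h1 : ∑ n ∈ (Finset.range M).filter (fun n => n ≤ 2 * N + 1), S n
      ≤ L * (8 * (N : ℝ) ^ 2 + 8) * D + L * (2 * N + 2) ^ 3 * Δ := by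
    calc _ ≤ ∑ n ∈ (Finset.range M).filter (fun n => n ≤ 2 * N + 1),
          (L * ((n : ℝ) + 1) * D + L * ((n : ℝ) + 1) ^ 2 * Δ) :=
          Finset.sum_le_sum fun n _ => hsmall n
      _ = L * (∑ n ∈ (Finset.range M).filter (fun n => n ≤ 2 * N + 1), ((n : ℝ) + 1)) * D
          + L * (∑ n ∈ (Finset.range M).filter (fun n => n ≤ 2 * N + 1), ((n : ℝ) + 1) ^ 2) * Δ := by
          rw [Finset.sum_add_distrib, Finset.mul_sum, Finset.mul_sum, Finset.sum_mul,
            Finset.sum_mul]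
      _ ≤ _ := by
          have a1 := sum_small_le N M
          have a2 := sum_small2_le N M
          gcongr
  have h2 : ∑ n ∈ (Finset.range M).filter (fun n => ¬ n ≤ 2 * N + 1), S n
      ≤ L * (Real.exp (c / 2) * (1 + c / 2) ^ 2 * 4 / κ ^ 2) * D
        + L * ((2 * (Real.exp (c / 4) * (1 + c / 4) ^ 2 * 4 / (c / 2) ^ 2))
          * Real.exp (-Real.exp (c / 2 * N)))
        + L * ((4 / κ0) * Real.exp κ0
          * (Real.exp (κ0 / 4) * (1 + κ0 / 4) ^ 2 * 4 / (κ0 / 2) ^ 2)) * Δ := by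
    calc _ ≤ ∑ n ∈ (Finset.range M).filter (fun n => ¬ n ≤ 2 * N + 1),
          (L * ((n : ℝ) + 1) * Real.exp (-κ * ((n : ℝ) - 1) / 2) * D
      + L * ((n : ℝ) + 1) * Real.exp (-Real.exp (c * ((n : ℝ) - 1) / 2))
      + L * ((n : ℝ) + 1) ^ 2 * Real.exp (-κ0 * ((n : ℝ) - 1) / 2) * Δ) :=
          Finset.sum_le_sum fun n _ => hlarge n
      _ = L * (∑ n ∈ (Finset.range M).filter (fun n => ¬ n ≤ 2 * N + 1),
            ((n : ℝ) + 1) * Real.exp (-κ * ((n : ℝ) - 1) / 2)) * D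
          + L * (∑ n ∈ (Finset.range M).filter (fun n => ¬ n ≤ 2 * N + 1),
            ((n : ℝ) + 1) * Real.exp (-Real.exp (c * ((n : ℝ) - 1) / 2)))
          + L * (∑ n ∈ (Finset.range M).filter (fun n => ¬ n ≤ 2 * N + 1),
            ((n : ℝ) + 1) ^ 2 * Real.exp (-κ0 * ((n : ℝ) - 1) / 2)) * Δ := by
          rw [Finset.sum_add_distrib, Finset.sum_add_distrib, Finset.mul_sum, Finset.mul_sum,
            Finset.mul_sum, Finset.sum_mul, Finset.sum_mul]
          simp only [mul_assoc]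
      _ ≤ _ := by
          have a1 : ∑ n ∈ (Finset.range M).filter (fun n => ¬ n ≤ 2 * N + 1),
              ((n : ℝ) + 1) * Real.exp (-κ * ((n : ℝ) - 1) / 2)
              ≤ Real.exp (c / 2) * (1 + c / 2) ^ 2 * 4 / κ ^ 2 := by
            refine (Finset.sum_le_sum_of_subset_of_nonneg (Finset.filter_subset _ _)
              (fun n _ _ => by positivity)).trans ((sum_exp_le hκp M).trans ?_)
            gcongr
          have a2 := sum_dexp_le hc N M
          have a3 : ∑ n ∈ (Finset.range M).filter (fun n => ¬ n ≤ 2 * N + 1),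
              ((n : ℝ) + 1) ^ 2 * Real.exp (-κ0 * ((n : ℝ) - 1) / 2) ≤ _ :=
            (Finset.sum_le_sum_of_subset_of_nonneg (Finset.filter_subset _ _)
              (fun n _ _ => by positivity)).trans (sum_exp2_le hκ0 M)
          gcongr
  calc _ ≤ _ := add_le_add h1 h2
    _ = _ := by ring

end GBsum

/-! ### level bounds -/

section lev

variable {V Ω : Type*} [MeasurableSpace Ω] {G : SimpleGraph V} [G.LocallyFinite] {P : Measure Ω}
  {m m' : V → Ω → ℝ}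

/-- splitting an integral according to a tail event -/
theorem integral_mul_le_of_tail [IsProbabilityMeasure P] {F A : Ω → ℝ} (hF : BM F) (hA : BM A)
    {KF KA a : ℝ} (ha : 0 ≤ a) (hF0 : ∀ ω, 0 ≤ F ω) (hFK : ∀ ω, F ω ≤ KF) (hA0 : ∀ ω, 0 ≤ A ω)
    (hAK : ∀ ω, A ω ≤ KA) :
    ∫ ω, F ω * A ω ∂P ≤ a * ∫ ω, F ω ∂P + KF * KA * P.real {ω | a < A ω} := by
  have hms : MeasurableSet {ω | a < A ω} := measurableSet_lt measurable_const hA.1
  have h1 : ∀ ω, F ω * A ω ≤ a * F ω + KF * KA * ({ω | a < A ω}.indicator 1 ω) := by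
    intro ω
    by_cases hω : a < A ω
    · have : ({ω | a < A ω}.indicator (1 : Ω → ℝ) ω) = 1 := by
        simp [Set.indicator, hω]
      rw [this, mul_one]
      have h2 : F ω * A ω ≤ KF * KA :=
        mul_le_mul (hFK ω) (hAK ω) (hA0 ω) ((hF0 ω).trans (hFK ω))
      have := mul_nonneg ha (hF0 ω)
      linarith
    · have : ({ω | a < A ω}.indicator (1 : Ω → ℝ) ω) = 0 := by
        simp [Set.indicator, hω]
      rw [this, mul_zero, add_zero, mul_comm]
      push Not at hω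
      exact mul_le_mul_of_nonneg_right hω (hF0 ω)
  have hind : Integrable ({ω | a < A ω}.indicator (1 : Ω → ℝ)) P :=
    (integrable_const (1 : ℝ)).indicator hms
  have h2 := integral_mono (hF.mul hA).integrable
    ((hF.integrable.const_mul a).add (hind.const_mul (KF * KA))) h1
  refine h2.trans (le_of_eq ?_)
  simp only [Pi.add_apply]
  rw [integral_add (hF.integrable.const_mul a) (hind.const_mul (KF * KA)), integral_const_mul,
    integral_const_mul, integral_indicator_one hms]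

variable [IsProbabilityMeasure P]

/-- the data of estimate (B) at a fixed time -/
structure GBdata (G : SimpleGraph V) [G.LocallyFinite] (P : Measure Ω) (b : ℕ) (θ θ' : ℝ)
    (m m' : V → Ω → ℝ) (D C1 c κ κ0 : ℝ) : Prop where
  tree : G.IsTree
  reg : G.IsRegularOfDegree (b + 1)
  hb : 2 ≤ b
  hom : HomPair G P m m'
  h0' : 0 ≤ θ'
  hle : θ' ≤ θ
  h4 : 1 / 4 ≤ (b : ℝ) * θ ^ 2
  hlt : (b : ℝ) * θ ^ 2 ≤ 1
  hD : ∀ v, ∫ ω, (m v ω - m' v ω) ^ 2 ∂P = D
  hC1 : 1 ≤ C1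
  hc : 0 < c
  hκ0 : 0 < κ0
  hκ : κ0 ≤ κ
  hκc : κ ≤ c
  tail : ∀ (o : V) (k : ℕ), P.real {ω | C1 * Real.exp (-κ * k) < Alev G b θ (fun x => m x ω) o k}
    ≤ C1 * Real.exp (-Real.exp (c * k))
  tail' : ∀ (o : V) (k : ℕ), P.real {ω | C1 * Real.exp (-κ * k) < Alev G b θ' (fun x => m' x ω) o k}
    ≤ C1 * Real.exp (-Real.exp (c * k))

set_option maxHeartbeats 4000000 in
theorem GBdata.level {b : ℕ} {θ θ' D C1 c κ κ0 : ℝ}
    (h : GBdata G P b θ θ' m m' D C1 c κ κ0) (v : V) (n : ℕ) :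
    (Sn G P θ θ' m m' v n ≤ (10 ^ 17 * b * C1) * ((n : ℝ) + 1) * D
        + (10 ^ 17 * b * C1) * ((n : ℝ) + 1) ^ 2 * (θ - θ') ^ 2) ∧
    (Sn G P θ θ' m m' v n ≤
      (10 ^ 17 * b * C1) * ((n : ℝ) + 1) * Real.exp (-κ * ((n : ℝ) - 1) / 2) * D
      + (10 ^ 17 * b * C1) * ((n : ℝ) + 1) * Real.exp (-Real.exp (c * ((n : ℝ) - 1) / 2))
      + (10 ^ 17 * b * C1) * ((n : ℝ) + 1) ^ 2 * Real.exp (-κ0 * ((n : ℝ) - 1) / 2)
        * (θ - θ') ^ 2) := by
  obtain ⟨hT, hreg, hb, hom, h0', hle, h4, hlt, hD, hC1, hc, hκ0, hκ, hκc, tail, tail'⟩ := h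
  have hb1 : 1 ≤ b := by omega
  have hbR : (2 : ℝ) ≤ b := by exact_mod_cast hb
  have h0 : 0 ≤ θ := h0'.trans hle
  have h2 : θ ^ 2 ≤ 1 / 2 := by nlinarith [sq_nonneg θ]
  have h2' : θ' ^ 2 ≤ 1 / 2 := le_trans (by gcongr) h2
  have t1 := theta_lt_one h0 h2
  have t1' := theta_lt_one h0' h2'
  have hκp : 0 < κ := lt_of_lt_of_le hκ0 hκ
  -- a neighbour
  obtain ⟨y, hy⟩ := sph_nonempty hT hb1 hreg v 1
  rw [mem_sph hT, SimpleGraph.dist_eq_one_iff_adj] at hy
  have hmain := hom.Sn_le hT hb hreg h0' hle h4 hlt v hy n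
  have hbm : ∀ v, BM (fun ω => (m v ω - m' v ω) ^ 2) := fun v =>
    ((hom.bm v).sub (hom.bm' v)).pow 2
  have hf4 : ∀ v ω, (m v ω - m' v ω) ^ 2 ≤ 4 := by
    intro v ω
    have := abs_sub (m v ω) (m' v ω)
    have h1 := hom.le v ω
    have h2 := hom.le' v ω
    rw [← sq_abs]
    have h3 : |m v ω - m' v ω| ≤ 2 := by linarith
    calc |m v ω - m' v ω| ^ 2 ≤ 2 ^ 2 := pow_le_pow_left₀ (abs_nonneg _) h3 2
      _ = 4 := by norm_num
  have hA0 : ∀ o k ω, 0 ≤ Alev G b θ (fun x => m x ω) o k := fun o k ω =>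
    (Alev_mem hT hb1 hreg h0 t1 (m := fun x => m x ω) (fun x => hom.le x ω) o k).1
  have hA2 : ∀ o k ω, Alev G b θ (fun x => m x ω) o k ≤ 2 := fun o k ω =>
    (Alev_mem hT hb1 hreg h0 t1 (m := fun x => m x ω) (fun x => hom.le x ω) o k).2
  have hA0' : ∀ o k ω, 0 ≤ Alev G b θ' (fun x => m' x ω) o k := fun o k ω =>
    (Alev_mem hT hb1 hreg h0' t1' (m := fun x => m' x ω) (fun x => hom.le' x ω) o k).1
  have hA2' : ∀ o k ω, Alev G b θ' (fun x => m' x ω) o k ≤ 2 := fun o k ω =>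
    (Alev_mem hT hb1 hreg h0' t1' (m := fun x => m' x ω) (fun x => hom.le' x ω) o k).2
  have hAbm : ∀ o k, BM (fun ω => Alev G b θ (fun x => m x ω) o k) := fun o k =>
    hom.bm_Alev hT hb1 hreg h0 t1 o k
  have hAbm' : ∀ o k, BM (fun ω => Alev G b θ' (fun x => m' x ω) o k) := fun o k =>
    hom.symm.bm_Alev hT hb1 hreg h0' t1' o k
  set Δ : ℝ := (θ - θ') ^ 2 with hΔ
  have hΔ0 : 0 ≤ Δ := sq_nonneg _
  have hΔ1 : Δ ≤ 1 := by
    rw [hΔ]
    exact pow_le_one₀ (by linarith) (by linarith)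
  have hD0 : 0 ≤ D := by
    rw [← hD v]
    exact integral_nonneg fun ω => sq_nonneg _
  set F : Ω → ℝ := fun ω => (m v ω - m' v ω) ^ 2 + (m y ω - m' y ω) ^ 2 + Δ with hF
  have hFbm : BM F := ((hbm v).add (hbm y)).add (BM.const Δ)
  have hF0 : ∀ ω, 0 ≤ F ω := fun ω => by
    simp only [hF]; positivity
  have hF9 : ∀ ω, F ω ≤ 9 := fun ω => by
    have := hf4 v ω; have := hf4 y ω
    simp only [hF]; linarith
  have hFint : ∫ ω, F ω ∂P = 2 * D + Δ := by
    simp only [hF]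
    rw [integral_add ((hbm v).add (hbm y)).integrable (integrable_const Δ),
      integral_add (hbm v).integrable (hbm y).integrable, hD, hD, integral_const]
    simp
    ring
  have q1 : ((b : ℝ) * θ ^ 2) ^ n ≤ 1 := pow_le_one₀ (by positivity) hlt
  have q1' : 0 ≤ ((b : ℝ) * θ ^ 2) ^ n := by positivity
  have q2 : ((b : ℝ) * θ' ^ 2) ^ n ≤ 1 := by
    apply pow_le_one₀ (by positivity)
    refine le_trans ?_ hlt
    gcongr
  have q2' : 0 ≤ ((b : ℝ) * θ' ^ 2) ^ n := by positivity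
  -- consequence of the main inequality
  have hI1 : 0 ≤ ∫ ω, (m v ω - m' v ω) ^ 2 * Alev G b θ (fun x => m x ω) v n ∂P :=
    integral_nonneg fun ω => mul_nonneg (sq_nonneg _) (hA0 v n ω)
  have hI2 : 0 ≤ ∫ ω, Alev G b θ (fun x => m x ω) v n ∂P :=
    integral_nonneg fun ω => hA0 v n ω
  have hI3 : ∀ i, 0 ≤ ∫ ω, F ω * (Alev G b θ' (fun x => m' x ω) v i
      * Alev G b θ (fun x => m x ω) y (n - 1 - i)) ∂P := fun i =>
    integral_nonneg fun ω => mul_nonneg (hF0 ω) (mul_nonneg (hA0' v i ω) (hA0 y _ ω))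
  have red : ∀ X Y Z : ℝ,
      ∫ ω, (m v ω - m' v ω) ^ 2 * Alev G b θ (fun x => m x ω) v n ∂P ≤ X →
      ∫ ω, Alev G b θ (fun x => m x ω) v n ∂P ≤ Y →
      (∀ i < n, ∫ ω, F ω * (Alev G b θ' (fun x => m' x ω) v i
        * Alev G b θ (fun x => m x ω) y (n - 1 - i)) ∂P ≤ Z) →
      Sn G P θ θ' m m' v n ≤ 13 * X + 12 * b * n ^ 2 * Δ * Y + 288 * 10 ^ 12 * (n * Z) := by
    intro X Y Z hX hY hZ
    refine hmain.trans ?_
    have a1 : 13 * ((b : ℝ) * θ ^ 2) ^ n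
          * ∫ ω, (m v ω - m' v ω) ^ 2 * Alev G b θ (fun x => m x ω) v n ∂P ≤ 13 * X := by
      calc _ ≤ 13 * 1 * ∫ ω, (m v ω - m' v ω) ^ 2 * Alev G b θ (fun x => m x ω) v n ∂P := by
            gcongr
        _ ≤ _ := by linarith
    have a2 : 12 * b * n ^ 2 * Δ * ((b : ℝ) * θ ^ 2) ^ n
          * ∫ ω, Alev G b θ (fun x => m x ω) v n ∂P ≤ 12 * b * n ^ 2 * Δ * Y := by
      calc _ ≤ 12 * b * n ^ 2 * Δ * 1 * ∫ ω, Alev G b θ (fun x => m x ω) v n ∂P := by
            gcongr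
        _ = 12 * b * n ^ 2 * Δ * ∫ ω, Alev G b θ (fun x => m x ω) v n ∂P := by ring
        _ ≤ _ := by gcongr
    have a3 : ∑ i ∈ Finset.range n, ∫ ω, F ω * (Alev G b θ' (fun x => m' x ω) v i
        * Alev G b θ (fun x => m x ω) y (n - 1 - i)) ∂P ≤ n * Z := by
      refine (Finset.sum_le_sum fun i hi => hZ i (Finset.mem_range.1 hi)).trans (le_of_eq ?_)
      rw [Finset.sum_const, Finset.card_range, nsmul_eq_mul]
    have a4 : 0 ≤ ∑ i ∈ Finset.range n, ∫ ω, F ω * (Alev G b θ' (fun x => m' x ω) v i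
        * Alev G b θ (fun x => m x ω) y (n - 1 - i)) ∂P :=
      Finset.sum_nonneg fun i _ => hI3 i
    have a5 : 288 * 10 ^ 12 * ((b : ℝ) * θ' ^ 2) ^ n * ∑ i ∈ Finset.range n,
        ∫ ω, F ω * (Alev G b θ' (fun x => m' x ω) v i
        * Alev G b θ (fun x => m x ω) y (n - 1 - i)) ∂P ≤ 288 * 10 ^ 12 * (n * Z) := by
      calc _ ≤ 288 * 10 ^ 12 * 1 * ∑ i ∈ Finset.range n,
            ∫ ω, F ω * (Alev G b θ' (fun x => m' x ω) v i
            * Alev G b θ (fun x => m x ω) y (n - 1 - i)) ∂P := by gcongr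
        _ ≤ _ := by linarith
    exact add_le_add (add_le_add a1 a2) a5
  constructor
  · -- trivial bound
    have hX : ∫ ω, (m v ω - m' v ω) ^ 2 * Alev G b θ (fun x => m x ω) v n ∂P ≤ 2 * D := by
      rw [← hD v, ← integral_const_mul]
      apply integral_mono ((hbm v).mul (hAbm v n)).integrable ((hbm v).integrable.const_mul 2)
      intro ω
      simp only
      rw [mul_comm]
      exact mul_le_mul_of_nonneg_right (hA2 v n ω) (sq_nonneg _)
    have hY : ∫ ω, Alev G b θ (fun x => m x ω) v n ∂P ≤ 2 := by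
      have := integral_mono (μ := P) (hAbm v n).integrable (integrable_const (2 : ℝ))
        (fun ω => hA2 v n ω)
      simpa using this
    have hZ : ∀ i < n, ∫ ω, F ω * (Alev G b θ' (fun x => m' x ω) v i
        * Alev G b θ (fun x => m x ω) y (n - 1 - i)) ∂P ≤ 4 * (2 * D + Δ) := by
      intro i _
      rw [← hFint, ← integral_const_mul]
      apply integral_mono (hFbm.mul ((hAbm' v i).mul (hAbm y _))).integrable
        (hFbm.integrable.const_mul 4)
      intro ω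
      simp only
      have : Alev G b θ' (fun x => m' x ω) v i * Alev G b θ (fun x => m x ω) y (n - 1 - i)
          ≤ 2 * 2 := mul_le_mul (hA2' v i ω) (hA2 y _ ω) (hA0 y _ ω) (by norm_num)
      calc _ ≤ F ω * (2 * 2) := mul_le_mul_of_nonneg_left this (hF0 ω)
        _ = 4 * F ω := by ring
    refine (red _ _ _ hX hY hZ).trans ?_
    have hn : (0 : ℝ) ≤ n := Nat.cast_nonneg n
    have hL : (10 : ℝ) ^ 17 * b ≤ 10 ^ 17 * b * C1 := by
      have : (0 : ℝ) ≤ 10 ^ 17 * b := by positivity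
      exact le_mul_of_one_le_right this hC1
    have hbn : (n : ℝ) ≤ b * n := le_mul_of_one_le_left hn (by linarith)
    have e1 : 13 * (2 * D) + 288 * 10 ^ 12 * (n * (4 * (2 * D)))
        ≤ (10 ^ 17 * b) * ((n : ℝ) + 1) * D := by
      have : 13 * 2 + 288 * 10 ^ 12 * 8 * (n : ℝ) ≤ (10 ^ 17 * b) * ((n : ℝ) + 1) := by
        rw [show (10 ^ 17 * (b : ℝ)) * ((n : ℝ) + 1) = 10 ^ 17 * (b * n) + 10 ^ 17 * b by ring]
        linarith
      calc _ = (13 * 2 + 288 * 10 ^ 12 * 8 * (n : ℝ)) * D := by ring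
        _ ≤ _ := mul_le_mul_of_nonneg_right this hD0
    have e2 : 12 * b * n ^ 2 * Δ * 2 + 288 * 10 ^ 12 * (n * (4 * Δ))
        ≤ (10 ^ 17 * b) * ((n : ℝ) + 1) ^ 2 * Δ := by
      have : 24 * b * (n : ℝ) ^ 2 + 288 * 10 ^ 12 * 4 * (n : ℝ)
          ≤ (10 ^ 17 * b) * ((n : ℝ) + 1) ^ 2 := by
        have f1 : 0 ≤ (b : ℝ) * (n : ℝ) ^ 2 := by positivity
        have f2 : (n : ℝ) ≤ b * n := hbn
        have f3 : (10 ^ 17 * (b : ℝ)) * ((n : ℝ) + 1) ^ 2
            = 10 ^ 17 * (b * (n : ℝ) ^ 2) + 2 * 10 ^ 17 * (b * n) + 10 ^ 17 * b := by ring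
        rw [f3]
        linarith
      calc _ = (24 * b * (n : ℝ) ^ 2 + 288 * 10 ^ 12 * 4 * (n : ℝ)) * Δ := by ring
        _ ≤ _ := mul_le_mul_of_nonneg_right this hΔ0
    calc _ = (13 * (2 * D) + 288 * 10 ^ 12 * (n * (4 * (2 * D))))
          + (12 * b * n ^ 2 * Δ * 2 + 288 * 10 ^ 12 * (n * (4 * Δ))) := by ring
      _ ≤ (10 ^ 17 * b) * ((n : ℝ) + 1) * D + (10 ^ 17 * b) * ((n : ℝ) + 1) ^ 2 * Δ :=
          add_le_add e1 e2
      _ ≤ _ := by gcongr
  · -- tail bound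
    set ε1 : ℝ := Real.exp (-κ * ((n : ℝ) - 1) / 2) with hε1
    set ε2 : ℝ := Real.exp (-Real.exp (c * ((n : ℝ) - 1) / 2)) with hε2
    set ε3 : ℝ := Real.exp (-κ0 * ((n : ℝ) - 1) / 2) with hε3
    have hn : (0 : ℝ) ≤ n := Nat.cast_nonneg n
    have g1 : ∀ i : ℕ, (n : ℝ) - 1 ≤ 2 * i → Real.exp (-κ * i) ≤ ε1 := by
      intro i hi
      apply Real.exp_le_exp.2
      have := mul_le_mul_of_nonneg_left hi hκp.le
      linarith
    have g2 : ∀ i : ℕ, (n : ℝ) - 1 ≤ 2 * i → Real.exp (-Real.exp (c * i)) ≤ ε2 := by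
      intro i hi
      apply Real.exp_le_exp.2
      apply neg_le_neg
      apply Real.exp_le_exp.2
      have := mul_le_mul_of_nonneg_left hi hc.le
      linarith
    have hκ0n : κ0 * n ≤ κ * n := mul_le_mul_of_nonneg_right hκ hn
    have hκcn : κ * n ≤ c * n := mul_le_mul_of_nonneg_right hκc hn
    have hκ0n' : 0 ≤ κ0 * n := by positivity
    have g3 : Real.exp (-κ * n) ≤ ε3 := by
      apply Real.exp_le_exp.2
      linarith
    have g4 : Real.exp (-Real.exp (c * n)) ≤ ε3 := by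
      apply Real.exp_le_exp.2
      have := Real.add_one_le_exp (c * n)
      linarith
    have hX : ∫ ω, (m v ω - m' v ω) ^ 2 * Alev G b θ (fun x => m x ω) v n ∂P
        ≤ C1 * ε1 * D + 8 * (C1 * ε2) := by
      have := integral_mul_le_of_tail (P := P) (hbm v) (hAbm v n) (KF := 4) (KA := 2)
        (a := C1 * Real.exp (-κ * n)) (by positivity) (fun ω => sq_nonneg _) (hf4 v) (hA0 v n)
        (hA2 v n)
      rw [hD v] at this
      have e1 := g1 n (by linarith)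
      have e2 := g2 n (by linarith)
      have e3 := tail v n
      have e4 : C1 * Real.exp (-κ * n) * D ≤ C1 * ε1 * D := by gcongr
      have e5 : C1 * Real.exp (-Real.exp (c * n)) ≤ C1 * ε2 := by gcongr
      linarith
    have hY : ∫ ω, Alev G b θ (fun x => m x ω) v n ∂P ≤ 3 * C1 * ε3 := by
      have := integral_mul_le_of_tail (P := P) (BM.const 1) (hAbm v n) (KF := 1) (KA := 2)
        (a := C1 * Real.exp (-κ * n)) (by positivity) (fun ω => zero_le_one) (fun ω => le_rfl)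
        (hA0 v n) (hA2 v n)
      simp only [one_mul, integral_const, probReal_univ, smul_eq_mul, mul_one] at this
      have e3 := tail v n
      have e4 : C1 * Real.exp (-κ * n) ≤ C1 * ε3 := by gcongr
      have e5 : C1 * Real.exp (-Real.exp (c * n)) ≤ C1 * ε3 := by gcongr
      linarith
    have hZ : ∀ i < n, ∫ ω, F ω * (Alev G b θ' (fun x => m' x ω) v i
        * Alev G b θ (fun x => m x ω) y (n - 1 - i)) ∂P
        ≤ 2 * (C1 * ε1 * (2 * D + Δ)) + 36 * (C1 * ε2) := by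
      intro i hi
      by_cases hi2 : n - 1 ≤ 2 * i
      · have hi3 : (n : ℝ) - 1 ≤ 2 * i := by
          have : n ≤ 2 * i + 1 := by omega
          have : (n : ℝ) ≤ 2 * i + 1 := by exact_mod_cast this
          linarith
        have hb1 : ∫ ω, F ω * (Alev G b θ' (fun x => m' x ω) v i
            * Alev G b θ (fun x => m x ω) y (n - 1 - i)) ∂P
            ≤ 2 * ∫ ω, F ω * Alev G b θ' (fun x => m' x ω) v i ∂P := by
          rw [← integral_const_mul]
          apply integral_mono (hFbm.mul ((hAbm' v i).mul (hAbm y _))).integrable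
            ((hFbm.mul (hAbm' v i)).integrable.const_mul 2)
          intro ω
          simp only
          have u1 := hA2 y (n - 1 - i) ω
          have u2 := mul_nonneg (hF0 ω) (hA0' v i ω)
          have u3 := mul_le_mul_of_nonneg_left u1 u2
          linarith
        have := integral_mul_le_of_tail (P := P) hFbm (hAbm' v i) (KF := 9) (KA := 2)
          (a := C1 * Real.exp (-κ * i)) (by positivity) hF0 hF9 (hA0' v i) (hA2' v i)
        rw [hFint] at this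
        have e3 := tail' v i
        have e4 : C1 * Real.exp (-κ * i) * (2 * D + Δ) ≤ C1 * ε1 * (2 * D + Δ) := by
          have := g1 i hi3
          gcongr
        have e5 : C1 * Real.exp (-Real.exp (c * i)) ≤ C1 * ε2 := by
          have := g2 i hi3
          gcongr
        linarith
      · have hi3 : (n : ℝ) - 1 ≤ 2 * ((n - 1 - i : ℕ) : ℝ) := by
          have : n ≤ 2 * (n - 1 - i) + 1 := by omega
          have : (n : ℝ) ≤ 2 * ((n - 1 - i : ℕ) : ℝ) + 1 := by exact_mod_cast this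
          linarith
        have hb1 : ∫ ω, F ω * (Alev G b θ' (fun x => m' x ω) v i
            * Alev G b θ (fun x => m x ω) y (n - 1 - i)) ∂P
            ≤ 2 * ∫ ω, F ω * Alev G b θ (fun x => m x ω) y (n - 1 - i) ∂P := by
          rw [← integral_const_mul]
          apply integral_mono (hFbm.mul ((hAbm' v i).mul (hAbm y _))).integrable
            ((hFbm.mul (hAbm y _)).integrable.const_mul 2)
          intro ω
          simp only
          have u1 := hA2' v i ω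
          have u2 := mul_nonneg (hF0 ω) (hA0 y (n - 1 - i) ω)
          have u3 := mul_le_mul_of_nonneg_left u1 u2
          linarith
        have := integral_mul_le_of_tail (P := P) hFbm (hAbm y (n - 1 - i)) (KF := 9) (KA := 2)
          (a := C1 * Real.exp (-κ * (n - 1 - i : ℕ))) (by positivity) hF0 hF9 (hA0 y _) (hA2 y _)
        rw [hFint] at this
        have e3 := tail y (n - 1 - i)
        have e4 : C1 * Real.exp (-κ * (n - 1 - i : ℕ)) * (2 * D + Δ) ≤ C1 * ε1 * (2 * D + Δ) := by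
          have := g1 (n - 1 - i) hi3
          gcongr
        have e5 : C1 * Real.exp (-Real.exp (c * (n - 1 - i : ℕ))) ≤ C1 * ε2 := by
          have := g2 (n - 1 - i) hi3
          gcongr
        linarith
    refine (red _ _ _ hX hY hZ).trans ?_
    have hbn : (n : ℝ) ≤ b * n := le_mul_of_one_le_left hn (by linarith)
    have hε1p : 0 < ε1 := Real.exp_pos _
    have hε2p : 0 < ε2 := Real.exp_pos _
    have hε3p : 0 < ε3 := Real.exp_pos _
    have e1 : 13 * (C1 * ε1 * D) + 288 * 10 ^ 12 * (n * (2 * (C1 * ε1 * (2 * D))))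
        ≤ (10 ^ 17 * b * C1) * ((n : ℝ) + 1) * ε1 * D := by
      have f1 : 13 + 288 * 10 ^ 12 * 4 * (n : ℝ) ≤ (10 ^ 17 * b) * ((n : ℝ) + 1) := by
        rw [show (10 ^ 17 * (b : ℝ)) * ((n : ℝ) + 1) = 10 ^ 17 * (b * n) + 10 ^ 17 * b by ring]
        linarith
      have f2 : 0 ≤ C1 * ε1 * D := by positivity
      calc _ = (13 + 288 * 10 ^ 12 * 4 * (n : ℝ)) * (C1 * ε1 * D) := by ring
        _ ≤ ((10 ^ 17 * b) * ((n : ℝ) + 1)) * (C1 * ε1 * D) := mul_le_mul_of_nonneg_right f1 f2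
        _ = _ := by ring
    have e2 : 13 * (8 * (C1 * ε2)) + 288 * 10 ^ 12 * (n * (36 * (C1 * ε2)))
        ≤ (10 ^ 17 * b * C1) * ((n : ℝ) + 1) * ε2 := by
      have f1 : 104 + 288 * 10 ^ 12 * 36 * (n : ℝ) ≤ (10 ^ 17 * b) * ((n : ℝ) + 1) := by
        rw [show (10 ^ 17 * (b : ℝ)) * ((n : ℝ) + 1) = 10 ^ 17 * (b * n) + 10 ^ 17 * b by ring]
        linarith
      have f2 : 0 ≤ C1 * ε2 := by positivity
      calc _ = (104 + 288 * 10 ^ 12 * 36 * (n : ℝ)) * (C1 * ε2) := by ring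
        _ ≤ ((10 ^ 17 * b) * ((n : ℝ) + 1)) * (C1 * ε2) := mul_le_mul_of_nonneg_right f1 f2
        _ = _ := by ring
    have e3 : 12 * b * n ^ 2 * Δ * (3 * C1 * ε3) + 288 * 10 ^ 12 * (n * (2 * (C1 * ε1 * Δ)))
        ≤ (10 ^ 17 * b * C1) * ((n : ℝ) + 1) ^ 2 * ε3 * Δ := by
      have f0 : (n : ℝ) * ε1 ≤ n * ε3 := by
        rcases Nat.eq_zero_or_pos n with h | h
        · rw [h]; simp
        · have h1n : (1 : ℝ) ≤ n := by exact_mod_cast h
          have : ε1 ≤ ε3 := by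
            apply Real.exp_le_exp.2
            have := mul_le_mul_of_nonneg_right hκ (show (0 : ℝ) ≤ (n : ℝ) - 1 by linarith)
            linarith
          gcongr
      have f1 : 36 * b * (n : ℝ) ^ 2 + 288 * 10 ^ 12 * 2 * (n : ℝ)
          ≤ (10 ^ 17 * b) * ((n : ℝ) + 1) ^ 2 := by
        have f1 : 0 ≤ (b : ℝ) * (n : ℝ) ^ 2 := by positivity
        have f2 : (n : ℝ) ≤ b * n := hbn
        have f3 : (10 ^ 17 * (b : ℝ)) * ((n : ℝ) + 1) ^ 2
            = 10 ^ 17 * (b * (n : ℝ) ^ 2) + 2 * 10 ^ 17 * (b * n) + 10 ^ 17 * b := by ring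
        rw [f3]
        linarith
      have f2 : 0 ≤ C1 * ε3 * Δ := by positivity
      have f3 : 0 ≤ C1 * Δ := by positivity
      calc _ = 36 * b * (n : ℝ) ^ 2 * (C1 * ε3 * Δ)
            + 288 * 10 ^ 12 * 2 * ((n * ε1) * (C1 * Δ)) := by ring
        _ ≤ 36 * b * (n : ℝ) ^ 2 * (C1 * ε3 * Δ)
            + 288 * 10 ^ 12 * 2 * ((n * ε3) * (C1 * Δ)) := by gcongr
        _ = (36 * b * (n : ℝ) ^ 2 + 288 * 10 ^ 12 * 2 * (n : ℝ)) * (C1 * ε3 * Δ) := by ring
        _ ≤ ((10 ^ 17 * b) * ((n : ℝ) + 1) ^ 2) * (C1 * ε3 * Δ) :=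
            mul_le_mul_of_nonneg_right f1 f2
        _ = _ := by ring
    calc _ = (13 * (C1 * ε1 * D) + 288 * 10 ^ 12 * (n * (2 * (C1 * ε1 * (2 * D)))))
          + (13 * (8 * (C1 * ε2)) + 288 * 10 ^ 12 * (n * (36 * (C1 * ε2))))
          + (12 * b * n ^ 2 * Δ * (3 * C1 * ε3)
            + 288 * 10 ^ 12 * (n * (2 * (C1 * ε1 * Δ)))) := by ring
      _ ≤ _ := add_le_add (add_le_add e1 e2) e3

/-- estimate (B), abstract form -/
theorem GBdata.main {b : ℕ} {θ θ' D C1 c κ κ0 : ℝ}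
    (h : GBdata G P b θ θ' m m' D C1 c κ κ0) (v : V) (N M : ℕ) :
    ∑ n ∈ Finset.range M, Sn G P θ θ' m m' v n ≤
      (10 ^ 17 * b * C1) * (8 * (N : ℝ) ^ 2 + 8
        + Real.exp (c / 2) * (1 + c / 2) ^ 2 * 4 / κ ^ 2) * D
      + (10 ^ 17 * b * C1) * (2 * (Real.exp (c / 4) * (1 + c / 4) ^ 2 * 4 / (c / 2) ^ 2))
        * Real.exp (-Real.exp (c / 2 * N))
      + (10 ^ 17 * b * C1) * ((2 * N + 2) ^ 3 + (4 / κ0) * Real.exp κ0
          * (Real.exp (κ0 / 4) * (1 + κ0 / 4) ^ 2 * 4 / (κ0 / 2) ^ 2)) * (θ - θ') ^ 2 := by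
  have hD0 : 0 ≤ D := by
    rw [← h.hD v]
    exact integral_nonneg fun ω => sq_nonneg _
  exact GBsum.total (fun n => Sn G P θ θ' m m' v n) (10 ^ 17 * b * C1) c κ κ0 D ((θ - θ') ^ 2)
    (by have := h.hC1; positivity) h.hc h.hκ0 h.hκ h.hκc hD0 (sq_nonneg _) N
    (fun n => (h.level v n).1) (fun n => (h.level v n).2) M

end lev

end Crest.Agent.R160
end

-- ▼ part R160/GB

/-! # Row 160, module G: estimate (B) for the infinite-volume magnetizations. -/

set_option autoImplicit false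

open MeasureTheory
open scoped Classical

namespace Crest.Agent.R160

open Crest.Agent.R160.TreeAut

section

variable {V : Type*} {G : SimpleGraph V} [G.LocallyFinite]

theorem thc_pos {b : ℕ} (hb : 2 ≤ b) : 0 < thc b := by
  have : (0 : ℝ) < b := by exact_mod_cast (by omega : 0 < b)
  unfold thc
  positivity

theorem mul_thc_sq {b : ℕ} (hb : 2 ≤ b) : (b : ℝ) * (thc b) ^ 2 = 1 := by
  have h : (0 : ℝ) < b := by exact_mod_cast (by omega : 0 < b)
  unfold thc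
  rw [div_pow, Real.sq_sqrt h.le]
  field_simp

theorem mul_sq_lt_one_of_lt_thc {b : ℕ} (hb : 2 ≤ b) {θ : ℝ} (h0 : 0 ≤ θ) (h : θ < thc b) :
    (b : ℝ) * θ ^ 2 < 1 := by
  have hb0 : (0 : ℝ) < b := by exact_mod_cast (by omega : 0 < b)
  rw [← mul_thc_sq hb]
  apply mul_lt_mul_of_pos_left _ hb0
  exact pow_lt_pow_left₀ h h0 (by norm_num)

theorem lt_one_of_lt_thc {b : ℕ} (hb : 2 ≤ b) {θ : ℝ} (h0 : 0 ≤ θ) (h : θ < thc b) : θ < 1 := by
  have h1 := mul_sq_lt_one_of_lt_thc hb h0 h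
  have hb0 : (2 : ℝ) ≤ b := by exact_mod_cast hb
  nlinarith

theorem quarter_le_of_half_thc {b : ℕ} (hb : 2 ≤ b) {θ : ℝ} (h : thc b / 2 ≤ θ) :
    1 / 4 ≤ (b : ℝ) * θ ^ 2 := by
  have hb0 : (0 : ℝ) < b := by exact_mod_cast (by omega : 0 < b)
  have h1 : (thc b / 2) ^ 2 ≤ θ ^ 2 := pow_le_pow_left₀ (by have := thc_pos hb; positivity) h 2
  have h2 := mul_thc_sq hb
  nlinarith

/-- the pair of infinite-volume fields is invariant -/
theorem homPair_minf (hT : G.IsTree) {θ θ' : ℝ} (h0 : 0 ≤ θ) (h1 : θ < 1) (h0' : 0 ≤ θ')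
    (h1' : θ' < 1) (t : ℝ) : HomPair G (PP V) (minf G θ t) (minf G θ' t) where
  meas := fun v => measurable_minf G θ t v
  meas' := fun v => measurable_minf G θ' t v
  le := fun v ω => abs_minf_le h0 h1 t v ω
  le' := fun v ω => abs_minf_le h0' h1' t v ω
  inv := fun g => ⟨act g, BSVNoise.measurePreserving_act g, fun v ω =>
    ⟨minf_equivariant hT θ t g v ω, minf_equivariant hT θ' t g v ω⟩⟩

theorem DD_eq (hT : G.IsTree) {d : ℕ} (hreg : G.IsRegularOfDegree d) (θ θ' t : ℝ) (v v' : V) :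
    DD G θ θ' t v = DD G θ θ' t v' := by
  obtain ⟨g, rfl⟩ := exists_aut_vertex hT hreg v v'
  unfold DD
  rw [← BSVNoise.integral_act g]
  congr 1
  funext ω
  rw [minf_equivariant hT, minf_equivariant hT]

theorem DD_nonneg (θ θ' t : ℝ) (v : V) : 0 ≤ DD G θ θ' t v :=
  integral_nonneg fun _ => sq_nonneg _


/-- **Estimate (B)**: for times bounded away from `0` and parameters close to `thc b`. -/
theorem GB (hT : G.IsTree) {b : ℕ} (hb : 2 ≤ b) (hreg : G.IsRegularOfDegree (b + 1))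
    (hLT : ∃ C c : ℝ, 0 < C ∧ 0 < c ∧ ∀ s0, 0 < s0 → ∃ δ, 0 < δ ∧ ∀ θ, thc b - δ < θ → θ < thc b →
      ∀ t, s0 ≤ t → ∀ (o : V) (k : ℕ),
      (PP V).real {ω | C * Real.exp (-c * (min t 1) ^ (3 / 2 : ℝ) * k)
          < Alev G b θ (fun x => minf G θ t x ω) o k} ≤ C * Real.exp (-Real.exp (c * k))) :
    ∃ C c : ℝ, 0 < C ∧ 0 < c ∧ ∀ s0, 0 < s0 → ∀ N : ℕ, ∃ δ K : ℝ, 0 < δ ∧ 0 ≤ K ∧
      ∀ θ θ' : ℝ, thc b - δ < θ' → θ' ≤ θ → θ < thc b → ∀ r, s0 ≤ r → ∀ (v : V) (M : ℕ),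
        ∑ n ∈ Finset.range M, Sn G (PP V) θ θ' (minf G θ r) (minf G θ' r) v n
          ≤ C * ((N : ℝ) ^ 2 + ((min r 1) ^ 3)⁻¹) * DD G θ θ' r v
            + C * ((min r 1) ^ 3)⁻¹ * Real.exp (-Real.exp (c * N)) + K * (θ - θ') ^ 2 := by
  obtain ⟨C0, c, hC0, hc, hLT⟩ := hLT
  set C1 : ℝ := max C0 1 with hC1d
  have hC1 : 1 ≤ C1 := le_max_right _ _
  have hC01 : C0 ≤ C1 := le_max_left _ _
  have hbpos : (0 : ℝ) < b := by exact_mod_cast (by omega : 0 < b)
  set L : ℝ := 10 ^ 17 * b * C1 with hL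
  have hL0 : 0 < L := by positivity
  set Q1 : ℝ := Real.exp (c / 2) * (1 + c / 2) ^ 2 * 4 with hQ1
  have hQ10 : 0 < Q1 := by positivity
  set Q2 : ℝ := 2 * (Real.exp (c / 4) * (1 + c / 4) ^ 2 * 4 / (c / 2) ^ 2) with hQ2
  have hQ20 : 0 < Q2 := by positivity
  refine ⟨L * (8 + 8 + Q1 / c ^ 2 + Q2), c / 2, by positivity, by positivity, ?_⟩
  intro s0 hs0 N
  obtain ⟨δ, hδ, hLT⟩ := hLT s0 hs0
  set κ0 : ℝ := c * (min s0 1) ^ (3 / 2 : ℝ) with hκ0d
  have hms0 : 0 < min s0 1 := lt_min hs0 one_pos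
  have hκ0 : 0 < κ0 := mul_pos hc (Real.rpow_pos_of_pos hms0 _)
  refine ⟨min δ (thc b / 2), L * ((2 * N + 2) ^ 3 + (4 / κ0) * Real.exp κ0
          * (Real.exp (κ0 / 4) * (1 + κ0 / 4) ^ 2 * 4 / (κ0 / 2) ^ 2)),
    lt_min hδ (by have := thc_pos hb; positivity), by positivity, ?_⟩
  intro θ θ' hθ' hle hθ r hr v M
  have hθ'1 : thc b - δ < θ' := by
    have := min_le_left δ (thc b / 2); linarith
  have hθ'2 : thc b / 2 ≤ θ' := by
    have := min_le_right δ (thc b / 2); linarith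
  have hthc := thc_pos hb
  have h0' : 0 ≤ θ' := by linarith
  have h0 : 0 ≤ θ := by linarith
  have hr0 : 0 < r := lt_of_lt_of_le hs0 hr
  have hmr : 0 < min r 1 := lt_min hr0 one_pos
  set κ : ℝ := c * (min r 1) ^ (3 / 2 : ℝ) with hκd
  have hκle : κ0 ≤ κ := by
    apply mul_le_mul_of_nonneg_left _ hc.le
    exact Real.rpow_le_rpow hms0.le (min_le_min_right _ hr) (by norm_num)
  have hκc : κ ≤ c := by
    have : (min r 1) ^ (3 / 2 : ℝ) ≤ 1 :=
      Real.rpow_le_one hmr.le (min_le_right _ _) (by norm_num)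
    calc κ = c * (min r 1) ^ (3 / 2 : ℝ) := rfl
      _ ≤ c * 1 := mul_le_mul_of_nonneg_left this hc.le
      _ = c := mul_one c
  have hκ2 : κ ^ 2 = c ^ 2 * (min r 1) ^ 3 := by
    rw [hκd, mul_pow]
    congr 1
    rw [← Real.rpow_natCast ((min r 1) ^ (3 / 2 : ℝ)) 2, ← Real.rpow_mul hmr.le,
      ← Real.rpow_natCast (min r 1) 3]
    norm_num
  have htail : ∀ ϑ : ℝ, thc b - δ < ϑ → ϑ < thc b → ∀ (o : V) (k : ℕ),
      (PP V).real {ω | C1 * Real.exp (-κ * k) < Alev G b ϑ (fun x => minf G ϑ r x ω) o k}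
        ≤ C1 * Real.exp (-Real.exp (c * k)) := by
    intro ϑ h1 h2 o k
    have h3 := hLT ϑ h1 h2 r hr o k
    have h4 : (PP V).real {ω | C1 * Real.exp (-κ * k) < Alev G b ϑ (fun x => minf G ϑ r x ω) o k}
        ≤ (PP V).real {ω | C0 * Real.exp (-c * (min r 1) ^ (3 / 2 : ℝ) * k)
          < Alev G b ϑ (fun x => minf G ϑ r x ω) o k} := by
      apply measureReal_mono _ (measure_ne_top _ _)
      intro ω hω
      simp only [Set.mem_ofPred_eq] at hω ⊢
      refine lt_of_le_of_lt ?_ hω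
      have e1 : -c * (min r 1) ^ (3 / 2 : ℝ) * k = -κ * k := by rw [hκd]; ring
      rw [e1]
      exact mul_le_mul_of_nonneg_right hC01 (Real.exp_pos _).le
    refine h4.trans (h3.trans ?_)
    exact mul_le_mul_of_nonneg_right hC01 (Real.exp_pos _).le
  have hdata : GBdata G (PP V) b θ θ' (minf G θ r) (minf G θ' r) (DD G θ θ' r v) C1 c κ κ0 :=
    { tree := hT
      reg := hreg
      hb := hb
      hom := homPair_minf hT h0 (lt_one_of_lt_thc hb h0 hθ) h0'
        (lt_one_of_lt_thc hb h0' (lt_of_le_of_lt hle hθ)) r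
      h0' := h0'
      hle := hle
      h4 := quarter_le_of_half_thc hb (by linarith)
      hlt := (mul_sq_lt_one_of_lt_thc hb h0 hθ).le
      hD := fun v' => DD_eq hT hreg θ θ' r v' v
      hC1 := hC1
      hc := hc
      hκ0 := hκ0
      hκ := hκle
      hκc := hκc
      tail := htail θ (by linarith) hθ
      tail' := htail θ' hθ'1 (by linarith) }
  have hmain := hdata.main v N M
  refine hmain.trans ?_
  have hD0 : 0 ≤ DD G θ θ' r v := DD_nonneg θ θ' r v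
  have hx3 : 0 < (min r 1) ^ 3 := by positivity
  have hx3le : (min r 1) ^ 3 ≤ 1 := pow_le_one₀ hmr.le (min_le_right _ _)
  have hinv : 1 ≤ ((min r 1) ^ 3)⁻¹ := (one_le_inv₀ hx3).2 hx3le
  have e1 : Q1 / κ ^ 2 = Q1 / c ^ 2 * ((min r 1) ^ 3)⁻¹ := by
    rw [hκ2]; field_simp
  have hQc : 0 < Q1 / c ^ 2 := by positivity
  have hN2 : (0 : ℝ) ≤ (N : ℝ) ^ 2 := by positivity
  set X : ℝ := ((min r 1) ^ 3)⁻¹ with hX
  have hX0 : 0 < X := by positivity
  have g1 : L * (8 * (N : ℝ) ^ 2 + 8 + Real.exp (c / 2) * (1 + c / 2) ^ 2 * 4 / κ ^ 2)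
      ≤ L * (8 + 8 + Q1 / c ^ 2 + Q2) * ((N : ℝ) ^ 2 + X) := by
    rw [← hQ1, e1]
    have : 8 * (N : ℝ) ^ 2 + 8 + Q1 / c ^ 2 * X
        ≤ (8 + 8 + Q1 / c ^ 2 + Q2) * ((N : ℝ) ^ 2 + X) := by
      have f1 : 0 ≤ (8 + Q1 / c ^ 2 + Q2) * (N : ℝ) ^ 2 := by positivity
      have f2 : 0 ≤ (8 + Q2) * X := by positivity
      have f3 : (8 : ℝ) ≤ (8 + Q2) * X := by
        have u1 : (8 : ℝ) * 1 ≤ 8 * X := mul_le_mul_of_nonneg_left hinv (by norm_num)
        have u2 : 0 ≤ Q2 * X := by positivity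
        linarith
      calc 8 * (N : ℝ) ^ 2 + 8 + Q1 / c ^ 2 * X
          ≤ 8 * (N : ℝ) ^ 2 + (8 + Q2) * X + Q1 / c ^ 2 * X
            + ((8 + Q1 / c ^ 2 + Q2) * (N : ℝ) ^ 2 + 8 * X) := by
            have : 0 ≤ 8 * X := by positivity
            linarith
        _ = _ := by ring
    calc _ ≤ L * ((8 + 8 + Q1 / c ^ 2 + Q2) * ((N : ℝ) ^ 2 + X)) :=
          mul_le_mul_of_nonneg_left this hL0.le
      _ = _ := by ring
  have g2 : L * Q2 * Real.exp (-Real.exp (c / 2 * N))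
      ≤ L * (8 + 8 + Q1 / c ^ 2 + Q2) * X * Real.exp (-Real.exp (c / 2 * N)) := by
    apply mul_le_mul_of_nonneg_right _ (Real.exp_pos _).le
    have : Q2 ≤ (8 + 8 + Q1 / c ^ 2 + Q2) * X := by
      have u1 : Q2 * 1 ≤ Q2 * X := mul_le_mul_of_nonneg_left hinv hQ20.le
      have u2 : 0 ≤ (8 + 8 + Q1 / c ^ 2) * X := by positivity
      linarith
    calc L * Q2 ≤ L * ((8 + 8 + Q1 / c ^ 2 + Q2) * X) := mul_le_mul_of_nonneg_left this hL0.le
      _ = _ := by ring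
  have g3 := mul_le_mul_of_nonneg_right g1 hD0
  exact add_le_add (add_le_add g3 g2) le_rfl

end

end Crest.Agent.R160
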