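import Mathlib
import Crest.Agent.R160.Homog
import Crest.Agent.R160.Scalar2
import Crest.Agent.R160.BSVNoise
import Crest.Agent.R160.MinfBasic

-- ▼ part R160/GADet
section

/-! # Row 160, module GA: deterministic part

Comparison of the two covariances along one path on the event that all magnetizations on the
path are at most `1/2` in absolute value. -/

set_option autoImplicit false

open Finset
open scoped Classical

namespace Crest.Agent.R160.GA

open Crest.Agent.R160 Crest.Agent.R160.TreeAut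

/-- clipping at level `1/2` -/
noncomputable def cl (x : ℝ) : ℝ := max (-(1 / 2)) (min (1 / 2) x)

lemma abs_cl_le (x : ℝ) : |cl x| ≤ 1 / 2 := by
  unfold cl
  rw [abs_le]
  exact ⟨le_max_left _ _, max_le (by norm_num) (min_le_left _ _)⟩

lemma cl_of_le {x : ℝ} (h : |x| ≤ 1 / 2) : cl x = x := by
  unfold cl
  rw [abs_le] at h
  rw [min_eq_right h.2, max_eq_right h.1]

lemma abs_cl_le_abs (x : ℝ) : |cl x| ≤ |x| := by
  by_cases h : |x| ≤ 1 / 2
  · rw [cl_of_le h]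
  · push Not at h
    exact (abs_cl_le x).trans h.le

lemma abs_cl_sub_le (x y : ℝ) : |cl x - cl y| ≤ |x - y| := by
  unfold cl
  have h1 : |max (-(1 / 2 : ℝ)) (min (1 / 2) x) - max (-(1 / 2)) (min (1 / 2) y)|
      ≤ |min (1 / 2) x - min (1 / 2) y| := by
    have := abs_max_sub_max_le_abs (min (1 / 2 : ℝ) x) (min (1 / 2) y) (-(1 / 2))
    rwa [max_comm, max_comm (min (1 / 2 : ℝ) y)] at this
  have h2 : |min (1 / 2 : ℝ) x - min (1 / 2) y| ≤ |x - y| := by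
    have := abs_min_sub_min_le_max (1 / 2 : ℝ) x (1 / 2) y
    simpa using this
  exact h1.trans h2

lemma measurable_cl : Measurable cl := by
  unfold cl
  fun_prop

lemma continuous_cl : Continuous cl := by
  unfold cl
  fun_prop

variable {V : Type*} {G : SimpleGraph V}

/-- exponential form of the covariance on the event that everything is small on the path -/
theorem MM_path_exp (hT : G.IsTree) {θ : ℝ} (h0 : 0 ≤ θ) (h2 : θ ^ 2 ≤ 1 / 2) {m : V → ℝ} {n : ℕ}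
    {p : ℕ → V} (hp : IsNB G n p) (hm : ∀ i ≤ n, |m (p i)| ≤ 1 / 2) :
    MM G θ m (p 0) (p n) = √(1 - m (p 0) ^ 2) * √(1 - m (p n) ^ 2) * θ ^ n
      * Real.exp (∑ i ∈ range n, LL θ (m (p i)) (m (p (i + 1)))) := by
  have hdist : G.dist (p 0) (p n) = n := by
    have := hp.dist hT (Nat.zero_le n) le_rfl
    simpa using this
  have hlt : ∀ i ≤ n, |m (p i)| < 1 := fun i hi => (hm i hi).trans_lt (by norm_num)
  have key : ∀ k ≤ n, √(1 - m (p 0) ^ 2) * ∏ i ∈ range k, rho θ (m (p i)) (m (p (i + 1)))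
      = √(1 - m (p k) ^ 2) * Real.exp (∑ i ∈ range k, LL θ (m (p i)) (m (p (i + 1)))) := by
    intro k
    induction k with
    | zero => intro _; simp
    | succ k ih =>
      intro hk
      rw [prod_range_succ, ← mul_assoc, ih (by omega), sum_range_succ, Real.exp_add]
      have := sqrt_mul_rho h0 h2 (hlt k (by omega)) (hlt (k + 1) hk)
      calc √(1 - m (p k) ^ 2) * Real.exp (∑ i ∈ range k, LL θ (m (p i)) (m (p (i + 1))))
            * rho θ (m (p k)) (m (p (k + 1)))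
          = (√(1 - m (p k) ^ 2) * rho θ (m (p k)) (m (p (k + 1))))
            * Real.exp (∑ i ∈ range k, LL θ (m (p i)) (m (p (i + 1)))) := by ring
        _ = _ := by rw [this]; ring
  unfold MM
  rw [hdist, rprod_path hT θ m hp]
  have hnn : 0 ≤ 1 - m (p 0) ^ 2 := by
    have := (sq_lt_one_iff_abs_lt_one (m (p 0))).mpr (hlt 0 (Nat.zero_le n))
    linarith
  have e1 : (1 - m (p 0) ^ 2) = √(1 - m (p 0) ^ 2) * √(1 - m (p 0) ^ 2) :=
    (Real.mul_self_sqrt hnn).symm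
  calc (1 - m (p 0) ^ 2) * θ ^ n * ∏ i ∈ range n, rho θ (m (p i)) (m (p (i + 1)))
      = (√(1 - m (p 0) ^ 2) * √(1 - m (p 0) ^ 2)) * θ ^ n
        * ∏ i ∈ range n, rho θ (m (p i)) (m (p (i + 1))) := by rw [← e1]
    _ = √(1 - m (p 0) ^ 2) * θ ^ n
        * (√(1 - m (p 0) ^ 2) * ∏ i ∈ range n, rho θ (m (p i)) (m (p (i + 1)))) := by ring
    _ = _ := by rw [key n le_rfl]; ring

lemma abs_exp_sub_exp_le {x y : ℝ} (hx : x ≤ 0) (hy : y ≤ 0) :
    |Real.exp x - Real.exp y| ≤ |x - y| := by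
  wlog h : y ≤ x generalizing x y
  · rw [abs_sub_comm, abs_sub_comm x y]
    exact this hy hx (le_of_not_ge h)
  rw [abs_of_nonneg (by linarith [Real.exp_le_exp.2 h]), abs_of_nonneg (by linarith)]
  have h1 : Real.exp y = Real.exp x * Real.exp (y - x) := by rw [← Real.exp_add]; ring_nf
  have h2 := Real.add_one_le_exp (y - x)
  have h3 : Real.exp x ≤ 1 := Real.exp_le_one_iff.2 hx
  have h4 := Real.exp_pos x
  rw [h1]
  nlinarith

/-- comparison of the two exponential forms -/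
lemma comp_exp {A B A' B' θ θ' τ X X' : ℝ} (n : ℕ) (hA : 0 ≤ A) (hA1 : A ≤ 1) (hB : 0 ≤ B)
    (hB1 : B ≤ 1) (hA' : 0 ≤ A') (hA1' : A' ≤ 1) (hB' : 0 ≤ B') (hB1' : B' ≤ 1) (h0 : 0 ≤ θ)
    (h0' : 0 ≤ θ') (hτ : θ ≤ τ) (hτ' : θ' ≤ τ) (hτ0 : 0 < τ) (hX : X ≤ 0) (hX' : X' ≤ 0) :
    |A * B * θ ^ n * Real.exp X - A' * B' * θ' ^ n * Real.exp X'|
      ≤ τ ^ n * (|A - A'| + |B - B'| + n * |θ - θ'| / τ + |X - X'|) := by
  have e1 : Real.exp X ≤ 1 := Real.exp_le_one_iff.2 hX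
  have e1' : Real.exp X' ≤ 1 := Real.exp_le_one_iff.2 hX'
  have e0 := Real.exp_pos X
  have e0' := Real.exp_pos X'
  have p1 : θ ^ n ≤ τ ^ n := pow_le_pow_left₀ h0 hτ n
  have p1' : θ' ^ n ≤ τ ^ n := pow_le_pow_left₀ h0' hτ' n
  have p0 : 0 ≤ θ ^ n := by positivity
  have p0' : 0 ≤ θ' ^ n := by positivity
  have hτn : 0 < τ ^ n := by positivity
  have hpow : |θ ^ n - θ' ^ n| ≤ τ ^ n * (n * |θ - θ'| / τ) := by
    cases n with
    | zero => simp
    | succ k =>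
      have := abs_pow_sub_pow_le θ θ' (k + 1)
      refine this.trans ?_
      have h3 : max |θ| |θ'| ≤ τ := by
        rw [abs_of_nonneg h0, abs_of_nonneg h0']
        exact max_le hτ hτ'
      have h4 : max |θ| |θ'| ^ (k + 1 - 1) ≤ τ ^ k := by
        simp only [Nat.add_sub_cancel]
        exact pow_le_pow_left₀ (le_max_of_le_left (abs_nonneg _)) h3 k
      have h5 : τ ^ (k + 1) * (((k + 1 : ℕ) : ℝ) * |θ - θ'| / τ) = |θ - θ'| * ((k + 1 : ℕ) : ℝ) * τ ^ k := by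
        field_simp
        ring
      rw [h5]
      exact mul_le_mul_of_nonneg_left h4 (by positivity)
  have hAB : |A * B - A' * B'| ≤ |A - A'| + |B - B'| := by
    have : A * B - A' * B' = (A - A') * B + A' * (B - B') := by ring
    rw [this]
    refine (abs_add_le _ _).trans ?_
    rw [abs_mul, abs_mul, abs_of_nonneg hB, abs_of_nonneg hA']
    nlinarith [abs_nonneg (A - A'), abs_nonneg (B - B')]
  have hXX := abs_exp_sub_exp_le hX hX'
  have hsplit : A * B * θ ^ n * Real.exp X - A' * B' * θ' ^ n * Real.exp X'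
      = (A * B - A' * B') * (θ ^ n * Real.exp X) + (A' * B') * Real.exp X * (θ ^ n - θ' ^ n)
        + (A' * B') * θ' ^ n * (Real.exp X - Real.exp X') := by ring
  rw [hsplit]
  have hAB1 : A' * B' ≤ 1 := mul_le_one₀ hA1' hB' hB1'
  have hAB0 : 0 ≤ A' * B' := mul_nonneg hA' hB'
  have q1 : |(A * B - A' * B') * (θ ^ n * Real.exp X)| ≤ τ ^ n * (|A - A'| + |B - B'|) := by
    rw [abs_mul, abs_of_nonneg (show 0 ≤ θ ^ n * Real.exp X by positivity), mul_comm]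
    apply mul_le_mul _ hAB (abs_nonneg _) hτn.le
    calc θ ^ n * Real.exp X ≤ τ ^ n * 1 := mul_le_mul p1 e1 e0.le hτn.le
      _ = τ ^ n := mul_one _
  have q2 : |(A' * B') * Real.exp X * (θ ^ n - θ' ^ n)| ≤ τ ^ n * (n * |θ - θ'| / τ) := by
    rw [abs_mul, abs_of_nonneg (show 0 ≤ (A' * B') * Real.exp X by positivity)]
    calc (A' * B') * Real.exp X * |θ ^ n - θ' ^ n| ≤ 1 * (τ ^ n * (n * |θ - θ'| / τ)) :=
          mul_le_mul (mul_le_one₀ hAB1 e0.le e1) hpow (abs_nonneg _) zero_le_one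
      _ = _ := one_mul _
  have q3 : |(A' * B') * θ' ^ n * (Real.exp X - Real.exp X')| ≤ τ ^ n * |X - X'| := by
    rw [abs_mul, abs_of_nonneg (show 0 ≤ (A' * B') * θ' ^ n by positivity)]
    apply mul_le_mul _ hXX (abs_nonneg _) hτn.le
    calc (A' * B') * θ' ^ n ≤ 1 * τ ^ n := mul_le_mul hAB1 p1' p0' zero_le_one
      _ = τ ^ n := one_mul _
  refine (abs_add_three _ _ _).trans ?_
  have : τ ^ n * (|A - A'| + |B - B'| + n * |θ - θ'| / τ + |X - X'|)
      = τ ^ n * (|A - A'| + |B - B'|) + τ ^ n * (n * |θ - θ'| / τ) + τ ^ n * |X - X'| := by ring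
  rw [this]
  linarith

/-- comparison of the covariances along a path, good event -/
theorem MM_sub_sq_le (hT : G.IsTree) {θ θ' τ : ℝ} (h0 : 0 ≤ θ) (h2 : θ ^ 2 ≤ 1 / 2) (h0' : 0 ≤ θ')
    (h2' : θ' ^ 2 ≤ 1 / 2) (hτ : θ ≤ τ) (hτ' : θ' ≤ τ) (hτ0 : 0 < τ)
    {m m' : V → ℝ} {n : ℕ} {p : ℕ → V} (hp : IsNB G n p)
    (hm : ∀ i ≤ n, |m (p i)| ≤ 1 / 2) (hm' : ∀ i ≤ n, |m' (p i)| ≤ 1 / 2) (β : ℝ) :
    (MM G θ m (p 0) (p n) - MM G θ' m' (p 0) (p n)) ^ 2
      ≤ 5 * (τ ^ 2) ^ n * ((m (p 0) - m' (p 0)) ^ 2 + (m (p n) - m' (p n)) ^ 2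
        + n ^ 2 * (|θ - θ'| / τ) ^ 2
        + (∑ i ∈ range n, ((LL θ (cl (m (p i))) (cl (m (p (i + 1))))
            - LL θ' (cl (m' (p i))) (cl (m' (p (i + 1))))) - β)) ^ 2 + n ^ 2 * β ^ 2) := by
  have hc : ∀ i ≤ n, cl (m (p i)) = m (p i) := fun i hi => cl_of_le (hm i hi)
  have hc' : ∀ i ≤ n, cl (m' (p i)) = m' (p i) := fun i hi => cl_of_le (hm' i hi)
  rw [MM_path_exp hT h0 h2 hp hm, MM_path_exp hT h0' h2' hp hm']
  set X := ∑ i ∈ range n, LL θ (m (p i)) (m (p (i + 1))) with hXdef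
  set X' := ∑ i ∈ range n, LL θ' (m' (p i)) (m' (p (i + 1))) with hXdef'
  have hX : X ≤ 0 := sum_nonpos fun i hi => rho_le_one_LL h0 h2
    ((hm i (by rw [mem_range] at hi; omega)).trans_lt (by norm_num))
    ((hm (i + 1) (by rw [mem_range] at hi; omega)).trans_lt (by norm_num))
  have hX' : X' ≤ 0 := sum_nonpos fun i hi => rho_le_one_LL h0' h2'
    ((hm' i (by rw [mem_range] at hi; omega)).trans_lt (by norm_num))
    ((hm' (i + 1) (by rw [mem_range] at hi; omega)).trans_lt (by norm_num))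
  have hS : ∑ i ∈ range n, ((LL θ (cl (m (p i))) (cl (m (p (i + 1))))
            - LL θ' (cl (m' (p i))) (cl (m' (p (i + 1))))) - β) = X - X' - n * β := by
    rw [sum_sub_distrib, sum_sub_distrib, sum_const, card_range, nsmul_eq_mul]
    congr 2
    · exact sum_congr rfl fun i hi => by
        rw [mem_range] at hi; rw [hc i (by omega), hc (i + 1) (by omega)]
    · exact sum_congr rfl fun i hi => by
        rw [mem_range] at hi; rw [hc' i (by omega), hc' (i + 1) (by omega)]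
  rw [hS]
  have hs1 : ∀ x : ℝ, √(1 - x ^ 2) ≤ 1 := fun x => by
    rw [Real.sqrt_le_iff]
    exact ⟨zero_le_one, by nlinarith [sq_nonneg x]⟩
  have h := comp_exp (X := X) (X' := X') n (Real.sqrt_nonneg (1 - m (p 0) ^ 2)) (hs1 _)
    (Real.sqrt_nonneg (1 - m (p n) ^ 2)) (hs1 _) (Real.sqrt_nonneg (1 - m' (p 0) ^ 2)) (hs1 _)
    (Real.sqrt_nonneg (1 - m' (p n) ^ 2)) (hs1 _) h0 h0' hτ hτ' hτ0 hX hX'
  have v1 := sqrt_var_diff (hm 0 (Nat.zero_le n)) (hm' 0 (Nat.zero_le n))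
  have v2 := sqrt_var_diff (hm n le_rfl) (hm' n le_rfl)
  set Q := √(1 - m (p 0) ^ 2) * √(1 - m (p n) ^ 2) * θ ^ n * Real.exp X
    - √(1 - m' (p 0) ^ 2) * √(1 - m' (p n) ^ 2) * θ' ^ n * Real.exp X' with hQ
  have h3 : |Q| ≤ τ ^ n * (|m (p 0) - m' (p 0)| + |m (p n) - m' (p n)| + n * (|θ - θ'| / τ)
      + |X - X' - n * β| + n * |β|) := by
    refine h.trans ?_
    apply mul_le_mul_of_nonneg_left _ (by positivity)
    have h4 : |X - X'| ≤ |X - X' - n * β| + n * |β| := by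
      have : X - X' = (X - X' - n * β) + n * β := by ring
      calc |X - X'| = |(X - X' - n * β) + n * β| := by rw [← this]
        _ ≤ |X - X' - n * β| + |n * β| := abs_add_le _ _
        _ = _ := by rw [abs_mul, Nat.abs_cast]
    have h5 : (n : ℝ) * |θ - θ'| / τ = n * (|θ - θ'| / τ) := by ring
    linarith
  have hsq : Q ^ 2 ≤ (τ ^ n * (|m (p 0) - m' (p 0)| + |m (p n) - m' (p n)| + n * (|θ - θ'| / τ)
      + |X - X' - n * β| + n * |β|)) ^ 2 := by
    rw [← sq_abs Q]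
    exact pow_le_pow_left₀ (abs_nonneg _) h3 2
  refine hsq.trans ?_
  rw [mul_pow, show (τ ^ n) ^ 2 = (τ ^ 2) ^ n by rw [← pow_mul, ← pow_mul, mul_comm]]
  have h5 : ∀ a b c d e : ℝ, (a + b + c + d + e) ^ 2
      ≤ 5 * (a ^ 2 + b ^ 2 + c ^ 2 + d ^ 2 + e ^ 2) := by
    intro a b c d e
    nlinarith [sq_nonneg (a - b), sq_nonneg (a - c), sq_nonneg (a - d), sq_nonneg (a - e),
      sq_nonneg (b - c), sq_nonneg (b - d), sq_nonneg (b - e), sq_nonneg (c - d),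
      sq_nonneg (c - e), sq_nonneg (d - e)]
  have h6 := h5 |m (p 0) - m' (p 0)| |m (p n) - m' (p n)| (n * (|θ - θ'| / τ))
    |X - X' - n * β| (n * |β|)
  simp only [mul_pow, sq_abs] at h6 ⊢
  have h7 : 0 ≤ (τ ^ 2) ^ n := by positivity
  calc (τ ^ 2) ^ n * (|m (p 0) - m' (p 0)| + |m (p n) - m' (p n)| + ↑n * (|θ - θ'| / τ)
        + |X - X' - ↑n * β| + ↑n * |β|) ^ 2
      ≤ (τ ^ 2) ^ n * (5 * ((m (p 0) - m' (p 0)) ^ 2 + (m (p n) - m' (p n)) ^ 2
        + n ^ 2 * (|θ - θ'| / τ) ^ 2 + (X - X' - n * β) ^ 2 + n ^ 2 * β ^ 2)) :=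
        mul_le_mul_of_nonneg_left h6 h7
    _ = _ := by ring

end Crest.Agent.R160.GA
end

-- ▼ part R160/GA
section

/-! # Row 160, module GA: the fixed-time inequality (A) for small times -/

set_option autoImplicit false

open MeasureTheory Finset
open scoped Classical

namespace Crest.Agent.R160.GA

open Crest.Agent.R160 Crest.Agent.R160.TreeAut Crest.Agent.R160.BSVNoise

/-! ### scalar facts -/

lemma thc_sq {b : ℕ} (hb : 2 ≤ b) : thc b ^ 2 = 1 / b := by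
  unfold thc
  rw [div_pow, one_pow, Real.sq_sqrt (Nat.cast_nonneg b)]

lemma thc_pos {b : ℕ} (hb : 2 ≤ b) : 0 < thc b := by
  unfold thc
  have : (0 : ℝ) < b := by exact_mod_cast (by omega : 0 < b)
  positivity

lemma theta_facts {b : ℕ} (hb : 2 ≤ b) {θ : ℝ} (h1 : thc b / 2 ≤ θ) (h2 : θ < thc b) :
    0 < θ ∧ θ < 1 ∧ θ ^ 2 ≤ 1 / 2 ∧ (b : ℝ) * θ ^ 2 < 1 ∧ 1 / (4 * (b : ℝ)) ≤ θ ^ 2 := by
  have hb0 : (0 : ℝ) < b := by exact_mod_cast (by omega : 0 < b)
  have hb2 : (2 : ℝ) ≤ b := by exact_mod_cast hb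
  have h3 := thc_sq hb
  have h4 := thc_pos hb
  have hθ : 0 < θ := by linarith
  have h5 : θ ^ 2 < thc b ^ 2 := by
    apply pow_lt_pow_left₀ h2 hθ.le (by norm_num)
  have h6 : (b : ℝ) * θ ^ 2 < 1 := by
    calc (b : ℝ) * θ ^ 2 < b * (thc b ^ 2) := by apply mul_lt_mul_of_pos_left h5 hb0
      _ = 1 := by rw [h3]; field_simp
  have h7 : θ ^ 2 ≤ 1 / 2 := by
    have : thc b ^ 2 ≤ 1 / 2 := by
      rw [h3]
      apply one_div_le_one_div_of_le (by norm_num) hb2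
    linarith
  refine ⟨hθ, by nlinarith, h7, h6, ?_⟩
  have h8 : (thc b / 2) ^ 2 ≤ θ ^ 2 := pow_le_pow_left₀ (by positivity) h1 2
  have h9 : (thc b / 2) ^ 2 = 1 / (4 * (b : ℝ)) := by
    rw [div_pow, h3]; field_simp; norm_num
  linarith

lemma pow_mul_exp_le (k : ℕ) {c x : ℝ} (hc : 0 < c) (hx : 0 ≤ x) :
    x ^ k * Real.exp (-c * x) ≤ (k.factorial * (2 / c) ^ k) * Real.exp (-(c / 2) * x) := by
  have h1 := Real.pow_div_factorial_le_exp (c / 2 * x) (by positivity) k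
  have hf : (0 : ℝ) < k.factorial := by exact_mod_cast Nat.factorial_pos k
  rw [div_le_iff₀ hf, mul_pow] at h1
  have h2 : x ^ k ≤ (k.factorial * (2 / c) ^ k) * Real.exp (c / 2 * x) := by
    have h3 : (2 / c) ^ k * ((c / 2) ^ k * x ^ k) = x ^ k := by
      rw [← mul_assoc, ← mul_pow]
      have : 2 / c * (c / 2) = 1 := by field_simp
      rw [this, one_pow, one_mul]
    calc x ^ k = (2 / c) ^ k * ((c / 2) ^ k * x ^ k) := h3.symm
      _ ≤ (2 / c) ^ k * (Real.exp (c / 2 * x) * k.factorial) :=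
        mul_le_mul_of_nonneg_left h1 (by positivity)
      _ = _ := by ring
  calc x ^ k * Real.exp (-c * x)
      ≤ ((k.factorial * (2 / c) ^ k) * Real.exp (c / 2 * x)) * Real.exp (-c * x) :=
        mul_le_mul_of_nonneg_right h2 (Real.exp_pos _).le
    _ = (k.factorial * (2 / c) ^ k) * (Real.exp (c / 2 * x) * Real.exp (-c * x)) := by ring
    _ = _ := by rw [← Real.exp_add]; congr 2; ring

lemma rpow_mul_exp_le (k : ℕ) {c r : ℝ} (hc : 0 < c) (hr : 0 < r) :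
    r ^ (-((k : ℝ) / 8)) * Real.exp (-c * r ^ (-(1 / 8) : ℝ))
      ≤ (k.factorial * (2 / c) ^ k) * Real.exp (-(c / 2) * r ^ (-(1 / 8) : ℝ)) := by
  have h := pow_mul_exp_le k hc (Real.rpow_nonneg hr.le (-(1 / 8) : ℝ))
  rw [← Real.rpow_natCast (r ^ (-(1 / 8) : ℝ)) k, ← Real.rpow_mul hr.le] at h
  have e : (-(1 / 8) : ℝ) * k = -((k : ℝ) / 8) := by ring
  rwa [e] at h

/-! ### the edge function -/

variable {V : Type*} {G : SimpleGraph V} [G.LocallyFinite]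

lemma meas_minf (θ t : ℝ) (v : V) : Measurable (minf G θ t v) := by
  first
    | exact measurable_minf θ t v
    | exact measurable_minf G θ t v

/-- difference of the clipped logarithmic edge functions -/
noncomputable def FF (G : SimpleGraph V) [G.LocallyFinite] (θ θ' r : ℝ) (x y : V) (ω : Om V) : ℝ :=
  LL θ (cl (minf G θ r x ω)) (cl (minf G θ r y ω))
    - LL θ' (cl (minf G θ' r x ω)) (cl (minf G θ' r y ω))

lemma measurable_LL (θ : ℝ) : Measurable fun p : ℝ × ℝ => LL θ p.1 p.2 := by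
  unfold LL
  have h1 := (measurable_rho θ).log
  have h2 := ((measurable_rho θ).comp measurable_swap).log
  exact (h1.add h2).div_const 2

lemma measurable_LLm (θ r : ℝ) (x y : V) :
    Measurable fun ω : Om V => LL θ (cl (minf G θ r x ω)) (cl (minf G θ r y ω)) := by
  have h1 : Measurable fun ω : Om V => cl (minf G θ r x ω) :=
    measurable_cl.comp (meas_minf θ r x)
  have h2 : Measurable fun ω : Om V => cl (minf G θ r y ω) :=
    measurable_cl.comp (meas_minf θ r y)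
  change Measurable ((fun p : ℝ × ℝ => LL θ p.1 p.2) ∘
    fun ω : Om V => (cl (minf G θ r x ω), cl (minf G θ r y ω)))
  exact (measurable_LL θ).comp (h1.prodMk h2)

lemma measurable_FF (θ θ' r : ℝ) (x y : V) : Measurable (FF G θ θ' r x y) :=
  (measurable_LLm θ r x y).sub (measurable_LLm θ' r x y)

lemma abs_LL_cl_le {θ : ℝ} (h0 : 0 ≤ θ) (h2 : θ ^ 2 ≤ 1 / 2) (x y : ℝ) :
    |LL θ (cl x) (cl y)| ≤ 10 ^ 6 := by
  have h := abs_LL_le h0 h2 (abs_cl_le x) (abs_cl_le y)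
  have e1 : (cl x) ^ 2 ≤ (1 / 2) ^ 2 := by
    rw [← sq_abs]; exact pow_le_pow_left₀ (abs_nonneg _) (abs_cl_le x) 2
  have e2 : (cl y) ^ 2 ≤ (1 / 2) ^ 2 := by
    rw [← sq_abs]; exact pow_le_pow_left₀ (abs_nonneg _) (abs_cl_le y) 2
  linarith

lemma abs_FF_le {θ θ' : ℝ} (h0 : 0 ≤ θ) (h2 : θ ^ 2 ≤ 1 / 2) (h0' : 0 ≤ θ')
    (h2' : θ' ^ 2 ≤ 1 / 2) (r : ℝ) (x y : V) (ω : Om V) : |FF G θ θ' r x y ω| ≤ 2 * 10 ^ 6 := by
  unfold FF
  have h1 := abs_LL_cl_le h0 h2 (minf G θ r x ω) (minf G θ r y ω)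
  have h3 := abs_LL_cl_le h0' h2' (minf G θ' r x ω) (minf G θ' r y ω)
  refine (abs_sub _ _).trans ?_
  linarith

lemma FF_comm (θ θ' r : ℝ) (x y : V) (ω : Om V) : FF G θ θ' r x y ω = FF G θ θ' r y x ω := by
  unfold FF
  rw [LL_comm θ, LL_comm θ']

lemma FF_act (hT : G.IsTree) (θ θ' r : ℝ) (g : G ≃g G) (x y : V) (ω : Om V) :
    FF G θ θ' r x y (act g ω) = FF G θ θ' r (g x) (g y) ω := by
  unfold FF
  simp only [minf_equivariant hT]

lemma integral_FF_eq (hT : G.IsTree) {d : ℕ} (hreg : G.IsRegularOfDegree d) (θ θ' r : ℝ)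
    {x y x' y' : V} (h : G.Adj x y) (h' : G.Adj x' y') :
    ∫ ω, FF G θ θ' r x y ω ∂(PP V) = ∫ ω, FF G θ θ' r x' y' ω ∂(PP V) := by
  obtain ⟨g, h1, h2⟩ := exists_aut_dart hT hreg h h'
  rw [← h1, ← h2, ← integral_act g]
  exact integral_congr_ae (Filter.Eventually.of_forall fun ω => FF_act hT θ θ' r g x y ω)

lemma DD_vertex (hT : G.IsTree) {d : ℕ} (hreg : G.IsRegularOfDegree d) (θ θ' r : ℝ) (u v : V) :
    DD G θ θ' r u = DD G θ θ' r v := by
  obtain ⟨g, h1⟩ := exists_aut_vertex hT hreg u v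
  unfold DD
  rw [← h1, ← integral_act g]
  refine integral_congr_ae (Filter.Eventually.of_forall fun ω => ?_)
  simp only [minf_equivariant hT]

lemma integrable_of_bdd {f : Om V → ℝ} (hf : Measurable f) (C : ℝ) (h : ∀ ω, |f ω| ≤ C) :
    Integrable f (PP V) :=
  Integrable.of_bound hf.aestronglyMeasurable C (Filter.Eventually.of_forall h)

lemma DD_nonneg (θ θ' r : ℝ) (v : V) : 0 ≤ DD G θ θ' r v :=
  integral_nonneg fun _ => sq_nonneg _

/-- the indicator of a set of noises -/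
lemma integral_ind {s : Set (Om V)} (hs : MeasurableSet s) :
    ∫ ω, s.indicator (fun _ => (1 : ℝ)) ω ∂(PP V) = (PP V).real s := by
  rw [integral_indicator hs]
  simp

lemma measurableSet_gt (a θ r : ℝ) (x : V) :
    MeasurableSet {ω : Om V | a < |minf G θ r x ω|} :=
  measurableSet_lt measurable_const (meas_minf θ r x).abs

/-- indicator of the event `|m_x| > a` -/
noncomputable def ind (G : SimpleGraph V) [G.LocallyFinite] (a θ r : ℝ) (x : V) (ω : Om V) : ℝ :=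
  {ω : Om V | a < |minf G θ r x ω|}.indicator (fun _ => (1 : ℝ)) ω

lemma measurable_ind (a θ r : ℝ) (x : V) : Measurable (ind G a θ r x) :=
  measurable_const.indicator (measurableSet_gt a θ r x)

lemma ind_nonneg (a θ r : ℝ) (x : V) (ω : Om V) : 0 ≤ ind G a θ r x ω := by
  unfold ind
  exact Set.indicator_nonneg (fun _ _ => zero_le_one) ω

lemma ind_le_one (a θ r : ℝ) (x : V) (ω : Om V) : ind G a θ r x ω ≤ 1 := by
  unfold ind
  exact Set.indicator_le_self' (fun _ _ => zero_le_one) ω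

lemma ind_of_lt {a θ r : ℝ} {x : V} {ω : Om V} (h : a < |minf G θ r x ω|) :
    ind G a θ r x ω = 1 := by
  unfold ind
  rw [Set.indicator_of_mem]
  exact h

lemma integrable_ind (a θ r : ℝ) (x : V) : Integrable (ind G a θ r x) (PP V) :=
  integrable_of_bdd (measurable_ind a θ r x) 1 fun ω => by
    rw [abs_of_nonneg (ind_nonneg a θ r x ω)]
    exact ind_le_one a θ r x ω

lemma integral_ind' (a θ r : ℝ) (x : V) :
    ∫ ω, ind G a θ r x ω ∂(PP V) = (PP V).real {ω : Om V | a < |minf G θ r x ω|} := by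
  unfold ind
  exact integral_ind (measurableSet_gt a θ r x)

/-- pointwise bound of the squared edge function -/
lemma ptw {F a dt mx my mx' my' cx cy cx' cy' i1 i2 i3 i4 : ℝ} (ha0 : 0 < a)
    (hF : |F| ≤ 4 * 10 ^ 6 * ((|cx| + |cy| + |cx'| + |cy'|) * (|cx - cx'| + |cy - cy'|) + |dt|))
    (c1 : |cx| ≤ 1 / 2) (c2 : |cy| ≤ 1 / 2) (c3 : |cx'| ≤ 1 / 2) (c4 : |cy'| ≤ 1 / 2)
    (d1 : |cx| ≤ |mx|) (d2 : |cy| ≤ |my|) (d3 : |cx'| ≤ |mx'|) (d4 : |cy'| ≤ |my'|)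
    (l1 : |cx - cx'| ≤ |mx - mx'|) (l2 : |cy - cy'| ≤ |my - my'|)
    (h1 : 0 ≤ i1) (h2 : 0 ≤ i2) (h3 : 0 ≤ i3) (h4 : 0 ≤ i4)
    (e1 : a < |mx| → i1 = 1) (e2 : a < |my| → i2 = 1) (e3 : a < |mx'| → i3 = 1)
    (e4 : a < |my'| → i4 = 1) :
    F ^ 2 ≤ 32 * 10 ^ 12 * (32 * a ^ 2 * ((mx - mx') ^ 2 + (my - my') ^ 2)
      + 16 * (i1 + i2 + i3 + i4) + dt ^ 2) := by
  set S := |cx| + |cy| + |cx'| + |cy'| with hS
  have hA0 : 0 ≤ |cx| := abs_nonneg _
  have hB0 : 0 ≤ |cy| := abs_nonneg _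
  have hA0' : 0 ≤ |cx'| := abs_nonneg _
  have hB0' : 0 ≤ |cy'| := abs_nonneg _
  have hfx0 : 0 ≤ |mx - mx'| := abs_nonneg _
  have hfy0 : 0 ≤ |my - my'| := abs_nonneg _
  set T := |cx - cx'| + |cy - cy'| with hTd
  have hT0 : 0 ≤ T := by positivity
  have hT1 : T ≤ |mx - mx'| + |my - my'| := by rw [hTd]; linarith
  have hT2 : T ≤ 2 := by
    have e1 : |cx - cx'| ≤ |cx| + |cx'| := abs_sub _ _
    have e2 : |cy - cy'| ≤ |cy| + |cy'| := abs_sub _ _
    rw [hTd]; linarith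
  have hS0 : 0 ≤ S := by positivity
  have hS2 : S ≤ 2 := by rw [hS]; linarith
  have hF2 : F ^ 2 ≤ (4 * 10 ^ 6 * (S * T + |dt|)) ^ 2 := by
    rw [← sq_abs F]
    exact pow_le_pow_left₀ (abs_nonneg _) hF 2
  have hF3 : (4 * 10 ^ 6 * (S * T + |dt|)) ^ 2 ≤ 32 * 10 ^ 12 * (S ^ 2 * T ^ 2 + dt ^ 2) := by
    have e : dt ^ 2 = |dt| ^ 2 := (sq_abs _).symm
    rw [e]
    have := sq_nonneg (S * T - |dt|)
    have e5 : 32 * 10 ^ 12 * (S ^ 2 * T ^ 2 + |dt| ^ 2) - (4 * 10 ^ 6 * (S * T + |dt|)) ^ 2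
      = 16 * 10 ^ 12 * (S * T - |dt|) ^ 2 := by ring
    have e6 : 0 ≤ 16 * 10 ^ 12 * (S * T - |dt|) ^ 2 := by positivity
    linarith
  have hST : S ^ 2 * T ^ 2 ≤ 32 * a ^ 2 * ((mx - mx') ^ 2 + (my - my') ^ 2)
      + 16 * (i1 + i2 + i3 + i4) := by
    have e7 : 0 ≤ 32 * a ^ 2 * ((mx - mx') ^ 2 + (my - my') ^ 2) := by positivity
    have e8 : S ^ 2 * T ^ 2 ≤ 16 := by
      have s1 : S ^ 2 ≤ 2 ^ 2 := pow_le_pow_left₀ hS0 hS2 2
      have s2 : T ^ 2 ≤ 2 ^ 2 := pow_le_pow_left₀ hT0 hT2 2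
      calc S ^ 2 * T ^ 2 ≤ 2 ^ 2 * 2 ^ 2 := mul_le_mul s1 s2 (by positivity) (by norm_num)
        _ = 16 := by norm_num
    by_cases b1 : a < |mx|
    · rw [e1 b1]; linarith
    by_cases b2 : a < |my|
    · rw [e2 b2]; linarith
    by_cases b3 : a < |mx'|
    · rw [e3 b3]; linarith
    by_cases b4 : a < |my'|
    · rw [e4 b4]; linarith
    push Not at b1 b2 b3 b4
    have s1 : S ^ 2 ≤ 16 * a ^ 2 := by
      have : S ≤ 4 * a := by rw [hS]; linarith
      calc S ^ 2 ≤ (4 * a) ^ 2 := pow_le_pow_left₀ hS0 this 2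
        _ = 16 * a ^ 2 := by ring
    have s2 : T ^ 2 ≤ 2 * (|mx - mx'| ^ 2 + |my - my'| ^ 2) := by
      calc T ^ 2 ≤ (|mx - mx'| + |my - my'|) ^ 2 := pow_le_pow_left₀ hT0 hT1 2
        _ ≤ 2 * (|mx - mx'| ^ 2 + |my - my'| ^ 2) := add_sq_le
    have s3 : S ^ 2 * T ^ 2 ≤ (16 * a ^ 2) * (2 * (|mx - mx'| ^ 2 + |my - my'| ^ 2)) :=
      mul_le_mul s1 s2 (by positivity) (by positivity)
    rw [sq_abs, sq_abs] at s3
    linarith
  linarith

/-- second moment of the edge function -/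
lemma integral_FF_sq_le (hT : G.IsTree) {d : ℕ} (hreg : G.IsRegularOfDegree d) {θ θ' : ℝ}
    (h0 : 0 ≤ θ) (h1 : θ < 1) (h2 : θ ^ 2 ≤ 1 / 2) (h0' : 0 ≤ θ') (h1' : θ' < 1)
    (h2' : θ' ^ 2 ≤ 1 / 2) {r : ℝ} (hr : 0 < r) (x y v : V) (P : ℝ)
    (hP : ∀ u : V, (PP V).real {ω : Om V | r ^ (1 / 4 : ℝ) < |minf G θ r u ω|} ≤ P)
    (hP' : ∀ u : V, (PP V).real {ω : Om V | r ^ (1 / 4 : ℝ) < |minf G θ' r u ω|} ≤ P) :
    ∫ ω, (FF G θ θ' r x y ω) ^ 2 ∂(PP V)
      ≤ 32 * 10 ^ 12 * (64 * r ^ (1 / 2 : ℝ) * DD G θ θ' r v + 64 * P + (θ - θ') ^ 2) := by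
  set a : ℝ := r ^ (1 / 4 : ℝ) with ha
  have ha0 : 0 < a := Real.rpow_pos_of_pos hr _
  have ha2 : a ^ 2 = r ^ (1 / 2 : ℝ) := by
    rw [ha, ← Real.rpow_natCast, ← Real.rpow_mul hr.le]; norm_num
  have hle : ∀ u ω, |minf G θ r u ω| ≤ 1 := fun u ω => abs_minf_le h0 h1 r u ω
  have hle' : ∀ u ω, |minf G θ' r u ω| ≤ 1 := fun u ω => abs_minf_le h0' h1' r u ω
  have hpt : ∀ ω, (FF G θ θ' r x y ω) ^ 2 ≤ 32 * 10 ^ 12 * (32 * a ^ 2 *
      ((minf G θ r x ω - minf G θ' r x ω) ^ 2 + (minf G θ r y ω - minf G θ' r y ω) ^ 2)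
      + 16 * (ind G a θ r x ω + ind G a θ r y ω + ind G a θ' r x ω + ind G a θ' r y ω)
      + (θ - θ') ^ 2) := by
    intro ω
    have hF := LL_diff' h0 h2 h0' h2' (abs_cl_le (minf G θ r x ω)) (abs_cl_le (minf G θ r y ω))
      (abs_cl_le (minf G θ' r x ω)) (abs_cl_le (minf G θ' r y ω))
    have l1 := abs_cl_sub_le (minf G θ r x ω) (minf G θ' r x ω)
    have l2 := abs_cl_sub_le (minf G θ r y ω) (minf G θ' r y ω)
    exact ptw ha0 hF (abs_cl_le _) (abs_cl_le _) (abs_cl_le _) (abs_cl_le _)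
      (abs_cl_le_abs _) (abs_cl_le_abs _) (abs_cl_le_abs _) (abs_cl_le_abs _) l1 l2
      (ind_nonneg a θ r x ω) (ind_nonneg a θ r y ω) (ind_nonneg a θ' r x ω)
      (ind_nonneg a θ' r y ω) ind_of_lt ind_of_lt ind_of_lt ind_of_lt
  have hfsq : ∀ u : V, Integrable (fun ω => (minf G θ r u ω - minf G θ' r u ω) ^ 2) (PP V) := by
    intro u
    refine integrable_of_bdd (((meas_minf θ r u).sub (meas_minf θ' r u)).pow_const 2)
      4 fun ω => ?_
    have e1 := abs_le.1 (hle u ω)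
    have e2 := abs_le.1 (hle' u ω)
    rw [abs_of_nonneg (sq_nonneg _)]
    nlinarith
  have hDx : ∀ u : V, ∫ ω, (minf G θ r u ω - minf G θ' r u ω) ^ 2 ∂(PP V) = DD G θ θ' r v :=
    fun u => DD_vertex hT hreg θ θ' r u v
  have hint : Integrable (fun ω => 32 * 10 ^ 12 * (32 * a ^ 2 *
      ((minf G θ r x ω - minf G θ' r x ω) ^ 2 + (minf G θ r y ω - minf G θ' r y ω) ^ 2)
      + 16 * (ind G a θ r x ω + ind G a θ r y ω + ind G a θ' r x ω + ind G a θ' r y ω)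
      + (θ - θ') ^ 2)) (PP V) := by
    refine Integrable.const_mul ?_ _
    refine Integrable.add (Integrable.add ?_ ?_) (integrable_const _)
    · exact ((hfsq x).add (hfsq y)).const_mul _
    · exact ((((integrable_ind a θ r x).add (integrable_ind a θ r y)).add
        (integrable_ind a θ' r x)).add (integrable_ind a θ' r y)).const_mul _
  have hFint : Integrable (fun ω => (FF G θ θ' r x y ω) ^ 2) (PP V) := by
    refine integrable_of_bdd ((measurable_FF θ θ' r x y).pow_const 2) ((2 * 10 ^ 6) ^ 2)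
      fun ω => ?_
    rw [abs_of_nonneg (sq_nonneg _), ← sq_abs]
    exact pow_le_pow_left₀ (abs_nonneg _) (abs_FF_le h0 h2 h0' h2' r x y ω) 2
  refine (integral_mono hFint hint hpt).trans ?_
  rw [integral_const_mul]
  refine mul_le_mul_of_nonneg_left ?_ (by norm_num)
  rw [integral_add, integral_add, integral_const_mul, integral_const_mul, integral_add (hfsq x) (hfsq y),
    integral_add, integral_add, integral_add, integral_const, hDx, hDx, integral_ind',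
    integral_ind', integral_ind', integral_ind', ha2]
  · have q1 := hP x
    have q2 := hP y
    have q3 := hP' x
    have q4 := hP' y
    simp only [probReal_univ, smul_eq_mul, one_mul]
    linarith
  · exact integrable_ind a θ r x
  · exact integrable_ind a θ r y
  · exact (integrable_ind a θ r x).add (integrable_ind a θ r y)
  · exact integrable_ind a θ' r x
  · exact ((integrable_ind a θ r x).add (integrable_ind a θ r y)).add (integrable_ind a θ' r x)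
  · exact integrable_ind a θ' r y
  · exact ((hfsq x).add (hfsq y)).const_mul _
  · exact ((((integrable_ind a θ r x).add (integrable_ind a θ r y)).add
        (integrable_ind a θ' r x)).add (integrable_ind a θ' r y)).const_mul _
  · exact (((hfsq x).add (hfsq y)).const_mul _).add
      (((((integrable_ind a θ r x).add (integrable_ind a θ r y)).add
        (integrable_ind a θ' r x)).add (integrable_ind a θ' r y)).const_mul _)
  · exact integrable_const _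

end Crest.Agent.R160.GA
end

-- ▼ part R160/GA2
section

/-! # Row 160, module GA: level bounds -/

set_option autoImplicit false

open MeasureTheory Finset
open scoped Classical

namespace Crest.Agent.R160.GA

open Crest.Agent.R160 Crest.Agent.R160.TreeAut Crest.Agent.R160.BSVNoise

variable {V : Type*} {G : SimpleGraph V}

lemma MM_le_pow (hT : G.IsTree) {θ : ℝ} (h0 : 0 ≤ θ) (h1 : θ < 1) {m : V → ℝ}
    (hm : ∀ v, |m v| ≤ 1) (u v : V) : 0 ≤ MM G θ m u v ∧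
      MM G θ m u v ≤ θ ^ G.dist u v * rprod G θ m u v ∧ MM G θ m u v ≤ θ ^ G.dist u v := by
  have h := rprod_mem hT h0 h1 hm u v
  have hu : (m u) ^ 2 ≤ 1 := by rw [← sq_abs]; nlinarith [abs_nonneg (m u), hm u]
  have hu' := sq_nonneg (m u)
  have hp0 : 0 ≤ θ ^ G.dist u v := pow_nonneg h0 _
  unfold MM
  have e1 : (1 - m u ^ 2) * θ ^ G.dist u v * rprod G θ m u v
      = (1 - m u ^ 2) * (θ ^ G.dist u v * rprod G θ m u v) := by ring
  have e2 : 0 ≤ θ ^ G.dist u v * rprod G θ m u v := mul_nonneg hp0 h.1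
  have e3 : (1 - m u ^ 2) * θ ^ G.dist u v * rprod G θ m u v
      ≤ θ ^ G.dist u v * rprod G θ m u v := by
    rw [e1]
    exact mul_le_of_le_one_left e2 (by linarith)
  refine ⟨?_, e3, e3.trans (mul_le_of_le_one_right hp0 h.2)⟩
  rw [e1]
  exact mul_nonneg (by linarith) e2

variable [G.LocallyFinite]

set_option maxHeartbeats 1000000 in
/-- comparison of the two covariances along a path, in expectation -/
theorem path_sq_le (hT : G.IsTree) {d : ℕ} (hreg : G.IsRegularOfDegree d) {θ θ' τ : ℝ}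
    (h0 : 0 ≤ θ) (h1 : θ < 1) (h2 : θ ^ 2 ≤ 1 / 2) (h0' : 0 ≤ θ') (h1' : θ' < 1)
    (h2' : θ' ^ 2 ≤ 1 / 2) (hτ : θ ≤ τ) (hτ' : θ' ≤ τ) (hτ0 : 0 < τ) (r : ℝ) {x y v : V}
    (hxy : G.Adj x y) (P E Cb : ℝ) (hCb : 0 < Cb)
    (hP : ∀ u : V, (PP V).real {ω : Om V | 1 / 2 < |minf G θ r u ω|} ≤ P)
    (hP' : ∀ u : V, (PP V).real {ω : Om V | 1 / 2 < |minf G θ' r u ω|} ≤ P)
    (hE : ∫ ω, (FF G θ θ' r x y ω) ^ 2 ∂(PP V) ≤ E)
    (n : ℕ) (p : ℕ → V) (hp : IsNB G n p)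
    (hbsv : ∫ ω, (∑ i ∈ range n, (FF G θ θ' r (p i) (p (i + 1)) ω
          - ∫ ω', FF G θ θ' r (p i) (p (i + 1)) ω' ∂(PP V))) ^ 2 ∂(PP V)
        ≤ Cb * n * ∫ ω, (FF G θ θ' r x y ω - ∫ ω', FF G θ θ' r x y ω' ∂(PP V)) ^ 2 ∂(PP V)) :
    ∫ ω, (MM G θ (fun u => minf G θ r u ω) (p 0) (p n)
        - MM G θ' (fun u => minf G θ' r u ω) (p 0) (p n)) ^ 2 ∂(PP V)
      ≤ (τ ^ 2) ^ n * (5 * (2 * DD G θ θ' r v + n ^ 2 * (|θ - θ'| / τ) ^ 2 + Cb * n * E
        + n ^ 2 * (∫ ω, FF G θ θ' r x y ω ∂(PP V)) ^ 2) + 2 * (n + 1) * P) := by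
  set β : ℝ := ∫ ω, FF G θ θ' r x y ω ∂(PP V) with hβ
  have hle : ∀ u ω, |minf G θ r u ω| ≤ 1 := fun u ω => abs_minf_le h0 h1 r u ω
  have hle' : ∀ u ω, |minf G θ' r u ω| ≤ 1 := fun u ω => abs_minf_le h0' h1' r u ω
  have hdist : G.dist (p 0) (p n) = n := by
    have := hp.dist hT (Nat.zero_le n) le_rfl
    simpa using this
  have hmean : ∀ i < n, ∫ ω', FF G θ θ' r (p i) (p (i + 1)) ω' ∂(PP V) = β := fun i hi =>
    integral_FF_eq hT hreg θ θ' r (hp.adj i hi) hxy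
  -- pointwise bound
  have hpt : ∀ ω, (MM G θ (fun u => minf G θ r u ω) (p 0) (p n)
        - MM G θ' (fun u => minf G θ' r u ω) (p 0) (p n)) ^ 2
      ≤ 5 * (τ ^ 2) ^ n * ((minf G θ r (p 0) ω - minf G θ' r (p 0) ω) ^ 2
        + (minf G θ r (p n) ω - minf G θ' r (p n) ω) ^ 2
        + n ^ 2 * (|θ - θ'| / τ) ^ 2
        + (∑ i ∈ range n, (FF G θ θ' r (p i) (p (i + 1)) ω - β)) ^ 2 + n ^ 2 * β ^ 2)
        + (τ ^ 2) ^ n * ∑ i ∈ range (n + 1),
          (ind G (1 / 2) θ r (p i) ω + ind G (1 / 2) θ' r (p i) ω) := by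
    intro ω
    have hs0 : 0 ≤ (τ ^ 2) ^ n * ∑ i ∈ range (n + 1),
          (ind G (1 / 2) θ r (p i) ω + ind G (1 / 2) θ' r (p i) ω) :=
      mul_nonneg (by positivity) (sum_nonneg fun i _ =>
        add_nonneg (ind_nonneg _ _ _ _ _) (ind_nonneg _ _ _ _ _))
    by_cases hgood : (∀ i ≤ n, |minf G θ r (p i) ω| ≤ 1 / 2) ∧
        (∀ i ≤ n, |minf G θ' r (p i) ω| ≤ 1 / 2)
    · have := MM_sub_sq_le hT h0 h2 h0' h2' hτ hτ' hτ0 (m := fun u => minf G θ r u ω)
        (m' := fun u => minf G θ' r u ω) hp hgood.1 hgood.2 β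
      unfold FF
      linarith
    · have hbad : 1 ≤ ∑ i ∈ range (n + 1),
          (ind G (1 / 2) θ r (p i) ω + ind G (1 / 2) θ' r (p i) ω) := by
        rw [not_and_or] at hgood
        push Not at hgood
        rcases hgood with ⟨i, hi, hlt⟩ | ⟨i, hi, hlt⟩
        · have e1 : ind G (1 / 2) θ r (p i) ω = 1 := ind_of_lt hlt
          have e2 := single_le_sum (f := fun i => ind G (1 / 2) θ r (p i) ω
            + ind G (1 / 2) θ' r (p i) ω) (s := range (n + 1))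
            (fun i _ => add_nonneg (ind_nonneg _ _ _ _ _) (ind_nonneg _ _ _ _ _))
            (mem_range.2 (by omega : i < n + 1))
          have e3 := ind_nonneg (G := G) (1 / 2) θ' r (p i) ω
          linarith
        · have e1 : ind G (1 / 2) θ' r (p i) ω = 1 := ind_of_lt hlt
          have e2 := single_le_sum (f := fun i => ind G (1 / 2) θ r (p i) ω
            + ind G (1 / 2) θ' r (p i) ω) (s := range (n + 1))
            (fun i _ => add_nonneg (ind_nonneg _ _ _ _ _) (ind_nonneg _ _ _ _ _))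
            (mem_range.2 (by omega : i < n + 1))
          have e3 := ind_nonneg (G := G) (1 / 2) θ r (p i) ω
          linarith
      obtain ⟨a0, _, a1⟩ := MM_le_pow hT h0 h1 (m := fun u => minf G θ r u ω)
        (fun u => hle u ω) (p 0) (p n)
      obtain ⟨b0, _, b1⟩ := MM_le_pow hT h0' h1' (m := fun u => minf G θ' r u ω)
        (fun u => hle' u ω) (p 0) (p n)
      rw [hdist] at a1 b1
      have a2 : θ ^ n ≤ τ ^ n := pow_le_pow_left₀ h0 hτ n
      have b2 : θ' ^ n ≤ τ ^ n := pow_le_pow_left₀ h0' hτ' n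
      have e4 : (MM G θ (fun u => minf G θ r u ω) (p 0) (p n)
        - MM G θ' (fun u => minf G θ' r u ω) (p 0) (p n)) ^ 2 ≤ (τ ^ n) ^ 2 := by
        rw [← sq_abs]
        apply pow_le_pow_left₀ (abs_nonneg _)
        rw [abs_le]
        constructor <;> linarith
      have e5 : (τ ^ n) ^ 2 = (τ ^ 2) ^ n := by rw [← pow_mul, ← pow_mul, mul_comm]
      have e6 : (τ ^ 2) ^ n ≤ (τ ^ 2) ^ n * ∑ i ∈ range (n + 1),
          (ind G (1 / 2) θ r (p i) ω + ind G (1 / 2) θ' r (p i) ω) :=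
        le_mul_of_one_le_right (by positivity) hbad
      have e7 : 0 ≤ 5 * (τ ^ 2) ^ n * ((minf G θ r (p 0) ω - minf G θ' r (p 0) ω) ^ 2
        + (minf G θ r (p n) ω - minf G θ' r (p n) ω) ^ 2
        + n ^ 2 * (|θ - θ'| / τ) ^ 2
        + (∑ i ∈ range n, (FF G θ θ' r (p i) (p (i + 1)) ω - β)) ^ 2 + n ^ 2 * β ^ 2) := by
        positivity
      linarith
  -- integrability
  have hfsq : ∀ u : V, Integrable (fun ω => (minf G θ r u ω - minf G θ' r u ω) ^ 2) (PP V) := by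
    intro u
    refine integrable_of_bdd (((meas_minf θ r u).sub (meas_minf θ' r u)).pow_const 2)
      4 fun ω => ?_
    have e1 := abs_le.1 (hle u ω)
    have e2 := abs_le.1 (hle' u ω)
    rw [abs_of_nonneg (sq_nonneg _)]
    nlinarith
  have hDx : ∀ u : V, ∫ ω, (minf G θ r u ω - minf G θ' r u ω) ^ 2 ∂(PP V) = DD G θ θ' r v :=
    fun u => DD_vertex hT hreg θ θ' r u v
  have hSint : Integrable (fun ω =>
      (∑ i ∈ range n, (FF G θ θ' r (p i) (p (i + 1)) ω - β)) ^ 2) (PP V) := by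
    refine integrable_of_bdd ((Finset.measurable_fun_sum _ fun i _ =>
      (measurable_FF θ θ' r (p i) (p (i + 1))).sub_const β).pow_const 2)
      ((∑ i ∈ range n, (2 * 10 ^ 6 + |β|)) ^ 2) fun ω => ?_
    rw [abs_of_nonneg (sq_nonneg _), ← sq_abs]
    apply pow_le_pow_left₀ (abs_nonneg _)
    refine (abs_sum_le_sum_abs _ _).trans (sum_le_sum fun i _ => ?_)
    refine (abs_sub _ _).trans ?_
    have := abs_FF_le (G := G) h0 h2 h0' h2' r (p i) (p (i + 1)) ω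
    linarith
  have hIint : Integrable (fun ω => ∑ i ∈ range (n + 1),
          (ind G (1 / 2) θ r (p i) ω + ind G (1 / 2) θ' r (p i) ω)) (PP V) :=
    integrable_finsetSum _ fun i _ => (integrable_ind _ _ _ _).add (integrable_ind _ _ _ _)
  have hMint : Integrable (fun ω => (MM G θ (fun u => minf G θ r u ω) (p 0) (p n)
        - MM G θ' (fun u => minf G θ' r u ω) (p 0) (p n)) ^ 2) (PP V) := by
    refine integrable_of_bdd (((measurable_MM θ (fun u => meas_minf θ r u) _ _).sub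
      (measurable_MM θ' (fun u => meas_minf θ' r u) _ _)).pow_const 2) 1 fun ω => ?_
    have a := MM_mem hT h0 h1 (m := fun u => minf G θ r u ω) (fun u => hle u ω) (p 0) (p n)
    have b := MM_mem hT h0' h1' (m := fun u => minf G θ' r u ω) (fun u => hle' u ω) (p 0) (p n)
    rw [abs_of_nonneg (sq_nonneg _)]
    nlinarith [a.1, a.2, b.1, b.2]
  have hI1 : Integrable (fun ω => (minf G θ r (p 0) ω - minf G θ' r (p 0) ω) ^ 2
        + (minf G θ r (p n) ω - minf G θ' r (p n) ω) ^ 2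
        + n ^ 2 * (|θ - θ'| / τ) ^ 2
        + (∑ i ∈ range n, (FF G θ θ' r (p i) (p (i + 1)) ω - β)) ^ 2 + n ^ 2 * β ^ 2) (PP V) :=
    ((((hfsq _).add (hfsq _)).add (integrable_const _)).add hSint).add (integrable_const _)
  refine (integral_mono hMint ((hI1.const_mul _).add (hIint.const_mul _)) hpt).trans ?_
  rw [integral_add' (hI1.const_mul _) (hIint.const_mul _), integral_const_mul, integral_const_mul]
  have j1 : ∫ ω, ((minf G θ r (p 0) ω - minf G θ' r (p 0) ω) ^ 2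
        + (minf G θ r (p n) ω - minf G θ' r (p n) ω) ^ 2
        + n ^ 2 * (|θ - θ'| / τ) ^ 2
        + (∑ i ∈ range n, (FF G θ θ' r (p i) (p (i + 1)) ω - β)) ^ 2 + n ^ 2 * β ^ 2) ∂(PP V)
      = DD G θ θ' r v + DD G θ θ' r v + n ^ 2 * (|θ - θ'| / τ) ^ 2
        + ∫ ω, (∑ i ∈ range n, (FF G θ θ' r (p i) (p (i + 1)) ω - β)) ^ 2 ∂(PP V)
        + n ^ 2 * β ^ 2 := by
    rw [integral_add, integral_add, integral_add, integral_add (hfsq _) (hfsq _), hDx, hDx,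
      integral_const, integral_const]
    · simp
    · exact (hfsq _).add (hfsq _)
    · exact integrable_const _
    · exact ((hfsq _).add (hfsq _)).add (integrable_const _)
    · exact hSint
    · exact (((hfsq _).add (hfsq _)).add (integrable_const _)).add hSint
    · exact integrable_const _
  have j2 : ∫ ω, (∑ i ∈ range n, (FF G θ θ' r (p i) (p (i + 1)) ω - β)) ^ 2 ∂(PP V)
      ≤ Cb * n * E := by
    have e1 : ∫ ω, (∑ i ∈ range n, (FF G θ θ' r (p i) (p (i + 1)) ω - β)) ^ 2 ∂(PP V)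
        = ∫ ω, (∑ i ∈ range n, (FF G θ θ' r (p i) (p (i + 1)) ω
          - ∫ ω', FF G θ θ' r (p i) (p (i + 1)) ω' ∂(PP V))) ^ 2 ∂(PP V) := by
      refine integral_congr_ae (Filter.Eventually.of_forall fun ω => ?_)
      simp only
      congr 1
      exact sum_congr rfl fun i hi => by rw [hmean i (mem_range.1 hi)]
    rw [e1]
    refine hbsv.trans ?_
    apply mul_le_mul_of_nonneg_left _ (by positivity)
    refine le_trans ?_ hE
    have hFi : Integrable (FF G θ θ' r x y) (PP V) :=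
      integrable_of_bdd (measurable_FF θ θ' r x y) (2 * 10 ^ 6) (abs_FF_le h0 h2 h0' h2' r x y)
    have hF2 : Integrable (fun ω => (FF G θ θ' r x y ω) ^ 2) (PP V) := by
      refine integrable_of_bdd ((measurable_FF θ θ' r x y).pow_const 2) ((2 * 10 ^ 6) ^ 2)
        fun ω => ?_
      rw [abs_of_nonneg (sq_nonneg _), ← sq_abs]
      exact pow_le_pow_left₀ (abs_nonneg _) (abs_FF_le h0 h2 h0' h2' r x y ω) 2
    have e2 : ∫ ω, (FF G θ θ' r x y ω - β) ^ 2 ∂(PP V)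
        = ∫ ω, (((FF G θ θ' r x y ω) ^ 2 - 2 * β * FF G θ θ' r x y ω) + β ^ 2) ∂(PP V) := by
      refine integral_congr_ae (Filter.Eventually.of_forall fun ω => ?_)
      simp only
      ring
    have e3 : ∫ ω, (((FF G θ θ' r x y ω) ^ 2 - 2 * β * FF G θ θ' r x y ω) + β ^ 2) ∂(PP V)
        = ∫ ω, ((FF G θ θ' r x y ω) ^ 2 - 2 * β * FF G θ θ' r x y ω) ∂(PP V)
          + ∫ _ω : Om V, β ^ 2 ∂(PP V) :=
      integral_add (hF2.sub (hFi.const_mul _)) (integrable_const _)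
    have e4 : ∫ ω, ((FF G θ θ' r x y ω) ^ 2 - 2 * β * FF G θ θ' r x y ω) ∂(PP V)
        = ∫ ω, (FF G θ θ' r x y ω) ^ 2 ∂(PP V) - ∫ ω, 2 * β * FF G θ θ' r x y ω ∂(PP V) :=
      integral_sub hF2 (hFi.const_mul _)
    rw [e2, e3, e4, integral_const_mul, ← hβ, integral_const]
    simp only [probReal_univ, smul_eq_mul, one_mul]
    nlinarith [sq_nonneg β]
  have j3 : ∫ ω, ∑ i ∈ range (n + 1),
          (ind G (1 / 2) θ r (p i) ω + ind G (1 / 2) θ' r (p i) ω) ∂(PP V) ≤ 2 * (n + 1) * P := by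
    have e0 : ∫ ω, ∑ i ∈ range (n + 1),
          (ind G (1 / 2) θ r (p i) ω + ind G (1 / 2) θ' r (p i) ω) ∂(PP V)
        = ∑ i ∈ range (n + 1), ∫ ω, (ind G (1 / 2) θ r (p i) ω
          + ind G (1 / 2) θ' r (p i) ω) ∂(PP V) :=
      integral_finsetSum _ fun i _ => (integrable_ind _ _ _ _).add (integrable_ind _ _ _ _)
    rw [e0]
    have e1 : ∀ i ∈ range (n + 1), ∫ ω, (ind G (1 / 2) θ r (p i) ω
        + ind G (1 / 2) θ' r (p i) ω) ∂(PP V) ≤ 2 * P := by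
      intro i _
      rw [integral_add (integrable_ind _ _ _ _) (integrable_ind _ _ _ _), integral_ind',
        integral_ind']
      linarith [hP (p i), hP' (p i)]
    refine (sum_le_sum e1).trans ?_
    rw [sum_const, card_range, nsmul_eq_mul]
    push_cast
    linarith
  rw [j1]
  have hτn : 0 < (τ ^ 2) ^ n := by positivity
  have k1 : (τ ^ 2) ^ n * ∫ ω, ∑ i ∈ range (n + 1),
          (ind G (1 / 2) θ r (p i) ω + ind G (1 / 2) θ' r (p i) ω) ∂(PP V)
      ≤ (τ ^ 2) ^ n * (2 * (n + 1) * P) := mul_le_mul_of_nonneg_left j3 hτn.le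
  have k2 : (τ ^ 2) ^ n * ∫ ω, (∑ i ∈ range n, (FF G θ θ' r (p i) (p (i + 1)) ω - β)) ^ 2 ∂(PP V)
      ≤ (τ ^ 2) ^ n * (Cb * n * E) := mul_le_mul_of_nonneg_left j2 hτn.le
  have e8 : 5 * (τ ^ 2) ^ n * (DD G θ θ' r v + DD G θ θ' r v + n ^ 2 * (|θ - θ'| / τ) ^ 2
        + ∫ ω, (∑ i ∈ range n, (FF G θ θ' r (p i) (p (i + 1)) ω - β)) ^ 2 ∂(PP V)
        + n ^ 2 * β ^ 2)
      = (τ ^ 2) ^ n * (5 * (2 * DD G θ θ' r v + n ^ 2 * (|θ - θ'| / τ) ^ 2 + n ^ 2 * β ^ 2))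
        + 5 * ((τ ^ 2) ^ n
          * ∫ ω, (∑ i ∈ range n, (FF G θ θ' r (p i) (p (i + 1)) ω - β)) ^ 2 ∂(PP V)) := by ring
  rw [e8]
  have e9 : (τ ^ 2) ^ n * (5 * (2 * DD G θ θ' r v + n ^ 2 * (|θ - θ'| / τ) ^ 2 + Cb * n * E
        + n ^ 2 * β ^ 2) + 2 * (n + 1) * P)
      = (τ ^ 2) ^ n * (5 * (2 * DD G θ θ' r v + n ^ 2 * (|θ - θ'| / τ) ^ 2 + n ^ 2 * β ^ 2))
        + 5 * ((τ ^ 2) ^ n * (Cb * n * E)) + (τ ^ 2) ^ n * (2 * (n + 1) * P) := by ring
  rw [e9]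
  linarith

end Crest.Agent.R160.GA
end

-- ▼ part R160/GA3

/-! # Row 160, module GA: the inequality (A) -/

set_option autoImplicit false

open MeasureTheory Finset
open scoped Classical

namespace Crest.Agent.R160.GA

open Crest.Agent.R160 Crest.Agent.R160.TreeAut Crest.Agent.R160.BSVNoise

variable {V : Type*} {G : SimpleGraph V} [G.LocallyFinite]

/-- the summand of one level -/
noncomputable def Slev (G : SimpleGraph V) [G.LocallyFinite] (θ θ' r : ℝ) (v : V) (n : ℕ) : ℝ :=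
  ∑ w ∈ sph G v n,
    ∫ ω, ((MM G θ (fun x => minf G θ r x ω) v w - MM G θ' (fun x => minf G θ' r x ω) v w) ^ 2
      + (MM G θ (fun x => minf G θ r x ω) v w) ^ 2
        * (minf G θ r w ω - minf G θ' r w ω) ^ 2) ∂(PP V)

lemma integrable_MM_sq (hT : G.IsTree) {θ : ℝ} (h0 : 0 ≤ θ) (h1 : θ < 1) (r : ℝ) (v w : V) :
    Integrable (fun ω => (MM G θ (fun x => minf G θ r x ω) v w) ^ 2) (PP V) := by
  refine integrable_of_bdd ((measurable_MM θ (fun u => meas_minf θ r u) _ _).pow_const 2) 1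
    fun ω => ?_
  have a := MM_mem hT h0 h1 (m := fun u => minf G θ r u ω) (fun u => abs_minf_le h0 h1 r u ω) v w
  rw [abs_of_nonneg (sq_nonneg _)]
  nlinarith [a.1, a.2]

lemma integrable_MM_diff_sq (hT : G.IsTree) {θ θ' : ℝ} (h0 : 0 ≤ θ) (h1 : θ < 1) (h0' : 0 ≤ θ')
    (h1' : θ' < 1) (r : ℝ) (v w : V) :
    Integrable (fun ω => (MM G θ (fun x => minf G θ r x ω) v w
      - MM G θ' (fun x => minf G θ' r x ω) v w) ^ 2) (PP V) := by
  refine integrable_of_bdd (((measurable_MM θ (fun u => meas_minf θ r u) _ _).sub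
    (measurable_MM θ' (fun u => meas_minf θ' r u) _ _)).pow_const 2) 1 fun ω => ?_
  have a := MM_mem hT h0 h1 (m := fun u => minf G θ r u ω) (fun u => abs_minf_le h0 h1 r u ω) v w
  have b := MM_mem hT h0' h1' (m := fun u => minf G θ' r u ω)
    (fun u => abs_minf_le h0' h1' r u ω) v w
  rw [abs_of_nonneg (sq_nonneg _)]
  nlinarith [a.1, a.2, b.1, b.2]

lemma integrable_f_sq {θ θ' : ℝ} (h0 : 0 ≤ θ) (h1 : θ < 1) (h0' : 0 ≤ θ')
    (h1' : θ' < 1) (r : ℝ) (u : V) :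
    Integrable (fun ω : Om V => (minf G θ r u ω - minf G θ' r u ω) ^ 2) (PP V) := by
  refine integrable_of_bdd (((meas_minf θ r u).sub (meas_minf θ' r u)).pow_const 2)
    4 fun ω => ?_
  have e1 := abs_le.1 (abs_minf_le (G := G) h0 h1 r u ω)
  have e2 := abs_le.1 (abs_minf_le (G := G) h0' h1' r u ω)
  rw [abs_of_nonneg (sq_nonneg _)]
  nlinarith

lemma integrable_MM_sq_mul (hT : G.IsTree) {θ θ' : ℝ} (h0 : 0 ≤ θ) (h1 : θ < 1) (h0' : 0 ≤ θ')
    (h1' : θ' < 1) (r : ℝ) (v w : V) :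
    Integrable (fun ω => (MM G θ (fun x => minf G θ r x ω) v w) ^ 2
      * (minf G θ r w ω - minf G θ' r w ω) ^ 2) (PP V) := by
  refine integrable_of_bdd (((measurable_MM θ (fun u => meas_minf θ r u) _ _).pow_const
    2).mul (((meas_minf θ r w).sub (meas_minf θ' r w)).pow_const 2)) 4 fun ω => ?_
  have a := MM_mem hT h0 h1 (m := fun u => minf G θ r u ω) (fun u => abs_minf_le h0 h1 r u ω) v w
  have e1 := abs_le.1 (abs_minf_le (G := G) h0 h1 r w ω)
  have e2 := abs_le.1 (abs_minf_le (G := G) h0' h1' r w ω)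
  have e3 : (MM G θ (fun x => minf G θ r x ω) v w) ^ 2 ≤ 1 := by nlinarith [a.1, a.2]
  have e4 : (minf G θ r w ω - minf G θ' r w ω) ^ 2 ≤ 4 := by nlinarith
  rw [abs_of_nonneg (mul_nonneg (sq_nonneg _) (sq_nonneg _))]
  calc (MM G θ (fun x => minf G θ r x ω) v w) ^ 2 * (minf G θ r w ω - minf G θ' r w ω) ^ 2
      ≤ 1 * 4 := mul_le_mul e3 e4 (sq_nonneg _) zero_le_one
    _ = 4 := by norm_num

/-- second moment of the covariances on a sphere -/
lemma sum_MM_sq_le (hT : G.IsTree) {b : ℕ} (hb : 2 ≤ b) {θ : ℝ} (h0 : 0 ≤ θ) (h1 : θ < 1) (r : ℝ)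
    (v : V) (n : ℕ) :
    ∑ w ∈ sph G v n, ∫ ω, (MM G θ (fun x => minf G θ r x ω) v w) ^ 2 ∂(PP V)
      ≤ ((b : ℝ) * θ ^ 2) ^ n * ∫ ω, Alev G b θ (fun x => minf G θ r x ω) v n ∂(PP V) := by
  have hb0 : (0 : ℝ) < b := by exact_mod_cast (by omega : 0 < b)
  have hint : ∀ w : V, Integrable (fun ω => rprod G θ (fun x => minf G θ r x ω) v w) (PP V) := by
    intro w
    refine integrable_of_bdd (measurable_rprod θ (fun u => meas_minf θ r u) v w) 1
      fun ω => ?_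
    have := rprod_mem hT h0 h1 (m := fun u => minf G θ r u ω)
      (fun u => abs_minf_le h0 h1 r u ω) v w
    rw [abs_of_nonneg this.1]
    exact this.2
  have e1 : ((b : ℝ) * θ ^ 2) ^ n * ∫ ω, Alev G b θ (fun x => minf G θ r x ω) v n ∂(PP V)
      = ∑ w ∈ sph G v n, (θ ^ 2) ^ n * ∫ ω, rprod G θ (fun x => minf G θ r x ω) v w ∂(PP V) := by
    unfold Alev
    rw [integral_const_mul, integral_finsetSum _ fun w _ => hint w, mul_sum, mul_sum]
    refine sum_congr rfl fun w _ => ?_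
    rw [mul_pow, ← mul_assoc]
    congr 1
    rw [inv_pow]
    field_simp
  rw [e1]
  refine sum_le_sum fun w hw => ?_
  rw [← integral_const_mul]
  refine integral_mono (integrable_MM_sq hT h0 h1 r v w) ((hint w).const_mul _) fun ω => ?_
  rw [mem_sph hT] at hw
  obtain ⟨a0, a1, a2⟩ := MM_le_pow hT h0 h1 (m := fun u => minf G θ r u ω)
    (fun u => abs_minf_le h0 h1 r u ω) v w
  rw [hw] at a1 a2
  have e2 : (θ ^ 2) ^ n = θ ^ n * θ ^ n := by rw [← pow_mul, ← pow_add]; congr 1; omega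
  simp only
  rw [e2, sq]
  calc MM G θ (fun x => minf G θ r x ω) v w * MM G θ (fun x => minf G θ r x ω) v w
      ≤ θ ^ n * (θ ^ n * rprod G θ (fun x => minf G θ r x ω) v w) :=
        mul_le_mul a2 a1 a0 (by positivity)
    _ = _ := by ring

/-- far levels -/
lemma Slev_far (hT : G.IsTree) {b : ℕ} (hb : 2 ≤ b) {θ θ' : ℝ} (h0 : 0 ≤ θ) (h1 : θ < 1)
    (h0' : 0 ≤ θ') (h1' : θ' < 1) (r : ℝ) (v : V) (n : ℕ) (A : ℝ)
    (hA : ((b : ℝ) * θ ^ 2) ^ n * ∫ ω, Alev G b θ (fun x => minf G θ r x ω) v n ∂(PP V) ≤ A)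
    (hA' : ((b : ℝ) * θ' ^ 2) ^ n * ∫ ω, Alev G b θ' (fun x => minf G θ' r x ω) v n ∂(PP V) ≤ A) :
    Slev G θ θ' r v n ≤ 8 * A := by
  have key : Slev G θ θ' r v n ≤ 6 * ∑ w ∈ sph G v n,
      ∫ ω, (MM G θ (fun x => minf G θ r x ω) v w) ^ 2 ∂(PP V)
      + 2 * ∑ w ∈ sph G v n, ∫ ω, (MM G θ' (fun x => minf G θ' r x ω) v w) ^ 2 ∂(PP V) := by
    unfold Slev
    rw [mul_sum, mul_sum, ← sum_add_distrib]
    refine sum_le_sum fun w _ => ?_
    rw [← integral_const_mul, ← integral_const_mul, ← integral_add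
      ((integrable_MM_sq hT h0 h1 r v w).const_mul _)
      ((integrable_MM_sq hT h0' h1' r v w).const_mul _)]
    refine integral_mono ((integrable_MM_diff_sq hT h0 h1 h0' h1' r v w).add
      (integrable_MM_sq_mul hT h0 h1 h0' h1' r v w))
      (((integrable_MM_sq hT h0 h1 r v w).const_mul _).add
      ((integrable_MM_sq hT h0' h1' r v w).const_mul _)) fun ω => ?_
    simp only
    have e1 := abs_le.1 (abs_minf_le (G := G) h0 h1 r w ω)
    have e2 := abs_le.1 (abs_minf_le (G := G) h0' h1' r w ω)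
    have e4 : (minf G θ r w ω - minf G θ' r w ω) ^ 2 ≤ 4 := by nlinarith
    set M := MM G θ (fun x => minf G θ r x ω) v w
    set M' := MM G θ' (fun x => minf G θ' r x ω) v w
    have e5 : M ^ 2 * (minf G θ r w ω - minf G θ' r w ω) ^ 2 ≤ M ^ 2 * 4 :=
      mul_le_mul_of_nonneg_left e4 (sq_nonneg _)
    nlinarith [sq_nonneg (M + M')]
  have h2 := sum_MM_sq_le hT hb h0 h1 r v n
  have h3 := sum_MM_sq_le hT hb h0' h1' r v n
  linarith

/-- near levels -/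
lemma Slev_near (hT : G.IsTree) {b : ℕ} (hb : 2 ≤ b) (hreg : G.IsRegularOfDegree (b + 1))
    {θ θ' τ : ℝ} (h0 : 0 ≤ θ) (h1 : θ < 1) (h2 : θ ^ 2 ≤ 1 / 2) (h0' : 0 ≤ θ') (h1' : θ' < 1)
    (h2' : θ' ^ 2 ≤ 1 / 2) (hτ : θ ≤ τ) (hτ' : θ' ≤ τ) (hτ0 : 0 < τ) (hτ1 : (b : ℝ) * τ ^ 2 ≤ 1)
    (r : ℝ) {x y v : V}
    (hxy : G.Adj x y) (P E Cb : ℝ) (hCb : 0 < Cb)
    (hP : ∀ u : V, (PP V).real {ω : Om V | 1 / 2 < |minf G θ r u ω|} ≤ P)
    (hP' : ∀ u : V, (PP V).real {ω : Om V | 1 / 2 < |minf G θ' r u ω|} ≤ P)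
    (hE : ∫ ω, (FF G θ θ' r x y ω) ^ 2 ∂(PP V) ≤ E)
    (hbsv : ∀ (n : ℕ) (p : ℕ → V), IsNB G n p →
      ∫ ω, (∑ i ∈ range n, (FF G θ θ' r (p i) (p (i + 1)) ω
          - ∫ ω', FF G θ θ' r (p i) (p (i + 1)) ω' ∂(PP V))) ^ 2 ∂(PP V)
        ≤ Cb * n * ∫ ω, (FF G θ θ' r x y ω - ∫ ω', FF G θ θ' r x y ω' ∂(PP V)) ^ 2 ∂(PP V))
    (n : ℕ) :
    Slev G θ θ' r v n ≤ 2 * (5 * (2 * DD G θ θ' r v + n ^ 2 * (|θ - θ'| / τ) ^ 2 + Cb * n * E
        + n ^ 2 * (∫ ω, FF G θ θ' r x y ω ∂(PP V)) ^ 2) + 2 * (n + 1) * P)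
        + 2 * DD G θ θ' r v := by
  have hb0 : (0 : ℝ) < b := by exact_mod_cast (by omega : 0 < b)
  set X : ℝ := 5 * (2 * DD G θ θ' r v + n ^ 2 * (|θ - θ'| / τ) ^ 2 + Cb * n * E
        + n ^ 2 * (∫ ω, FF G θ θ' r x y ω ∂(PP V)) ^ 2) + 2 * (n + 1) * P with hX
  have hD0 : 0 ≤ DD G θ θ' r v := DD_nonneg _ _ _ _
  have hE0 : 0 ≤ E := (integral_nonneg fun _ => sq_nonneg _).trans hE
  have hP0 : 0 ≤ P := measureReal_nonneg.trans (hP v)
  have hX0 : 0 ≤ X := by positivity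
  have hcard : ((sph G v n).card : ℝ) ≤ 2 * (b : ℝ) ^ n := by
    exact_mod_cast card_sph_le' hT (by omega) hreg v n
  have hterm : ∀ w ∈ sph G v n, ∫ ω, ((MM G θ (fun x => minf G θ r x ω) v w
      - MM G θ' (fun x => minf G θ' r x ω) v w) ^ 2
      + (MM G θ (fun x => minf G θ r x ω) v w) ^ 2
        * (minf G θ r w ω - minf G θ' r w ω) ^ 2) ∂(PP V)
      ≤ (τ ^ 2) ^ n * (X + DD G θ θ' r v) := by
    intro w hw
    rw [mem_sph hT] at hw
    obtain ⟨p, hp, hp0, hpn⟩ := exists_geodesic hT v w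
    rw [hw] at hp hpn
    have h3 := path_sq_le hT hreg h0 h1 h2 h0' h1' h2' hτ hτ' hτ0 r (v := v) hxy P E Cb hCb hP
      hP' hE n p hp (hbsv n p hp)
    rw [hp0, hpn] at h3
    rw [integral_add (integrable_MM_diff_sq hT h0 h1 h0' h1' r v w)
      (integrable_MM_sq_mul hT h0 h1 h0' h1' r v w)]
    have h4 : ∫ ω, (MM G θ (fun x => minf G θ r x ω) v w) ^ 2
        * (minf G θ r w ω - minf G θ' r w ω) ^ 2 ∂(PP V) ≤ (τ ^ 2) ^ n * DD G θ θ' r v := by
      rw [← DD_vertex hT hreg θ θ' r w v]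
      unfold DD
      rw [← integral_const_mul]
      refine integral_mono (integrable_MM_sq_mul hT h0 h1 h0' h1' r v w)
        ((integrable_f_sq h0 h1 h0' h1' r w).const_mul _) fun ω => ?_
      refine mul_le_mul_of_nonneg_right ?_ (sq_nonneg _)
      obtain ⟨a0, _, a2⟩ := MM_le_pow hT h0 h1 (m := fun u => minf G θ r u ω)
        (fun u => abs_minf_le h0 h1 r u ω) v w
      rw [hw] at a2
      have a3 : θ ^ n ≤ τ ^ n := pow_le_pow_left₀ h0 hτ n
      calc (MM G θ (fun x => minf G θ r x ω) v w) ^ 2 ≤ (τ ^ n) ^ 2 :=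
            pow_le_pow_left₀ a0 (a2.trans a3) 2
        _ = (τ ^ 2) ^ n := by rw [← pow_mul, ← pow_mul, mul_comm]
    rw [mul_add]
    exact add_le_add h3 h4
  unfold Slev
  refine (sum_le_sum hterm).trans ?_
  rw [sum_const, nsmul_eq_mul]
  have h5 : ((sph G v n).card : ℝ) * (τ ^ 2) ^ n ≤ 2 := by
    calc ((sph G v n).card : ℝ) * (τ ^ 2) ^ n ≤ 2 * (b : ℝ) ^ n * (τ ^ 2) ^ n :=
          mul_le_mul_of_nonneg_right hcard (by positivity)
      _ = 2 * ((b : ℝ) * τ ^ 2) ^ n := by rw [mul_pow]; ring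
      _ ≤ 2 * 1 := by
          apply mul_le_mul_of_nonneg_left _ (by norm_num)
          exact pow_le_one₀ (by positivity) hτ1
      _ = 2 := by norm_num
  calc ((sph G v n).card : ℝ) * ((τ ^ 2) ^ n * (X + DD G θ θ' r v))
      = (((sph G v n).card : ℝ) * (τ ^ 2) ^ n) * (X + DD G θ θ' r v) := by ring
    _ ≤ 2 * (X + DD G θ θ' r v) := mul_le_mul_of_nonneg_right h5 (by positivity)
    _ = _ := by ring

/-- probability of exceeding `1/2` -/
lemma half_tail {θ r : ℝ} (hr : 0 < r) (u : V) (Ct ct : ℝ) (hCt : 0 < Ct) (hct : 0 < ct)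
    (h : (PP V).real {ω : Om V | r ^ (1 / 4 : ℝ) < |minf G θ r u ω|}
      ≤ Ct * Real.exp (-ct * r ^ (-(1 / 8) : ℝ))) :
    (PP V).real {ω : Om V | 1 / 2 < |minf G θ r u ω|}
      ≤ (Ct + Real.exp (2 * ct)) * Real.exp (-ct * r ^ (-(1 / 8) : ℝ)) := by
  have he := Real.exp_pos (-ct * r ^ (-(1 / 8) : ℝ))
  have he2 := Real.exp_pos (2 * ct)
  by_cases hr16 : r ≤ 1 / 16
  · have h1 : r ^ (1 / 4 : ℝ) ≤ 1 / 2 := by
      have : r ^ (1 / 4 : ℝ) ≤ (1 / 16 : ℝ) ^ (1 / 4 : ℝ) :=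
        Real.rpow_le_rpow hr.le hr16 (by norm_num)
      refine this.trans (le_of_eq ?_)
      rw [show (1 / 16 : ℝ) = (1 / 2) ^ (4 : ℝ) by norm_num, ← Real.rpow_mul (by norm_num)]
      norm_num
    have h2 : (PP V).real {ω : Om V | 1 / 2 < |minf G θ r u ω|}
        ≤ (PP V).real {ω : Om V | r ^ (1 / 4 : ℝ) < |minf G θ r u ω|} :=
      measureReal_mono fun ω hω => lt_of_le_of_lt h1 hω
    nlinarith
  · push Not at hr16
    have h1 : r ^ (-(1 / 8) : ℝ) ≤ 2 := by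
      have : r ^ (-(1 / 8) : ℝ) ≤ (1 / 16 : ℝ) ^ (-(1 / 8) : ℝ) :=
        Real.rpow_le_rpow_of_nonpos (by norm_num) hr16.le (by norm_num)
      refine this.trans ?_
      rw [show (1 / 16 : ℝ) = (2 : ℝ) ^ (-4 : ℝ) by norm_num, ← Real.rpow_mul (by norm_num)]
      have : (2 : ℝ) ^ ((-4 : ℝ) * -(1 / 8)) ≤ 2 ^ (1 : ℝ) :=
        Real.rpow_le_rpow_of_exponent_le (by norm_num) (by norm_num)
      simpa using this
    have h2 : (PP V).real {ω : Om V | 1 / 2 < |minf G θ r u ω|} ≤ 1 := measureReal_le_one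
    have h3 : 1 ≤ Real.exp (2 * ct) * Real.exp (-ct * r ^ (-(1 / 8) : ℝ)) := by
      rw [← Real.exp_add]
      apply Real.one_le_exp
      nlinarith
    nlinarith

end Crest.Agent.R160.GA
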