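import Mathlib
import Crest.Agent.R160.Core
import Crest.Agent.R160.Scalar

/-!
# Row 160: gluing two finite Ising systems along one edge

Systems in field form: `f v = (p_v, q_v)` are the likelihood factors of plus and minus at `v`.
-/

set_option autoImplicit false

open MeasureTheory Finset
open scoped Classical

namespace Crest.Agent.R160

open Crest.Agent.R160.TreeAut

variable {V : Type*} {G : SimpleGraph V} {θ : ℝ}

/-- field weight of a configuration -/
noncomputable def fw (S : Finset V) (f : V → ℝ × ℝ) (A : Finset V) : ℝ :=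
  ∏ v ∈ S, (if v ∈ A then (f v).1 else (f v).2)

/-- unnormalised sum of `F` in field form -/
noncomputable def numf (G : SimpleGraph V) (θ : ℝ) (S : Finset V) (f : V → ℝ × ℝ)
    (F : Finset V → ℝ) : ℝ :=
  ∑ A ∈ S.powerset, F A * (ew G θ S A * fw S f A)

/-- partition function in field form -/
noncomputable def Zf (G : SimpleGraph V) (θ : ℝ) (S : Finset V) (f : V → ℝ × ℝ) : ℝ :=
  numf G θ S f (fun _ => 1)

/-- mean in field form -/
noncomputable def meanf (G : SimpleGraph V) (θ : ℝ) (S : Finset V) (f : V → ℝ × ℝ)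
    (F : Finset V → ℝ) : ℝ := numf G θ S f F / Zf G θ S f

/-- magnetization in field form -/
noncomputable def magf (G : SimpleGraph V) (θ : ℝ) (S : Finset V) (f : V → ℝ × ℝ) (v : V) : ℝ :=
  meanf G θ S f (fun A => sg A v)

/-- covariance in field form -/
noncomputable def covf (G : SimpleGraph V) (θ : ℝ) (S : Finset V) (f : V → ℝ × ℝ) (v w : V) : ℝ :=
  meanf G θ S f (fun A => sg A v * sg A w) - magf G θ S f v * magf G θ S f w

/-! ### Congruence -/

lemma sg_congr {A B : Finset V} {v : V} (h : v ∈ A ↔ v ∈ B) : sg A v = sg B v := by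
  unfold sg; simp only [h]

lemma sg_cases (A : Finset V) (v : V) : sg A v = 1 ∨ sg A v = -1 := by
  unfold sg; split_ifs <;> simp

lemma abs_sg_eq (A : Finset V) (v : V) : |sg A v| = 1 := by
  rcases sg_cases A v with h | h <;> rw [h] <;> simp

lemma sg_mul_self (A : Finset V) (v : V) : sg A v * sg A v = 1 := by
  rcases sg_cases A v with h | h <;> rw [h] <;> norm_num

@[simp] lemma sgE_mk (A : Finset V) (a b : V) : sgE A s(a, b) = sg A a * sg A b := rfl

lemma abs_sgE (A : Finset V) (e : Sym2 V) : |sgE A e| = 1 := by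
  induction e with
  | _ a b => rw [sgE_mk, abs_mul, abs_sg_eq, abs_sg_eq, mul_one]

lemma fw_congr {S A B : Finset V} (f : V → ℝ × ℝ) (h : ∀ v ∈ S, (v ∈ A ↔ v ∈ B)) :
    fw S f A = fw S f B := by
  unfold fw
  apply Finset.prod_congr rfl
  intro v hv
  simp only [h v hv]

lemma ew_congr {S A B : Finset V} (h : ∀ v ∈ S, (v ∈ A ↔ v ∈ B)) :
    ew G θ S A = ew G θ S B := by
  unfold ew
  apply Finset.prod_congr rfl
  intro e he
  induction e with
  | _ a b =>
    rw [Finset.mem_filter, Finset.mk_mem_sym2_iff] at he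
    rw [sgE_mk, sgE_mk, sg_congr (h a he.1.1), sg_congr (h b he.1.2)]

/-! ### Gluing -/

lemma fw_union {S1 S2 : Finset V} (hd : Disjoint S1 S2) (f : V → ℝ × ℝ) (A : Finset V) :
    fw (S1 ∪ S2) f A = fw S1 f A * fw S2 f A := by
  unfold fw
  exact Finset.prod_union hd

lemma ew_union {S1 S2 : Finset V} (hd : Disjoint S1 S2) {x c : V} (hx : x ∈ S1) (hc : c ∈ S2)
    (hxc : G.Adj x c) (honly : ∀ y ∈ S1, ∀ z ∈ S2, G.Adj y z → y = x ∧ z = c) (A : Finset V) :
    ew G θ (S1 ∪ S2) A = ew G θ S1 A * ew G θ S2 A * (1 + θ * (sg A x * sg A c)) := by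
  have hset : (S1 ∪ S2).sym2.filter (· ∈ G.edgeSet)
      = (S1.sym2.filter (· ∈ G.edgeSet) ∪ S2.sym2.filter (· ∈ G.edgeSet)) ∪ {s(x, c)} := by
    ext e
    induction e with
    | _ a b =>
      simp only [Finset.mem_filter, Finset.mk_mem_sym2_iff, Finset.mem_union,
        Finset.mem_singleton, SimpleGraph.mem_edgeSet, Sym2.eq_iff]
      constructor
      · rintro ⟨⟨ha, hb⟩, hab⟩
        rcases ha with ha | ha <;> rcases hb with hb | hb
        · exact Or.inl (Or.inl ⟨⟨ha, hb⟩, hab⟩)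
        · exact Or.inr (Or.inl (honly a ha b hb hab))
        · obtain ⟨h1, h2⟩ := honly b hb a ha hab.symm
          exact Or.inr (Or.inr ⟨h2, h1⟩)
        · exact Or.inl (Or.inr ⟨⟨ha, hb⟩, hab⟩)
      · rintro ((⟨⟨ha, hb⟩, hab⟩ | ⟨⟨ha, hb⟩, hab⟩) | (⟨rfl, rfl⟩ | ⟨rfl, rfl⟩))
        · exact ⟨⟨Or.inl ha, Or.inl hb⟩, hab⟩
        · exact ⟨⟨Or.inr ha, Or.inr hb⟩, hab⟩
        · exact ⟨⟨Or.inl hx, Or.inr hc⟩, hxc⟩
        · exact ⟨⟨Or.inr hc, Or.inl hx⟩, hxc.symm⟩
  unfold ew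
  rw [hset, Finset.prod_union, Finset.prod_union, Finset.prod_singleton, sgE_mk]
  · rw [Finset.disjoint_left]
    intro e h1 h2
    induction e with
    | _ a b =>
      rw [Finset.mem_filter, Finset.mk_mem_sym2_iff] at h1 h2
      exact Finset.disjoint_left.mp hd h1.1.1 h2.1.1
  · rw [Finset.disjoint_singleton_right]
    simp only [Finset.mem_union, Finset.mem_filter, Finset.mk_mem_sym2_iff, not_or, not_and]
    refine ⟨fun h => absurd h.2 ?_, fun h => absurd h.1 ?_⟩
    · exact fun h => Finset.disjoint_left.mp hd h hc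
    · exact fun h => Finset.disjoint_left.mp hd hx h

/-- general gluing: sums over configurations of a disjoint union of two systems which are
connected by the single edge `xc`. -/
theorem numf_glue {S1 S2 : Finset V} (hd : Disjoint S1 S2) {x c : V} (hx : x ∈ S1) (hc : c ∈ S2)
    (hxc : G.Adj x c) (honly : ∀ y ∈ S1, ∀ z ∈ S2, G.Adj y z → y = x ∧ z = c)
    (f : V → ℝ × ℝ) {F1 F2 : Finset V → ℝ} (hF1 : ∀ A, F1 (A ∩ S1) = F1 A)
    (hF2 : ∀ A, F2 (A ∩ S2) = F2 A) :
    numf G θ (S1 ∪ S2) f (fun A => F1 A * F2 A)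
      = numf G θ S1 f F1 * numf G θ S2 f F2
        + θ * (numf G θ S1 f (fun A => F1 A * sg A x)
          * numf G θ S2 f (fun A => F2 A * sg A c)) := by
  unfold numf
  have key : ∑ A ∈ (S1 ∪ S2).powerset, F1 A * F2 A * (ew G θ (S1 ∪ S2) A * fw (S1 ∪ S2) f A)
      = ∑ p ∈ S1.powerset ×ˢ S2.powerset,
        (F1 p.1 * (ew G θ S1 p.1 * fw S1 f p.1) * (F2 p.2 * (ew G θ S2 p.2 * fw S2 f p.2))
          + θ * ((F1 p.1 * sg p.1 x * (ew G θ S1 p.1 * fw S1 f p.1))
            * (F2 p.2 * sg p.2 c * (ew G θ S2 p.2 * fw S2 f p.2)))) := by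
    symm
    apply Finset.sum_nbij' (fun p => p.1 ∪ p.2) (fun A => (A ∩ S1, A ∩ S2))
    · intro p hp
      rw [Finset.mem_product, Finset.mem_powerset, Finset.mem_powerset] at hp
      exact Finset.mem_powerset.mpr (Finset.union_subset_union hp.1 hp.2)
    · intro A _
      rw [Finset.mem_product, Finset.mem_powerset, Finset.mem_powerset]
      exact ⟨Finset.inter_subset_right, Finset.inter_subset_right⟩
    · intro p hp
      rw [Finset.mem_product, Finset.mem_powerset, Finset.mem_powerset] at hp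
      have h1 : (p.1 ∪ p.2) ∩ S1 = p.1 := by
        ext v
        simp only [Finset.mem_inter, Finset.mem_union]
        constructor
        · rintro ⟨h | h, h'⟩
          · exact h
          · exact absurd h' (Finset.disjoint_right.mp hd (hp.2 h))
        · intro h; exact ⟨Or.inl h, hp.1 h⟩
      have h2 : (p.1 ∪ p.2) ∩ S2 = p.2 := by
        ext v
        simp only [Finset.mem_inter, Finset.mem_union]
        constructor
        · rintro ⟨h | h, h'⟩
          · exact absurd h' (Finset.disjoint_left.mp hd (hp.1 h))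
          · exact h
        · intro h; exact ⟨Or.inr h, hp.2 h⟩
      rw [h1, h2]
    · intro A hA
      rw [Finset.mem_powerset] at hA
      rw [← Finset.inter_union_distrib_left]
      exact Finset.inter_eq_left.mpr hA
    · intro p hp
      rw [Finset.mem_product, Finset.mem_powerset, Finset.mem_powerset] at hp
      have m1 : ∀ v ∈ S1, (v ∈ p.1 ∪ p.2 ↔ v ∈ p.1) := by
        intro v hv
        rw [Finset.mem_union]
        exact ⟨fun h => h.resolve_right (fun h' => Finset.disjoint_left.mp hd hv (hp.2 h')),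
          Or.inl⟩
      have m2 : ∀ v ∈ S2, (v ∈ p.1 ∪ p.2 ↔ v ∈ p.2) := by
        intro v hv
        rw [Finset.mem_union]
        exact ⟨fun h => h.resolve_left (fun h' => Finset.disjoint_right.mp hd hv (hp.1 h')),
          Or.inr⟩
      have i1 : (p.1 ∪ p.2) ∩ S1 = p.1 := by
        ext v
        rw [Finset.mem_inter]
        exact ⟨fun h => (m1 v h.2).mp h.1, fun h => ⟨(m1 v (hp.1 h)).mpr h, hp.1 h⟩⟩
      have i2 : (p.1 ∪ p.2) ∩ S2 = p.2 := by
        ext v
        rw [Finset.mem_inter]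
        exact ⟨fun h => (m2 v h.2).mp h.1, fun h => ⟨(m2 v (hp.2 h)).mpr h, hp.2 h⟩⟩
      have e1 : F1 (p.1 ∪ p.2) = F1 p.1 := by rw [← hF1 (p.1 ∪ p.2), i1]
      have e2 : F2 (p.1 ∪ p.2) = F2 p.2 := by rw [← hF2 (p.1 ∪ p.2), i2]
      rw [e1, e2, ew_union hd hx hc hxc honly, fw_union hd, fw_congr f m1, fw_congr f m2,
        ew_congr m1, ew_congr m2, sg_congr (m1 x hx), sg_congr (m2 c hc)]
      ring
  rw [key, Finset.sum_add_distrib, ← Finset.mul_sum, Finset.sum_product, Finset.sum_product]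
  congr 1
  · rw [Finset.sum_mul_sum]
  · rw [Finset.sum_mul_sum]

/-! ### Positivity and bounds -/

lemma fw_pos {S : Finset V} {f : V → ℝ × ℝ} (hf : ∀ v ∈ S, 0 < (f v).1 ∧ 0 < (f v).2)
    (A : Finset V) : 0 < fw S f A := by
  unfold fw
  apply Finset.prod_pos
  intro v hv
  split_ifs
  · exact (hf v hv).1
  · exact (hf v hv).2

lemma ew_pos' (h0 : 0 ≤ θ) (h1 : θ < 1) (S A : Finset V) : 0 < ew G θ S A := by
  unfold ew
  apply Finset.prod_pos
  intro e _
  have h := abs_sgE A e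
  have h2 : -1 ≤ sgE A e := (abs_le.mp h.le).1
  nlinarith

lemma Zf_pos {S : Finset V} {f : V → ℝ × ℝ} (h0 : 0 ≤ θ) (h1 : θ < 1)
    (hf : ∀ v ∈ S, 0 < (f v).1 ∧ 0 < (f v).2) : 0 < Zf G θ S f := by
  unfold Zf numf
  apply Finset.sum_pos
  · intro A _
    rw [one_mul]
    exact mul_pos (ew_pos' h0 h1 S A) (fw_pos hf A)
  · exact ⟨∅, Finset.empty_mem_powerset S⟩




lemma fw_congr_field {S : Finset V} {f f' : V → ℝ × ℝ} (h : ∀ v ∈ S, f v = f' v)
    (A : Finset V) : fw S f A = fw S f' A := by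
  unfold fw
  exact Finset.prod_congr rfl fun v hv => by rw [h v hv]

lemma numf_congr_field {S : Finset V} {f f' : V → ℝ × ℝ} (h : ∀ v ∈ S, f v = f' v)
    (F : Finset V → ℝ) : numf G θ S f F = numf G θ S f' F := by
  unfold numf
  exact Finset.sum_congr rfl fun A _ => by rw [fw_congr_field h A]

lemma Zf_congr_field {S : Finset V} {f f' : V → ℝ × ℝ} (h : ∀ v ∈ S, f v = f' v) :
    Zf G θ S f = Zf G θ S f' := numf_congr_field h _



lemma abs_numf_le {S : Finset V} {f : V → ℝ × ℝ} (h0 : 0 ≤ θ) (h1 : θ < 1)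
    (hf : ∀ v ∈ S, 0 < (f v).1 ∧ 0 < (f v).2) {F : Finset V → ℝ} {C : ℝ}
    (hF : ∀ A ⊆ S, |F A| ≤ C) : |numf G θ S f F| ≤ C * Zf G θ S f := by
  unfold Zf numf
  rw [Finset.mul_sum]
  refine (Finset.abs_sum_le_sum_abs _ _).trans (Finset.sum_le_sum fun A hA => ?_)
  have hw : 0 < ew G θ S A * fw S f A := mul_pos (ew_pos' h0 h1 S A) (fw_pos hf A)
  rw [abs_mul, abs_of_pos hw, one_mul]
  exact mul_le_mul_of_nonneg_right (hF A (Finset.mem_powerset.mp hA)) hw.le

lemma abs_meanf_le {S : Finset V} {f : V → ℝ × ℝ} (h0 : 0 ≤ θ) (h1 : θ < 1)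
    (hf : ∀ v ∈ S, 0 < (f v).1 ∧ 0 < (f v).2) {F : Finset V → ℝ} {C : ℝ}
    (hF : ∀ A ⊆ S, |F A| ≤ C) : |meanf G θ S f F| ≤ C := by
  have hZ : 0 < Zf G θ S f := Zf_pos h0 h1 hf
  unfold meanf
  rw [abs_div, abs_of_pos hZ, div_le_iff₀ hZ]
  exact abs_numf_le h0 h1 hf hF

lemma abs_magf_le {S : Finset V} {f : V → ℝ × ℝ} (h0 : 0 ≤ θ) (h1 : θ < 1)
    (hf : ∀ v ∈ S, 0 < (f v).1 ∧ 0 < (f v).2) (v : V) : |magf G θ S f v| ≤ 1 :=
  abs_meanf_le h0 h1 hf fun A _ => (abs_sg_eq A v).le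


/-! ### Consequences of gluing -/

section glue

variable {S1 S2 : Finset V} {x c : V} {f : V → ℝ × ℝ}

/-- partition function of the glued system: product times `1 + θ e1 e2`. -/
theorem Zf_glue (h0 : 0 ≤ θ) (h1 : θ < 1) (hd : Disjoint S1 S2) (hx : x ∈ S1) (hc : c ∈ S2)
    (hxc : G.Adj x c) (honly : ∀ y ∈ S1, ∀ z ∈ S2, G.Adj y z → y = x ∧ z = c)
    (hf : ∀ v ∈ S1 ∪ S2, 0 < (f v).1 ∧ 0 < (f v).2) :
    Zf G θ (S1 ∪ S2) f = Zf G θ S1 f * Zf G θ S2 f
      * (1 + θ * magf G θ S1 f x * magf G θ S2 f c) := by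
  have hZ1 : 0 < Zf G θ S1 f := Zf_pos h0 h1 fun v hv => hf v (Finset.mem_union_left _ hv)
  have hZ2 : 0 < Zf G θ S2 f := Zf_pos h0 h1 fun v hv => hf v (Finset.mem_union_right _ hv)
  have h := numf_glue (θ := θ) hd hx hc hxc honly f (F1 := fun _ => 1) (F2 := fun _ => 1)
    (fun _ => rfl) (fun _ => rfl)
  simp only [mul_one, one_mul] at h
  have e1 : numf G θ S1 f (fun A => sg A x) = magf G θ S1 f x * Zf G θ S1 f := by
    unfold magf meanf; rw [div_mul_cancel₀ _ hZ1.ne']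
  have e2 : numf G θ S2 f (fun A => sg A c) = magf G θ S2 f c * Zf G θ S2 f := by
    unfold magf meanf; rw [div_mul_cancel₀ _ hZ2.ne']
  rw [e1, e2] at h
  change Zf G θ (S1 ∪ S2) f = Zf G θ S1 f * Zf G θ S2 f + _ at h
  rw [h]; ring

/-- means in the glued system. -/
theorem meanf_glue (h0 : 0 ≤ θ) (h1 : θ < 1) (hd : Disjoint S1 S2) (hx : x ∈ S1) (hc : c ∈ S2)
    (hxc : G.Adj x c) (honly : ∀ y ∈ S1, ∀ z ∈ S2, G.Adj y z → y = x ∧ z = c)
    (hf : ∀ v ∈ S1 ∪ S2, 0 < (f v).1 ∧ 0 < (f v).2) {F1 F2 : Finset V → ℝ}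
    (hF1 : ∀ A, F1 (A ∩ S1) = F1 A) (hF2 : ∀ A, F2 (A ∩ S2) = F2 A) :
    meanf G θ (S1 ∪ S2) f (fun A => F1 A * F2 A)
      = (meanf G θ S1 f F1 * meanf G θ S2 f F2
        + θ * (meanf G θ S1 f (fun A => F1 A * sg A x)
          * meanf G θ S2 f (fun A => F2 A * sg A c)))
        / (1 + θ * magf G θ S1 f x * magf G θ S2 f c) := by
  have hf1 : ∀ v ∈ S1, 0 < (f v).1 ∧ 0 < (f v).2 := fun v hv => hf v (Finset.mem_union_left _ hv)
  have hf2 : ∀ v ∈ S2, 0 < (f v).1 ∧ 0 < (f v).2 := fun v hv => hf v (Finset.mem_union_right _ hv)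
  have hZ1 : 0 < Zf G θ S1 f := Zf_pos h0 h1 hf1
  have hZ2 : 0 < Zf G θ S2 f := Zf_pos h0 h1 hf2
  have hD := cav_den_pos h0 h1 (abs_magf_le (G := G) h0 h1 hf1 x) (abs_magf_le (G := G) h0 h1 hf2 c)
  have h := numf_glue (θ := θ) hd hx hc hxc honly f hF1 hF2
  have hZ := Zf_glue h0 h1 hd hx hc hxc honly hf
  unfold meanf
  rw [h, hZ]
  field_simp

/-- magnetization at the left end of the connecting edge. -/
theorem magf_glue_left (h0 : 0 ≤ θ) (h1 : θ < 1) (hd : Disjoint S1 S2) (hx : x ∈ S1)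
    (hc : c ∈ S2) (hxc : G.Adj x c) (honly : ∀ y ∈ S1, ∀ z ∈ S2, G.Adj y z → y = x ∧ z = c)
    (hf : ∀ v ∈ S1 ∪ S2, 0 < (f v).1 ∧ 0 < (f v).2) :
    magf G θ (S1 ∪ S2) f x = mg θ (magf G θ S1 f x) (magf G θ S2 f c) := by
  have hf1 : ∀ v ∈ S1, 0 < (f v).1 ∧ 0 < (f v).2 := fun v hv => hf v (Finset.mem_union_left _ hv)
  have hf2 : ∀ v ∈ S2, 0 < (f v).1 ∧ 0 < (f v).2 := fun v hv => hf v (Finset.mem_union_right _ hv)
  have hZ1 : 0 < Zf G θ S1 f := Zf_pos h0 h1 hf1
  have hZ2 : 0 < Zf G θ S2 f := Zf_pos h0 h1 hf2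
  have h := meanf_glue h0 h1 hd hx hc hxc honly hf (F1 := fun A => sg A x) (F2 := fun _ => 1)
    (fun A => sg_congr (by simp [hx])) (fun _ => rfl)
  have e1 : meanf G θ S1 f (fun A => sg A x * sg A x) = 1 := by
    have : (fun A : Finset V => sg A x * sg A x) = fun _ => 1 := by
      funext A; exact sg_mul_self A x
    rw [this]; exact div_self hZ1.ne'
  have e2 : meanf G θ S2 f (fun _ => 1) = 1 := div_self hZ2.ne'
  simp only [mul_one, one_mul, e1, e2] at h
  exact h

/-- magnetization at the right end of the connecting edge. -/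
theorem magf_glue_right (h0 : 0 ≤ θ) (h1 : θ < 1) (hd : Disjoint S1 S2) (hx : x ∈ S1)
    (hc : c ∈ S2) (hxc : G.Adj x c) (honly : ∀ y ∈ S1, ∀ z ∈ S2, G.Adj y z → y = x ∧ z = c)
    (hf : ∀ v ∈ S1 ∪ S2, 0 < (f v).1 ∧ 0 < (f v).2) :
    magf G θ (S1 ∪ S2) f c = mg θ (magf G θ S2 f c) (magf G θ S1 f x) := by
  rw [Finset.union_comm]
  exact magf_glue_left h0 h1 hd.symm hc hx hxc.symm
    (fun y hy z hz h => (honly z hz y hy h.symm).symm) (by rwa [Finset.union_comm])

end glue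

/-! ### Splitting a system at an edge of a tree -/

/-- crossing edge lemma. -/
lemma crossing_edge (hT : G.IsTree) {x c v w : V} (hxc : G.Adj x c) (hvw : G.Adj v w)
    (hv : G.dist v x < G.dist v c) (hw : G.dist w c < G.dist w x) : v = x ∧ w = c := by
  have key : ∀ {x c v w : V}, G.Adj x c → G.Adj v w → G.dist v x < G.dist v c →
      G.dist w c < G.dist w x → v = x := by
    intro x c v w hxc hvw hv hw
    by_contra hne
    -- distances from `c`
    have a1 := hT.dist_eq_dist_add_one_of_adj c hvw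
    have a2 := hT.dist_eq_dist_add_one_of_adj x hvw
    have a3 := hT.dist_eq_dist_add_one_of_adj v hxc
    have a4 := hT.dist_eq_dist_add_one_of_adj w hxc
    have c1 := SimpleGraph.dist_comm (G := G) (u := c) (v := v)
    have c2 := SimpleGraph.dist_comm (G := G) (u := c) (v := w)
    have c3 := SimpleGraph.dist_comm (G := G) (u := x) (v := v)
    have c4 := SimpleGraph.dist_comm (G := G) (u := x) (v := w)
    have h1 : G.dist v c = G.dist v x + 1 := by omega
    have h2 : G.dist w x = G.dist w c + 1 := by omega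
    have h3 : G.dist x w = G.dist x v + 1 := by omega
    have h4 : G.dist c v = G.dist c w + 1 := by omega
    -- the parent of `v` towards `x` is also closer to `c`
    obtain ⟨p, hp, hp'⟩ := exists_closer hT (r := x) (v := v) hne
    have h5 : G.dist c p ≤ G.dist c x + G.dist x p := hT.connected.dist_triangle
    have h6 : G.dist c x = 1 := SimpleGraph.dist_eq_one_iff_adj.mpr hxc.symm
    have a5 := hT.dist_eq_dist_add_one_of_adj c hp
    have h7 : G.dist c p + 1 = G.dist c v := by omega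
    have h8 := unique_closer hT hp hvw h7 h4.symm
    rw [h8] at hp'
    omega
  exact ⟨key hxc hvw hv hw, key hxc.symm hvw.symm hw hv⟩


/-- the part of `S` on the side of `x` of the edge `xc` -/
noncomputable def side (G : SimpleGraph V) (S : Finset V) (x c : V) : Finset V :=
  S.filter fun y => G.dist y x < G.dist y c

lemma mem_side {S : Finset V} {x c y : V} :
    y ∈ side G S x c ↔ y ∈ S ∧ G.dist y x < G.dist y c := by
  unfold side; rw [Finset.mem_filter]

lemma side_subset (S : Finset V) (x c : V) : side G S x c ⊆ S := Finset.filter_subset _ _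

lemma side_union (hT : G.IsTree) (S : Finset V) {x c : V} (hxc : G.Adj x c) :
    side G S x c ∪ side G S c x = S := by
  ext y
  rw [Finset.mem_union, mem_side, mem_side]
  constructor
  · rintro (h | h) <;> exact h.1
  · intro h
    rcases hT.dist_eq_dist_add_one_of_adj y hxc with h1 | h1
    · exact Or.inr ⟨h, by omega⟩
    · exact Or.inl ⟨h, by omega⟩

lemma side_disjoint (S : Finset V) (x c : V) : Disjoint (side G S x c) (side G S c x) := by
  rw [Finset.disjoint_left]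
  intro y h1 h2
  rw [mem_side] at h1 h2
  omega

lemma side_only (hT : G.IsTree) (S : Finset V) {x c : V} (hxc : G.Adj x c) :
    ∀ y ∈ side G S x c, ∀ z ∈ side G S c x, G.Adj y z → y = x ∧ z = c := by
  intro y hy z hz hyz
  exact crossing_edge hT hxc hyz (mem_side.mp hy).2 (mem_side.mp hz).2

lemma left_mem_side {S : Finset V} {x c : V} (hx : x ∈ S) (hxc : G.Adj x c) :
    x ∈ side G S x c := by
  rw [mem_side, SimpleGraph.dist_self]
  refine ⟨hx, ?_⟩
  rw [SimpleGraph.dist_eq_one_iff_adj.mpr hxc]; norm_num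

/-! ### Observation form -/

/-- the field generated by the observations `o` on the events `E` -/
noncomputable def fld (E : Finset (Ev V)) (o : Ev V → ℝ) (v : V) : ℝ × ℝ :=
  (∏ e ∈ E.filter (fun e => e.1 = v), (1 + o e), ∏ e ∈ E.filter (fun e => e.1 = v), (1 - o e))

lemma ow_eq_fw {S : Finset V} {E : Finset (Ev V)} (hE : ∀ e ∈ E, e.1 ∈ S) (o : Ev V → ℝ)
    (A : Finset V) : ow E o A = fw S (fld E o) A := by
  unfold ow fw
  rw [← Finset.prod_fiberwise_of_maps_to hE]
  apply Finset.prod_congr rfl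
  intro v _
  split_ifs with h
  · unfold fld
    apply Finset.prod_congr rfl
    intro e he
    rw [(Finset.mem_filter.mp he).2, sg, if_pos h, one_mul]
  · unfold fld
    apply Finset.prod_congr rfl
    intro e he
    rw [(Finset.mem_filter.mp he).2, sg, if_neg h]
    ring

lemma num_eq_numf {S : Finset V} {E : Finset (Ev V)} (hE : ∀ e ∈ E, e.1 ∈ S) (o : Ev V → ℝ)
    (F : Finset V → ℝ) : num G θ S E o F = numf G θ S (fld E o) F := by
  unfold num numf
  exact Finset.sum_congr rfl fun A _ => by rw [ow_eq_fw hE]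

lemma ZZ_eq_Zf {S : Finset V} {E : Finset (Ev V)} (hE : ∀ e ∈ E, e.1 ∈ S) (o : Ev V → ℝ) :
    ZZ G θ S E o = Zf G θ S (fld E o) := num_eq_numf hE o _

lemma mean_eq_meanf {S : Finset V} {E : Finset (Ev V)} (hE : ∀ e ∈ E, e.1 ∈ S) (o : Ev V → ℝ)
    (F : Finset V → ℝ) : mean G θ S E o F = meanf G θ S (fld E o) F := by
  unfold mean meanf
  rw [num_eq_numf hE, ZZ_eq_Zf hE]

lemma mm_eq_magf {S : Finset V} {E : Finset (Ev V)} (hE : ∀ e ∈ E, e.1 ∈ S) (o : Ev V → ℝ)
    (v : V) : mm G θ S E o v = magf G θ S (fld E o) v := mean_eq_meanf hE o _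

lemma cov_eq_covf {S : Finset V} {E : Finset (Ev V)} (hE : ∀ e ∈ E, e.1 ∈ S) (o : Ev V → ℝ)
    (v w : V) : cov G θ S E o v w = covf G θ S (fld E o) v w := by
  unfold cov covf
  rw [mean_eq_meanf hE, mm_eq_magf hE, mm_eq_magf hE]

lemma fld_pos {E : Finset (Ev V)} {o : Ev V → ℝ} (ho : ∀ e ∈ E, |o e| < 1) (v : V) :
    0 < (fld E o v).1 ∧ 0 < (fld E o v).2 := by
  unfold fld
  constructor
  · apply Finset.prod_pos
    intro e he
    have := abs_lt.mp (ho e (Finset.mem_filter.mp he).1)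
    linarith [this.1]
  · apply Finset.prod_pos
    intro e he
    have := abs_lt.mp (ho e (Finset.mem_filter.mp he).1)
    linarith [this.2]

end Crest.Agent.R160
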