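import Mathlib
import Crest.Agent.R160.Glue
import Crest.Agent.R160.Scalar2

/-!
# Row 160: the product formula

`Cov(σ_v, σ_w) = (1 - m_v²) θ^{d(v,w)} ∏ ρ` along the path from `v` to `w`.
-/

set_option autoImplicit false

open MeasureTheory Finset
open scoped Classical

namespace Crest.Agent.R160

open Crest.Agent.R160.TreeAut

variable {V : Type*} {G : SimpleGraph V} {θ : ℝ}

lemma meanf_one {S : Finset V} {f : V → ℝ × ℝ} (h0 : 0 ≤ θ) (h1 : θ < 1)
    (hf : ∀ v ∈ S, 0 < (f v).1 ∧ 0 < (f v).2) : meanf G θ S f (fun _ => 1) = 1 :=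
  div_self (Zf_pos h0 h1 hf).ne'

lemma covf_self {S : Finset V} {f : V → ℝ × ℝ} (h0 : 0 ≤ θ) (h1 : θ < 1)
    (hf : ∀ v ∈ S, 0 < (f v).1 ∧ 0 < (f v).2) (v : V) :
    covf G θ S f v v = 1 - magf G θ S f v ^ 2 := by
  unfold covf
  have : (fun A : Finset V => sg A v * sg A v) = fun _ => 1 := by
    funext A; exact sg_mul_self A v
  rw [this, meanf_one h0 h1 hf]; ring


/-- magnetizations at the two ends of an edge `xc` inside `S` in terms of the cavity biases
(`magf` of the two sides), and the slope over the edge. -/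
theorem mag_edge (hT : G.IsTree) (h0 : 0 ≤ θ) (h1 : θ < 1) {S : Finset V} {f : V → ℝ × ℝ}
    (hf : ∀ v ∈ S, 0 < (f v).1 ∧ 0 < (f v).2) {x c : V} (hx : x ∈ S) (hc : c ∈ S)
    (hxc : G.Adj x c) :
    magf G θ S f x = mg θ (magf G θ (side G S x c) f x) (magf G θ (side G S c x) f c) ∧
    magf G θ S f c = mg θ (magf G θ (side G S c x) f c) (magf G θ (side G S x c) f x) ∧
    rho θ (magf G θ S f x) (magf G θ S f c)
      = (1 - magf G θ (side G S c x) f c ^ 2)
        / (1 - θ ^ 2 * magf G θ (side G S c x) f c ^ 2) := by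
  have hU := side_union hT S hxc
  have hd := side_disjoint (G := G) S x c
  have honly := side_only hT S hxc
  have hxs := left_mem_side (G := G) hx hxc
  have hcs := left_mem_side (G := G) hc hxc.symm
  have hfU : ∀ v ∈ side G S x c ∪ side G S c x, 0 < (f v).1 ∧ 0 < (f v).2 := by rwa [hU]
  have hf1 : ∀ v ∈ side G S x c, 0 < (f v).1 ∧ 0 < (f v).2 :=
    fun v hv => hf v (side_subset S x c hv)
  have hf2 : ∀ v ∈ side G S c x, 0 < (f v).1 ∧ 0 < (f v).2 :=
    fun v hv => hf v (side_subset S c x hv)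
  have b1 := abs_magf_le (G := G) h0 h1 hf1 x
  have b2 := abs_magf_le (G := G) h0 h1 hf2 c
  have hmx := magf_glue_left h0 h1 hd hxs hcs hxc honly hfU
  have hmc := magf_glue_right h0 h1 hd hxs hcs hxc honly hfU
  rw [hU] at hmx hmc
  refine ⟨hmx, hmc, ?_⟩
  rw [hmx, hmc, rho_mg h0 h1 b1 b2]

/-- one step of the product formula: `x` is between `v` and its neighbour `c`. -/
theorem covf_step (hT : G.IsTree) (h0 : 0 ≤ θ) (h1 : θ < 1) {S : Finset V} {f : V → ℝ × ℝ}
    (hf : ∀ v ∈ S, 0 < (f v).1 ∧ 0 < (f v).2) {x c v : V} (hx : x ∈ S) (hc : c ∈ S)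
    (hxc : G.Adj x c) (hv : v ∈ S) (hvs : G.dist v x < G.dist v c) :
    covf G θ S f v c
      = covf G θ S f v x * (θ * rho θ (magf G θ S f x) (magf G θ S f c)) := by
  have hU := side_union hT S hxc
  have hd := side_disjoint (G := G) S x c
  have honly := side_only hT S hxc
  have hxs := left_mem_side (G := G) hx hxc
  have hcs := left_mem_side (G := G) hc hxc.symm
  have hvS : v ∈ side G S x c := mem_side.mpr ⟨hv, hvs⟩
  have hfU : ∀ v ∈ side G S x c ∪ side G S c x, 0 < (f v).1 ∧ 0 < (f v).2 := by rwa [hU]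
  have hf1 : ∀ v ∈ side G S x c, 0 < (f v).1 ∧ 0 < (f v).2 :=
    fun v hv => hf v (side_subset S x c hv)
  have hf2 : ∀ v ∈ side G S c x, 0 < (f v).1 ∧ 0 < (f v).2 :=
    fun v hv => hf v (side_subset S c x hv)
  have b1 := abs_magf_le (G := G) h0 h1 hf1 x
  have b2 := abs_magf_le (G := G) h0 h1 hf2 c
  have hD := cav_den_pos h0 h1 b1 b2
  have hmx := magf_glue_left h0 h1 hd hxs hcs hxc honly hfU
  have hmc := magf_glue_right h0 h1 hd hxs hcs hxc honly hfU
  have sgI : ∀ {S' : Finset V} {u : V}, u ∈ S' → ∀ A : Finset V, sg (A ∩ S') u = sg A u :=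
    fun hu A => sg_congr (by simp [hu])
  -- the four means
  have m1 := meanf_glue h0 h1 hd hxs hcs hxc honly hfU (F1 := fun A => sg A v)
    (F2 := fun A => sg A c) (sgI hvS) (sgI hcs)
  have m2 := meanf_glue h0 h1 hd hxs hcs hxc honly hfU (F1 := fun A => sg A v * sg A x)
    (F2 := fun _ => 1) (fun A => by rw [sgI hvS, sgI hxs]) (fun _ => rfl)
  have m3 := meanf_glue h0 h1 hd hxs hcs hxc honly hfU (F1 := fun A => sg A v)
    (F2 := fun _ => 1) (sgI hvS) (fun _ => rfl)
  have e1 : (fun A : Finset V => sg A c * sg A c) = fun _ => 1 := by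
    funext A; exact sg_mul_self A c
  have e2 : (fun A : Finset V => sg A v * sg A x * sg A x) = fun A => sg A v := by
    funext A; rw [mul_assoc, sg_mul_self, mul_one]
  have e3 : meanf G θ (side G S x c) f (fun _ => 1) = 1 := meanf_one h0 h1 hf1
  have e4 : meanf G θ (side G S c x) f (fun _ => 1) = 1 := meanf_one h0 h1 hf2
  simp only [mul_one, one_mul, e1, e2, e4] at m1 m2 m3
  have hr : rho θ (magf G θ (side G S x c ∪ side G S c x) f x)
      (magf G θ (side G S x c ∪ side G S c x) f c)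
      = (1 - magf G θ (side G S c x) f c ^ 2)
        / (1 - θ ^ 2 * magf G θ (side G S c x) f c ^ 2) := by
    rw [hmx, hmc, rho_mg h0 h1 b1 b2]
  have hden := theta_sq_mul_le h0 h1 b2
  rw [hU] at m1 m2 m3 hmx hmc hr
  have hcv : covf G θ S f v c = meanf G θ S f (fun A => sg A v * sg A c)
    - meanf G θ S f (fun A => sg A v) * magf G θ S f c := rfl
  have hcx : covf G θ S f v x = meanf G θ S f (fun A => sg A v * sg A x)
    - meanf G θ S f (fun A => sg A v) * magf G θ S f x := rfl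
  rw [hr, hcv, hcx, m1, m2, m3, hmc, hmx]
  change _ = _ at m1
  have hM2 : meanf G θ (side G S c x) f (fun A => sg A c) = magf G θ (side G S c x) f c := rfl
  rw [hM2]
  set p := magf G θ (side G S x c) f x
  set q := magf G θ (side G S c x) f c
  set u := meanf G θ (side G S x c) f (fun A => sg A v)
  set w := meanf G θ (side G S x c) f (fun A => sg A v * sg A x)
  unfold mg
  have hcomm : 1 + θ * q * p = 1 + θ * p * q := by ring
  rw [hcomm]
  have hD' := hD.ne'
  have hden' := hden.ne'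
  rw [div_mul_div_comm, div_mul_div_comm, div_sub_div _ _ hD' (mul_ne_zero hD' hD'),
    div_sub_div _ _ hD' (mul_ne_zero hD' hD'), mul_div_assoc', div_mul_div_comm,
    div_eq_div_iff (by positivity) (by positivity)]
  ring

/-- **Product formula** in field form. -/
theorem covf_eq_rprodN (hT : G.IsTree) (h0 : 0 ≤ θ) (h1 : θ < 1) {S : Finset V}
    {f : V → ℝ × ℝ} (hf : ∀ v ∈ S, 0 < (f v).1 ∧ 0 < (f v).2)
    (hS : ∀ x ∈ S, ∀ y ∈ S, x ≠ y → par G x y ∈ S) {v : V} (hv : v ∈ S) (n : ℕ) :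
    ∀ w ∈ S, G.dist v w = n → covf G θ S f v w
      = (1 - magf G θ S f v ^ 2) * θ ^ n * rprodN G θ (magf G θ S f) v n w := by
  induction n with
  | zero =>
    intro w _ hd
    have hvw : v = w := hT.connected.dist_eq_zero_iff.mp hd
    subst hvw
    rw [covf_self h0 h1 hf]
    simp [rprodN]
  | succ n ih =>
    intro w hw hd
    have hne : w ≠ v := by
      rintro rfl
      rw [SimpleGraph.dist_self] at hd; omega
    have hadj := par_adj hT hne
    have hdist := par_dist hT hne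
    have hpar : par G v w ∈ S := hS v hv w hw (Ne.symm hne)
    have hstep := covf_step hT h0 h1 hf hpar hw hadj.symm hv (by omega)
    rw [hstep, ih (par G v w) hpar (by omega)]
    simp only [rprodN]
    ring

theorem covf_eq_MM (hT : G.IsTree) (h0 : 0 ≤ θ) (h1 : θ < 1) {S : Finset V}
    {f : V → ℝ × ℝ} (hf : ∀ v ∈ S, 0 < (f v).1 ∧ 0 < (f v).2)
    (hS : ∀ x ∈ S, ∀ y ∈ S, x ≠ y → par G x y ∈ S) {v w : V} (hv : v ∈ S) (hw : w ∈ S) :
    covf G θ S f v w = MM G θ (magf G θ S f) v w := by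
  unfold MM rprod
  exact covf_eq_rprodN hT h0 h1 hf hS hv _ w hw rfl

/-- **Product formula** (`S` geodesically convex, `|o e| < 1`). -/
theorem cov_eq_MM (hT : G.IsTree) {θ : ℝ} (h0 : 0 ≤ θ) (h1 : θ < 1) {S : Finset V}
    (hS : ∀ x ∈ S, ∀ y ∈ S, x ≠ y → par G x y ∈ S) {E : Finset (Ev V)} (hE : ∀ e ∈ E, e.1 ∈ S)
    {o : Ev V → ℝ} (ho : ∀ e ∈ E, |o e| < 1) {v w : V} (hv : v ∈ S) (hw : w ∈ S) :
    cov G θ S E o v w = MM G θ (mm G θ S E o) v w := by
  rw [cov_eq_covf hE]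
  have hm : mm G θ S E o = magf G θ S (fld E o) := by
    funext u; exact mm_eq_magf hE o u
  rw [hm]
  exact covf_eq_MM hT h0 h1 (fun v _ => fld_pos ho v) hS hv hw

/-! ### Bounds for products of slopes -/

lemma rprodN_nonneg (h0 : 0 ≤ θ) (h1 : θ < 1) {m : V → ℝ} (hm : ∀ v, |m v| ≤ 1) (r : V)
    (n : ℕ) (v : V) : 0 ≤ rprodN G θ m r n v := by
  induction n generalizing v with
  | zero => simp [rprodN]
  | succ n ih =>
    simp only [rprodN]
    exact mul_nonneg (ih _) (rho_nonneg h0 h1 (hm _) (hm _))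

lemma rprodN_le_one (h0 : 0 ≤ θ) (h2 : θ ^ 2 ≤ 1 / 2) {m : V → ℝ} (hm : ∀ v, |m v| ≤ 1) (r : V)
    (n : ℕ) (v : V) : rprodN G θ m r n v ≤ 1 := by
  induction n generalizing v with
  | zero => simp [rprodN]
  | succ n ih =>
    simp only [rprodN]
    exact mul_le_one₀ (ih _) (rho_nonneg h0 (theta_lt_one h0 h2) (hm _) (hm _))
      (rho_le_one h0 h2 (hm _) (hm _))

lemma rprod_nonneg (h0 : 0 ≤ θ) (h1 : θ < 1) {m : V → ℝ} (hm : ∀ v, |m v| ≤ 1) (r v : V) :
    0 ≤ rprod G θ m r v := rprodN_nonneg h0 h1 hm r _ v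

lemma rprod_le_one (h0 : 0 ≤ θ) (h2 : θ ^ 2 ≤ 1 / 2) {m : V → ℝ} (hm : ∀ v, |m v| ≤ 1)
    (r v : V) : rprod G θ m r v ≤ 1 := rprodN_le_one h0 h2 hm r _ v



end Crest.Agent.R160
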