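import Mathlib
import Crest.Agent.R160.Causal
import Crest.Agent.R160.Defs
import Crest.Agent.R160.Convex
import Crest.Agent.R160.Equiv
import Crest.Agent.R160.Product
import Crest.Agent.R160.MinfBasic
import Crest.Agent.R160.Scalar
import Crest.Agent.R160.FinalAbs

-- ▼ part R160/Diff
section

/-! Row 160: increments of the posterior along the process: telescoping and orthogonality. -/

set_option autoImplicit false
set_option linter.unusedSectionVars false

open MeasureTheory Finset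
open scoped Classical

namespace Crest.Agent.R160

variable {V : Type*} (G : SimpleGraph V) {θ : ℝ} (S : Finset V)

/-! ### general measure theory -/

lemma intg_of_bdd {α : Type*} [MeasurableSpace α] {μ : Measure α} [IsFiniteMeasure μ]
    {f : α → ℝ} (hf : Measurable f) {C : ℝ} (hC : ∀ a, |f a| ≤ C) : Integrable f μ :=
  Integrable.of_bound hf.aestronglyMeasurable C (Filter.Eventually.of_forall fun a => by
    rw [Real.norm_eq_abs]; exact hC a)

/-! ### ties -/

/-- no two events of `E` at the same time -/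
def NoTies (E : Finset (Ev V)) (ω : Om V) : Prop :=
  ∀ e ∈ E, ∀ e' ∈ E, e ≠ e' → tm ω e ≠ tm ω e'

lemma null_tie {e e' : Ev V} (h : e ≠ e') : (PP V) {ω | tm ω e = tm ω e'} = 0 := by
  have hm : MeasurableSet {ω : Om V | tm ω e = tm ω e'} :=
    measurableSet_eq_fun (measurable_tm e) (measurable_tm e')
  have hmp := mp_update (V := V) e
  rw [← hmp.measure_preimage hm.nullMeasurableSet]
  rw [Measure.measure_prod_null (hmp.measurable hm)]
  refine Filter.Eventually.of_forall fun ω => ?_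
  have hsub : (Prod.mk ω ⁻¹' ((fun p : Om V × (unitInterval × unitInterval) =>
      Function.update p.1 e p.2) ⁻¹' {ω | tm ω e = tm ω e'}))
      ⊆ {u : unitInterval | (u : ℝ) = tm ω e' - e.2} ×ˢ (Set.univ : Set unitInterval) := by
    intro p hp
    simp only [Set.mem_preimage, Set.mem_ofPred_eq] at hp
    unfold tm clk at hp
    rw [Function.update_self, Function.update_of_ne h.symm] at hp
    refine ⟨?_, trivial⟩
    show ((p.1 : unitInterval) : ℝ) = tm ω e' - e.2
    unfold tm clk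
    linarith
  have h0 : (volume : Measure unitInterval) {u : unitInterval | (u : ℝ) = tm ω e' - e.2} = 0 := by
    have hss : {u : unitInterval | (u : ℝ) = tm ω e' - e.2}.Subsingleton := by
      intro a ha b hb
      exact Subtype.ext (ha.trans hb.symm)
    exact hss.measure_zero _
  refine measure_mono_null hsub ?_
  rw [Measure.volume_eq_prod, Measure.prod_prod, h0, zero_mul]

lemma ae_noTies (E : Finset (Ev V)) : ∀ᵐ ω ∂(PP V), NoTies E ω := by
  unfold NoTies
  rw [Filter.eventually_all_finset]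
  intro e _
  rw [Filter.eventually_all_finset]
  intro e' _
  by_cases h : e = e'
  · exact Filter.Eventually.of_forall fun ω hc => absurd h hc
  · have := null_tie h
    rw [← compl_compl {ω : Om V | tm ω e = tm ω e'}, ← mem_ae_iff] at this
    filter_upwards [this] with ω hω _
    exact hω

/-! ### jumps -/

/-- relative jump -/
noncomputable def rj (G : SimpleGraph V) (θ : ℝ) (S : Finset V) (E : Finset (Ev V)) (ω : Om V)
    (e : Ev V) : ℝ :=
  obs G θ S E ω e / (1 + mt G θ S E ω (tm ω e) e.1 * obs G θ S E ω e)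

/-- jump of the posterior mean of `f` at the event `e` -/
noncomputable def jp (G : SimpleGraph V) (θ : ℝ) (S : Finset V) (E : Finset (Ev V)) (ω : Om V)
    (e : Ev V) (f : Finset V → ℝ) : ℝ :=
  (mnt G θ S E ω (tm ω e) (fun A => f A * sg A e.1)
    - mnt G θ S E ω (tm ω e) f * mt G θ S E ω (tm ω e) e.1) * rj G θ S E ω e

lemma one_add_pos {m o : ℝ} (hm : |m| ≤ 1) (ho : |o| ≤ 1 / 2) : 1 / 2 ≤ 1 + m * o := by
  have : |m * o| ≤ 1 / 2 := by
    rw [abs_mul]
    calc |m| * |o| ≤ 1 * (1 / 2) := by gcongr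
      _ = 1 / 2 := by norm_num
  linarith [(abs_le.mp this).1]

lemma obs_half (hθ : |θ| < 1) (E : Finset (Ev V)) (ω : Om V) (e : Ev V) :
    |obs G θ S E ω e| ≤ 1 / 2 := (obs_bound G S hθ E ω e).trans (st_le ω e)

lemma abs_rj_le (hθ : |θ| < 1) (E : Finset (Ev V)) (ω : Om V) (e : Ev V) :
    |rj G θ S E ω e| ≤ 2 * st ω e := by
  have h1 := one_add_pos (abs_mt_le G S hθ E ω (tm ω e) e.1) (obs_half G S hθ E ω e)
  have h2 := obs_bound G S hθ E ω e
  unfold rj
  rw [abs_div, abs_of_pos (by linarith : 0 < 1 + mt G θ S E ω (tm ω e) e.1 * obs G θ S E ω e),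
    div_le_iff₀ (by linarith)]
  have := st_nonneg ω e
  nlinarith

lemma rj_of_not_mem {E : Finset (Ev V)} {ω : Om V} {e : Ev V} (he : e ∉ E) :
    rj G θ S E ω e = 0 := by
  unfold rj; rw [obs_of_not_mem G θ S he, zero_div]

lemma jp_of_not_mem {E : Finset (Ev V)} {ω : Om V} {e : Ev V} (he : e ∉ E) (f : Finset V → ℝ) :
    jp G θ S E ω e f = 0 := by
  unfold jp; rw [rj_of_not_mem G S he, mul_zero]

lemma abs_mnt_le (hθ : |θ| < 1) (E : Finset (Ev V)) (ω : Om V) (t : ℝ) {f : Finset V → ℝ} {c : ℝ}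
    (hf : ∀ A, |f A| ≤ c) : |mnt G θ S E ω t f| ≤ c :=
  abs_mean_le G S hθ (fun e _ => obs_lt_one G S hθ E ω e) hf

lemma abs_jp_le (hθ : |θ| < 1) (E : Finset (Ev V)) (ω : Om V) (e : Ev V) {f : Finset V → ℝ} {c : ℝ}
    (hf : ∀ A, |f A| ≤ c) : |jp G θ S E ω e f| ≤ 2 * c := by
  have hc : 0 ≤ c := (abs_nonneg _).trans (hf ∅)
  have h1 : |mnt G θ S E ω (tm ω e) (fun A => f A * sg A e.1)| ≤ c :=
    abs_mnt_le G S hθ E ω _ fun A => by rw [abs_mul, abs_sg, mul_one]; exact hf A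
  have h2 := abs_mnt_le G S hθ E ω (tm ω e) hf
  have h3 := abs_mt_le G S hθ E ω (tm ω e) e.1
  have h4 := abs_rj_le G S hθ E ω e
  have h5 := st_le ω e
  have h6 : |mnt G θ S E ω (tm ω e) f * mt G θ S E ω (tm ω e) e.1| ≤ c := by
    rw [abs_mul]
    calc _ ≤ c * 1 := by gcongr
      _ = c := mul_one c
  unfold jp
  rw [abs_mul]
  calc _ ≤ (c + c) * 1 := by
        gcongr
        · exact (abs_sub _ _).trans (add_le_add h1 h6)
        · linarith
    _ = 2 * c := by ring

/-- one step -/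
lemma mnt_step (hθ : |θ| < 1) {E : Finset (Ev V)} {ω : Om V} (hnt : NoTies E ω) {e : Ev V}
    (he : e ∈ E) {t : ℝ} (het : tm ω e < t) (hlast : ∀ e' ∈ E, tm ω e' < t → tm ω e' ≤ tm ω e)
    (f : Finset V → ℝ) :
    mnt G θ S E ω t f = mnt G θ S E ω (tm ω e) f + jp G θ S E ω e f := by
  have hb : before E ω t = insert e (before E ω (tm ω e)) := by
    ext x
    rw [Finset.mem_insert, mem_before, mem_before]
    constructor
    · rintro ⟨h1, h2⟩
      by_cases hx : x = e
      · exact Or.inl hx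
      · exact Or.inr ⟨h1, lt_of_le_of_ne (hlast x h1 h2) (hnt x h1 e he hx)⟩
    · rintro (rfl | ⟨h1, h2⟩)
      · exact ⟨he, het⟩
      · exact ⟨h1, h2.trans het⟩
  have hne : e ∉ before E ω (tm ω e) := fun h => lt_irrefl _ (mem_before.mp h).2
  have hZ := (ZZ_pos G S hθ (E := before E ω (tm ω e)) (o := obs G θ S E ω)
    (fun e _ => obs_lt_one G S hθ E ω e)).ne'
  have h1 := one_add_pos (abs_mt_le G S hθ E ω (tm ω e) e.1) (obs_half G S hθ E ω e)
  have h2 : 1 + mm G θ S (before E ω (tm ω e)) (obs G θ S E ω) e.1 * obs G θ S E ω e ≠ 0 := by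
    have : 0 < 1 + mt G θ S E ω (tm ω e) e.1 * obs G θ S E ω e := by linarith
    exact this.ne'
  unfold mnt
  rw [hb, mean_insert G θ S hne hZ h2]
  rfl

/-- telescoping -/
theorem mnt_telescope (hθ : |θ| < 1) {E : Finset (Ev V)} {ω : Om V} (hnt : NoTies E ω)
    {s t : ℝ} (hst : s ≤ t) (f : Finset V → ℝ) :
    mnt G θ S E ω t f = mnt G θ S E ω s f
      + ∑ e ∈ E, if s ≤ tm ω e ∧ tm ω e < t then jp G θ S E ω e f else 0 := by
  rw [← Finset.sum_filter]
  induction hn : (E.filter fun e => s ≤ tm ω e ∧ tm ω e < t).card using Nat.strong_induction_on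
    generalizing t with
  | _ n ih =>
    subst hn
    by_cases hemp : (E.filter fun e => s ≤ tm ω e ∧ tm ω e < t) = ∅
    · rw [hemp, Finset.sum_empty, add_zero]
      apply mnt_congr_before
      ext x
      rw [mem_before, mem_before]
      constructor
      · rintro ⟨h1, h2⟩
        refine ⟨h1, ?_⟩
        by_contra hc
        have : x ∈ (E.filter fun e => s ≤ tm ω e ∧ tm ω e < t) :=
          Finset.mem_filter.mpr ⟨h1, not_lt.mp hc, h2⟩
        rw [hemp] at this
        exact absurd this (Finset.notMem_empty _)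
      · rintro ⟨h1, h2⟩; exact ⟨h1, h2.trans_le hst⟩
    · obtain ⟨e, he, hmax⟩ := Finset.exists_max_image _ (fun e => tm ω e)
        (Finset.nonempty_iff_ne_empty.mpr hemp)
      rw [Finset.mem_filter] at he
      obtain ⟨heE, hse, het⟩ := he
      have hlast : ∀ e' ∈ E, tm ω e' < t → tm ω e' ≤ tm ω e := by
        intro e' he' ht'
        by_cases hs' : s ≤ tm ω e'
        · exact hmax e' (Finset.mem_filter.mpr ⟨he', hs', ht'⟩)
        · exact (not_le.mp hs').le.trans hse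
      have hfil : (E.filter fun e => s ≤ tm ω e ∧ tm ω e < t)
          = insert e (E.filter fun e' => s ≤ tm ω e' ∧ tm ω e' < tm ω e) := by
        ext x
        rw [Finset.mem_insert, Finset.mem_filter, Finset.mem_filter]
        constructor
        · rintro ⟨h1, h2, h3⟩
          by_cases hx : x = e
          · exact Or.inl hx
          · exact Or.inr ⟨h1, h2, lt_of_le_of_ne (hlast x h1 h3) (hnt x h1 e heE hx)⟩
        · rintro (rfl | ⟨h1, h2, h3⟩)
          · exact ⟨heE, hse, het⟩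
          · exact ⟨h1, h2, h3.trans het⟩
      have hne : e ∉ (E.filter fun e' => s ≤ tm ω e' ∧ tm ω e' < tm ω e) := by
        rw [Finset.mem_filter]
        rintro ⟨-, -, h⟩
        exact lt_irrefl _ h
      have hcard : (E.filter fun e' => s ≤ tm ω e' ∧ tm ω e' < tm ω e).card
          < (E.filter fun e => s ≤ tm ω e ∧ tm ω e < t).card := by
        rw [hfil, Finset.card_insert_of_notMem hne]
        omega
      rw [mnt_step G S hθ hnt heE het hlast, ih _ hcard hse rfl, hfil, Finset.sum_insert hne]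
      ring

/-! ### measurability of the jumps -/

lemma measurable_mnt_joint (G : SimpleGraph V) (θ : ℝ) (S : Finset V) (E : Finset (Ev V))
    (f : Finset V → ℝ) : Measurable fun p : Om V × ℝ => mnt G θ S E p.1 p.2 f :=
  measurable_mean_joint G θ S E f

@[fun_prop]
lemma measurable_mnt (G : SimpleGraph V) (θ : ℝ) (S : Finset V) (E : Finset (Ev V))
    (t : ℝ) (f : Finset V → ℝ) : Measurable fun ω : Om V => mnt G θ S E ω t f := by
  have h := (measurable_mnt_joint G θ S E f).comp (measurable_pair_const t)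
  exact h

@[fun_prop]
lemma measurable_mnt_tm (G : SimpleGraph V) (θ : ℝ) (S : Finset V) (E : Finset (Ev V))
    (e : Ev V) (f : Finset V → ℝ) : Measurable fun ω : Om V => mnt G θ S E ω (tm ω e) f := by
  have h := (measurable_mnt_joint G θ S E f).comp (measurable_pair_tm e)
  exact h

@[fun_prop]
lemma measurable_rj (G : SimpleGraph V) (θ : ℝ) (S : Finset V) (E : Finset (Ev V))
    (e : Ev V) : Measurable fun ω : Om V => rj G θ S E ω e := by
  unfold rj; fun_prop

@[fun_prop]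
lemma measurable_jp (G : SimpleGraph V) (θ : ℝ) (S : Finset V) (E : Finset (Ev V))
    (e : Ev V) (f : Finset V → ℝ) : Measurable fun ω : Om V => jp G θ S E ω e f := by
  unfold jp; fun_prop

/-! ### mean zero -/

lemma integral_rj_noise {a m : ℝ} (ha0 : 0 ≤ a) (ha : a ≤ 1 / 2) (hm : |m| ≤ 1) :
    ∫ z : unitInterval, (a * TT (a * m) (2 * (z : ℝ) - 1))
      / (1 + m * (a * TT (a * m) (2 * (z : ℝ) - 1))) = 0 := by
  have hs : |a * m| ≤ 1 := by
    rw [abs_mul, abs_of_nonneg ha0]; nlinarith [abs_nonneg m]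
  rw [integral_TT hs (fun y => (a * y) / (1 + m * (a * y)))]
  have h : ∀ x : unitInterval, (1 + a * m * (2 * (x : ℝ) - 1))
      * ((a * (2 * (x : ℝ) - 1)) / (1 + m * (a * (2 * (x : ℝ) - 1)))) = a * (2 * (x : ℝ) - 1) := by
    intro x
    have hx : |2 * (x : ℝ) - 1| ≤ 1 := by
      rw [abs_le]; constructor <;> linarith [x.2.1, x.2.2]
    have h1 : |a * (2 * (x : ℝ) - 1)| ≤ 1 / 2 := by
      rw [abs_mul, abs_of_nonneg ha0]; nlinarith [abs_nonneg (2 * (x : ℝ) - 1)]
    have h2 := one_add_pos hm h1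
    have h3 : 1 + m * (a * (2 * (x : ℝ) - 1)) ≠ 0 := by
      have : 0 < 1 + m * (a * (2 * (x : ℝ) - 1)) := by linarith
      exact this.ne'
    have h4 : 1 + a * m * (2 * (x : ℝ) - 1) = 1 + m * (a * (2 * (x : ℝ) - 1)) := by ring
    rw [h4, mul_div_cancel₀ _ h3]
  simp only [h]
  rw [integral_const_mul, integral_noise, mul_zero]

/-- the jump is orthogonal to everything that does not depend on the noise of the event -/
theorem integral_mul_jp (hθ : |θ| < 1) (E : Finset (Ev V)) (e : Ev V) {f : Finset V → ℝ} {c : ℝ}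
    (hf : ∀ A, |f A| ≤ c) {H : Om V → ℝ} (hH : Measurable H) {C : ℝ} (hC : ∀ ω, |H ω| ≤ C)
    (hinv : ∀ ω z, H (updz ω e z) = H ω) :
    ∫ ω, H ω * jp G θ S E ω e f ∂(PP V) = 0 := by
  by_cases he : e ∈ E
  swap
  · simp only [jp_of_not_mem G S he, mul_zero, integral_zero]
  have hg : Measurable fun ω : Om V => H ω * jp G θ S E ω e f := hH.mul (measurable_jp _ _ _ _ _ _)
  have hbd : ∀ ω, |H ω * jp G θ S E ω e f| ≤ C * (2 * c) := by
    intro ω
    rw [abs_mul]
    have h1 := hC ω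
    have h2 := abs_jp_le G S hθ E ω e hf
    have : 0 ≤ C := (abs_nonneg _).trans h1
    gcongr
  have hmp := mp_updz (V := V) e
  rw [← hmp.map_eq, integral_map hmp.measurable.aemeasurable hg.aestronglyMeasurable]
  have hint : Integrable (fun p : Om V × unitInterval =>
      H (updz p.1 e p.2) * jp G θ S E (updz p.1 e p.2) e f) ((PP V).prod volume) :=
    intg_of_bdd (hg.comp hmp.measurable) fun p => hbd _
  rw [integral_prod _ hint]
  have hz : ∀ ω : Om V, ∫ z : unitInterval, H (updz ω e z) * jp G θ S E (updz ω e z) e f = 0 := by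
    intro ω
    have h1 : ∀ z : unitInterval, H (updz ω e z) * jp G θ S E (updz ω e z) e f
        = (H ω * (mnt G θ S E ω (tm ω e) (fun A => f A * sg A e.1)
          - mnt G θ S E ω (tm ω e) f * mt G θ S E ω (tm ω e) e.1))
          * ((st ω e * TT (st ω e * mt G θ S E ω (tm ω e) e.1) (2 * (z : ℝ) - 1))
            / (1 + mt G θ S E ω (tm ω e) e.1
              * (st ω e * TT (st ω e * mt G θ S E ω (tm ω e) e.1) (2 * (z : ℝ) - 1)))) := by
      intro z
      rw [hinv]
      unfold jp rj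
      rw [tm_updz, mnt_updz G θ S le_rfl, mnt_updz G θ S le_rfl, mt_updz G θ S le_rfl,
        obs_updz_same G θ S he]
      ring
    simp only [h1]
    rw [integral_const_mul, integral_rj_noise (st_nonneg ω e) (st_le ω e)
      (abs_mt_le G S hθ E ω (tm ω e) e.1), mul_zero]
  simp only [hz, integral_zero]

end Crest.Agent.R160
end

-- ▼ part R160/Energy
section

/-! Row 160: the martingale property and the energy identity for a pair of systems driven by the
same noise. -/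

set_option autoImplicit false
set_option linter.unusedSectionVars false

open MeasureTheory Finset
open scoped Classical

namespace Crest.Agent.R160

variable {V : Type*} (G : SimpleGraph V) {θ θ' : ℝ} (S S' : Finset V)

/-- `H` only depends on the clocks and on the noises of the events before time `s` -/
def PastInv (s : ℝ) (H : Om V → ℝ) : Prop :=
  ∀ ω (e : Ev V) (z : unitInterval), s ≤ tm ω e → H (updz ω e z) = H ω

lemma pastInv_mnt (G : SimpleGraph V) (θ : ℝ) (S : Finset V) (E : Finset (Ev V)) {s t : ℝ}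
    (hst : s ≤ t) (f : Finset V → ℝ) : PastInv t (fun ω => mnt G θ S E ω s f) :=
  fun _ _ z h => mnt_updz G θ S (hst.trans h) z f

lemma PastInv.mono {s t : ℝ} {H : Om V → ℝ} (h : PastInv s H) (hst : s ≤ t) : PastInv t H :=
  fun ω e z he => h ω e z (hst.trans he)

/-- martingale property, one event -/
lemma integral_mul_window_jp (hθ : |θ| < 1) (E : Finset (Ev V)) (e : Ev V) {f : Finset V → ℝ}
    {c : ℝ} (hf : ∀ A, |f A| ≤ c) {s : ℝ} (t : ℝ) {H : Om V → ℝ} (hH : Measurable H) {C : ℝ}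
    (hC : ∀ ω, |H ω| ≤ C) (hinv : PastInv s H) :
    ∫ ω, H ω * (if s ≤ tm ω e ∧ tm ω e < t then jp G θ S E ω e f else 0) ∂(PP V) = 0 := by
  have h := integral_mul_jp G S hθ E e hf (H := fun ω => if s ≤ tm ω e ∧ tm ω e < t then H ω else 0)
    ?_ (C := C) ?_ ?_
  · refine Eq.trans ?_ h
    congr 1
    funext ω
    split_ifs <;> simp
  · refine Measurable.ite ?_ hH measurable_const
    exact (measurableSet_le measurable_const (measurable_tm e)).inter
      (measurableSet_lt (measurable_tm e) measurable_const)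
  · intro ω
    split_ifs
    · exact hC ω
    · rw [abs_zero]; exact (abs_nonneg _).trans (hC ω)
  · intro ω z
    simp only [tm_updz]
    by_cases hc : s ≤ tm ω e ∧ tm ω e < t
    · rw [if_pos hc, if_pos hc]; exact hinv ω e z hc.1
    · rw [if_neg hc, if_neg hc]

lemma measurable_window {F : Om V → ℝ} (hF : Measurable F) (e : Ev V) (s t : ℝ) :
    Measurable fun ω : Om V => if s ≤ tm ω e ∧ tm ω e < t then F ω else 0 := by
  refine Measurable.ite ?_ hF measurable_const
  exact (measurableSet_le measurable_const (measurable_tm e)).inter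
      (measurableSet_lt (measurable_tm e) measurable_const)

lemma abs_window_le {x C : ℝ} (hx : |x| ≤ C) (p : Prop) [Decidable p] : |if p then x else 0| ≤ C := by
  split_ifs
  · exact hx
  · rw [abs_zero]; exact (abs_nonneg _).trans hx

/-- **martingale property** -/
theorem integral_mul_mnt (hθ : |θ| < 1) (E : Finset (Ev V)) {f : Finset V → ℝ}
    {c : ℝ} (hf : ∀ A, |f A| ≤ c) {s t : ℝ} (hst : s ≤ t) {H : Om V → ℝ} (hH : Measurable H) {C : ℝ}
    (hC : ∀ ω, |H ω| ≤ C) (hinv : PastInv s H) :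
    ∫ ω, H ω * mnt G θ S E ω t f ∂(PP V) = ∫ ω, H ω * mnt G θ S E ω s f ∂(PP V) := by
  have hC0 : 0 ≤ C := (abs_nonneg _).trans (hC (fun _ => (0, 0)))
  have h1 : ∫ ω, H ω * mnt G θ S E ω t f ∂(PP V)
      = ∫ ω, (H ω * mnt G θ S E ω s f
        + ∑ e ∈ E, H ω * (if s ≤ tm ω e ∧ tm ω e < t then jp G θ S E ω e f else 0)) ∂(PP V) := by
    apply integral_congr_ae
    filter_upwards [ae_noTies E] with ω hω
    rw [mnt_telescope G S hθ hω hst f, mul_add, Finset.mul_sum]
  rw [h1, integral_add, integral_finsetSum]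
  · rw [Finset.sum_eq_zero fun e _ => integral_mul_window_jp G S hθ E e hf t hH hC hinv, add_zero]
  · intro e _
    refine intg_of_bdd (hH.mul (measurable_window (measurable_jp _ _ _ _ _ _) e s t))
      (C := C * (2 * c)) fun ω => ?_
    rw [abs_mul]
    exact mul_le_mul (hC ω) (abs_window_le (abs_jp_le G S hθ E ω e hf) _) (abs_nonneg _) hC0
  · refine intg_of_bdd (hH.mul (measurable_mnt _ _ _ _ _ _)) (C := C * c) fun ω => ?_
    rw [abs_mul]
    exact mul_le_mul (hC ω) (abs_mnt_le G S hθ E ω s hf) (abs_nonneg _) hC0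
  · refine integrable_finsetSum _ fun e _ => ?_
    refine intg_of_bdd (hH.mul (measurable_window (measurable_jp _ _ _ _ _ _) e s t))
      (C := C * (2 * c)) fun ω => ?_
    rw [abs_mul]
    exact mul_le_mul (hC ω) (abs_window_le (abs_jp_le G S hθ E ω e hf) _) (abs_nonneg _) hC0




/-! ### the energy identity -/

lemma jp_updz_lt (G : SimpleGraph V) (θ : ℝ) (S : Finset V) {E : Finset (Ev V)} {ω : Om V}
    {e e' : Ev V} (h : tm ω e' < tm ω e) (z : unitInterval) (f : Finset V → ℝ) :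
    jp G θ S E (updz ω e z) e' f = jp G θ S E ω e' f := by
  unfold jp rj
  rw [tm_updz, mnt_updz G θ S h.le, mnt_updz G θ S h.le, mt_updz G θ S h.le, obs_updz_lt G θ S h]

/-- difference of the jumps of two systems -/
noncomputable def dj (G : SimpleGraph V) (θ : ℝ) (S : Finset V) (E : Finset (Ev V)) (θ' : ℝ)
    (S' : Finset V) (E' : Finset (Ev V)) (ω : Om V) (e : Ev V) (f f' : Finset V → ℝ) : ℝ :=
  jp G θ S E ω e f - jp G θ' S' E' ω e f'

@[fun_prop]
lemma measurable_dj (G : SimpleGraph V) (θ : ℝ) (S : Finset V) (E : Finset (Ev V)) (θ' : ℝ)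
    (S' : Finset V) (E' : Finset (Ev V)) (e : Ev V) (f f' : Finset V → ℝ) :
    Measurable fun ω : Om V => dj G θ S E θ' S' E' ω e f f' := by
  unfold dj; fun_prop

lemma abs_dj_le (hθ : |θ| < 1) (hθ' : |θ'| < 1) (E E' : Finset (Ev V)) (ω : Om V) (e : Ev V)
    {f f' : Finset V → ℝ} {c : ℝ} (hf : ∀ A, |f A| ≤ c) (hf' : ∀ A, |f' A| ≤ c) :
    |dj G θ S E θ' S' E' ω e f f'| ≤ 4 * c := by
  have h1 := abs_jp_le G S hθ E ω e hf
  have h2 := abs_jp_le G S' hθ' E' ω e hf'
  unfold dj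
  refine (abs_sub _ _).trans ?_
  linarith

lemma integral_mul_dj (hθ : |θ| < 1) (hθ' : |θ'| < 1) (E E' : Finset (Ev V)) (e : Ev V)
    {f f' : Finset V → ℝ} {c : ℝ} (hf : ∀ A, |f A| ≤ c) (hf' : ∀ A, |f' A| ≤ c)
    {H : Om V → ℝ} (hH : Measurable H) {C : ℝ} (hC : ∀ ω, |H ω| ≤ C)
    (hinv : ∀ ω z, H (updz ω e z) = H ω) :
    ∫ ω, H ω * dj G θ S E θ' S' E' ω e f f' ∂(PP V) = 0 := by
  have hC0 : 0 ≤ C := (abs_nonneg _).trans (hC (fun _ => (0, 0)))
  unfold dj
  simp only [mul_sub]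
  rw [integral_sub, integral_mul_jp G S hθ E e hf hH hC hinv,
    integral_mul_jp G S' hθ' E' e hf' hH hC hinv, sub_zero]
  · refine intg_of_bdd (hH.mul (measurable_jp _ _ _ _ _ _)) (C := C * (2 * c)) fun ω => ?_
    rw [abs_mul]
    exact mul_le_mul (hC ω) (abs_jp_le G S hθ E ω e hf) (abs_nonneg _) hC0
  · refine intg_of_bdd (hH.mul (measurable_jp _ _ _ _ _ _)) (C := C * (2 * c)) fun ω => ?_
    rw [abs_mul]
    exact mul_le_mul (hC ω) (abs_jp_le G S' hθ' E' ω e hf') (abs_nonneg _) hC0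

/-- the difference process -/
noncomputable def Dp (G : SimpleGraph V) (θ : ℝ) (S : Finset V) (E : Finset (Ev V)) (θ' : ℝ)
    (S' : Finset V) (E' : Finset (Ev V)) (ω : Om V) (t : ℝ) (f f' : Finset V → ℝ) : ℝ :=
  mnt G θ S E ω t f - mnt G θ' S' E' ω t f'

lemma abs_Dp_le (hθ : |θ| < 1) (hθ' : |θ'| < 1) (E E' : Finset (Ev V)) (ω : Om V) (t : ℝ)
    {f f' : Finset V → ℝ} {c : ℝ} (hf : ∀ A, |f A| ≤ c) (hf' : ∀ A, |f' A| ≤ c) :
    |Dp G θ S E θ' S' E' ω t f f'| ≤ 2 * c := by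
  have h1 := abs_mnt_le G S hθ E ω t hf
  have h2 := abs_mnt_le G S' hθ' E' ω t hf'
  unfold Dp
  refine (abs_sub _ _).trans ?_
  linarith

/-- window jump difference -/
noncomputable def wj (G : SimpleGraph V) (θ : ℝ) (S : Finset V) (E : Finset (Ev V)) (θ' : ℝ)
    (S' : Finset V) (E' : Finset (Ev V)) (s t : ℝ) (f f' : Finset V → ℝ) (e : Ev V) (ω : Om V) : ℝ :=
  if s ≤ tm ω e ∧ tm ω e < t then dj G θ S E θ' S' E' ω e f f' else 0

lemma measurable_wj (G : SimpleGraph V) (θ : ℝ) (S : Finset V) (E : Finset (Ev V)) (θ' : ℝ)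
    (S' : Finset V) (E' : Finset (Ev V)) (s t : ℝ) (f f' : Finset V → ℝ) (e : Ev V) :
    Measurable (wj G θ S E θ' S' E' s t f f' e) := by
  unfold wj
  exact measurable_window (measurable_dj _ _ _ _ _ _ _ _ _ _) e s t

lemma Dp_telescope (hθ : |θ| < 1) (hθ' : |θ'| < 1) {E E' : Finset (Ev V)} {ω : Om V}
    (hnt : NoTies (E ∪ E') ω) {s t : ℝ} (hst : s ≤ t) (f f' : Finset V → ℝ) :
    Dp G θ S E θ' S' E' ω t f f' = Dp G θ S E θ' S' E' ω s f f'
      + ∑ e ∈ E ∪ E', wj G θ S E θ' S' E' s t f f' e ω := by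
  have h1 : NoTies E ω := fun e he e' he' => hnt e (Finset.mem_union_left _ he) e'
    (Finset.mem_union_left _ he')
  have h2 : NoTies E' ω := fun e he e' he' => hnt e (Finset.mem_union_right _ he) e'
    (Finset.mem_union_right _ he')
  have e1 : ∑ e ∈ E, (if s ≤ tm ω e ∧ tm ω e < t then jp G θ S E ω e f else 0)
      = ∑ e ∈ E ∪ E', (if s ≤ tm ω e ∧ tm ω e < t then jp G θ S E ω e f else 0) := by
    refine Finset.sum_subset Finset.subset_union_left fun e _ he => ?_
    rw [jp_of_not_mem G S he, ite_self]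
  have e2 : ∑ e ∈ E', (if s ≤ tm ω e ∧ tm ω e < t then jp G θ' S' E' ω e f' else 0)
      = ∑ e ∈ E ∪ E', (if s ≤ tm ω e ∧ tm ω e < t then jp G θ' S' E' ω e f' else 0) := by
    refine Finset.sum_subset Finset.subset_union_right fun e _ he => ?_
    rw [jp_of_not_mem G S' he, ite_self]
  have e3 : ∑ e ∈ E ∪ E', wj G θ S E θ' S' E' s t f f' e ω
      = ∑ e ∈ E ∪ E', (if s ≤ tm ω e ∧ tm ω e < t then jp G θ S E ω e f else 0)
        - ∑ e ∈ E ∪ E', (if s ≤ tm ω e ∧ tm ω e < t then jp G θ' S' E' ω e f' else 0) := by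
    rw [← Finset.sum_sub_distrib]
    refine Finset.sum_congr rfl fun e _ => ?_
    unfold wj dj
    split_ifs <;> simp
  unfold Dp
  rw [mnt_telescope G S hθ h1 hst f, mnt_telescope G S' hθ' h2 hst f', e1, e2, e3]
  ring

/-- orthogonality of the initial difference and the increments -/
lemma integral_Dp_wj (hθ : |θ| < 1) (hθ' : |θ'| < 1) (E E' : Finset (Ev V)) (s t : ℝ)
    {f f' : Finset V → ℝ} {c : ℝ} (hf : ∀ A, |f A| ≤ c) (hf' : ∀ A, |f' A| ≤ c) (e : Ev V) :
    ∫ ω, Dp G θ S E θ' S' E' ω s f f' * wj G θ S E θ' S' E' s t f f' e ω ∂(PP V) = 0 := by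
  have hm : Measurable fun ω : Om V => Dp G θ S E θ' S' E' ω s f f' := by unfold Dp; fun_prop
  have h := integral_mul_dj G S S' hθ hθ' E E' e hf hf'
    (H := fun ω => if s ≤ tm ω e ∧ tm ω e < t then Dp G θ S E θ' S' E' ω s f f' else 0)
    (measurable_window hm e s t) (C := 2 * c)
    (fun ω => abs_window_le (abs_Dp_le G S S' hθ hθ' E E' ω s hf hf') _) ?_
  · refine Eq.trans ?_ h
    congr 1
    funext ω
    unfold wj
    split_ifs <;> simp
  · intro ω z
    simp only [tm_updz]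
    by_cases hc : s ≤ tm ω e ∧ tm ω e < t
    · rw [if_pos hc, if_pos hc]
      unfold Dp
      rw [mnt_updz G θ S hc.1, mnt_updz G θ' S' hc.1]
    · rw [if_neg hc, if_neg hc]

/-- orthogonality of two increments, ordered version -/
lemma integral_wj_lt (hθ : |θ| < 1) (hθ' : |θ'| < 1) (E E' : Finset (Ev V)) (s t : ℝ)
    {f f' : Finset V → ℝ} {c : ℝ} (hf : ∀ A, |f A| ≤ c) (hf' : ∀ A, |f' A| ≤ c) (e e' : Ev V) :
    ∫ ω, (if tm ω e' < tm ω e then
      wj G θ S E θ' S' E' s t f f' e' ω * wj G θ S E θ' S' E' s t f f' e ω else 0) ∂(PP V) = 0 := by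
  have hset : MeasurableSet {ω : Om V | tm ω e' < tm ω e} :=
    measurableSet_lt (measurable_tm e') (measurable_tm e)
  have hb : ∀ ω, |wj G θ S E θ' S' E' s t f f' e' ω| ≤ 4 * c := fun ω => by
    unfold wj
    exact abs_window_le (abs_dj_le G S S' hθ hθ' E E' ω e' hf hf') _
  have h := integral_mul_dj G S S' hθ hθ' E E' e hf hf'
    (H := fun ω => if tm ω e' < tm ω e then
      (if s ≤ tm ω e ∧ tm ω e < t then wj G θ S E θ' S' E' s t f f' e' ω else 0) else 0)
    (Measurable.ite hset (measurable_window (measurable_wj _ _ _ _ _ _ _ _ _ _ _ _) e s t)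
      measurable_const) (C := 4 * c)
    (fun ω => abs_window_le (abs_window_le (hb ω) _) _) ?_
  · refine Eq.trans ?_ h
    congr 1
    funext ω
    by_cases h1 : tm ω e' < tm ω e
    · rw [if_pos h1, if_pos h1]
      by_cases h2 : s ≤ tm ω e ∧ tm ω e < t
      · rw [if_pos h2]
        congr 1
        unfold wj
        rw [if_pos h2]
      · rw [if_neg h2, zero_mul]
        have : wj G θ S E θ' S' E' s t f f' e ω = 0 := by unfold wj; rw [if_neg h2]
        rw [this, mul_zero]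
    · rw [if_neg h1, if_neg h1, zero_mul]
  · intro ω z
    simp only [tm_updz]
    by_cases h1 : tm ω e' < tm ω e
    · rw [if_pos h1, if_pos h1]
      by_cases h2 : s ≤ tm ω e ∧ tm ω e < t
      · rw [if_pos h2, if_pos h2]
        unfold wj dj
        rw [tm_updz, jp_updz_lt G θ S h1, jp_updz_lt G θ' S' h1]
      · rw [if_neg h2, if_neg h2]
    · rw [if_neg h1, if_neg h1]

/-- orthogonality of two increments -/
lemma integral_wj_ne (hθ : |θ| < 1) (hθ' : |θ'| < 1) (E E' : Finset (Ev V)) (s t : ℝ)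
    {f f' : Finset V → ℝ} {c : ℝ} (hf : ∀ A, |f A| ≤ c) (hf' : ∀ A, |f' A| ≤ c) {e e' : Ev V}
    (hne : e ≠ e') :
    ∫ ω, wj G θ S E θ' S' E' s t f f' e ω * wj G θ S E θ' S' E' s t f f' e' ω ∂(PP V) = 0 := by
  have h1 := integral_wj_lt G S S' hθ hθ' E E' s t hf hf' e e'
  have h2 := integral_wj_lt G S S' hθ hθ' E E' s t hf hf' e' e
  have hc0 : 0 ≤ c := (abs_nonneg _).trans (hf ∅)
  have hm : ∀ e, Measurable (wj G θ S E θ' S' E' s t f f' e) := fun e =>
    measurable_wj _ _ _ _ _ _ _ _ _ _ _ _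
  have hb : ∀ e ω, |wj G θ S E θ' S' E' s t f f' e ω| ≤ 4 * c := fun e ω => by
    unfold wj
    exact abs_window_le (abs_dj_le G S S' hθ hθ' E E' ω e hf hf') _
  have hint : ∀ e e' : Ev V, Integrable (fun ω => (if tm ω e' < tm ω e then
      wj G θ S E θ' S' E' s t f f' e' ω * wj G θ S E θ' S' E' s t f f' e ω else 0)) (PP V) := by
    intro e e'
    refine intg_of_bdd (Measurable.ite (measurableSet_lt (measurable_tm e') (measurable_tm e))
      ((hm e').mul (hm e)) measurable_const) (C := (4 * c) * (4 * c)) fun ω => ?_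
    refine abs_window_le ?_ _
    rw [abs_mul]
    exact mul_le_mul (hb _ _) (hb _ _) (abs_nonneg _) (by linarith)
  have h3 : ∫ ω, wj G θ S E θ' S' E' s t f f' e ω * wj G θ S E θ' S' E' s t f f' e' ω ∂(PP V)
      = ∫ ω, ((if tm ω e' < tm ω e then
          wj G θ S E θ' S' E' s t f f' e' ω * wj G θ S E θ' S' E' s t f f' e ω else 0)
        + (if tm ω e < tm ω e' then
          wj G θ S E θ' S' E' s t f f' e ω * wj G θ S E θ' S' E' s t f f' e' ω else 0)) ∂(PP V) := by
    apply integral_congr_ae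
    have hnt : ∀ᵐ ω ∂(PP V), tm ω e ≠ tm ω e' := by
      have := null_tie hne
      rwa [← compl_compl {ω : Om V | tm ω e = tm ω e'}, ← mem_ae_iff] at this
    filter_upwards [hnt] with ω hω
    rcases lt_or_gt_of_ne hω with h | h
    · rw [if_neg (not_lt.mpr h.le), if_pos h, zero_add]
    · rw [if_pos h, if_neg (not_lt.mpr h.le), add_zero, mul_comm]
  rw [h3, integral_add (hint e e') (hint e' e), h1, h2, add_zero]

/-- **the energy identity** -/
theorem energy (hθ : |θ| < 1) (hθ' : |θ'| < 1) (E E' : Finset (Ev V)) {s t : ℝ} (hst : s ≤ t)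
    {f f' : Finset V → ℝ} {c : ℝ} (hf : ∀ A, |f A| ≤ c) (hf' : ∀ A, |f' A| ≤ c) :
    ∫ ω, (Dp G θ S E θ' S' E' ω t f f') ^ 2 ∂(PP V)
      = ∫ ω, (Dp G θ S E θ' S' E' ω s f f') ^ 2 ∂(PP V)
        + ∑ e ∈ E ∪ E', ∫ ω, (wj G θ S E θ' S' E' s t f f' e ω) ^ 2 ∂(PP V) := by
  have hc0 : 0 ≤ c := (abs_nonneg _).trans (hf ∅)
  have hm : ∀ e, Measurable (wj G θ S E θ' S' E' s t f f' e) := fun e =>
    measurable_wj _ _ _ _ _ _ _ _ _ _ _ _
  have hb : ∀ e ω, |wj G θ S E θ' S' E' s t f f' e ω| ≤ 4 * c := fun e ω => by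
    unfold wj
    exact abs_window_le (abs_dj_le G S S' hθ hθ' E E' ω e hf hf') _
  have hDm : Measurable fun ω : Om V => Dp G θ S E θ' S' E' ω s f f' := by unfold Dp; fun_prop
  have hDb : ∀ ω, |Dp G θ S E θ' S' E' ω s f f'| ≤ 2 * c := fun ω =>
    abs_Dp_le G S S' hθ hθ' E E' ω s hf hf'
  have i1 : Integrable (fun ω => (Dp G θ S E θ' S' E' ω s f f') ^ 2) (PP V) := by
    refine intg_of_bdd (hDm.pow_const 2) (C := (2 * c) ^ 2) fun ω => ?_
    rw [abs_pow]
    exact pow_le_pow_left₀ (abs_nonneg _) (hDb ω) 2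
  have i2 : ∀ e, Integrable (fun ω => Dp G θ S E θ' S' E' ω s f f'
      * wj G θ S E θ' S' E' s t f f' e ω) (PP V) := fun e => by
    refine intg_of_bdd (hDm.mul (hm e)) (C := (2 * c) * (4 * c)) fun ω => ?_
    rw [abs_mul]
    exact mul_le_mul (hDb _) (hb _ _) (abs_nonneg _) (by linarith)
  have i3 : ∀ e e', Integrable (fun ω => wj G θ S E θ' S' E' s t f f' e ω
      * wj G θ S E θ' S' E' s t f f' e' ω) (PP V) := fun e e' => by
    refine intg_of_bdd ((hm e).mul (hm e')) (C := (4 * c) * (4 * c)) fun ω => ?_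
    rw [abs_mul]
    exact mul_le_mul (hb _ _) (hb _ _) (abs_nonneg _) (by linarith)
  have h1 : ∫ ω, (Dp G θ S E θ' S' E' ω t f f') ^ 2 ∂(PP V)
      = ∫ ω, (((Dp G θ S E θ' S' E' ω s f f') ^ 2
        + 2 * ∑ e ∈ E ∪ E', Dp G θ S E θ' S' E' ω s f f' * wj G θ S E θ' S' E' s t f f' e ω)
        + ∑ e ∈ E ∪ E', ∑ e' ∈ E ∪ E', wj G θ S E θ' S' E' s t f f' e ω
            * wj G θ S E θ' S' E' s t f f' e' ω) ∂(PP V) := by
    apply integral_congr_ae
    filter_upwards [ae_noTies (E ∪ E')] with ω hω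
    rw [Dp_telescope G S S' hθ hθ' hω hst f f', ← Finset.mul_sum, ← Finset.sum_mul_sum]
    ring
  rw [h1, integral_add, integral_add, integral_const_mul, integral_finsetSum]
  · rw [Finset.sum_eq_zero fun e _ => integral_Dp_wj G S S' hθ hθ' E E' s t hf hf' e, mul_zero,
      add_zero]
    congr 1
    rw [integral_finsetSum]
    · refine Finset.sum_congr rfl fun e he => ?_
      rw [integral_finsetSum]
      · rw [Finset.sum_eq_single e]
        · congr 1
          funext ω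
          ring
        · intro e' _ hne
          exact integral_wj_ne G S S' hθ hθ' E E' s t hf hf' hne.symm
        · intro h; exact absurd he h
      · intro e' _; exact i3 e e'
    · intro e _
      exact integrable_finsetSum _ fun e' _ => i3 e e'
  · intro e _; exact i2 e
  · exact i1
  · exact (integrable_finsetSum _ fun e _ => i2 e).const_mul 2
  · exact i1.add ((integrable_finsetSum _ fun e _ => i2 e).const_mul 2)
  · exact integrable_finsetSum _ fun e _ => integrable_finsetSum _ fun e' _ => i3 e e'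

/-- (C6) the mean square difference is nondecreasing in time -/
theorem energy_mono (hθ : |θ| < 1) (hθ' : |θ'| < 1) (E E' : Finset (Ev V)) {s t : ℝ} (hst : s ≤ t)
    {f f' : Finset V → ℝ} {c : ℝ} (hf : ∀ A, |f A| ≤ c) (hf' : ∀ A, |f' A| ≤ c) :
    ∫ ω, (Dp G θ S E θ' S' E' ω s f f') ^ 2 ∂(PP V)
      ≤ ∫ ω, (Dp G θ S E θ' S' E' ω t f f') ^ 2 ∂(PP V) := by
  rw [energy G S S' hθ hθ' E E' hst hf hf']
  have : 0 ≤ ∑ e ∈ E ∪ E', ∫ ω, (wj G θ S E θ' S' E' s t f f' e ω) ^ 2 ∂(PP V) :=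
    Finset.sum_nonneg fun e _ => integral_nonneg fun ω => sq_nonneg _
  linarith

theorem mt_diff_mono (hθ : |θ| < 1) (hθ' : |θ'| < 1) (E E' : Finset (Ev V)) {s t : ℝ} (hst : s ≤ t)
    (v : V) :
    ∫ ω, (mt G θ S E ω s v - mt G θ' S' E' ω s v) ^ 2 ∂(PP V)
      ≤ ∫ ω, (mt G θ S E ω t v - mt G θ' S' E' ω t v) ^ 2 ∂(PP V) :=
  energy_mono G S S' hθ hθ' E E' hst (c := 1) (fun A => (abs_sg A v).le) (fun A => (abs_sg A v).le)

/-- orthogonality of the increments in time -/
theorem mt_incr (hθ : |θ| < 1) (E : Finset (Ev V)) {s t : ℝ} (hst : s ≤ t) (v : V) :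
    ∫ ω, (mt G θ S E ω t v - mt G θ S E ω s v) ^ 2 ∂(PP V)
      = ∫ ω, (mt G θ S E ω t v) ^ 2 ∂(PP V) - ∫ ω, (mt G θ S E ω s v) ^ 2 ∂(PP V) := by
  have hf : ∀ A : Finset V, |sg A v| ≤ 1 := fun A => (abs_sg A v).le
  have hms := measurable_mt G θ S E s v
  have hmt := measurable_mt G θ S E t v
  have hbs : ∀ ω, |mt G θ S E ω s v| ≤ 1 := fun ω => abs_mt_le G S hθ E ω s v
  have hbt : ∀ ω, |mt G θ S E ω t v| ≤ 1 := fun ω => abs_mt_le G S hθ E ω t v
  have h := integral_mul_mnt G S hθ E hf hst (H := fun ω => mt G θ S E ω s v) hms hbs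
    (pastInv_mnt G θ S E le_rfl _)
  have h' : ∫ ω, mt G θ S E ω s v * mt G θ S E ω t v ∂(PP V)
      = ∫ ω, mt G θ S E ω s v * mt G θ S E ω s v ∂(PP V) := h
  have i1 : Integrable (fun ω => (mt G θ S E ω t v) ^ 2) (PP V) :=
    intg_of_bdd (hmt.pow_const 2) (C := 1) fun ω => by
      rw [abs_pow]; exact pow_le_one₀ (abs_nonneg _) (hbt ω)
  have i2 : Integrable (fun ω => mt G θ S E ω s v * mt G θ S E ω t v) (PP V) :=
    intg_of_bdd (hms.mul hmt) (C := 1) fun ω => by
      rw [abs_mul]; exact mul_le_one₀ (hbs ω) (abs_nonneg _) (hbt ω)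
  have i3 : Integrable (fun ω => mt G θ S E ω s v * mt G θ S E ω s v) (PP V) :=
    intg_of_bdd (hms.mul hms) (C := 1) fun ω => by
      rw [abs_mul]; exact mul_le_one₀ (hbs ω) (abs_nonneg _) (hbs ω)
  have e1 : (fun ω => (mt G θ S E ω t v - mt G θ S E ω s v) ^ 2)
      = fun ω => ((mt G θ S E ω t v) ^ 2 - 2 * (mt G θ S E ω s v * mt G θ S E ω t v))
        + mt G θ S E ω s v * mt G θ S E ω s v := by
    funext ω; ring
  have e2 : (fun ω => (mt G θ S E ω s v) ^ 2) = fun ω => mt G θ S E ω s v * mt G θ S E ω s v := by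
    funext ω; ring
  have i12 : Integrable (fun ω => (mt G θ S E ω t v) ^ 2
      - 2 * (mt G θ S E ω s v * mt G θ S E ω t v)) (PP V) := i1.sub (i2.const_mul 2)
  rw [e1, integral_add i12 i3, integral_sub i1 (i2.const_mul 2),
    integral_const_mul, h', e2]
  ring

/-- the interface statement `time_incr` -/
theorem time_incr (hθ : |θ| < 1) (E : Finset (Ev V)) {s t : ℝ} (hst : s ≤ t) (v : V) :
    ∫ ω, (mt G θ S E ω t v - mt G θ S E ω s v) ^ 2 ∂(PP V)
      ≤ ∫ ω, (1 - (mt G θ S E ω s v) ^ 2) ∂(PP V) := by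
  have hms := measurable_mt G θ S E s v
  have hmt := measurable_mt G θ S E t v
  have hbs : ∀ ω, |mt G θ S E ω s v| ≤ 1 := fun ω => abs_mt_le G S hθ E ω s v
  have hbt : ∀ ω, |mt G θ S E ω t v| ≤ 1 := fun ω => abs_mt_le G S hθ E ω t v
  have i1 : Integrable (fun ω => (mt G θ S E ω t v) ^ 2) (PP V) :=
    intg_of_bdd (hmt.pow_const 2) (C := 1) fun ω => by
      rw [abs_pow]; exact pow_le_one₀ (abs_nonneg _) (hbt ω)
  have i2 : Integrable (fun ω => (mt G θ S E ω s v) ^ 2) (PP V) :=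
    intg_of_bdd (hms.pow_const 2) (C := 1) fun ω => by
      rw [abs_pow]; exact pow_le_one₀ (abs_nonneg _) (hbs ω)
  rw [mt_incr G S hθ E hst v, integral_sub (integrable_const 1) i2]
  have : ∫ ω, (mt G θ S E ω t v) ^ 2 ∂(PP V) ≤ ∫ _ω : Om V, (1:ℝ) ∂(PP V) := by
    apply integral_mono i1 (integrable_const 1)
    intro ω
    have h := hbt ω
    have := sq_abs (mt G θ S E ω t v)
    beta_reduce
    nlinarith [abs_nonneg (mt G θ S E ω t v)]
  linarith

/-- `time_incr` for `mfin` -/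
theorem time_incr_mfin (hθ : |θ| < 1) {s t : ℝ} (hst : s ≤ t) (v : V) :
    ∫ ω, (mfin G θ S ω t v - mfin G θ S ω s v) ^ 2 ∂(PP V)
      ≤ ∫ ω, (1 - (mfin G θ S ω s v) ^ 2) ∂(PP V) := by
  have h := time_incr G S hθ (evs S ⌈t⌉₊) hst v
  have h1 : ∀ ω, mt G θ S (evs S ⌈t⌉₊) ω s v = mfin G θ S ω s v := fun ω =>
    mt_evs G θ (hst.trans (Nat.le_ceil t)) ω v
  simp only [h1] at h
  exact h

end Crest.Agent.R160
end

-- ▼ part R160/MMLip
section

/-! Row 160, module D: Lipschitz bound for the covariance `MM` as a function of the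
magnetizations on the path. -/

set_option autoImplicit false
set_option linter.unusedSectionVars false

open Finset

namespace Crest.Agent.R160.Kern

open Crest.Agent.R160 Crest.Agent.R160.TreeAut

open scoped Classical

variable {V : Type*} {G : SimpleGraph V}

lemma rprodN_eq (θ : ℝ) (m : V → ℝ) (r : V) (n : ℕ) (w : V) :
    rprodN G θ m r n w =
      ∏ i ∈ Finset.range n, rho θ (m (anc G r w (i + 1))) (m (anc G r w i)) := by
  induction n generalizing w with
  | zero => simp [rprodN]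
  | succ n ih =>
    rw [rprodN, ih, Finset.prod_range_succ']
    simp only [anc_succ, anc_zero]

lemma abs_prod_sub_prod_le (n : ℕ) (a b : ℕ → ℝ) (ha : ∀ i, 0 ≤ a i ∧ a i ≤ 1)
    (hb : ∀ i, 0 ≤ b i ∧ b i ≤ 1) :
    |∏ i ∈ Finset.range n, a i - ∏ i ∈ Finset.range n, b i| ≤
      ∑ i ∈ Finset.range n, |a i - b i| := by
  induction n with
  | zero => simp
  | succ n ih =>
    rw [Finset.prod_range_succ, Finset.prod_range_succ, Finset.sum_range_succ]
    set A := ∏ i ∈ Finset.range n, a i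
    set B := ∏ i ∈ Finset.range n, b i
    have hA0 : 0 ≤ A := Finset.prod_nonneg fun i _ => (ha i).1
    have hA1 : A ≤ 1 := Finset.prod_le_one (fun i _ => (ha i).1) fun i _ => (ha i).2
    have h1 : A * a n - B * b n = A * (a n - b n) + (A - B) * b n := by ring
    rw [h1]
    refine (abs_add_le _ _).trans ?_
    rw [abs_mul, abs_mul, abs_of_nonneg hA0, abs_of_nonneg (hb n).1]
    have h2 : A * |a n - b n| ≤ |a n - b n| := mul_le_of_le_one_left (abs_nonneg _) hA1
    have h3 : |A - B| * b n ≤ |A - B| := mul_le_of_le_one_right (abs_nonneg _) (hb n).2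
    linarith

section

variable {θ L : ℝ}
  (h01 : ∀ a b : ℝ, |a| ≤ 1 → |b| ≤ 1 → 0 ≤ rho θ a b ∧ rho θ a b ≤ 1)
  (hL : ∀ a b a' b' : ℝ, |a| ≤ 1 → |b| ≤ 1 → |a'| ≤ 1 → |b'| ≤ 1 →
    |rho θ a b - rho θ a' b'| ≤ L * (|a - a'| + |b - b'|))

include h01 in
lemma rprod_mem {m : V → ℝ} (hm : ∀ x, |m x| ≤ 1) (r w : V) :
    0 ≤ rprod G θ m r w ∧ rprod G θ m r w ≤ 1 := by
  unfold rprod
  rw [rprodN_eq]
  exact ⟨Finset.prod_nonneg fun i _ => (h01 _ _ (hm _) (hm _)).1,
    Finset.prod_le_one (fun i _ => (h01 _ _ (hm _) (hm _)).1) fun i _ => (h01 _ _ (hm _) (hm _)).2⟩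

include h01 in
lemma abs_MM_le (h0 : 0 ≤ θ) {m : V → ℝ} (hm : ∀ x, |m x| ≤ 1) (v w : V) :
    |MM G θ m v w| ≤ θ ^ G.dist v w := by
  have h1 := rprod_mem (G := G) h01 hm v w
  have h2 : 0 ≤ 1 - m v ^ 2 ∧ 1 - m v ^ 2 ≤ 1 := by
    have := (sq_le_one_iff_abs_le_one _).2 (hm v)
    exact ⟨by linarith, by linarith [sq_nonneg (m v)]⟩
  unfold MM
  have h3 : 0 ≤ θ ^ G.dist v w := pow_nonneg h0 _
  rw [abs_of_nonneg (mul_nonneg (mul_nonneg h2.1 h3) h1.1)]
  calc (1 - m v ^ 2) * θ ^ G.dist v w * rprod G θ m v w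
      ≤ (1 * θ ^ G.dist v w) * 1 := by
        apply mul_le_mul (mul_le_mul_of_nonneg_right h2.2 h3) h1.2 h1.1
        rw [one_mul]
        exact h3
    _ = _ := by ring

include h01 hL in
lemma abs_rprod_sub_le (hL0 : 0 ≤ L) {m m' : V → ℝ} (hm : ∀ x, |m x| ≤ 1)
    (hm' : ∀ x, |m' x| ≤ 1) (r w : V) :
    |rprod G θ m r w - rprod G θ m' r w| ≤
      2 * L * ∑ i ∈ Finset.range (G.dist r w + 1), |m (anc G r w i) - m' (anc G r w i)| := by
  unfold rprod
  rw [rprodN_eq, rprodN_eq]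
  refine (abs_prod_sub_prod_le _ _ _ (fun i => h01 _ _ (hm _) (hm _))
    (fun i => h01 _ _ (hm' _) (hm' _))).trans ?_
  set D : ℕ → ℝ := fun i => |m (anc G r w i) - m' (anc G r w i)| with hD
  have h1 : ∀ i ∈ Finset.range (G.dist r w),
      |rho θ (m (anc G r w (i + 1))) (m (anc G r w i)) -
        rho θ (m' (anc G r w (i + 1))) (m' (anc G r w i))| ≤ L * (D (i + 1) + D i) :=
    fun i _ => hL _ _ _ _ (hm _) (hm _) (hm' _) (hm' _)
  refine (Finset.sum_le_sum h1).trans ?_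
  rw [← Finset.mul_sum, Finset.sum_add_distrib]
  have h2 : ∑ i ∈ Finset.range (G.dist r w), D i ≤ ∑ i ∈ Finset.range (G.dist r w + 1), D i := by
    rw [Finset.sum_range_succ]
    have : 0 ≤ D (G.dist r w) := abs_nonneg _
    linarith
  have h3 : ∑ i ∈ Finset.range (G.dist r w), D (i + 1) ≤
      ∑ i ∈ Finset.range (G.dist r w + 1), D i := by
    rw [Finset.sum_range_succ']
    have : 0 ≤ D 0 := abs_nonneg _
    linarith
  calc L * (∑ i ∈ Finset.range (G.dist r w), D (i + 1) + ∑ i ∈ Finset.range (G.dist r w), D i)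
      ≤ L * (∑ i ∈ Finset.range (G.dist r w + 1), D i +
        ∑ i ∈ Finset.range (G.dist r w + 1), D i) :=
        mul_le_mul_of_nonneg_left (add_le_add h3 h2) hL0
    _ = _ := by ring

include h01 hL in
lemma abs_MM_sub_le (hT : G.IsTree) (h0 : 0 ≤ θ) (hL0 : 0 ≤ L) {m m' : V → ℝ}
    (hm : ∀ x, |m x| ≤ 1) (hm' : ∀ x, |m' x| ≤ 1) (v w : V) :
    |MM G θ m v w - MM G θ m' v w| ≤ θ ^ G.dist v w * ((2 + 2 * L) *
      ∑ i ∈ Finset.range (G.dist v w + 1), |m (anc G v w i) - m' (anc G v w i)|) := by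
  have h1 := rprod_mem (G := G) h01 hm v w
  have h1' := rprod_mem (G := G) h01 hm' v w
  have h2 := abs_rprod_sub_le (G := G) h01 hL hL0 hm hm' v w
  set R := rprod G θ m v w
  set R' := rprod G θ m' v w
  set D : ℕ → ℝ := fun i => |m (anc G v w i) - m' (anc G v w i)| with hD
  have h3 : |m v - m' v| ≤ ∑ i ∈ Finset.range (G.dist v w + 1), D i := by
    have h4 : |m v - m' v| = D (G.dist v w) := by
      simp only [hD]
      rw [anc_last hT]
    rw [h4]
    exact Finset.single_le_sum (f := D) (fun i _ => abs_nonneg _)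
      (Finset.mem_range.2 (Nat.lt_succ_self _))
  have h4 : |m v ^ 2 - m' v ^ 2| ≤ 2 * |m v - m' v| := by
    have : m v ^ 2 - m' v ^ 2 = (m v + m' v) * (m v - m' v) := by ring
    rw [this, abs_mul]
    refine mul_le_mul_of_nonneg_right ?_ (abs_nonneg _)
    exact (abs_add_le _ _).trans (by linarith [hm v, hm' v])
  have h5 : 0 ≤ 1 - m' v ^ 2 ∧ 1 - m' v ^ 2 ≤ 1 := by
    have := (sq_le_one_iff_abs_le_one _).2 (hm' v)
    exact ⟨by linarith, by linarith [sq_nonneg (m' v)]⟩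
  unfold MM
  have h6 : (1 - m v ^ 2) * θ ^ G.dist v w * R - (1 - m' v ^ 2) * θ ^ G.dist v w * R' =
      θ ^ G.dist v w * (-(m v ^ 2 - m' v ^ 2) * R + (1 - m' v ^ 2) * (R - R')) := by ring
  rw [h6, abs_mul, abs_of_nonneg (pow_nonneg h0 _)]
  refine mul_le_mul_of_nonneg_left ?_ (pow_nonneg h0 _)
  refine (abs_add_le _ _).trans ?_
  rw [abs_mul, abs_mul, abs_neg, abs_of_nonneg h1.1, abs_of_nonneg h5.1]
  have h7 : |m v ^ 2 - m' v ^ 2| * R ≤ |m v ^ 2 - m' v ^ 2| :=
    mul_le_of_le_one_right (abs_nonneg _) h1.2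
  have h8 : (1 - m' v ^ 2) * |R - R'| ≤ |R - R'| :=
    mul_le_of_le_one_left (abs_nonneg _) h5.2
  nlinarith

include h01 hL in
lemma sq_MM_sub_le (hT : G.IsTree) (h0 : 0 ≤ θ) (hL0 : 0 ≤ L) {m m' : V → ℝ}
    (hm : ∀ x, |m x| ≤ 1) (hm' : ∀ x, |m' x| ≤ 1) (v w : V) :
    (MM G θ m v w - MM G θ m' v w) ^ 2 ≤ (2 + 2 * L) ^ 2 * (((G.dist v w : ℝ) + 1) *
      θ ^ (2 * G.dist v w) *
      ∑ i ∈ Finset.range (G.dist v w + 1), (m (anc G v w i) - m' (anc G v w i)) ^ 2) := by
  have h1 := abs_MM_sub_le (G := G) h01 hL hT h0 hL0 hm hm' v w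
  set D : ℕ → ℝ := fun i => |m (anc G v w i) - m' (anc G v w i)| with hD
  have h2 : (∑ i ∈ Finset.range (G.dist v w + 1), D i) ^ 2 ≤
      ((G.dist v w : ℝ) + 1) * ∑ i ∈ Finset.range (G.dist v w + 1), D i ^ 2 := by
    have := sq_sum_le_card_mul_sum_sq (s := Finset.range (G.dist v w + 1)) (f := D)
    rw [Finset.card_range] at this
    push_cast at this
    exact this
  have h3 : (MM G θ m v w - MM G θ m' v w) ^ 2 ≤ (θ ^ G.dist v w * ((2 + 2 * L) *
      ∑ i ∈ Finset.range (G.dist v w + 1), D i)) ^ 2 := by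
    rw [← sq_abs]
    exact pow_le_pow_left₀ (abs_nonneg _) h1 2
  refine h3.trans ?_
  have h4 : ∀ i, D i ^ 2 = (m (anc G v w i) - m' (anc G v w i)) ^ 2 := fun i => sq_abs _
  simp only [← h4]
  have h5 : (θ ^ G.dist v w * ((2 + 2 * L) * ∑ i ∈ Finset.range (G.dist v w + 1), D i)) ^ 2 =
      (2 + 2 * L) ^ 2 * (θ ^ (2 * G.dist v w) *
        (∑ i ∈ Finset.range (G.dist v w + 1), D i) ^ 2) := by ring
  rw [h5]
  refine mul_le_mul_of_nonneg_left ?_ (sq_nonneg _)
  calc θ ^ (2 * G.dist v w) * (∑ i ∈ Finset.range (G.dist v w + 1), D i) ^ 2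
      ≤ θ ^ (2 * G.dist v w) *
        (((G.dist v w : ℝ) + 1) * ∑ i ∈ Finset.range (G.dist v w + 1), D i ^ 2) :=
        mul_le_mul_of_nonneg_left h2 (pow_nonneg h0 _)
    _ = _ := by ring

end

end Crest.Agent.R160.Kern
end

-- ▼ part R160/Clock
section

/-! Row 160: the clock lemma and the increment inequality (C5). -/

set_option autoImplicit false
set_option linter.unusedSectionVars false

open MeasureTheory Finset
open scoped Classical ENNReal

namespace Crest.Agent.R160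

/-! ### Lipschitz bound for the relative jump -/

lemma TT_lip {s s' z : ℝ} (hs : |s| ≤ 1 / 2) (hs' : |s'| ≤ 1 / 2) (hz : |z| ≤ 1) :
    |TT s z - TT s' z| ≤ |s - s'| := by
  have h1 : |s| ≤ 1 := by linarith
  have h1' : |s'| ≤ 1 := by linarith
  have q := TT_quad h1 hz
  have q' := TT_quad h1' hz
  have b := abs_TT_le h1 hz
  have b' := abs_TT_le h1' hz
  set T := TT s z
  set T' := TT s' z
  have key : (T - T') * (1 + s' * (T + T') / 2) = (s - s') * ((1 - T ^ 2) / 2) := by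
    have : T + s * (T ^ 2 - 1) / 2 - (T' + s' * (T' ^ 2 - 1) / 2) = 0 := by rw [q, q']; ring
    linear_combination this
  have h2 : |s' * (T + T') / 2| ≤ 1 / 2 := by
    rw [abs_div, abs_mul, abs_two, div_le_iff₀ (by norm_num)]
    have h3 : |T + T'| ≤ 2 := (abs_add_le _ _).trans (by linarith)
    calc |s'| * |T + T'| ≤ 1 / 2 * 2 := by gcongr
      _ = 1 / 2 * 2 := rfl
  have h3 : 1 / 2 ≤ 1 + s' * (T + T') / 2 := by linarith [(abs_le.mp h2).1]
  have h4 : |(T - T') * (1 + s' * (T + T') / 2)| = |T - T'| * (1 + s' * (T + T') / 2) := by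
    rw [abs_mul, abs_of_pos (by linarith : 0 < 1 + s' * (T + T') / 2)]
  have h5 : |(s - s') * ((1 - T ^ 2) / 2)| ≤ |s - s'| * (1 / 2) := by
    rw [abs_mul]
    refine mul_le_mul_of_nonneg_left ?_ (abs_nonneg _)
    have h6 : T ^ 2 ≤ 1 := by rw [← sq_abs]; exact pow_le_one₀ (abs_nonneg _) b
    rw [abs_of_nonneg (by linarith)]
    linarith [sq_nonneg T]
  rw [← key, h4] at h5
  nlinarith [abs_nonneg (T - T')]

lemma rel_lip {a m m' z : ℝ} (ha0 : 0 ≤ a) (ha : a ≤ 1 / 2) (hm : |m| ≤ 1) (hm' : |m'| ≤ 1)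
    (hz : |z| ≤ 1) :
    |(a * TT (a * m) z) / (1 + m * (a * TT (a * m) z))
      - (a * TT (a * m') z) / (1 + m' * (a * TT (a * m') z))| ≤ 8 * a ^ 2 * |m - m'| := by
  have hs : |a * m| ≤ 1 / 2 := by
    rw [abs_mul, abs_of_nonneg ha0]; nlinarith [abs_nonneg m]
  have hs' : |a * m'| ≤ 1 / 2 := by
    rw [abs_mul, abs_of_nonneg ha0]; nlinarith [abs_nonneg m']
  have hL := TT_lip hs hs' hz
  have b := abs_TT_le (hs.trans (by norm_num)) hz
  have b' := abs_TT_le (hs'.trans (by norm_num)) hz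
  set T := TT (a * m) z
  set T' := TT (a * m') z
  have e1 : |a * m - a * m'| = a * |m - m'| := by
    rw [← mul_sub, abs_mul, abs_of_nonneg ha0]
  rw [e1] at hL
  have hb : |a * T| ≤ 1 / 2 := by
    rw [abs_mul, abs_of_nonneg ha0]; nlinarith [abs_nonneg T]
  have hb' : |a * T'| ≤ 1 / 2 := by
    rw [abs_mul, abs_of_nonneg ha0]; nlinarith [abs_nonneg T']
  have p := one_add_pos hm hb
  have p' := one_add_pos hm' hb'
  have hp : 0 < 1 + m * (a * T) := by linarith
  have hp' : 0 < 1 + m' * (a * T') := by linarith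
  rw [div_sub_div _ _ hp.ne' hp'.ne', abs_div, abs_of_pos (mul_pos hp hp'),
    div_le_iff₀ (mul_pos hp hp')]
  have e2 : a * T * (1 + m' * (a * T')) - (1 + m * (a * T)) * (a * T')
      = a * ((T - T') - a * (m - m') * (T * T')) := by ring
  rw [e2, abs_mul, abs_of_nonneg ha0]
  have h1 : |(T - T') - a * (m - m') * (T * T')| ≤ 2 * (a * |m - m'|) := by
    refine (abs_sub _ _).trans ?_
    have : |a * (m - m') * (T * T')| ≤ a * |m - m'| := by
      rw [abs_mul, abs_mul, abs_of_nonneg ha0, abs_mul T]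
      have : |T| * |T'| ≤ 1 := mul_le_one₀ b (abs_nonneg _) b'
      nlinarith [mul_nonneg ha0 (abs_nonneg (m - m'))]
    linarith
  have h2 : 1 / 4 ≤ (1 + m * (a * T)) * (1 + m' * (a * T')) := by nlinarith
  have h3 : 0 ≤ a ^ 2 * |m - m'| := by positivity
  nlinarith

variable {V : Type*} (G : SimpleGraph V) {θ θ' : ℝ} (S S' : Finset V)

/-! ### spins outside the volume -/

lemma cov_of_not_mem (hθ : |θ| < 1) {E : Finset (Ev V)} {o : Ev V → ℝ} (ho : ∀ e ∈ E, |o e| < 1)
    (v : V) {x : V} (hx : x ∉ S) : cov G θ S E o v x = 0 := by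
  have hs : ∀ A ∈ S.powerset, sg A x = -1 := fun A hA => by
    unfold sg
    rw [if_neg fun h => hx (Finset.mem_powerset.mp hA h)]
  have hZ := (ZZ_pos G S hθ ho).ne'
  have h1 : mean G θ S E o (fun A => sg A v * sg A x) = - mm G θ S E o v := by
    unfold mm mean
    rw [← neg_div]
    congr 1
    unfold num
    rw [← Finset.sum_neg_distrib]
    refine Finset.sum_congr rfl fun A hA => ?_
    beta_reduce
    rw [hs A hA]; ring
  have h2 : mm G θ S E o x = -1 := by
    unfold mm mean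
    have : num G θ S E o (fun A => sg A x) = - ZZ G θ S E o := by
      unfold ZZ num
      rw [← Finset.sum_neg_distrib]
      refine Finset.sum_congr rfl fun A hA => ?_
      beta_reduce
      rw [hs A hA]; ring
    rw [this, neg_div, div_self hZ]
  unfold cov
  rw [h1, h2]
  ring

lemma ct_of_not_mem (hθ : |θ| < 1) (E : Finset (Ev V)) (ω : Om V) (t : ℝ) (v : V) {x : V}
    (hx : x ∉ S) : ct G θ S E ω t v x = 0 :=
  cov_of_not_mem G S hθ (fun e _ => obs_lt_one G S hθ E ω e) v hx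

/-- the integrand of the increment inequality -/
noncomputable def qq (G : SimpleGraph V) (θ : ℝ) (S : Finset V) (E : Finset (Ev V)) (θ' : ℝ)
    (S' : Finset V) (E' : Finset (Ev V)) (v x : V) (ω : Om V) (r : ℝ) : ℝ :=
  (ct G θ S E ω r v x - ct G θ' S' E' ω r v x) ^ 2
    + (ct G θ S E ω r v x) ^ 2 * (mt G θ S E ω r x - mt G θ' S' E' ω r x) ^ 2

lemma qq_nonneg (E E' : Finset (Ev V)) (v x : V) (ω : Om V) (r : ℝ) :
    0 ≤ qq G θ S E θ' S' E' v x ω r := by unfold qq; positivity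

lemma jp_sg (E : Finset (Ev V)) (ω : Om V) (e : Ev V) (v : V) :
    jp G θ S E ω e (fun A => sg A v) = ct G θ S E ω (tm ω e) v e.1 * rj G θ S E ω e := rfl

lemma rj_of_mem {E : Finset (Ev V)} {ω : Om V} {e : Ev V} (he : e ∈ E) :
    rj G θ S E ω e = (st ω e * TT (st ω e * mt G θ S E ω (tm ω e) e.1) (nz ω e))
      / (1 + mt G θ S E ω (tm ω e) e.1
        * (st ω e * TT (st ω e * mt G θ S E ω (tm ω e) e.1) (nz ω e))) := by
  unfold rj; rw [obs_of_mem G θ S he]

/-- pointwise bound for the difference of two jumps -/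
theorem dj_sq_le (hθ : |θ| < 1) (hθ' : |θ'| < 1) {E E' : Finset (Ev V)}
    (h1 : ∀ e ∈ E, e.1 ∈ S' → e ∈ E') (h2 : ∀ e ∈ E', e.1 ∈ S → e ∈ E) (v : V) (ω : Om V)
    (e : Ev V) :
    (dj G θ S E θ' S' E' ω e (fun A => sg A v) (fun A => sg A v)) ^ 2
      ≤ 32 * (st ω e) ^ 2 * qq G θ S E θ' S' E' v e.1 ω (tm ω e) := by
  have ha0 := st_nonneg ω e
  have ha := st_le ω e
  have hq1 : 0 ≤ (ct G θ S E ω (tm ω e) v e.1) ^ 2
      * (mt G θ S E ω (tm ω e) e.1 - mt G θ' S' E' ω (tm ω e) e.1) ^ 2 := by positivity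
  have hr : (rj G θ S E ω e) ^ 2 ≤ 4 * (st ω e) ^ 2 := by
    rw [← sq_abs]
    have := abs_rj_le G S hθ E ω e
    nlinarith [abs_nonneg (rj G θ S E ω e)]
  have hr' : (rj G θ' S' E' ω e) ^ 2 ≤ 4 * (st ω e) ^ 2 := by
    rw [← sq_abs]
    have := abs_rj_le G S' hθ' E' ω e
    nlinarith [abs_nonneg (rj G θ' S' E' ω e)]
  unfold dj qq
  rw [jp_sg, jp_sg]
  by_cases he : e ∈ E
  · by_cases he' : e ∈ E'
    · have hL : |rj G θ S E ω e - rj G θ' S' E' ω e| ≤ 8 * (st ω e) ^ 2
          * |mt G θ S E ω (tm ω e) e.1 - mt G θ' S' E' ω (tm ω e) e.1| := by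
        rw [rj_of_mem G S he, rj_of_mem G S' he']
        exact rel_lip ha0 ha (abs_mt_le G S hθ E ω _ _) (abs_mt_le G S' hθ' E' ω _ _) (nz_mem ω e)
      have hL2 : (rj G θ S E ω e - rj G θ' S' E' ω e) ^ 2 ≤ 16 * (st ω e) ^ 2
          * (mt G θ S E ω (tm ω e) e.1 - mt G θ' S' E' ω (tm ω e) e.1) ^ 2 := by
        rw [← sq_abs, ← sq_abs (mt G θ S E ω (tm ω e) e.1 - mt G θ' S' E' ω (tm ω e) e.1)]
        have h3 := pow_le_pow_left₀ (abs_nonneg _) hL 2
        refine h3.trans ?_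
        have h4 : (st ω e) ^ 2 ≤ 1 / 4 := by nlinarith
        have h5 : 0 ≤ (st ω e) ^ 2
          * |mt G θ S E ω (tm ω e) e.1 - mt G θ' S' E' ω (tm ω e) e.1| ^ 2 := by positivity
        nlinarith
      set C := ct G θ S E ω (tm ω e) v e.1
      set C' := ct G θ' S' E' ω (tm ω e) v e.1
      set r := rj G θ S E ω e
      set r' := rj G θ' S' E' ω e
      set M := mt G θ S E ω (tm ω e) e.1
      set M' := mt G θ' S' E' ω (tm ω e) e.1
      have e1 : C * r - C' * r' = (C - C') * r' + C * (r - r') := by ring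
      have e2 : (C * r - C' * r') ^ 2 ≤ 2 * ((C - C') ^ 2 * r' ^ 2) + 2 * (C ^ 2 * (r - r') ^ 2) := by
        rw [e1]
        nlinarith [sq_nonneg ((C - C') * r' - C * (r - r'))]
      have e3 : (C - C') ^ 2 * r' ^ 2 ≤ (C - C') ^ 2 * (4 * (st ω e) ^ 2) :=
        mul_le_mul_of_nonneg_left hr' (sq_nonneg _)
      have e4 : C ^ 2 * (r - r') ^ 2 ≤ C ^ 2 * (16 * (st ω e) ^ 2 * (M - M') ^ 2) :=
        mul_le_mul_of_nonneg_left hL2 (sq_nonneg _)
      have e5 : 0 ≤ (C - C') ^ 2 * (st ω e) ^ 2 := by positivity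
      nlinarith
    · have hx : e.1 ∉ S' := fun hc => he' (h1 e he hc)
      rw [ct_of_not_mem G S' hθ' E' ω _ v hx, zero_mul, sub_zero, sub_zero, mul_pow]
      have e3 := mul_le_mul_of_nonneg_left hr (sq_nonneg (ct G θ S E ω (tm ω e) v e.1))
      have e5 : 0 ≤ (ct G θ S E ω (tm ω e) v e.1) ^ 2 * (st ω e) ^ 2 := by positivity
      have e6 : 0 ≤ (st ω e) ^ 2 := by positivity
      nlinarith [mul_nonneg e6 hq1]
  · by_cases he' : e ∈ E'
    · have hx : e.1 ∉ S := fun hc => he (h2 e he' hc)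
      rw [ct_of_not_mem G S hθ E ω _ v hx]
      have e3 := mul_le_mul_of_nonneg_left hr' (sq_nonneg (ct G θ' S' E' ω (tm ω e) v e.1))
      have e5 : 0 ≤ (ct G θ' S' E' ω (tm ω e) v e.1) ^ 2 * (st ω e) ^ 2 := by positivity
      nlinarith
    · rw [rj_of_not_mem G S he, rj_of_not_mem G S' he']
      have e6 : 0 ≤ (st ω e) ^ 2 := by positivity
      have e7 : 0 ≤ (ct G θ S E ω (tm ω e) v e.1 - ct G θ' S' E' ω (tm ω e) v e.1) ^ 2 := by
        positivity
      nlinarith [mul_nonneg e6 hq1, mul_nonneg e6 e7]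

/-! ### the clock lemma -/

lemma clk_update_same (ω : Om V) (e : Ev V) (p : unitInterval × unitInterval) :
    clk (Function.update ω e p) e = p.1 := by unfold clk; rw [Function.update_self]

lemma tm_update_same (ω : Om V) (e : Ev V) (p : unitInterval × unitInterval) :
    tm (Function.update ω e p) e = (e.2 : ℝ) + p.1 := by
  unfold tm; rw [clk_update_same]

lemma volume_half : (volume : Measure (unitInterval × unitInterval))
    {p | (1:ℝ) / 2 ≤ (p.1 : ℝ)} = 1 / 2 := by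
  have h : {p : unitInterval × unitInterval | (1:ℝ) / 2 ≤ (p.1 : ℝ)}
      = (Set.Ici ⟨1 / 2, by norm_num, by norm_num⟩ : Set unitInterval) ×ˢ Set.univ := by
    ext p
    simp only [Set.mem_ofPred_eq, Set.mem_prod, Set.mem_Ici, Set.mem_univ, and_true]
    rfl
  rw [h, Measure.volume_eq_prod, Measure.prod_prod, measure_univ, mul_one, unitInterval.volume_Ici]
  simp only
  rw [show (1:ℝ) - 1 / 2 = 1 / 2 by norm_num, ENNReal.ofReal_div_of_pos (by norm_num)]
  simp

/-- half of the time the event is inactive -/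
lemma lintegral_le_two_mul (e : Ev V) (q qe : Om V → ℝ≥0∞) (hqe : Measurable qe)
    (h2 : ∀ ω, st ω e = 0 → q ω = qe ω)
    (h3 : ∀ ω p, qe (Function.update ω e p) = qe ω) :
    ∫⁻ ω, qe ω ∂(PP V) ≤ 2 * ∫⁻ ω, q ω ∂(PP V) := by
  have hmp := mp_update (V := V) e
  have hset : MeasurableSet {ω : Om V | (1:ℝ) / 2 ≤ clk ω e} :=
    measurableSet_le measurable_const (measurable_clk e)
  have hset' : MeasurableSet {p : unitInterval × unitInterval | (1:ℝ) / 2 ≤ (p.1 : ℝ)} :=
    measurableSet_le measurable_const (measurable_subtype_coe.comp measurable_fst)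
  have h4 : ∫⁻ ω, Set.indicator {ω : Om V | (1:ℝ) / 2 ≤ clk ω e} qe ω ∂(PP V)
      = (1 / 2) * ∫⁻ ω, qe ω ∂(PP V) := by
    have hcomp : Measurable (fun a : Om V × (unitInterval × unitInterval) =>
        Set.indicator {ω : Om V | (1:ℝ) / 2 ≤ clk ω e} qe (Function.update a.1 e a.2)) :=
      (hqe.indicator hset).comp hmp.measurable
    rw [← hmp.lintegral_comp (hqe.indicator hset), lintegral_prod _ hcomp.aemeasurable]
    rw [← lintegral_const_mul _ hqe]
    refine lintegral_congr fun ω => ?_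
    have h5 : ∀ p : unitInterval × unitInterval,
        Set.indicator {ω : Om V | (1:ℝ) / 2 ≤ clk ω e} qe (Function.update ω e p)
        = Set.indicator {p : unitInterval × unitInterval | (1:ℝ) / 2 ≤ (p.1 : ℝ)}
          (fun _ => qe ω) p := by
      intro p
      by_cases hp : (1:ℝ) / 2 ≤ (p.1 : ℝ)
      · rw [Set.indicator_of_mem, Set.indicator_of_mem, h3]
        · exact hp
        · show (1:ℝ) / 2 ≤ clk (Function.update ω e p) e
          rw [clk_update_same]; exact hp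
      · rw [Set.indicator_of_notMem, Set.indicator_of_notMem]
        · exact hp
        · show ¬ ((1:ℝ) / 2 ≤ clk (Function.update ω e p) e)
          rw [clk_update_same]; exact hp
    simp only [h5]
    rw [lintegral_indicator_const hset', volume_half, mul_comm]
  have h5 : ∫⁻ ω, Set.indicator {ω : Om V | (1:ℝ) / 2 ≤ clk ω e} qe ω ∂(PP V)
      ≤ ∫⁻ ω, q ω ∂(PP V) := by
    refine lintegral_mono fun ω => ?_
    by_cases hω : (1:ℝ) / 2 ≤ clk ω e
    · rw [Set.indicator_of_mem (by exact hω), h2 ω (st_zero_of_clk hω)]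
    · rw [Set.indicator_of_notMem (by exact hω)]; exact zero_le
  rw [h4] at h5
  calc ∫⁻ ω, qe ω ∂(PP V) = 2 * ((1 / 2) * ∫⁻ ω, qe ω ∂(PP V)) := by
        rw [← mul_assoc, ENNReal.mul_div_cancel (by norm_num) (by norm_num), one_mul]
    _ ≤ 2 * ∫⁻ ω, q ω ∂(PP V) := by gcongr

/-- **clock lemma** -/
theorem clock_lemma (e : Ev V) (q qe : Om V → ℝ → ℝ≥0∞) (hq : Measurable (Function.uncurry q))
    (hqe : Measurable (Function.uncurry qe))
    (h1 : ∀ ω, q ω (tm ω e) = qe ω (tm ω e))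
    (h2 : ∀ ω r, st ω e = 0 → q ω r = qe ω r)
    (h3 : ∀ ω p r, qe (Function.update ω e p) r = qe ω r) (s t : ℝ) :
    ∫⁻ ω, (if s ≤ tm ω e ∧ tm ω e < t then q ω (tm ω e) else 0) ∂(PP V)
      ≤ 2 * ∫⁻ r in Set.Icc s t, ∫⁻ ω, q ω r ∂(PP V) := by
  have hmp := mp_update (V := V) e
  have hqtm : Measurable fun ω : Om V => q ω (tm ω e) := by
    have := hq.comp (measurable_pair_tm e)
    exact this
  have hF : Measurable fun ω : Om V => if s ≤ tm ω e ∧ tm ω e < t then q ω (tm ω e) else 0 := by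
    refine Measurable.ite ?_ hqtm measurable_const
    exact (measurableSet_le measurable_const (measurable_tm e)).inter
      (measurableSet_lt (measurable_tm e) measurable_const)
  have hcomp : Measurable (fun a : Om V × (unitInterval × unitInterval) =>
      if s ≤ tm (Function.update a.1 e a.2) e ∧ tm (Function.update a.1 e a.2) e < t
        then q (Function.update a.1 e a.2) (tm (Function.update a.1 e a.2) e) else 0) :=
    hF.comp hmp.measurable
  rw [← hmp.lintegral_comp hF, lintegral_prod_symm _ hcomp.aemeasurable]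
  -- the inner integral as a function of the clock
  set Q : ℝ → ℝ≥0∞ := fun r => if s ≤ r ∧ r < t then ∫⁻ ω, qe ω r ∂(PP V) else 0 with hQ
  have hqe' : Measurable fun r : ℝ => ∫⁻ ω, qe ω r ∂(PP V) := hqe.lintegral_prod_left'
  have hQm : Measurable Q := by
    refine Measurable.ite ?_ hqe' measurable_const
    exact (measurableSet_le measurable_const measurable_id).inter
      (measurableSet_lt measurable_id measurable_const)
  have hin : ∀ p : unitInterval × unitInterval,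
      ∫⁻ ω, (if s ≤ tm (Function.update ω e p) e ∧ tm (Function.update ω e p) e < t
        then q (Function.update ω e p) (tm (Function.update ω e p) e) else 0) ∂(PP V)
      = Q ((e.2 : ℝ) + p.1) := by
    intro p
    have hp : ∀ ω : Om V, q (Function.update ω e p) (tm (Function.update ω e p) e)
        = qe ω ((e.2 : ℝ) + p.1) := fun ω => by rw [h1, h3, tm_update_same]
    simp only [hp]
    simp only [tm_update_same, hQ]
    split_ifs
    · rfl
    · rw [lintegral_zero]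
  simp only [hin]
  rw [Measure.volume_eq_prod, lintegral_prod _ (by fun_prop)]
  simp only [lintegral_const, measure_univ, mul_one]
  have hm := unitInterval.measurePreserving_coe
  have he := unitInterval.measurableEmbedding_coe
  have e1 : ∫⁻ u : unitInterval, Q ((e.2 : ℝ) + (u : ℝ)) = ∫⁻ u in Set.Icc (0:ℝ) 1, Q ((e.2 : ℝ) + u) := by
    rw [← hm.lintegral_comp_emb he (fun u => Q ((e.2 : ℝ) + u))]
  rw [e1]
  calc ∫⁻ u in Set.Icc (0:ℝ) 1, Q ((e.2 : ℝ) + u) ≤ ∫⁻ u, Q ((e.2 : ℝ) + u) :=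
        setLIntegral_le_lintegral _ _
    _ = ∫⁻ r, Q r := lintegral_add_left_eq_self _ _
    _ ≤ ∫⁻ r, Set.indicator (Set.Icc s t) (fun r => 2 * ∫⁻ ω, q ω r ∂(PP V)) r := by
        refine lintegral_mono fun r => ?_
        simp only [hQ]
        split_ifs with hr
        · have hr' : r ∈ Set.Icc s t := ⟨hr.1, hr.2.le⟩
          rw [Set.indicator_of_mem hr']
          exact lintegral_le_two_mul e (fun ω => q ω r) (fun ω => qe ω r)
            (hqe.comp (measurable_pair_const r)) (fun ω => h2 ω r) (fun ω p => h3 ω p r)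
        · exact zero_le
    _ = ∫⁻ r in Set.Icc s t, 2 * ∫⁻ ω, q ω r ∂(PP V) := lintegral_indicator measurableSet_Icc _
    _ = 2 * ∫⁻ r in Set.Icc s t, ∫⁻ ω, q ω r ∂(PP V) := by
        have hq' : Measurable fun r : ℝ => ∫⁻ ω, q ω r ∂(PP V) := hq.lintegral_prod_left'
        rw [lintegral_const_mul _ hq']

end Crest.Agent.R160
end

-- ▼ part R160/Incr
section

/-! Row 160: the increment inequality (C5) in sup form. -/

set_option autoImplicit false
set_option linter.unusedSectionVars false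

open MeasureTheory Finset
open scoped Classical ENNReal

namespace Crest.Agent.R160

variable {V : Type*} (G : SimpleGraph V) {θ θ' : ℝ} (S S' : Finset V)

lemma ct_congr_of_mnt {G : SimpleGraph V} {θ : ℝ} {S : Finset V} {E E' : Finset (Ev V)}
    {ω ω' : Om V} {r : ℝ}
    (h : ∀ f : Finset V → ℝ, mnt G θ S E ω r f = mnt G θ S E' ω' r f) (v x : V) :
    ct G θ S E ω r v x = ct G θ S E' ω' r v x := by
  rw [ct_eq_mnt, ct_eq_mnt, h, h, h]

lemma qq_congr {G : SimpleGraph V} {θ θ' : ℝ} {S S' : Finset V} {E E' F F' : Finset (Ev V)}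
    {ω ω' : Om V} {r : ℝ}
    (h : ∀ f : Finset V → ℝ, mnt G θ S E ω r f = mnt G θ S F ω' r f)
    (h' : ∀ f : Finset V → ℝ, mnt G θ' S' E' ω r f = mnt G θ' S' F' ω' r f) (v x : V) :
    qq G θ S E θ' S' E' v x ω r = qq G θ S F θ' S' F' v x ω' r := by
  unfold qq
  rw [ct_congr_of_mnt h, ct_congr_of_mnt h', mt_eq_mnt, mt_eq_mnt, h, h', ← mt_eq_mnt, ← mt_eq_mnt]

lemma measurable_qq_joint (G : SimpleGraph V) (θ : ℝ) (S : Finset V) (E : Finset (Ev V)) (θ' : ℝ)
    (S' : Finset V) (E' : Finset (Ev V)) (v x : V) :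
    Measurable fun p : Om V × ℝ => qq G θ S E θ' S' E' v x p.1 p.2 := by
  unfold qq
  have h1 := measurable_ct_joint G θ S E v x
  have h2 := measurable_ct_joint G θ' S' E' v x
  have h3 := measurable_mt_joint G θ S E x
  have h4 := measurable_mt_joint G θ' S' E' x
  exact ((h1.sub h2).pow_const 2).add ((h1.pow_const 2).mul ((h3.sub h4).pow_const 2))

lemma qq_le (hθ : |θ| < 1) (hθ' : |θ'| < 1) (E E' : Finset (Ev V)) (v x : V) (ω : Om V) (r : ℝ) :
    qq G θ S E θ' S' E' v x ω r ≤ 32 := by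
  have h1 := abs_ct_le G S hθ E ω r v x
  have h2 := abs_ct_le G S' hθ' E' ω r v x
  have h3 := abs_mt_le G S hθ E ω r x
  have h4 := abs_mt_le G S' hθ' E' ω r x
  unfold qq
  have e1 : |ct G θ S E ω r v x - ct G θ' S' E' ω r v x| ≤ 4 := (abs_sub _ _).trans (by linarith)
  have e2 : |mt G θ S E ω r x - mt G θ' S' E' ω r x| ≤ 2 := (abs_sub _ _).trans (by linarith)
  have e3 := pow_le_pow_left₀ (abs_nonneg _) e1 2
  have e4 := pow_le_pow_left₀ (abs_nonneg _) e2 2
  have e5 := pow_le_pow_left₀ (abs_nonneg _) h1 2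
  rw [sq_abs] at e3 e4 e5
  nlinarith [sq_nonneg (ct G θ S E ω r v x), sq_nonneg (mt G θ S E ω r x - mt G θ' S' E' ω r x)]

/-- clock lemma for `qq` -/
lemma clock_qq (hθ : |θ| < 1) (hθ' : |θ'| < 1) (E E' : Finset (Ev V)) (v x : V) (e : Ev V)
    (s t : ℝ) :
    ∫⁻ ω, (if s ≤ tm ω e ∧ tm ω e < t
        then ENNReal.ofReal (qq G θ S E θ' S' E' v x ω (tm ω e)) else 0) ∂(PP V)
      ≤ 2 * ∫⁻ r in Set.Icc s t, ∫⁻ ω, ENNReal.ofReal (qq G θ S E θ' S' E' v x ω r) ∂(PP V) := by
  refine clock_lemma e (fun ω r => ENNReal.ofReal (qq G θ S E θ' S' E' v x ω r))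
    (fun ω r => ENNReal.ofReal (qq G θ S (E.erase e) θ' S' (E'.erase e) v x ω r)) ?_ ?_ ?_ ?_ ?_ s t
  · exact (measurable_qq_joint G θ S E θ' S' E' v x).ennreal_ofReal
  · exact (measurable_qq_joint G θ S (E.erase e) θ' S' (E'.erase e) v x).ennreal_ofReal
  · intro ω
    congr 1
    exact qq_congr (fun f => (mnt_erase_of_le G θ S le_rfl f).symm)
      (fun f => (mnt_erase_of_le G θ' S' le_rfl f).symm) v x
  · intro ω r h
    congr 1
    exact qq_congr (fun f => (mnt_erase_of_inactive G S hθ h r f).symm)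
      (fun f => (mnt_erase_of_inactive G S' hθ' h r f).symm) v x
  · intro ω p r
    congr 1
    refine qq_congr (fun f => ?_) (fun f => ?_) v x
    · exact mnt_congr_noise G θ S (fun e' he' => Function.update_of_ne (Finset.ne_of_mem_erase he') _ _)
        r f
    · exact mnt_congr_noise G θ' S' (fun e' he' => Function.update_of_ne (Finset.ne_of_mem_erase he') _ _)
        r f

/-- in a window inside the first half of round `k` only round `k` events are active -/
lemma round_of_window {ω : Om V} {e : Ev V} {k : ℕ} {s t : ℝ} (hs : (k : ℝ) ≤ s)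
    (ht : t ≤ k + 1 / 2) (h : s ≤ tm ω e ∧ tm ω e < t) (hne : e.2 ≠ k) : st ω e = 0 := by
  obtain ⟨h1, h2⟩ := h
  have hc := clk_mem ω e
  unfold tm at h1 h2
  rcases Nat.lt_or_gt_of_ne hne with h | h
  · -- `e.2 < k`: the clock is `1`
    have : ((e.2 : ℕ) : ℝ) + 1 ≤ k := by exact_mod_cast h
    exact st_zero_of_clk (by linarith)
  · have : (k : ℝ) + 1 ≤ (e.2 : ℕ) := by exact_mod_cast h
    linarith

lemma st_le_of_window {ω : Om V} {e : Ev V} {k : ℕ} {s t : ℝ}
    (h : s ≤ tm ω e ∧ tm ω e < t) (he : e.2 = k) :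
    st ω e ≤ (if k = 0 then t / 2 else 1 / 2) := by
  obtain ⟨h1, h2⟩ := h
  have hc := clk_mem ω e
  unfold tm at h1 h2
  unfold st str
  rw [he] at h2 ⊢
  by_cases hk : k = 0
  · subst hk
    simp only [if_true]
    push_cast at h2
    split_ifs <;> linarith
  · simp only [if_neg hk]
    split_ifs <;> norm_num

/-- **(C5), the increment inequality in sup form** -/
theorem incr_sup (hθ : |θ| < 1) (hθ' : |θ'| < 1) (R : ℕ) (v : V) (k : ℕ) {s t : ℝ}
    (hs : (k : ℝ) ≤ s) (hst : s ≤ t) (ht : t ≤ k + 1 / 2) (B : ℝ)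
    (hB : ∀ r, s ≤ r → r ≤ t → ∑ w ∈ S ∪ S',
      ∫ ω, qq G θ S (evs S R) θ' S' (evs S' R) v w ω r ∂(PP V) ≤ B) :
    ∫ ω, (mt G θ S (evs S R) ω t v - mt G θ' S' (evs S' R) ω t v) ^ 2 ∂(PP V)
      ≤ ∫ ω, (mt G θ S (evs S R) ω s v - mt G θ' S' (evs S' R) ω s v) ^ 2 ∂(PP V)
        + 100 * (if k = 0 then t / 2 else 1 / 2) ^ 2 * (t - s) * B := by
  set E := evs S R with hE
  set E' := evs S' R with hE'
  set a : ℝ := if k = 0 then t / 2 else 1 / 2 with ha
  have hk0 : (0:ℝ) ≤ k := Nat.cast_nonneg k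
  have ha0 : 0 ≤ a := by
    rw [ha]; split_ifs
    · linarith
    · norm_num
  have hB0 : 0 ≤ B := by
    refine le_trans (Finset.sum_nonneg fun w _ => ?_) (hB s le_rfl hst)
    exact integral_nonneg fun ω => qq_nonneg G S S' E E' v w ω s
  have h1 : ∀ e ∈ E, e.1 ∈ S' → e ∈ E' := by
    intro e he hx
    rw [hE] at he
    rw [hE']
    unfold evs at he ⊢
    rw [Finset.mem_product] at he ⊢
    exact ⟨hx, he.2⟩
  have h2 : ∀ e ∈ E', e.1 ∈ S → e ∈ E := by
    intro e he hx
    rw [hE'] at he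
    rw [hE]
    unfold evs at he ⊢
    rw [Finset.mem_product] at he ⊢
    exact ⟨hx, he.2⟩
  have hf : ∀ A : Finset V, |sg A v| ≤ 1 := fun A => (abs_sg A v).le
  -- the energy identity
  have hen := energy G S S' hθ hθ' E E' hst hf hf
  have hen' : ∫ ω, (mt G θ S E ω t v - mt G θ' S' E' ω t v) ^ 2 ∂(PP V)
      = ∫ ω, (mt G θ S E ω s v - mt G θ' S' E' ω s v) ^ 2 ∂(PP V)
        + ∑ e ∈ E ∪ E', ∫ ω, (wj G θ S E θ' S' E' s t (fun A => sg A v) (fun A => sg A v) e ω) ^ 2
          ∂(PP V) := hen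
  rw [hen']
  refine add_le_add le_rfl ?_
  -- window integrals
  set I : V → ℝ := fun x => ∫ ω, (if s ≤ tm ω (x, k) ∧ tm ω (x, k) < t
        then qq G θ S E θ' S' E' v x ω (tm ω (x, k)) else 0) ∂(PP V) with hI
  have hIm : ∀ x, Measurable fun ω : Om V => (if s ≤ tm ω (x, k) ∧ tm ω (x, k) < t
        then qq G θ S E θ' S' E' v x ω (tm ω (x, k)) else 0) := by
    intro x
    have hqm : Measurable fun ω : Om V => qq G θ S E θ' S' E' v x ω (tm ω (x, k)) := by
      have := (measurable_qq_joint G θ S E θ' S' E' v x).comp (measurable_pair_tm (x, k))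
      exact this
    exact measurable_window hqm (x, k) s t
  have hIi : ∀ x, Integrable (fun ω : Om V => (if s ≤ tm ω (x, k) ∧ tm ω (x, k) < t
        then qq G θ S E θ' S' E' v x ω (tm ω (x, k)) else 0)) (PP V) := by
    intro x
    refine intg_of_bdd (hIm x) (C := 32) fun ω => ?_
    refine abs_window_le ?_ _
    rw [abs_of_nonneg (qq_nonneg G S S' E E' v x ω _)]
    exact qq_le G S S' hθ hθ' E E' v x ω _
  -- each event
  have hev : ∀ e ∈ E ∪ E', ∫ ω, (wj G θ S E θ' S' E' s t (fun A => sg A v) (fun A => sg A v) e ω) ^ 2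
      ∂(PP V) ≤ if e.2 = k then 32 * a ^ 2 * I e.1 else 0 := by
    intro e _
    by_cases hek : e.2 = k
    · rw [if_pos hek]
      have hee : e = (e.1, k) := by rw [← hek]
      rw [hI]
      beta_reduce
      rw [← integral_const_mul]
      refine integral_mono ?_ ((hIi e.1).const_mul _) fun ω => ?_
      · refine intg_of_bdd ((measurable_wj _ _ _ _ _ _ _ _ _ _ _ e).pow_const 2)
          (C := 4 ^ 2) fun ω => ?_
        rw [abs_pow]
        refine pow_le_pow_left₀ (abs_nonneg _) ?_ 2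
        unfold wj
        refine abs_window_le ?_ _
        have := abs_dj_le G S S' hθ hθ' E E' ω e hf hf
        linarith
      · beta_reduce
        rw [← hee]
        unfold wj
        by_cases hw : s ≤ tm ω e ∧ tm ω e < t
        · rw [if_pos hw, if_pos hw]
          refine (dj_sq_le G S S' hθ hθ' h1 h2 v ω e).trans ?_
          have h3 := st_le_of_window hw hek
          have h4 := st_nonneg ω e
          have h5 : (st ω e) ^ 2 ≤ a ^ 2 := pow_le_pow_left₀ h4 h3 2
          have h6 := qq_nonneg (θ := θ) (θ' := θ') G S S' E E' v e.1 ω (tm ω e)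
          gcongr
        · rw [if_neg hw, if_neg hw]
          norm_num
    · rw [if_neg hek]
      have : ∀ ω : Om V, (wj G θ S E θ' S' E' s t (fun A => sg A v) (fun A => sg A v) e ω) ^ 2 = 0 := by
        intro ω
        unfold wj
        by_cases hw : s ≤ tm ω e ∧ tm ω e < t
        · rw [if_pos hw]
          have h3 := dj_sq_le (θ := θ) (θ' := θ') G S S' hθ hθ' h1 h2 v ω e
          rw [round_of_window hs ht hw hek] at h3
          have h4 := sq_nonneg (dj G θ S E θ' S' E' ω e (fun A => sg A v) (fun A => sg A v))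
          have h5 : 32 * (0:ℝ) ^ 2 * qq G θ S E θ' S' E' v e.1 ω (tm ω e) = 0 := by ring
          rw [h5] at h3
          exact le_antisymm h3 h4
        · rw [if_neg hw]; norm_num
      simp only [this, integral_zero, le_refl]
  have hI0 : ∀ x, 0 ≤ I x := fun x => integral_nonneg fun ω => by
    beta_reduce
    split_ifs
    · exact qq_nonneg G S S' E E' v x ω _
    · exact le_rfl
  have hsum1 : ∑ e ∈ E ∪ E', (if e.2 = k then 32 * a ^ 2 * I e.1 else 0)
      ≤ ∑ x ∈ S ∪ S', 32 * a ^ 2 * I x := by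
    rw [← Finset.sum_filter]
    have hinj : Set.InjOn (fun e : Ev V => e.1) ((E ∪ E').filter fun e => e.2 = k) := by
      intro e he e' he' h
      have h1 := (Finset.mem_filter.mp (Finset.mem_coe.mp he)).2
      have h2 := (Finset.mem_filter.mp (Finset.mem_coe.mp he')).2
      exact Prod.ext h (h1.trans h2.symm)
    rw [← Finset.sum_image (f := fun x => 32 * a ^ 2 * I x) hinj]
    refine Finset.sum_le_sum_of_subset_of_nonneg ?_ fun x _ _ =>
      mul_nonneg (by positivity) (hI0 x)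
    intro x hx
    rw [Finset.mem_image] at hx
    obtain ⟨e, he, rfl⟩ := hx
    have h3 := (Finset.mem_filter.mp he).1
    rw [Finset.mem_union] at h3 ⊢
    rcases h3 with h3 | h3
    · left
      rw [hE] at h3
      unfold evs at h3
      exact (Finset.mem_product.mp h3).1
    · right
      rw [hE'] at h3
      unfold evs at h3
      exact (Finset.mem_product.mp h3).1
  -- the clock lemma
  have hsum2 : ∑ x ∈ S ∪ S', I x ≤ 2 * (B * (t - s)) := by
    have hnn : ∀ x, 0 ≤ᵐ[PP V] fun ω : Om V => (if s ≤ tm ω (x, k) ∧ tm ω (x, k) < t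
        then qq G θ S E θ' S' E' v x ω (tm ω (x, k)) else 0) := fun x =>
      Filter.Eventually.of_forall fun ω => by
        beta_reduce
        split_ifs
        · exact qq_nonneg G S S' E E' v x ω _
        · exact le_rfl
    have e1 : ∀ x, ENNReal.ofReal (I x)
        = ∫⁻ ω, (if s ≤ tm ω (x, k) ∧ tm ω (x, k) < t
        then ENNReal.ofReal (qq G θ S E θ' S' E' v x ω (tm ω (x, k))) else 0) ∂(PP V) := by
      intro x
      rw [hI]
      beta_reduce
      rw [ofReal_integral_eq_lintegral_ofReal (hIi x) (hnn x)]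
      refine lintegral_congr fun ω => ?_
      split_ifs
      · rfl
      · exact ENNReal.ofReal_zero
    have e2 : ENNReal.ofReal (∑ x ∈ S ∪ S', I x) ≤ ENNReal.ofReal (2 * (B * (t - s))) := by
      rw [ENNReal.ofReal_sum_of_nonneg fun x _ => hI0 x]
      calc ∑ x ∈ S ∪ S', ENNReal.ofReal (I x)
          ≤ ∑ x ∈ S ∪ S', 2 * ∫⁻ r in Set.Icc s t, ∫⁻ ω,
              ENNReal.ofReal (qq G θ S E θ' S' E' v x ω r) ∂(PP V) := by
            refine Finset.sum_le_sum fun x _ => ?_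
            rw [e1 x]
            exact clock_qq G S S' hθ hθ' E E' v x (x, k) s t
        _ = 2 * ∫⁻ r in Set.Icc s t, ∑ x ∈ S ∪ S', ∫⁻ ω,
              ENNReal.ofReal (qq G θ S E θ' S' E' v x ω r) ∂(PP V) := by
            rw [← Finset.mul_sum, lintegral_finsetSum]
            intro x _
            have := (measurable_qq_joint G θ S E θ' S' E' v x).ennreal_ofReal
            exact this.lintegral_prod_left'
        _ ≤ 2 * ∫⁻ r in Set.Icc s t, ENNReal.ofReal B := by
            gcongr 2 * ?_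
            refine setLIntegral_mono measurable_const fun r hr => ?_
            refine le_trans (le_of_eq ?_) (ENNReal.ofReal_le_ofReal (hB r hr.1 hr.2))
            rw [ENNReal.ofReal_sum_of_nonneg fun x _ => integral_nonneg fun ω =>
              qq_nonneg G S S' E E' v x ω r]
            refine Finset.sum_congr rfl fun x _ => ?_
            rw [ofReal_integral_eq_lintegral_ofReal]
            · refine intg_of_bdd (C := 32) ?_ fun ω => ?_
              · have := (measurable_qq_joint G θ S E θ' S' E' v x).comp (measurable_pair_const r)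
                exact this
              · rw [abs_of_nonneg (qq_nonneg G S S' E E' v x ω _)]
                exact qq_le G S S' hθ hθ' E E' v x ω _
            · exact Filter.Eventually.of_forall fun ω => qq_nonneg G S S' E E' v x ω r
        _ = ENNReal.ofReal (2 * (B * (t - s))) := by
            rw [setLIntegral_const, Real.volume_Icc, ENNReal.ofReal_mul (by norm_num),
              ENNReal.ofReal_mul hB0]
            norm_num
    have h5 : 0 ≤ 2 * (B * (t - s)) := by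
      have : 0 ≤ t - s := by linarith
      positivity
    exact (ENNReal.ofReal_le_ofReal_iff h5).mp e2
  calc ∑ e ∈ E ∪ E', ∫ ω, (wj G θ S E θ' S' E' s t (fun A => sg A v) (fun A => sg A v) e ω) ^ 2
        ∂(PP V) ≤ ∑ e ∈ E ∪ E', (if e.2 = k then 32 * a ^ 2 * I e.1 else 0) := Finset.sum_le_sum hev
    _ ≤ ∑ x ∈ S ∪ S', 32 * a ^ 2 * I x := hsum1
    _ = 32 * a ^ 2 * ∑ x ∈ S ∪ S', I x := by rw [Finset.mul_sum]
    _ ≤ 32 * a ^ 2 * (2 * (B * (t - s))) := by gcongr
    _ ≤ 100 * a ^ 2 * (t - s) * B := by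
        have : 0 ≤ a ^ 2 * (t - s) * B := by
          have : 0 ≤ t - s := by linarith
          positivity
        nlinarith

end Crest.Agent.R160
end

-- ▼ part R160/DIface
section

/-! Row 160, module D: the interface to modules B and C (increment inequality, product formula). -/

set_option autoImplicit false
set_option linter.unusedSectionVars false

open MeasureTheory Finset

namespace Crest.Agent.R160.DI

open Crest.Agent.R160 Crest.Agent.R160.TreeAut

open scoped Classical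

variable {V : Type*} {G : SimpleGraph V}

/-- geodesic convexity -/
def GC (G : SimpleGraph V) (S : Finset V) : Prop := ∀ x ∈ S, ∀ y ∈ S, x ≠ y → par G x y ∈ S

theorem cov_eq_MM (hT : G.IsTree) {θ : ℝ} (h0 : 0 ≤ θ) (h1 : θ < 1) {S : Finset V}
    (hS : GC G S) {E : Finset (Ev V)} (hE : ∀ e ∈ E, e.1 ∈ S)
    {o : Ev V → ℝ} (ho : ∀ e ∈ E, |o e| < 1) {v w : V} (hv : v ∈ S) (hw : w ∈ S) :
    cov G θ S E o v w = MM G θ (mm G θ S E o) v w :=
  Crest.Agent.R160.cov_eq_MM hT h0 h1 hS hE ho hv hw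

/-- (C5) -/
theorem diff_incr (G : SimpleGraph V) {θ θ' : ℝ} (h0 : 0 ≤ θ) (h1 : θ < 1) (h0' : 0 ≤ θ')
    (h1' : θ' < 1)
    (S S' : Finset V) (R : ℕ) (v : V) (k : ℕ) {s t : ℝ} (hs : (k : ℝ) ≤ s) (hst : s ≤ t)
    (ht : t ≤ k + 1 / 2) (B : ℝ)
    (hB : ∀ r, s ≤ r → r ≤ t → ∑ w ∈ S ∪ S',
      ∫ ω, ((ct G θ S (evs S R) ω r v w - ct G θ' S' (evs S' R) ω r v w) ^ 2
        + (ct G θ S (evs S R) ω r v w) ^ 2 *
          (mt G θ S (evs S R) ω r w - mt G θ' S' (evs S' R) ω r w) ^ 2) ∂(PP V) ≤ B) :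
    ∫ ω, (mt G θ S (evs S R) ω t v - mt G θ' S' (evs S' R) ω t v) ^ 2 ∂(PP V) ≤
      ∫ ω, (mt G θ S (evs S R) ω s v - mt G θ' S' (evs S' R) ω s v) ^ 2 ∂(PP V)
        + 100 * (if k = 0 then t / 2 else 1 / 2) ^ 2 * (t - s) * B :=
  incr_sup G S S' (by rwa [abs_of_nonneg h0]) (by rwa [abs_of_nonneg h0']) R v k hs hst ht B hB

/-- (C6) -/
theorem diff_mono (G : SimpleGraph V) {θ θ' : ℝ} (h0 : 0 ≤ θ) (h1 : θ < 1) (h0' : 0 ≤ θ')
    (h1' : θ' < 1) (S S' : Finset V) (R : ℕ) (v : V) {s t : ℝ} (hst : s ≤ t) :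
    ∫ ω, (mt G θ S (evs S R) ω s v - mt G θ' S' (evs S' R) ω s v) ^ 2 ∂(PP V) ≤
      ∫ ω, (mt G θ S (evs S R) ω t v - mt G θ' S' (evs S' R) ω t v) ^ 2 ∂(PP V) :=
  mt_diff_mono G S S' (by rwa [abs_of_nonneg h0]) (by rwa [abs_of_nonneg h0']) _ _ hst v

end Crest.Agent.R160.DI
end

-- ▼ part R160/VolStep
section

/-! Row 160, module D: the step inequality for two finite volumes. -/

set_option autoImplicit false
set_option linter.unusedSectionVars false

open MeasureTheory Finset Filter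

namespace Crest.Agent.R160.Vol

open Crest.Agent.R160 Crest.Agent.R160.TreeAut Crest.Agent.R160.Kern Crest.Agent.R160.DI

open scoped Classical

variable {V : Type*} {G : SimpleGraph V}

/-! ### a concatenation lemma -/

lemma concat (f : ℝ → ℝ) (c r₀ r : ℝ) (h0 : 0 ≤ r₀) (hr : r₀ ≤ r)
    (H : ∀ (j : ℕ) (s t : ℝ), (j : ℝ) / 2 ≤ s → s ≤ t → t ≤ ((j : ℝ) + 1) / 2 → r₀ ≤ s → t ≤ r →
      f t ≤ f s + c * (t - s)) : f r ≤ f r₀ + c * (r - r₀) := by
  have key : ∀ n : ℕ, ∀ t, r₀ ≤ t → t ≤ r → t ≤ (n : ℝ) / 2 → f t ≤ f r₀ + c * (t - r₀) := by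
    intro n
    induction n with
    | zero =>
      intro t h1 h2 h3
      have : t = r₀ := by
        have : t ≤ 0 := by simpa using h3
        linarith
      subst this
      simp
    | succ n ih =>
      intro t h1 h2 h3
      rcases le_total t ((n : ℝ) / 2) with h4 | h4
      · exact ih t h1 h2 h4
      · have h5 : f (max r₀ ((n : ℝ) / 2)) ≤ f r₀ + c * (max r₀ ((n : ℝ) / 2) - r₀) := by
          rcases le_total r₀ ((n : ℝ) / 2) with h6 | h6
          · rw [max_eq_right h6]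
            exact ih _ h6 (h4.trans h2) le_rfl
          · rw [max_eq_left h6]
            simp
        have h6 := H n (max r₀ ((n : ℝ) / 2)) t (le_max_right _ _) (max_le h1 h4)
          (by push_cast at h3; linarith) (le_max_left _ _) h2
        linarith
  obtain ⟨n, hn⟩ := exists_nat_gt (2 * r)
  exact key n r hr le_rfl (by linarith)

/-! ### convexity and product formula for the process -/

lemma anc_mem (hT : G.IsTree) {S : Finset V} (hS : GC G S) {v w : V} (hv : v ∈ S) (hw : w ∈ S)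
    (i : ℕ) (hi : i ≤ G.dist v w) : anc G v w i ∈ S := by
  induction i with
  | zero => exact hw
  | succ i ih =>
    have h1 := ih (by omega)
    rw [anc_succ']
    refine hS v hv _ h1 ?_
    intro h
    have h2 := dist_anc hT v w i (by omega)
    rw [← h, SimpleGraph.dist_self] at h2
    omega

lemma GC_bal [G.LocallyFinite] (hT : G.IsTree) (x : V) (n : ℕ) : GC G (bal G x n) := by
  intro v hv w hw hne
  have h1 : 1 ≤ G.dist v w := by
    rcases Nat.eq_zero_or_pos (G.dist v w) with h | h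
    · exact absurd ((hT.connected.dist_eq_zero_iff).1 h) hne
    · exact h
  have h2 := anc_mem_bal hT x n hv hw 1 h1
  rwa [anc_succ', anc_zero] at h2

lemma mem_evs_fst {S : Finset V} {R : ℕ} {e : Ev V} (he : e ∈ evs S R) : e.1 ∈ S := by
  unfold evs at he
  exact (Finset.mem_product.1 he).1

lemma ct_eq_MM (hT : G.IsTree) {θ : ℝ} (h0 : 0 ≤ θ) (h1 : θ < 1) {S : Finset V}
    (hS : GC G S) (R : ℕ) (ω : Om V) (t : ℝ) {v w : V} (hv : v ∈ S) (hw : w ∈ S) :
    ct G θ S (evs S R) ω t v w = MM G θ (fun x => mt G θ S (evs S R) ω t x) v w := by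
  have hθ : |θ| < 1 := by rwa [abs_of_nonneg h0]
  unfold ct
  exact cov_eq_MM hT h0 h1 hS
    (fun e he => mem_evs_fst (before_subset _ _ _ he))
    (fun e _ => obs_lt_one G S hθ _ ω e) hv hw

lemma sg_notMem {A : Finset V} {w : V} (h : w ∉ A) : sg A w = -1 := by
  unfold sg
  rw [if_neg h]

lemma cov_eq_zero {θ : ℝ} (hθ : |θ| < 1) {S : Finset V} {E : Finset (Ev V)} {o : Ev V → ℝ}
    (ho : ∀ e ∈ E, |o e| < 1) {v w : V} (hw : w ∉ S) : cov G θ S E o v w = 0 := by
  have hZ := ZZ_pos G S hθ ho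
  have key : ∀ f : Finset V → ℝ, mean G θ S E o (fun A => f A * sg A w) = - mean G θ S E o f := by
    intro f
    rw [mean_eq_num, mean_eq_num, ← neg_div]
    congr 1
    unfold num
    rw [← Finset.sum_neg_distrib]
    refine Finset.sum_congr rfl fun A hA => ?_
    have : w ∉ A := fun h => hw (Finset.mem_powerset.1 hA h)
    change f A * sg A w * (ew G θ S A * ow E o A) = _
    rw [sg_notMem this]
    ring
  have h1 : mean G θ S E o (fun A => sg A v * sg A w) = - mm G θ S E o v := key _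
  have h2 : mm G θ S E o w = -1 := by
    have h3 := key (fun _ => 1)
    have h4 : mean G θ S E o (fun _ => 1) = 1 := by
      rw [mean_eq_num, ZZ_eq_num]
      exact div_self hZ.ne'
    rw [h4] at h3
    unfold mm
    simpa using h3
  unfold cov
  rw [h1, h2]
  ring

lemma ct_eq_zero {θ : ℝ} (hθ : |θ| < 1) {S : Finset V} (E : Finset (Ev V)) (ω : Om V) (t : ℝ)
    {v w : V} (hw : w ∉ S) : ct G θ S E ω t v w = 0 :=
  cov_eq_zero hθ (fun e _ => obs_lt_one G S hθ _ ω e) hw

/-! ### scalar facts -/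

lemma rho_h01 {θ : ℝ} (h0 : 0 ≤ θ) (h2 : θ ^ 2 ≤ 1 / 2) :
    ∀ a b : ℝ, |a| ≤ 1 → |b| ≤ 1 → 0 ≤ rho θ a b ∧ rho θ a b ≤ 1 :=
  fun _ _ ha hb => ⟨rho_nonneg h0 (theta_lt_one h0 h2) ha hb, rho_le_one h0 h2 ha hb⟩

lemma rho_hL {θ : ℝ} (h0 : 0 ≤ θ) (h2 : θ ^ 2 ≤ 1 / 2) :
    ∀ a b a' b' : ℝ, |a| ≤ 1 → |b| ≤ 1 → |a'| ≤ 1 → |b'| ≤ 1 →
      |rho θ a b - rho θ a' b'| ≤ 10 ^ 5 * (|a - a'| + |b - b'|) := by
  intro a b a' b' ha hb ha' hb'
  have := rho_lip h0 h2 h0 h2 ha hb ha' hb'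
  simpa using this

/-- the constant -/
def KK : ℝ := (2 + 2 * 10 ^ 5) ^ 2 + 1

lemma KK_ge_one : 1 ≤ KK := by unfold KK; norm_num

/-! ### integrability -/

lemma integrable_of_bdd {f : Om V → ℝ} (hf : Measurable f) {C : ℝ} (h : ∀ ω, |f ω| ≤ C) :
    Integrable f (PP V) :=
  Integrable.of_bound hf.aestronglyMeasurable C (Eventually.of_forall h)

/-- mean square difference of two finite-volume magnetizations -/
noncomputable def DF (G : SimpleGraph V) (θ θ' : ℝ) (F F' : Finset V) (t : ℝ) (v : V) : ℝ :=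
  ∫ ω, (mfin G θ F ω t v - mfin G θ' F' ω t v) ^ 2 ∂(PP V)

lemma DF_nonneg (θ θ' : ℝ) (F F' : Finset V) (t : ℝ) (v : V) : 0 ≤ DF G θ θ' F F' t v :=
  integral_nonneg fun _ => sq_nonneg _

lemma DF_zero (θ θ' : ℝ) {F F' : Finset V} {v : V} (hv : v ∈ F) (hv' : v ∈ F') :
    DF G θ θ' F F' 0 v = 0 := by
  unfold DF
  have : ∀ ω : Om V, (mfin G θ F ω 0 v - mfin G θ' F' ω 0 v) ^ 2 = 0 := by
    intro ω
    rw [P2.mfin_zero G θ F ω hv, P2.mfin_zero G θ' F' ω hv']
    ring
  simp only [this, integral_zero]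

lemma DF_eq_mt (θ θ' : ℝ) (F F' : Finset V) {t : ℝ} {R : ℕ} (h : t ≤ R) (v : V) :
    DF G θ θ' F F' t v =
      ∫ ω, (mt G θ F (evs F R) ω t v - mt G θ' F' (evs F' R) ω t v) ^ 2 ∂(PP V) := by
  unfold DF
  simp only [mt_evs G _ h]

lemma DF_mono {θ θ' : ℝ} (h0 : 0 ≤ θ) (h1 : θ < 1) (h0' : 0 ≤ θ') (h1' : θ' < 1)
    (F F' : Finset V) (v : V) {s t : ℝ} (hst : s ≤ t) :
    DF G θ θ' F F' s v ≤ DF G θ θ' F F' t v := by
  rw [DF_eq_mt θ θ' F F' (hst.trans (Nat.le_ceil t)), DF_eq_mt θ θ' F F' (Nat.le_ceil t)]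
  exact diff_mono G h0 h1 h0' h1' F F' _ v hst

lemma sq_diff_le_four {x y : ℝ} (hx : |x| ≤ 1) (hy : |y| ≤ 1) : |(x - y) ^ 2| ≤ 4 := by
  have h1 := abs_le.1 hx
  have h2 := abs_le.1 hy
  rw [abs_of_nonneg (sq_nonneg _)]
  nlinarith

/-! ### the step inequality -/

section step

variable {θ : ℝ}

lemma pointwise_in (hT : G.IsTree) (h0 : 0 ≤ θ) (h2 : θ ^ 2 ≤ 1 / 2) {F F' : Finset V}
    (hFF' : F ⊆ F') (hF : GC G F) (hF' : GC G F') (R : ℕ) (ω : Om V) (t : ℝ) {v w : V}
    (hv : v ∈ F) (hw : w ∈ F) :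
    (ct G θ F (evs F R) ω t v w - ct G θ F' (evs F' R) ω t v w) ^ 2
        + (ct G θ F (evs F R) ω t v w) ^ 2 *
          (mt G θ F (evs F R) ω t w - mt G θ F' (evs F' R) ω t w) ^ 2 ≤
      KK * (((G.dist v w : ℝ) + 1) * θ ^ (2 * G.dist v w) *
        ∑ i ∈ Finset.range (G.dist v w + 1), (mt G θ F (evs F R) ω t (anc G v w i) -
          mt G θ F' (evs F' R) ω t (anc G v w i)) ^ 2) := by
  have h1 := theta_lt_one h0 h2
  have hθ : |θ| < 1 := by rwa [abs_of_nonneg h0]
  rw [ct_eq_MM hT h0 h1 hF R ω t hv hw, ct_eq_MM hT h0 h1 hF' R ω t (hFF' hv) (hFF' hw)]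
  set m : V → ℝ := fun x => mt G θ F (evs F R) ω t x with hm
  set m' : V → ℝ := fun x => mt G θ F' (evs F' R) ω t x with hm'
  have hm1 : ∀ x, |m x| ≤ 1 := fun x => abs_mt_le G F hθ _ ω t x
  have hm1' : ∀ x, |m' x| ≤ 1 := fun x => abs_mt_le G F' hθ _ ω t x
  have e1 := sq_MM_sub_le (G := G) (rho_h01 h0 h2) (rho_hL h0 h2) hT h0 (by norm_num) hm1 hm1' v w
  have e2 := abs_MM_le (G := G) (rho_h01 h0 h2) h0 hm1 v w
  have e3 : (MM G θ m v w) ^ 2 ≤ θ ^ (2 * G.dist v w) := by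
    rw [← sq_abs, mul_comm 2, pow_mul]
    exact pow_le_pow_left₀ (abs_nonneg _) e2 2
  set Sg : ℝ := ∑ i ∈ Finset.range (G.dist v w + 1), (m (anc G v w i) - m' (anc G v w i)) ^ 2
    with hSg
  have e4 : (m w - m' w) ^ 2 ≤ Sg := by
    have : (m w - m' w) ^ 2 = (m (anc G v w 0) - m' (anc G v w 0)) ^ 2 := by rw [anc_zero]
    rw [this]
    exact Finset.single_le_sum (f := fun i => (m (anc G v w i) - m' (anc G v w i)) ^ 2)
      (fun i _ => sq_nonneg _) (Finset.mem_range.2 (Nat.succ_pos _))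
  have hp : 0 ≤ θ ^ (2 * G.dist v w) := pow_nonneg h0 _
  have hSg0 : 0 ≤ Sg := Finset.sum_nonneg fun i _ => sq_nonneg _
  have e5 : (MM G θ m v w) ^ 2 * (m w - m' w) ^ 2 ≤
      ((G.dist v w : ℝ) + 1) * θ ^ (2 * G.dist v w) * Sg := by
    calc (MM G θ m v w) ^ 2 * (m w - m' w) ^ 2 ≤ θ ^ (2 * G.dist v w) * Sg :=
          mul_le_mul e3 e4 (sq_nonneg _) hp
      _ ≤ ((G.dist v w : ℝ) + 1) * (θ ^ (2 * G.dist v w) * Sg) := by
          refine le_mul_of_one_le_left (mul_nonneg hp hSg0) ?_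
          have : (0 : ℝ) ≤ (G.dist v w : ℝ) := Nat.cast_nonneg _
          linarith
      _ = _ := by ring
  have e6 : KK * (((G.dist v w : ℝ) + 1) * θ ^ (2 * G.dist v w) * Sg) =
      (2 + 2 * 10 ^ 5) ^ 2 * (((G.dist v w : ℝ) + 1) * θ ^ (2 * G.dist v w) * Sg) +
        ((G.dist v w : ℝ) + 1) * θ ^ (2 * G.dist v w) * Sg := by
    unfold KK
    ring
  rw [e6]
  exact add_le_add e1 e5

lemma pointwise_out (hT : G.IsTree) (h0 : 0 ≤ θ) (h2 : θ ^ 2 ≤ 1 / 2) {F F' : Finset V}
    (hFF' : F ⊆ F') (hF' : GC G F') (R : ℕ) (ω : Om V) (t : ℝ) {v w : V}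
    (hv : v ∈ F) (hw : w ∉ F) (hw' : w ∈ F') :
    (ct G θ F (evs F R) ω t v w - ct G θ F' (evs F' R) ω t v w) ^ 2
        + (ct G θ F (evs F R) ω t v w) ^ 2 *
          (mt G θ F (evs F R) ω t w - mt G θ F' (evs F' R) ω t w) ^ 2 ≤
      KK * θ ^ (2 * G.dist v w) := by
  have h1 := theta_lt_one h0 h2
  have hθ : |θ| < 1 := by rwa [abs_of_nonneg h0]
  rw [ct_eq_zero hθ _ ω t hw, ct_eq_MM hT h0 h1 hF' R ω t (hFF' hv) hw']
  have hm1' : ∀ x, |mt G θ F' (evs F' R) ω t x| ≤ 1 := fun x => abs_mt_le G F' hθ _ ω t x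
  have e2 := abs_MM_le (G := G) (rho_h01 h0 h2) h0 hm1' v w
  have e3 : (MM G θ (fun x => mt G θ F' (evs F' R) ω t x) v w) ^ 2 ≤ θ ^ (2 * G.dist v w) := by
    rw [← sq_abs, mul_comm 2, pow_mul]
    exact pow_le_pow_left₀ (abs_nonneg _) e2 2
  have hp : 0 ≤ θ ^ (2 * G.dist v w) := pow_nonneg h0 _
  have e4 : θ ^ (2 * G.dist v w) ≤ KK * θ ^ (2 * G.dist v w) :=
    le_mul_of_one_le_left hp KK_ge_one
  calc _ = (MM G θ (fun x => mt G θ F' (evs F' R) ω t x) v w) ^ 2 := by ring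
    _ ≤ _ := e3.trans e4

/-- the right hand side of the step inequality -/
noncomputable def rhs (G : SimpleGraph V) (θ : ℝ) (F F' : Finset V) (D : V → ℝ) (v : V) : ℝ :=
  ∑ w ∈ F, ((G.dist v w : ℝ) + 1) * θ ^ (2 * G.dist v w) *
    ∑ i ∈ Finset.range (G.dist v w + 1), D (anc G v w i) +
    ∑ w ∈ F' \ F, θ ^ (2 * G.dist v w)

lemma rhs_mono (h0 : 0 ≤ θ) (F F' : Finset V) {D D' : V → ℝ} (h : ∀ x, D x ≤ D' x) (v : V) :
    rhs G θ F F' D v ≤ rhs G θ F F' D' v := by
  unfold rhs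
  refine add_le_add (Finset.sum_le_sum fun w _ => ?_) le_rfl
  refine mul_le_mul_of_nonneg_left (Finset.sum_le_sum fun i _ => h _) ?_
  have : 0 ≤ θ ^ (2 * G.dist v w) := pow_nonneg h0 _
  positivity

lemma sum_integral_le (hT : G.IsTree) (h0 : 0 ≤ θ) (h2 : θ ^ 2 ≤ 1 / 2) {F F' : Finset V}
    (hFF' : F ⊆ F') (hF : GC G F) (hF' : GC G F') {R : ℕ} {t : ℝ} (ht : t ≤ R) {v : V}
    (hv : v ∈ F) :
    ∑ w ∈ F ∪ F', ∫ ω, ((ct G θ F (evs F R) ω t v w - ct G θ F' (evs F' R) ω t v w) ^ 2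
        + (ct G θ F (evs F R) ω t v w) ^ 2 *
          (mt G θ F (evs F R) ω t w - mt G θ F' (evs F' R) ω t w) ^ 2) ∂(PP V) ≤
      KK * rhs G θ F F' (DF G θ θ F F' t) v := by
  have h1 := theta_lt_one h0 h2
  have hθ : |θ| < 1 := by rwa [abs_of_nonneg h0]
  have hK : (0 : ℝ) ≤ KK := le_trans zero_le_one KK_ge_one
  have hu : F ∪ F' = F ∪ (F' \ F) := by
    rw [Finset.union_sdiff_self_eq_union]
  rw [hu, Finset.sum_union Finset.disjoint_sdiff]
  unfold rhs
  rw [mul_add, Finset.mul_sum, Finset.mul_sum]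
  have hmeas : ∀ w, Measurable fun ω : Om V =>
      (mt G θ F (evs F R) ω t w - mt G θ F' (evs F' R) ω t w) ^ 2 := fun w =>
    ((measurable_mt G θ F _ t w).sub (measurable_mt G θ F' _ t w)).pow_const 2
  have hbd : ∀ w, ∀ ω : Om V,
      |(mt G θ F (evs F R) ω t w - mt G θ F' (evs F' R) ω t w) ^ 2| ≤ 4 := fun w ω =>
    sq_diff_le_four (abs_mt_le G F hθ _ ω t w) (abs_mt_le G F' hθ _ ω t w)
  have hmeasc : ∀ w, Measurable fun ω : Om V =>
      (ct G θ F (evs F R) ω t v w - ct G θ F' (evs F' R) ω t v w) ^ 2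
        + (ct G θ F (evs F R) ω t v w) ^ 2 *
          (mt G θ F (evs F R) ω t w - mt G θ F' (evs F' R) ω t w) ^ 2 := fun w =>
    (((measurable_ct G θ F _ t v w).sub (measurable_ct G θ F' _ t v w)).pow_const 2).add
      (((measurable_ct G θ F _ t v w).pow_const 2).mul (hmeas w))
  have hnn : ∀ w, ∀ ω : Om V, 0 ≤
      (ct G θ F (evs F R) ω t v w - ct G θ F' (evs F' R) ω t v w) ^ 2
        + (ct G θ F (evs F R) ω t v w) ^ 2 *
          (mt G θ F (evs F R) ω t w - mt G θ F' (evs F' R) ω t w) ^ 2 := fun w ω => by positivity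
  refine add_le_add (Finset.sum_le_sum fun w hw => ?_) (Finset.sum_le_sum fun w hw => ?_)
  · have hint : Integrable (fun ω : Om V => KK * (((G.dist v w : ℝ) + 1) * θ ^ (2 * G.dist v w) *
        ∑ i ∈ Finset.range (G.dist v w + 1), (mt G θ F (evs F R) ω t (anc G v w i) -
          mt G θ F' (evs F' R) ω t (anc G v w i)) ^ 2)) (PP V) := by
      refine Integrable.const_mul (Integrable.const_mul ?_ _) _
      exact integrable_finsetSum _ fun i _ => integrable_of_bdd (hmeas _) (hbd _)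
    have e1 := integral_mono_of_nonneg (μ := PP V) (Eventually.of_forall (hnn w)) hint
      (Eventually.of_forall fun ω => pointwise_in hT h0 h2 hFF' hF hF' R ω t hv hw)
    refine e1.trans (le_of_eq ?_)
    rw [integral_const_mul, integral_const_mul, integral_finsetSum _
      fun i _ => integrable_of_bdd (hmeas _) (hbd _)]
    simp only [DF_eq_mt θ θ F F' ht]
  · rw [Finset.mem_sdiff] at hw
    have e1 := integral_mono_of_nonneg (μ := PP V) (Eventually.of_forall (hnn w))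
      (integrable_const (KK * θ ^ (2 * G.dist v w)))
      (Eventually.of_forall fun ω => pointwise_out hT h0 h2 hFF' hF' R ω t hv hw.2 hw.1)
    refine e1.trans (le_of_eq ?_)
    simp

lemma coef_le (k : ℕ) {t : ℝ} (h0 : 0 ≤ t) (ht : t ≤ k + 1 / 2) :
    100 * (if k = 0 then t / 2 else 1 / 2) ^ 2 ≤ (25 : ℝ) := by
  split_ifs with h
  · subst h
    have : t ≤ 1 / 2 := by simpa using ht
    nlinarith
  · norm_num

/-- **The step inequality.** -/
theorem step_ineq (hT : G.IsTree) (h0 : 0 ≤ θ) (h2 : θ ^ 2 ≤ 1 / 2) {F F' : Finset V}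
    (hFF' : F ⊆ F') (hF : GC G F) (hF' : GC G F') {r₀ r : ℝ} (hr0 : 0 ≤ r₀) (hr : r₀ ≤ r)
    {v : V} (hv : v ∈ F) :
    DF G θ θ F F' r v ≤ DF G θ θ F F' r₀ v +
      (25 * KK) * (r - r₀) * rhs G θ F F' (DF G θ θ F F' r) v := by
  have h1 := theta_lt_one h0 h2
  have hK : (0 : ℝ) ≤ KK := le_trans zero_le_one KK_ge_one
  have hD0 : ∀ x, 0 ≤ DF G θ θ F F' r x := fun x => DF_nonneg _ _ _ _ _ _
  have hr1 : 0 ≤ rhs G θ F F' (DF G θ θ F F' r) v := by
    unfold rhs
    refine add_nonneg (Finset.sum_nonneg fun w _ => ?_) (Finset.sum_nonneg fun w _ => ?_)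
    · have : 0 ≤ θ ^ (2 * G.dist v w) := pow_nonneg h0 _
      have h3 : 0 ≤ ∑ i ∈ Finset.range (G.dist v w + 1), DF G θ θ F F' r (anc G v w i) :=
        Finset.sum_nonneg fun i _ => hD0 _
      positivity
    · exact pow_nonneg h0 _
  set B : ℝ := KK * rhs G θ F F' (DF G θ θ F F' r) v with hB
  have hB0 : 0 ≤ B := mul_nonneg hK hr1
  have key := concat (fun t => DF G θ θ F F' t v) (25 * B) r₀ r hr0 hr ?_
  · refine key.trans (le_of_eq ?_)
    rw [hB]
    ring
  · intro j s t hjs hst htj hrs htr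
    rcases Nat.even_or_odd' j with ⟨k, hk | hk⟩
    · have hks : (k : ℝ) ≤ s := by
        rw [hk] at hjs
        push_cast at hjs
        linarith
      have hkt : t ≤ (k : ℝ) + 1 / 2 := by
        rw [hk] at htj
        push_cast at htj
        linarith
      have ht0 : t ≤ (⌈t⌉₊ : ℝ) := Nat.le_ceil t
      have e1 := diff_incr G h0 h1 h0 h1 F F' ⌈t⌉₊ v k hks hst hkt B ?_
      · simp only [DF_eq_mt θ θ F F' ht0, DF_eq_mt θ θ F F' (hst.trans ht0)]
        refine e1.trans ?_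
        have e2 := coef_le k (by linarith : (0 : ℝ) ≤ t) hkt
        have e3 : 100 * (if k = 0 then t / 2 else 1 / 2) ^ 2 * (t - s) * B ≤
            25 * (t - s) * B := by
          refine mul_le_mul_of_nonneg_right (mul_le_mul_of_nonneg_right e2 ?_) hB0
          linarith
        linarith
      · intro q hq1 hq2
        refine (sum_integral_le hT h0 h2 hFF' hF hF' (hq2.trans ht0) hv).trans ?_
        rw [hB]
        refine mul_le_mul_of_nonneg_left ?_ hK
        exact rhs_mono h0 F F' (fun x => DF_mono h0 h1 h0 h1 F F' x (hq2.trans htr)) v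
    · have hks : (k : ℝ) + 1 / 2 ≤ s := by
        rw [hk] at hjs
        push_cast at hjs
        linarith
      have hkt : t ≤ (k : ℝ) + 1 := by
        rw [hk] at htj
        push_cast at htj
        linarith
      have e1 : DF G θ θ F F' t v = DF G θ θ F F' s v := by
        unfold DF
        refine integral_congr_ae (Eventually.of_forall fun ω => ?_)
        simp only [P2.mfin_idle G θ F hks hst hkt, P2.mfin_idle G θ F' hks hst hkt]
      simp only [e1]
      have : 0 ≤ 25 * B * (t - s) := mul_nonneg (by linarith) (by linarith)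
      linarith

end step

/-- **Exponential convergence of the finite volume magnetizations.** -/
theorem exists_DF_le [G.LocallyFinite] [Infinite V] (hT : G.IsTree) {b : ℕ} (hb : 2 ≤ b)
    (hreg : G.IsRegularOfDegree (b + 1)) {θ : ℝ} (h0 : 0 ≤ θ) (h1 : (b : ℝ) * θ ^ 2 < 1) {T : ℝ}
    (hTT : 0 ≤ T) :
    ∃ c γ : ℝ, 0 ≤ c ∧ 0 < γ ∧ γ < 1 ∧ ∀ (F F' : Finset V), F ⊆ F' → GC G F → GC G F' →
      ∀ t, 0 ≤ t → t ≤ T → ∀ v ∈ F, DF G θ θ F F' t v ≤ c * γ ^ (rad G F v) := by
  have hb' : (2 : ℝ) ≤ b := by exact_mod_cast hb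
  have h2 : θ ^ 2 ≤ 1 / 2 := by nlinarith [sq_nonneg θ]
  set γ : ℝ := ((b : ℝ) * θ ^ 2 + 1) / 2 with hγ
  have hγ1 : γ < 1 := by rw [hγ]; linarith
  have hγ0 : 0 < γ := by rw [hγ]; positivity
  have hd : (((b + 1 : ℕ) : ℝ) - 1) * θ ^ 2 < γ := by
    push_cast
    rw [hγ]
    linarith
  have hK : (0 : ℝ) ≤ KK := le_trans zero_le_one KK_ge_one
  obtain ⟨c, hc0, hc⟩ := exists_volume_gronwall (V := V) hT hreg (by omega) (C := 25 * KK) (T := T)
    hγ1 hd (by positivity) hTT
  refine ⟨c, γ, hc0, hγ0, hγ1, ?_⟩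
  intro F F' hFF' hF hF' t ht0 htT v hv
  refine hc F F' hFF' (fun v hv w hw i hi => anc_mem hT hF hv hw i hi)
    (fun t v => DF G θ θ F F' t v) ?_ ?_ t ht0 htT v hv
  · intro x hx
    exact (DF_zero θ θ hx (hFF' hx)).le
  · intro r₀ r hr0 hr _ x hx
    exact step_ineq hT h0 h2 hFF' hF hF' hr0 hr hx

end Crest.Agent.R160.Vol
end

-- ▼ part R160/VolLim

/-! Row 160, module D: infinite-volume limit of the finite-volume magnetizations. -/

set_option autoImplicit false
set_option linter.unusedSectionVars false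

open MeasureTheory Finset Filter Topology

namespace Crest.Agent.R160.Vol

open Crest.Agent.R160 Crest.Agent.R160.TreeAut Crest.Agent.R160.Kern Crest.Agent.R160.DI

open scoped Classical

variable {V : Type*} {G : SimpleGraph V} [G.LocallyFinite]

lemma infinite_of_regular (hT : G.IsTree) {b : ℕ} (hb : 1 ≤ b)
    (hreg : G.IsRegularOfDegree (b + 1)) : Infinite V := by
  obtain ⟨v⟩ : Nonempty V := hT.connected.nonempty
  have h : ∀ n : ℕ, ∃ w, w ∈ sph G v n := fun n => sph_nonempty hT hb hreg v n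
  choose f hf using h
  refine Infinite.of_injective f fun n m hnm => ?_
  have h1 := (mem_sph hT v (f n) n).1 (hf n)
  have h2 := (mem_sph hT v (f m) m).1 (hf m)
  rw [hnm, h2] at h1
  exact h1.symm

lemma sq_bound_mfin {θ θ' : ℝ} (hθ : |θ| < 1) (hθ' : |θ'| < 1) (F F' : Finset V) (t : ℝ) (v : V)
    (ω : Om V) : |(mfin G θ F ω t v - mfin G θ' F' ω t v) ^ 2| ≤ 4 :=
  sq_diff_le_four (abs_mfin_le G hθ F ω t v) (abs_mfin_le G hθ' F' ω t v)

/-- `L¹` norm is bounded by the `L²` norm. -/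
lemma integral_abs_le_sqrt {f : Om V → ℝ} (hf : Measurable f) {C : ℝ} (hC : ∀ ω, |f ω| ≤ C) :
    ∫ ω, |f ω| ∂(PP V) ≤ Real.sqrt (∫ ω, (f ω) ^ 2 ∂(PP V)) := by
  have hi1 : Integrable (fun ω => |f ω|) (PP V) :=
    integrable_of_bdd hf.abs (C := C) fun ω => by rw [abs_abs]; exact hC ω
  have hi2 : Integrable (fun ω => (f ω) ^ 2) (PP V) :=
    integrable_of_bdd (hf.pow_const 2) (C := C ^ 2) fun ω => by
      rw [abs_of_nonneg (sq_nonneg _), ← sq_abs]
      exact pow_le_pow_left₀ (abs_nonneg _) (hC ω) 2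
  apply Real.le_sqrt_of_sq_le
  set a := ∫ ω, |f ω| ∂(PP V) with ha
  have h1 : 0 ≤ ∫ ω, (|f ω| - a) ^ 2 ∂(PP V) := integral_nonneg fun _ => sq_nonneg _
  have h2 : ∫ ω, (|f ω| - a) ^ 2 ∂(PP V) = ∫ ω, (f ω) ^ 2 ∂(PP V) - a ^ 2 := by
    have h3 : ∀ ω, (|f ω| - a) ^ 2 = (f ω) ^ 2 - 2 * a * |f ω| + a ^ 2 := by
      intro ω
      rw [← sq_abs (f ω)]
      ring
    have h4 : Integrable (fun ω => (f ω) ^ 2 - 2 * a * |f ω|) (PP V) :=
      hi2.sub (hi1.const_mul (2 * a))
    have h5 : ∫ ω, (|f ω| - a) ^ 2 ∂(PP V) = ∫ ω, ((f ω) ^ 2 - 2 * a * |f ω| + a ^ 2) ∂(PP V) :=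
      integral_congr_ae (Eventually.of_forall h3)
    rw [h5, integral_add h4 (integrable_const _),
      integral_sub hi2 (hi1.const_mul (2 * a)), integral_const_mul, ← ha]
    simp
    ring
  linarith

/-- abbreviation: the approximating sequence -/
lemma measurable_app (θ t : ℝ) (v : V) (n : ℕ) :
    Measurable fun ω : Om V => mfin G θ (bal G v n) ω t v := measurable_mfin G θ _ t v

section

variable {θ : ℝ} {c γ : ℝ} {T : ℝ}

/-- a.e. convergence from the exponential bound -/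
lemma ae_tendsto_minf [Infinite V] (hT : G.IsTree) (hθ : |θ| < 1) (hγ : 0 < γ) (hγ1 : γ < 1)
    (hc : 0 ≤ c) {t : ℝ} (v : V)
    (H : ∀ n m : ℕ, n ≤ m → DF G θ θ (bal G v n) (bal G v m) t v ≤ c * γ ^ n) :
    ∀ᵐ ω ∂(PP V), Tendsto (fun n => mfin G θ (bal G v n) ω t v) atTop (𝓝 (minf G θ t v ω)) := by
  have hs : Summable fun n => ∫ ω, |mfin G θ (bal G v n) ω t v -
      mfin G θ (bal G v (n + 1)) ω t v| ∂(PP V) := by
    have hg : Summable fun n : ℕ => Real.sqrt c * (Real.sqrt γ) ^ n := by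
      refine Summable.mul_left _ (summable_geometric_of_lt_one (Real.sqrt_nonneg _) ?_)
      rw [Real.sqrt_lt' one_pos]
      simpa using hγ1
    refine Summable.of_nonneg_of_le (fun n => integral_nonneg fun _ => abs_nonneg _) ?_ hg
    intro n
    refine (integral_abs_le_sqrt ((measurable_app θ t v n).sub (measurable_app θ t v (n + 1)))
      (C := 2) fun ω => ?_).trans ?_
    · have h1 := abs_le.1 (abs_mfin_le G hθ (bal G v n) ω t v)
      have h2 := abs_le.1 (abs_mfin_le G hθ (bal G v (n + 1)) ω t v)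
      change |mfin G θ (bal G v n) ω t v - mfin G θ (bal G v (n + 1)) ω t v| ≤ 2
      rw [abs_le]
      constructor <;> linarith
    · have h1 := H n (n + 1) (Nat.le_succ n)
      unfold DF at h1
      refine (Real.sqrt_le_sqrt h1).trans (le_of_eq ?_)
      rw [Real.sqrt_mul hc]
      congr 1
      rw [Real.sqrt_eq_iff_mul_self_eq (by positivity) (by positivity), ← mul_pow,
        Real.mul_self_sqrt hγ.le]
  have h1 := ae_tendsto_of_summable (P := PP V) (m := fun n ω => mfin G θ (bal G v n) ω t v)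
    (fun n => measurable_app θ t v n) (fun n ω => abs_mfin_le G hθ _ ω t v) hs
  filter_upwards [h1] with ω hω
  obtain ⟨l, hl⟩ := hω
  unfold minf
  rwa [hl.limsup_eq]

/-- the `L²` bound for the limit -/
lemma integral_minf_le [Infinite V] (hT : G.IsTree) (h0 : 0 ≤ θ) (h1 : θ < 1) (hγ : 0 < γ)
    (hγ1 : γ < 1) (hc : 0 ≤ c) {t : ℝ} (v : V)
    (H : ∀ n m : ℕ, n ≤ m → DF G θ θ (bal G v n) (bal G v m) t v ≤ c * γ ^ n) (n : ℕ) :
    ∫ ω, (mfin G θ (bal G v n) ω t v - minf G θ t v ω) ^ 2 ∂(PP V) ≤ c * γ ^ n := by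
  have hθ : |θ| < 1 := by rwa [abs_of_nonneg h0]
  have hae := ae_tendsto_minf hT hθ hγ hγ1 hc v H
  have hlim : Tendsto (fun m => DF G θ θ (bal G v n) (bal G v m) t v) atTop
      (𝓝 (∫ ω, (mfin G θ (bal G v n) ω t v - minf G θ t v ω) ^ 2 ∂(PP V))) := by
    unfold DF
    refine tendsto_integral_of_dominated_convergence (fun _ => 4) ?_ (integrable_const _) ?_ ?_
    · intro m
      exact (((measurable_app θ t v n).sub (measurable_app θ t v m)).pow_const 2).aestronglyMeasurable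
    · intro m
      exact Eventually.of_forall fun ω => sq_bound_mfin hθ hθ _ _ t v ω
    · filter_upwards [hae] with ω hω
      exact (tendsto_const_nhds.sub hω).pow 2
  refine le_of_tendsto hlim ?_
  filter_upwards [eventually_ge_atTop n] with m hm
  exact H n m hm

end

lemma DF_tri
    {f g h : Om V → ℝ} (hf : Measurable f) (hg : Measurable g) (hh : Measurable h)
    (bf : ∀ ω, |f ω| ≤ 1) (bg : ∀ ω, |g ω| ≤ 1) (bh : ∀ ω, |h ω| ≤ 1) :
    ∫ ω, (f ω - h ω) ^ 2 ∂(PP V) ≤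
      2 * ∫ ω, (f ω - g ω) ^ 2 ∂(PP V) + 2 * ∫ ω, (g ω - h ω) ^ 2 ∂(PP V) := by
  have i1 : Integrable (fun ω => (f ω - g ω) ^ 2) (PP V) :=
    integrable_of_bdd ((hf.sub hg).pow_const 2) fun ω => sq_diff_le_four (bf ω) (bg ω)
  have i2 : Integrable (fun ω => (g ω - h ω) ^ 2) (PP V) :=
    integrable_of_bdd ((hg.sub hh).pow_const 2) fun ω => sq_diff_le_four (bg ω) (bh ω)
  have i3 : Integrable (fun ω => (f ω - h ω) ^ 2) (PP V) :=
    integrable_of_bdd ((hf.sub hh).pow_const 2) fun ω => sq_diff_le_four (bf ω) (bh ω)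
  rw [← integral_const_mul, ← integral_const_mul, ← integral_add (i1.const_mul 2) (i2.const_mul 2)]
  refine integral_mono i3 ((i1.const_mul 2).add (i2.const_mul 2)) fun ω => ?_
  simp only
  nlinarith [sq_nonneg ((f ω - g ω) - (g ω - h ω))]

/-- **Volume limit** with explicit exponential rate. -/
theorem exists_vol_le (hT : G.IsTree) {b : ℕ} (hb : 2 ≤ b) (hreg : G.IsRegularOfDegree (b + 1))
    {θ : ℝ} (h0 : 0 ≤ θ) (h1 : (b : ℝ) * θ ^ 2 < 1) (T : ℝ) :
    ∃ c γ : ℝ, 0 ≤ c ∧ 0 < γ ∧ γ < 1 ∧ ∀ t, 0 ≤ t → t ≤ T → ∀ (v x : V) (n r : ℕ),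
      bal G v r ⊆ bal G x n →
      ∫ ω, (mfin G θ (bal G x n) ω t v - minf G θ t v ω) ^ 2 ∂(PP V) ≤ c * γ ^ r := by
  have : Infinite V := infinite_of_regular hT (by omega) hreg
  have hb' : (2 : ℝ) ≤ b := by exact_mod_cast hb
  have hlt : θ < 1 := theta_lt_one h0 (by nlinarith [sq_nonneg θ])
  have hθ : |θ| < 1 := by rwa [abs_of_nonneg h0]
  rcases lt_or_ge T 0 with hT0 | hT0
  · exact ⟨0, 1 / 2, le_rfl, by norm_num, by norm_num, fun t ht htT => absurd (ht.trans htT)
      (not_le.2 hT0)⟩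
  obtain ⟨c, γ, hc, hγ, hγ1, H⟩ := exists_DF_le (G := G) hT hb hreg h0 h1 hT0
  have hball : ∀ (t : ℝ), 0 ≤ t → t ≤ T → ∀ (v : V) (F : Finset V) (r : ℕ), bal G v r ⊆ F →
      GC G F → DF G θ θ (bal G v r) F t v ≤ c * γ ^ r := by
    intro t ht htT v F r hr hF
    refine (H (bal G v r) F hr (GC_bal hT v r) hF t ht htT v (self_mem_bal' v r)).trans ?_
    refine mul_le_mul_of_nonneg_left ?_ hc
    exact pow_le_pow_of_le_one hγ.le hγ1.le (le_rad_bal hT v r _ (Finset.Subset.refl _)).le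
  have hmono : ∀ (v : V) {n m : ℕ}, n ≤ m → bal G v n ⊆ bal G v m := by
    intro v n m hnm w hw
    rw [mem_bal hT] at hw ⊢
    omega
  refine ⟨4 * c, γ, by positivity, hγ, hγ1, ?_⟩
  intro t ht htT v x n r hr
  have e1 := integral_minf_le (G := G) hT h0 hlt hγ hγ1 hc v
    (fun n m hnm => hball t ht htT v (bal G v m) n (hmono v hnm) (GC_bal hT v m)) r
  have e2 := hball t ht htT v (bal G x n) r hr (GC_bal hT x n)
  have e3 := DF_tri (V := V) (f := fun ω => mfin G θ (bal G x n) ω t v)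
    (g := fun ω => mfin G θ (bal G v r) ω t v) (h := fun ω => minf G θ t v ω)
    (measurable_mfin G θ _ t v) (measurable_mfin G θ _ t v) (measurable_minf G θ t v)
    (fun ω => abs_mfin_le G hθ _ ω t v) (fun ω => abs_mfin_le G hθ _ ω t v)
    (fun ω => abs_minf_le h0 hlt t v ω)
  have e4 : ∫ ω, (mfin G θ (bal G x n) ω t v - mfin G θ (bal G v r) ω t v) ^ 2 ∂(PP V) =
      DF G θ θ (bal G v r) (bal G x n) t v := by
    unfold DF
    refine integral_congr_ae (Eventually.of_forall fun ω => ?_)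
    simp only
    ring
  rw [e4] at e3
  refine e3.trans ?_
  linarith

end Crest.Agent.R160.Vol

namespace Crest.Agent.R160

variable {V : Type*} {G : SimpleGraph V} [G.LocallyFinite]

/-- L2 convergence of the finite-volume magnetizations, exponentially fast, uniformly in `t ≤ T` -/
theorem vol_limit (hT : G.IsTree) {b : ℕ} (hb : 2 ≤ b) (hreg : G.IsRegularOfDegree (b + 1))
    {θ : ℝ} (h0 : 0 ≤ θ) (h1 : (b : ℝ) * θ ^ 2 < 1) (T : ℝ) :
    ∃ C la : ℝ, 0 < C ∧ 0 < la ∧ ∀ t, 0 ≤ t → t ≤ T → ∀ (v x : V) (n r : ℕ),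
      bal G v r ⊆ bal G x n →
      ∫ ω, (mfin G θ (bal G x n) ω t v - minf G θ t v ω) ^ 2 ∂(PP V) ≤ C * Real.exp (-la * r) := by
  obtain ⟨c, γ, hc, hγ, hγ1, H⟩ := Vol.exists_vol_le (G := G) hT hb hreg h0 h1 T
  refine ⟨c + 1, -Real.log γ, by positivity, by linarith [Real.log_neg hγ hγ1], ?_⟩
  intro t ht htT v x n r hr
  refine (H t ht htT v x n r hr).trans ?_
  have : Real.exp (-(-Real.log γ) * r) = γ ^ r := by
    rw [neg_neg, mul_comm, Real.exp_nat_mul, Real.exp_log hγ]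
  rw [this]
  exact mul_le_mul_of_nonneg_right (by linarith) (by positivity)

end Crest.Agent.R160
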