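import Mathlib
import Crest.Agent.R160.GA3
import Crest.Agent.R160.VolLim
import Crest.Agent.R160.GCAbs

-- ▼ part R160/GAMain
section

/-! # Row 160, module GA: the inequality (A), final form -/

set_option autoImplicit false

open MeasureTheory Finset
open scoped Classical

namespace Crest.Agent.R160.GA

open Crest.Agent.R160 Crest.Agent.R160.TreeAut Crest.Agent.R160.BSVNoise

/-- splitting of the sum over the levels -/
lemma sum_split (S : ℕ → ℝ) (K M : ℕ) (B A q : ℝ) (hB : 0 ≤ B) (hA : 0 ≤ A) (hq0 : 0 ≤ q)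
    (hq1 : q < 1) (hnear : ∀ n < K, S n ≤ B) (hfar : ∀ n, S n ≤ A * q ^ n) :
    ∑ n ∈ range M, S n ≤ K * B + A * (q ^ K / (1 - q)) := by
  have h1 : ∀ n ∈ range M, S n ≤ (if n < K then B else 0) + (if K ≤ n then A * q ^ n else 0) := by
    intro n _
    by_cases h : n < K
    · rw [if_pos h, if_neg (by omega), add_zero]; exact hnear n h
    · rw [if_neg h, if_pos (by omega), zero_add]; exact hfar n
  refine (sum_le_sum h1).trans ?_
  rw [sum_add_distrib]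
  have h2 : ∑ n ∈ range M, (if n < K then B else 0) ≤ K * B := by
    rw [← sum_filter, sum_const, nsmul_eq_mul]
    apply mul_le_mul_of_nonneg_right _ hB
    have : ((range M).filter fun n => n < K) ⊆ range K := by
      intro n hn
      rw [mem_filter] at hn
      exact mem_range.2 hn.2
    have h3 := card_le_card this
    rw [card_range] at h3
    exact_mod_cast h3
  have h3 : ∑ n ∈ range M, (if K ≤ n then A * q ^ n else 0) ≤ A * (q ^ K / (1 - q)) := by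
    have hs : Summable fun n : ℕ => A * q ^ (K + n) := by
      have := (summable_geometric_of_lt_one hq0 hq1).mul_left (A * q ^ K)
      refine this.congr fun n => ?_
      rw [pow_add]; ring
    have h4 : ∑ n ∈ range M, (if K ≤ n then A * q ^ n else 0) ≤ ∑ n ∈ range M, A * q ^ (K + n) := by
      rw [← sum_filter]
      have e1 : ((range M).filter fun n => K ≤ n) ⊆ (range M).image fun n => K + n := by
        intro n hn
        rw [mem_filter, mem_range] at hn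
        rw [mem_image]
        exact ⟨n - K, mem_range.2 (by omega), by omega⟩
      refine (sum_le_sum_of_subset_of_nonneg e1 fun n _ _ => by positivity).trans ?_
      rw [sum_image fun a _ b _ h => by omega]
    refine h4.trans ?_
    refine (hs.sum_le_tsum _ fun n _ => by positivity).trans ?_
    have e2 : ∑' n : ℕ, A * q ^ (K + n) = A * (q ^ K / (1 - q)) := by
      have : (fun n : ℕ => A * q ^ (K + n)) = fun n : ℕ => (A * q ^ K) * q ^ n := by
        funext n; rw [pow_add]; ring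
      rw [this, tsum_mul_left, tsum_geometric_of_lt_one hq0 hq1]
      rw [div_eq_mul_inv]; ring
    rw [e2]
  linarith

/-- the pure real-variable part of the near bound -/
lemma near_real {n K D dt b Cb E R P A₀ β τ : ℝ} (hn0 : 0 ≤ n) (hnK : n + 1 ≤ K) (hD : 0 ≤ D)
    (hb : 0 ≤ b) (hCb : 0 ≤ Cb) (hP : 0 ≤ P) (hR : 0 ≤ R) (hA0 : 0 ≤ A₀)
    (hτ : (|dt| / τ) ^ 2 ≤ 4 * b * dt ^ 2)
    (hE : E = A₀ * (64 * R * D + 64 * P + dt ^ 2)) :
    2 * (5 * (2 * D + n ^ 2 * (|dt| / τ) ^ 2 + Cb * n * E + n ^ 2 * β ^ 2) + 2 * (n + 1) * P)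
        + 2 * D
      ≤ (22 + 640 * Cb * A₀ * K * R) * D + (40 * b + 10 * Cb * A₀) * K ^ 2 * dt ^ 2
        + 10 * K ^ 2 * β ^ 2 + (640 * Cb * A₀ + 4) * K * P := by
  have hnK' : n ≤ K := by linarith
  have hK0 : 0 ≤ K := hn0.trans hnK'
  have h1K : 1 ≤ K := by linarith
  have hn2 : n ^ 2 ≤ K ^ 2 := pow_le_pow_left₀ hn0 hnK' 2
  have hnK2 : n ≤ K ^ 2 := by nlinarith
  have a1 : n ^ 2 * (|dt| / τ) ^ 2 ≤ K ^ 2 * (4 * b * dt ^ 2) :=
    mul_le_mul hn2 hτ (sq_nonneg _) (by positivity)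
  have a2 : n ^ 2 * β ^ 2 ≤ K ^ 2 * β ^ 2 := mul_le_mul_of_nonneg_right hn2 (sq_nonneg _)
  have a3 : (n + 1) * P ≤ K * P := mul_le_mul_of_nonneg_right hnK hP
  have a4 : Cb * n * E ≤ Cb * A₀ * (64 * (K * R * D) + 64 * (K * P) + K ^ 2 * dt ^ 2) := by
    rw [hE]
    have e1 : Cb * n * (A₀ * (64 * R * D + 64 * P + dt ^ 2))
        = Cb * A₀ * (64 * (n * (R * D)) + 64 * (n * P) + n * dt ^ 2) := by ring
    rw [e1]
    apply mul_le_mul_of_nonneg_left _ (by positivity)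
    have b1 : n * (R * D) ≤ K * (R * D) := mul_le_mul_of_nonneg_right hnK' (by positivity)
    have b2 : n * P ≤ K * P := mul_le_mul_of_nonneg_right hnK' hP
    have b3 : n * dt ^ 2 ≤ K ^ 2 * dt ^ 2 := mul_le_mul_of_nonneg_right hnK2 (sq_nonneg _)
    linarith
  have e2 : (22 + 640 * Cb * A₀ * K * R) * D + (40 * b + 10 * Cb * A₀) * K ^ 2 * dt ^ 2
        + 10 * K ^ 2 * β ^ 2 + (640 * Cb * A₀ + 4) * K * P
      = 22 * D + 10 * (K ^ 2 * (4 * b * dt ^ 2)) + 10 * (K ^ 2 * β ^ 2) + 4 * (K * P)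
        + 10 * (Cb * A₀ * (64 * (K * R * D) + 64 * (K * P) + K ^ 2 * dt ^ 2)) := by ring
  rw [e2]
  linarith

set_option maxHeartbeats 1000000 in
/-- the pure real-variable part of the final bound -/
lemma final_real {r c ct cl CP Cl D β dt b Cb A₀ : ℝ} (hr : 0 < r) (hr1 : r ≤ 1 / 2) (hct : 0 < ct)
    (hcl : 0 < cl) (hc : c = min ct cl / 2) (hCP : 0 ≤ CP) (hCl : 0 ≤ Cl) (hD : 0 ≤ D)
    (hb : 0 ≤ b) (hCb : 0 ≤ Cb) (hA0 : 0 ≤ A₀) (K : ℕ) (hK : K = ⌈r ^ (-(13 / 8) : ℝ)⌉₊) :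
    K * ((22 + 640 * Cb * A₀ * K * r ^ (1 / 2 : ℝ)) * D + (40 * b + 10 * Cb * A₀) * K ^ 2 * dt ^ 2
        + 10 * K ^ 2 * β ^ 2
        + (640 * Cb * A₀ + 4) * K * (CP * Real.exp (-ct * r ^ (-(1 / 8) : ℝ))))
      + (8 * Cl) * (Real.exp (-cl * r ^ (3 / 2 : ℝ)) ^ K / (1 - Real.exp (-cl * r ^ (3 / 2 : ℝ))))
    ≤ ((44 + 4 * 640 * Cb * A₀) + 8 * (40 * b + 10 * Cb * A₀ + 10)
        + (640 * Cb * A₀ + 4) * 4 * CP * ((26 : ℕ).factorial * (2 / ct) ^ 26)
        + 8 * Cl * ((1 + cl) / cl) * ((12 : ℕ).factorial * (2 / cl) ^ 12))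
      * (r ^ (-(11 / 4) : ℝ) * D + r ^ (-(39 / 8) : ℝ) * (β ^ 2 + dt ^ 2)
        + Real.exp (-c * r ^ (-(1 / 8) : ℝ))) := by
  have hr1' : r ≤ 1 := by linarith
  set κ : ℝ := r ^ (-(13 / 8) : ℝ) with hκ
  have hκ1 : 1 ≤ κ := Real.one_le_rpow_of_pos_of_le_one_of_nonpos hr hr1' (by norm_num)
  have hK1 : κ ≤ K := by rw [hK]; exact Nat.le_ceil _
  have hK2 : (K : ℝ) ≤ 2 * κ := by
    have := Nat.ceil_lt_add_one (show (0 : ℝ) ≤ κ by linarith)
    rw [← hK] at this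
    linarith
  have hK0 : (0 : ℝ) ≤ K := Nat.cast_nonneg _
  have hKsq : (K : ℝ) ^ 2 ≤ 4 * κ ^ 2 := by
    calc (K : ℝ) ^ 2 ≤ (2 * κ) ^ 2 := pow_le_pow_left₀ hK0 hK2 2
      _ = 4 * κ ^ 2 := by ring
  have hKcu : (K : ℝ) ^ 3 ≤ 8 * κ ^ 3 := by
    calc (K : ℝ) ^ 3 ≤ (2 * κ) ^ 3 := pow_le_pow_left₀ hK0 hK2 3
      _ = 8 * κ ^ 3 := by ring
  have hκ2 : κ ^ 2 = r ^ (-(13 / 4) : ℝ) := by
    rw [hκ, ← Real.rpow_natCast, ← Real.rpow_mul hr.le]; norm_num
  have hκ3 : κ ^ 3 = r ^ (-(39 / 8) : ℝ) := by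
    rw [hκ, ← Real.rpow_natCast, ← Real.rpow_mul hr.le]; norm_num
  have hκ4 : κ ≤ r ^ (-(11 / 4) : ℝ) :=
    Real.rpow_le_rpow_of_exponent_ge hr hr1' (by norm_num)
  have hκ5 : κ ^ 2 * r ^ (1 / 2 : ℝ) = r ^ (-(11 / 4) : ℝ) := by
    rw [hκ2, ← Real.rpow_add hr]; norm_num
  set ρ : ℝ := r ^ (-(11 / 4) : ℝ) with hρ
  set σ : ℝ := r ^ (-(39 / 8) : ℝ) with hσ
  have hρ0 : 0 < ρ := Real.rpow_pos_of_pos hr _
  have hσ0 : 0 < σ := Real.rpow_pos_of_pos hr _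
  set x : ℝ := r ^ (-(1 / 8) : ℝ) with hx
  have hx0 : 0 < x := Real.rpow_pos_of_pos hr _
  set g : ℝ := Real.exp (-c * x) with hg
  have hg0 : 0 < g := Real.exp_pos _
  have hct' : c ≤ ct / 2 := by
    rw [hc]; have := min_le_left ct cl; linarith
  have hcl' : c ≤ cl / 2 := by
    rw [hc]; have := min_le_right ct cl; linarith
  -- the exponential terms
  have hE1 : κ ^ 2 * Real.exp (-ct * x) ≤ ((26 : ℕ).factorial * (2 / ct) ^ 26) * g := by
    have h := rpow_mul_exp_le 26 hct hr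
    have e : (-(((26 : ℕ) : ℝ) / 8)) = (-(13 / 4) : ℝ) := by norm_num
    rw [e, ← hκ2] at h
    refine h.trans ?_
    apply mul_le_mul_of_nonneg_left _ (by positivity)
    apply Real.exp_le_exp.2
    nlinarith
  have hE2 : r ^ (-(3 / 2) : ℝ) * Real.exp (-cl * x) ≤ ((12 : ℕ).factorial * (2 / cl) ^ 12) * g := by
    have h := rpow_mul_exp_le 12 hcl hr
    have e : (-(((12 : ℕ) : ℝ) / 8)) = (-(3 / 2) : ℝ) := by norm_num
    rw [e] at h
    refine h.trans ?_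
    apply mul_le_mul_of_nonneg_left _ (by positivity)
    apply Real.exp_le_exp.2
    nlinarith
  -- the geometric series
  set y : ℝ := cl * r ^ (3 / 2 : ℝ) with hy
  have hr32 : 0 < r ^ (3 / 2 : ℝ) := Real.rpow_pos_of_pos hr _
  have hr32' : r ^ (3 / 2 : ℝ) ≤ 1 := Real.rpow_le_one hr.le hr1' (by norm_num)
  have hy0 : 0 < y := by positivity
  have hycl : y ≤ cl := by rw [hy]; nlinarith
  have hgeo : Real.exp (-cl * r ^ (3 / 2 : ℝ)) ^ K / (1 - Real.exp (-cl * r ^ (3 / 2 : ℝ)))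
      ≤ ((1 + cl) / cl) * (r ^ (-(3 / 2) : ℝ) * Real.exp (-cl * x)) := by
    have e1 : -cl * r ^ (3 / 2 : ℝ) = -y := by rw [hy]; ring
    rw [e1]
    have h1 : Real.exp (-y) ^ K ≤ Real.exp (-cl * x) := by
      rw [← Real.exp_nat_mul]
      apply Real.exp_le_exp.2
      have h2 : y * κ = cl * x := by
        rw [hy, hκ, hx, mul_assoc, ← Real.rpow_add hr]; norm_num
      nlinarith
    have h2 : y / (1 + cl) ≤ 1 - Real.exp (-y) := by
      have h3 : Real.exp (-y) ≤ 1 / (1 + y) := by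
        rw [Real.exp_neg, ← one_div]
        apply one_div_le_one_div_of_le (by linarith)
        linarith [Real.add_one_le_exp y]
      have h4 : y / (1 + cl) ≤ y / (1 + y) := by
        apply div_le_div_of_nonneg_left hy0.le (by linarith) (by linarith)
      have h5 : y / (1 + y) = 1 - 1 / (1 + y) := by field_simp; ring
      linarith
    have h3 : 0 < y / (1 + cl) := by positivity
    have h4 : 0 < 1 - Real.exp (-y) := lt_of_lt_of_le h3 h2
    calc Real.exp (-y) ^ K / (1 - Real.exp (-y)) ≤ Real.exp (-cl * x) / (y / (1 + cl)) :=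
          div_le_div₀ (Real.exp_pos _).le h1 h3 h2
      _ = ((1 + cl) / cl) * (r ^ (-(3 / 2) : ℝ) * Real.exp (-cl * x)) := by
          rw [Real.rpow_neg hr.le, hy]
          field_simp
  -- assemble
  have p1 : (K : ℝ) * (22 * D) ≤ 44 * (ρ * D) := by
    have : (K : ℝ) ≤ 2 * ρ := by linarith
    nlinarith
  have p2 : (K : ℝ) ^ 2 * r ^ (1 / 2 : ℝ) ≤ 4 * ρ := by
    have hrh : 0 ≤ r ^ (1 / 2 : ℝ) := (Real.rpow_pos_of_pos hr _).le
    calc (K : ℝ) ^ 2 * r ^ (1 / 2 : ℝ) ≤ 4 * κ ^ 2 * r ^ (1 / 2 : ℝ) :=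
          mul_le_mul_of_nonneg_right hKsq hrh
      _ = 4 * (κ ^ 2 * r ^ (1 / 2 : ℝ)) := by ring
      _ = 4 * ρ := by rw [hκ5]
  have p3 : (K : ℝ) ^ 3 ≤ 8 * σ := by rw [← hκ3]; exact hKcu
  have p4 : (K : ℝ) ^ 2 * Real.exp (-ct * x) ≤ 4 * (((26 : ℕ).factorial * (2 / ct) ^ 26) * g) := by
    calc (K : ℝ) ^ 2 * Real.exp (-ct * x) ≤ (4 * κ ^ 2) * Real.exp (-ct * x) :=
          mul_le_mul_of_nonneg_right hKsq (Real.exp_pos _).le
      _ = 4 * (κ ^ 2 * Real.exp (-ct * x)) := by ring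
      _ ≤ _ := by linarith
  set F26 : ℝ := ((26 : ℕ).factorial * (2 / ct) ^ 26) with hF26
  set F12 : ℝ := ((12 : ℕ).factorial * (2 / cl) ^ 12) with hF12
  have hF26' : 0 ≤ F26 := by positivity
  have hF12' : 0 ≤ F12 := by positivity
  set T1 : ℝ := ρ * D with hT1
  set T2 : ℝ := σ * (β ^ 2 + dt ^ 2) with hT2
  have hT1' : 0 ≤ T1 := by positivity
  have hT2' : 0 ≤ T2 := by positivity
  have q1 : (K : ℝ) * ((22 + 640 * Cb * A₀ * K * r ^ (1 / 2 : ℝ)) * D)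
      ≤ (44 + 4 * 640 * Cb * A₀) * T1 := by
    have e : (K : ℝ) * ((22 + 640 * Cb * A₀ * K * r ^ (1 / 2 : ℝ)) * D)
      = (K : ℝ) * (22 * D) + (640 * Cb * A₀ * D) * ((K : ℝ) ^ 2 * r ^ (1 / 2 : ℝ)) := by ring
    rw [e]
    have := mul_le_mul_of_nonneg_left p2 (show 0 ≤ 640 * Cb * A₀ * D by positivity)
    have e2 : (44 + 4 * 640 * Cb * A₀) * T1 = 44 * (ρ * D) + (640 * Cb * A₀ * D) * (4 * ρ) := by
      rw [hT1]; ring
    rw [e2]
    linarith
  have q2 : (K : ℝ) * ((40 * b + 10 * Cb * A₀) * K ^ 2 * dt ^ 2 + 10 * K ^ 2 * β ^ 2)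
      ≤ 8 * (40 * b + 10 * Cb * A₀ + 10) * T2 := by
    have e : (K : ℝ) * ((40 * b + 10 * Cb * A₀) * K ^ 2 * dt ^ 2 + 10 * K ^ 2 * β ^ 2)
      = ((40 * b + 10 * Cb * A₀) * dt ^ 2 + 10 * β ^ 2) * (K : ℝ) ^ 3 := by ring
    rw [e]
    have h1 := mul_le_mul_of_nonneg_left p3
      (show 0 ≤ (40 * b + 10 * Cb * A₀) * dt ^ 2 + 10 * β ^ 2 by positivity)
    refine h1.trans ?_
    have e3 : 8 * (40 * b + 10 * Cb * A₀ + 10) * T2
      - ((40 * b + 10 * Cb * A₀) * dt ^ 2 + 10 * β ^ 2) * (8 * σ)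
      = 8 * σ * (10 * dt ^ 2 + (40 * b + 10 * Cb * A₀) * β ^ 2) := by rw [hT2]; ring
    have e4 : 0 ≤ 8 * σ * (10 * dt ^ 2 + (40 * b + 10 * Cb * A₀) * β ^ 2) := by positivity
    linarith
  have q3 : (K : ℝ) * ((640 * Cb * A₀ + 4) * K * (CP * Real.exp (-ct * x)))
      ≤ (640 * Cb * A₀ + 4) * 4 * CP * F26 * g := by
    have e : (K : ℝ) * ((640 * Cb * A₀ + 4) * K * (CP * Real.exp (-ct * x)))
      = ((640 * Cb * A₀ + 4) * CP) * ((K : ℝ) ^ 2 * Real.exp (-ct * x)) := by ring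
    rw [e]
    have h1 := mul_le_mul_of_nonneg_left p4 (show 0 ≤ (640 * Cb * A₀ + 4) * CP by positivity)
    refine h1.trans (le_of_eq ?_)
    ring
  have q4 : (8 * Cl) * (Real.exp (-cl * r ^ (3 / 2 : ℝ)) ^ K
      / (1 - Real.exp (-cl * r ^ (3 / 2 : ℝ)))) ≤ 8 * Cl * ((1 + cl) / cl) * F12 * g := by
    have h1 := mul_le_mul_of_nonneg_left hgeo (show 0 ≤ 8 * Cl by positivity)
    refine h1.trans ?_
    have h2 := mul_le_mul_of_nonneg_left hE2 (show 0 ≤ 8 * Cl * ((1 + cl) / cl) by positivity)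
    calc 8 * Cl * ((1 + cl) / cl * (r ^ (-(3 / 2) : ℝ) * Real.exp (-cl * x)))
        = 8 * Cl * ((1 + cl) / cl) * (r ^ (-(3 / 2) : ℝ) * Real.exp (-cl * x)) := by ring
      _ ≤ _ := h2
      _ = _ := by ring
  have c1 : 0 ≤ 44 + 4 * 640 * Cb * A₀ := by positivity
  have c2 : 0 ≤ 8 * (40 * b + 10 * Cb * A₀ + 10) := by positivity
  have c3 : 0 ≤ (640 * Cb * A₀ + 4) * 4 * CP * F26 := by positivity
  have c4 : 0 ≤ 8 * Cl * ((1 + cl) / cl) * F12 := by positivity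
  set a1 := 44 + 4 * 640 * Cb * A₀
  set a2 := 8 * (40 * b + 10 * Cb * A₀ + 10)
  set a3 := (640 * Cb * A₀ + 4) * 4 * CP * F26
  set a4 := 8 * Cl * ((1 + cl) / cl) * F12
  have hexp : (a1 + a2 + a3 + a4) * (T1 + T2 + g)
      = a1 * T1 + a2 * T2 + a3 * g + a4 * g
        + (a1 * T2 + a1 * g + a2 * T1 + a2 * g + a3 * T1 + a3 * T2 + a4 * T1 + a4 * T2) := by ring
  have hrest : 0 ≤ a1 * T2 + a1 * g + a2 * T1 + a2 * g + a3 * T1 + a3 * T2 + a4 * T1 + a4 * T2 := by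
    positivity
  rw [hexp]
  have hsum : (K : ℝ) * ((22 + 640 * Cb * A₀ * K * r ^ (1 / 2 : ℝ)) * D
      + (40 * b + 10 * Cb * A₀) * K ^ 2 * dt ^ 2
        + 10 * K ^ 2 * β ^ 2
        + (640 * Cb * A₀ + 4) * K * (CP * Real.exp (-ct * x)))
      = (K : ℝ) * ((22 + 640 * Cb * A₀ * K * r ^ (1 / 2 : ℝ)) * D)
        + (K : ℝ) * ((40 * b + 10 * Cb * A₀) * K ^ 2 * dt ^ 2 + 10 * K ^ 2 * β ^ 2)
        + (K : ℝ) * ((640 * Cb * A₀ + 4) * K * (CP * Real.exp (-ct * x))) := by ring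
  rw [hsum]
  linarith

variable {V : Type*} {G : SimpleGraph V} [G.LocallyFinite]

/-- mean of the clipped edge function -/
noncomputable def bet (G : SimpleGraph V) [G.LocallyFinite] (θ r : ℝ) (x y : V) : ℝ :=
  ∫ ω, LL θ (cl (minf G θ r x ω)) (cl (minf G θ r y ω)) ∂(PP V)

lemma integral_FF (hT : G.IsTree) {θ θ' : ℝ} (h0 : 0 ≤ θ) (h2 : θ ^ 2 ≤ 1 / 2) (h0' : 0 ≤ θ')
    (h2' : θ' ^ 2 ≤ 1 / 2) (r : ℝ) (x y : V) :
    ∫ ω, FF G θ θ' r x y ω ∂(PP V) = bet G θ r x y - bet G θ' r x y := by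
  unfold FF bet
  refine integral_sub ?_ ?_
  · exact integrable_of_bdd (measurable_LLm θ r x y) (10 ^ 6) fun ω => abs_LL_cl_le h0 h2 _ _
  · exact integrable_of_bdd (measurable_LLm θ' r x y) (10 ^ 6) fun ω => abs_LL_cl_le h0' h2' _ _

set_option maxHeartbeats 1000000 in
/-- **inequality (A)** -/
theorem GA_main (hT : G.IsTree) {b : ℕ} (hb : 2 ≤ b) (hreg : G.IsRegularOfDegree (b + 1))
    (htail : ∃ C c : ℝ, 0 < C ∧ 0 < c ∧ ∀ θ, 0 ≤ θ → (b : ℝ) * θ ^ 2 < 1 → ∀ t, 0 < t →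
      t ≤ 1 / 2 → ∀ v : V, (PP V).real {ω | t ^ (1 / 4 : ℝ) < |minf G θ t v ω|}
        ≤ C * Real.exp (-c * t ^ (-(1 / 8) : ℝ)))
    (hlev : ∃ C c : ℝ, 0 < C ∧ 0 < c ∧ ∀ θ, thc b / 2 ≤ θ → θ < thc b → ∀ t, 0 < t → t ≤ 1 / 2 →
      ∀ (o : V) (k : ℕ),
      ((b : ℝ) * θ ^ 2) ^ k * ∫ ω, Alev G b θ (fun x => minf G θ t x ω) o k ∂(PP V)
        ≤ C * Real.exp (-c * t ^ (3 / 2 : ℝ) * k)) :
    ∃ C c : ℝ, 0 < C ∧ 0 < c ∧ ∀ θ θ', thc b / 2 ≤ θ → θ < thc b → thc b / 2 ≤ θ' → θ' < thc b →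
      ∀ (x y : V), G.Adj x y → ∀ r, 0 < r → r ≤ 1 / 2 → ∀ (v : V) (M : ℕ),
      ∑ n ∈ range M, Slev G θ θ' r v n ≤ C * (r ^ (-(11 / 4) : ℝ) * DD G θ θ' r v
        + r ^ (-(39 / 8) : ℝ) * ((bet G θ r x y - bet G θ' r x y) ^ 2 + (θ - θ') ^ 2)
        + Real.exp (-c * r ^ (-(1 / 8) : ℝ))) := by
  obtain ⟨Ct, ct, hCt, hct, htail⟩ := htail
  obtain ⟨Cl, cl', hCl, hcl, hlev⟩ := hlev
  obtain ⟨Cb, hCb, hbsv⟩ := bsv_noise hT hb hreg
  set A₀ : ℝ := 32 * 10 ^ 12 with hA₀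
  set CP : ℝ := Ct + Real.exp (2 * ct) with hCP
  have hb0 : (0 : ℝ) < b := by exact_mod_cast (by omega : 0 < b)
  have hCP0 : 0 < CP := by positivity
  refine ⟨(44 + 4 * 640 * Cb * A₀) + 8 * (40 * b + 10 * Cb * A₀ + 10)
        + (640 * Cb * A₀ + 4) * 4 * CP * ((26 : ℕ).factorial * (2 / ct) ^ 26)
        + 8 * Cl * ((1 + cl') / cl') * ((12 : ℕ).factorial * (2 / cl') ^ 12), min ct cl' / 2,
        by positivity, by positivity, ?_⟩
  intro θ θ' hθ1 hθ2 hθ1' hθ2' x y hxy r hr hr1 v M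
  obtain ⟨f0, f1, f2, f3, f4⟩ := theta_facts hb hθ1 hθ2
  obtain ⟨f0', f1', f2', f3', f4'⟩ := theta_facts hb hθ1' hθ2'
  set τ : ℝ := max θ θ' with hτd
  have hτ : θ ≤ τ := le_max_left _ _
  have hτ' : θ' ≤ τ := le_max_right _ _
  have hτ0 : 0 < τ := lt_of_lt_of_le f0 hτ
  have hτ1 : (b : ℝ) * τ ^ 2 ≤ 1 := by
    rcases max_cases θ θ' with ⟨h, _⟩ | ⟨h, _⟩
    · rw [hτd, h]; exact f3.le
    · rw [hτd, h]; exact f3'.le
  have hτ2 : 1 / (4 * (b : ℝ)) ≤ τ ^ 2 := f4.trans (pow_le_pow_left₀ f0.le hτ 2)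
  have hdt : (|θ - θ'| / τ) ^ 2 ≤ 4 * b * (θ - θ') ^ 2 := by
    rw [div_pow, sq_abs, div_le_iff₀ (by positivity)]
    have h1 : 1 ≤ 4 * b * τ ^ 2 := by
      rw [div_le_iff₀ (by positivity)] at hτ2
      linarith
    nlinarith [sq_nonneg (θ - θ')]
  set P : ℝ := CP * Real.exp (-ct * r ^ (-(1 / 8) : ℝ)) with hP
  have hPpos : 0 ≤ P := by positivity
  have hP1 : ∀ u : V, (PP V).real {ω : Om V | r ^ (1 / 4 : ℝ) < |minf G θ r u ω|} ≤ P :=
    fun u => (htail θ f0.le f3 r hr hr1 u).trans (by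
      rw [hP, hCP]
      have e1 := Real.exp_pos (-ct * r ^ (-(1 / 8) : ℝ))
      have e2 := Real.exp_pos (2 * ct)
      nlinarith)
  have hP1' : ∀ u : V, (PP V).real {ω : Om V | r ^ (1 / 4 : ℝ) < |minf G θ' r u ω|} ≤ P :=
    fun u => (htail θ' f0'.le f3' r hr hr1 u).trans (by
      rw [hP, hCP]
      have e1 := Real.exp_pos (-ct * r ^ (-(1 / 8) : ℝ))
      have e2 := Real.exp_pos (2 * ct)
      nlinarith)
  have hP2 : ∀ u : V, (PP V).real {ω : Om V | 1 / 2 < |minf G θ r u ω|} ≤ P :=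
    fun u => half_tail hr u Ct ct hCt hct (htail θ f0.le f3 r hr hr1 u)
  have hP2' : ∀ u : V, (PP V).real {ω : Om V | 1 / 2 < |minf G θ' r u ω|} ≤ P :=
    fun u => half_tail hr u Ct ct hCt hct (htail θ' f0'.le f3' r hr hr1 u)
  set β : ℝ := bet G θ r x y - bet G θ' r x y with hβ
  have hβ' : ∫ ω, FF G θ θ' r x y ω ∂(PP V) = β := integral_FF hT f0.le f2 f0'.le f2' r x y
  have hD0 := DD_nonneg (G := G) θ θ' r v
  set E : ℝ := A₀ * (64 * r ^ (1 / 2 : ℝ) * DD G θ θ' r v + 64 * P + (θ - θ') ^ 2) with hE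
  have hE' : ∫ ω, (FF G θ θ' r x y ω) ^ 2 ∂(PP V) ≤ E :=
    integral_FF_sq_le hT hreg f0.le f1 f2 f0'.le f1' f2' hr x y v P hP1 hP1'
  have hbsv' : ∀ (n : ℕ) (p : ℕ → V), IsNB G n p →
      ∫ ω, (∑ i ∈ range n, (FF G θ θ' r (p i) (p (i + 1)) ω
          - ∫ ω', FF G θ θ' r (p i) (p (i + 1)) ω' ∂(PP V))) ^ 2 ∂(PP V)
        ≤ Cb * n * ∫ ω, (FF G θ θ' r x y ω - ∫ ω', FF G θ θ' r x y ω' ∂(PP V)) ^ 2 ∂(PP V) :=
    fun n p hp => hbsv (fun x y ω => FF G θ θ' r x y ω) (2 * 10 ^ 6)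
      (fun x y => measurable_FF θ θ' r x y) (fun x y ω => abs_FF_le f0.le f2 f0'.le f2' r x y ω)
      (fun x y ω _ => FF_comm θ θ' r x y ω) (fun g x y ω => FF_act hT θ θ' r g x y ω) x y hxy n p hp
  set K : ℕ := ⌈r ^ (-(13 / 8) : ℝ)⌉₊ with hK
  have hrh : 0 ≤ r ^ (1 / 2 : ℝ) := (Real.rpow_pos_of_pos hr _).le
  set B : ℝ := (22 + 640 * Cb * A₀ * K * r ^ (1 / 2 : ℝ)) * DD G θ θ' r v
      + (40 * b + 10 * Cb * A₀) * K ^ 2 * (θ - θ') ^ 2 + 10 * K ^ 2 * β ^ 2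
      + (640 * Cb * A₀ + 4) * K * P with hB
  have hA₀' : 0 ≤ A₀ := by positivity
  have hB0 : 0 ≤ B := by positivity
  have hnear : ∀ n < K, Slev G θ θ' r v n ≤ B := by
    intro n hn
    have h3 := Slev_near hT hb hreg f0.le f1 f2 f0'.le f1' f2' hτ hτ' hτ0 hτ1 r (v := v) hxy P E Cb
      hCb hP2 hP2' hE' hbsv' n
    rw [hβ'] at h3
    have hnK : (n : ℝ) + 1 ≤ K := by exact_mod_cast hn
    exact h3.trans (near_real (Nat.cast_nonneg n) hnK hD0 hb0.le hCb.le hPpos hrh hA₀' hdt rfl)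
  have hfar : ∀ n, Slev G θ θ' r v n
      ≤ (8 * Cl) * Real.exp (-cl' * r ^ (3 / 2 : ℝ)) ^ n := by
    intro n
    have h3 := Slev_far hT hb f0.le f1 f0'.le f1' r v n
      (Cl * Real.exp (-cl' * r ^ (3 / 2 : ℝ) * n)) (hlev θ hθ1 hθ2 r hr hr1 v n)
      (hlev θ' hθ1' hθ2' r hr hr1 v n)
    refine h3.trans (le_of_eq ?_)
    rw [← Real.exp_nat_mul]
    have : (n : ℝ) * (-cl' * r ^ (3 / 2 : ℝ)) = -cl' * r ^ (3 / 2 : ℝ) * n := by ring
    rw [this]; ring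
  have hr32 : 0 < r ^ (3 / 2 : ℝ) := Real.rpow_pos_of_pos hr _
  have hq1 : Real.exp (-cl' * r ^ (3 / 2 : ℝ)) < 1 := by
    rw [Real.exp_lt_one_iff]
    nlinarith
  have hsplit := sum_split (fun n => Slev G θ θ' r v n) K M B (8 * Cl)
    (Real.exp (-cl' * r ^ (3 / 2 : ℝ))) hB0 (by positivity) (Real.exp_pos _).le hq1 hnear hfar
  refine hsplit.trans ?_
  exact final_real hr hr1 hct hcl rfl hCP0.le hCl.le hD0 hb0.le hCb.le hA₀' K hK

end Crest.Agent.R160.GA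
end

-- ▼ part R160/DDIncr
section

/-! Row 160, module D: monotonicity and the increment inequality in infinite volume. -/

set_option autoImplicit false
set_option linter.unusedSectionVars false

open MeasureTheory Finset Filter Topology

namespace Crest.Agent.R160.Vol

open Crest.Agent.R160 Crest.Agent.R160.TreeAut Crest.Agent.R160.Kern Crest.Agent.R160.DI

open scoped Classical

variable {V : Type*} {G : SimpleGraph V} [G.LocallyFinite]

lemma bal_subset (hT : G.IsTree) (v : V) {n m : ℕ} (hnm : n ≤ m) : bal G v n ⊆ bal G v m := by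
  intro w hw
  rw [mem_bal hT] at hw ⊢
  omega

lemma bal_sub_bal (hT : G.IsTree) (v x : V) {n r : ℕ} (h : G.dist v x + r ≤ n) :
    bal G x r ⊆ bal G v n := by
  intro w hw
  rw [mem_bal hT] at hw ⊢
  have := hT.connected.dist_triangle (u := v) (v := x) (w := w)
  omega

/-- a.e. convergence along balls -/
lemma ae_tendsto (hT : G.IsTree) {b : ℕ} (hb : 2 ≤ b) (hreg : G.IsRegularOfDegree (b + 1))
    {θ : ℝ} (h0 : 0 ≤ θ) (h1 : (b : ℝ) * θ ^ 2 < 1) {t : ℝ} (ht : 0 ≤ t) (v : V) :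
    ∀ᵐ ω ∂(PP V), Tendsto (fun n => mfin G θ (bal G v n) ω t v) atTop (𝓝 (minf G θ t v ω)) := by
  have : Infinite V := infinite_of_regular hT (by omega) hreg
  have hb' : (2 : ℝ) ≤ b := by exact_mod_cast hb
  have hlt : θ < 1 := theta_lt_one h0 (by nlinarith [sq_nonneg θ])
  have hθ : |θ| < 1 := by rwa [abs_of_nonneg h0]
  obtain ⟨c, γ, hc, hγ, hγ1, H⟩ := exists_DF_le (G := G) hT hb hreg h0 h1 ht
  refine ae_tendsto_minf hT hθ hγ hγ1 hc v ?_
  intro n m hnm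
  refine (H (bal G v n) _ (bal_subset hT v hnm) (GC_bal hT v n) (GC_bal hT v m) t ht le_rfl v
    (self_mem_bal' v n)).trans ?_
  refine mul_le_mul_of_nonneg_left ?_ hc
  exact pow_le_pow_of_le_one hγ.le hγ1.le (le_rad_bal hT v n _ (Finset.Subset.refl _)).le

lemma tendsto_DF (hT : G.IsTree) {b : ℕ} (hb : 2 ≤ b) (hreg : G.IsRegularOfDegree (b + 1))
    {θ θ' : ℝ} (h0 : 0 ≤ θ) (h1 : (b : ℝ) * θ ^ 2 < 1) (h0' : 0 ≤ θ') (h1' : (b : ℝ) * θ' ^ 2 < 1)
    {t : ℝ} (ht : 0 ≤ t) (v : V) :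
    Tendsto (fun n => DF G θ θ' (bal G v n) (bal G v n) t v) atTop (𝓝 (DD G θ θ' t v)) := by
  have hb' : (2 : ℝ) ≤ b := by exact_mod_cast hb
  have hlt : θ < 1 := theta_lt_one h0 (by nlinarith [sq_nonneg θ])
  have hθ : |θ| < 1 := by rwa [abs_of_nonneg h0]
  have hlt' : θ' < 1 := theta_lt_one h0' (by nlinarith [sq_nonneg θ'])
  have hθ' : |θ'| < 1 := by rwa [abs_of_nonneg h0']
  unfold DF DD
  refine tendsto_integral_of_dominated_convergence (fun _ => 4) ?_ (integrable_const _) ?_ ?_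
  · intro m
    exact (((measurable_app θ t v m).sub (measurable_app θ' t v m)).pow_const 2).aestronglyMeasurable
  · intro m
    exact Eventually.of_forall fun ω => sq_bound_mfin hθ hθ' _ _ t v ω
  · filter_upwards [ae_tendsto hT hb hreg h0 h1 ht v, ae_tendsto hT hb hreg h0' h1' ht v]
      with ω hω hω'
    exact (hω.sub hω').pow 2

/-! ### the functional in the increment inequality -/

/-- the functional -/
def Phi (A A' a a' : ℝ) : ℝ := (A - A') ^ 2 + A ^ 2 * (a - a') ^ 2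

lemma Phi_le {A A' B B' a a' c c' : ℝ} (hA : |A| ≤ 1) (hA' : |A'| ≤ 1) (hB : |B| ≤ 1)
    (hB' : |B'| ≤ 1) (ha : |a| ≤ 1) (ha' : |a'| ≤ 1) (hc : |c| ≤ 1) (hc' : |c'| ≤ 1) :
    Phi A A' a a' ≤ Phi B B' c c' + 12 * (|A - B| + |A' - B'|) + 4 * (|a - c| + |a' - c'|) := by
  have e1 : (A - A') ^ 2 - (B - B') ^ 2 ≤ 4 * (|A - B| + |A' - B'|) := by
    have h1 : (A - A') ^ 2 - (B - B') ^ 2 = ((A - B) - (A' - B')) * ((A - A') + (B - B')) := by
      ring
    rw [h1]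
    refine (le_abs_self _).trans ?_
    rw [abs_mul]
    have h2 : |(A - B) - (A' - B')| ≤ |A - B| + |A' - B'| := abs_sub _ _
    have h3 : |(A - A') + (B - B')| ≤ 4 := by
      have := abs_le.1 hA
      have := abs_le.1 hA'
      have := abs_le.1 hB
      have := abs_le.1 hB'
      rw [abs_le]
      constructor <;> linarith
    calc _ ≤ (|A - B| + |A' - B'|) * 4 := mul_le_mul h2 h3 (abs_nonneg _) (by positivity)
      _ = _ := by ring
  have e2 : A ^ 2 * (a - a') ^ 2 - B ^ 2 * (c - c') ^ 2 ≤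
      8 * |A - B| + 4 * (|a - c| + |a' - c'|) := by
    have h1 : A ^ 2 * (a - a') ^ 2 - B ^ 2 * (c - c') ^ 2 =
        A ^ 2 * (((a - c) - (a' - c')) * ((a - a') + (c - c'))) +
          ((A - B) * (A + B)) * (c - c') ^ 2 := by ring
    rw [h1]
    have hA2 : A ^ 2 ≤ 1 := (sq_le_one_iff_abs_le_one _).2 hA
    have b1 := abs_le.1 ha
    have b2 := abs_le.1 ha'
    have b3 := abs_le.1 hc
    have b4 := abs_le.1 hc'
    have b5 := abs_le.1 hA
    have b6 := abs_le.1 hB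
    have h2 : A ^ 2 * (((a - c) - (a' - c')) * ((a - a') + (c - c'))) ≤
        4 * (|a - c| + |a' - c'|) := by
      refine (le_abs_self _).trans ?_
      rw [abs_mul, abs_mul, abs_of_nonneg (sq_nonneg A)]
      have h3 : |(a - c) - (a' - c')| ≤ |a - c| + |a' - c'| := abs_sub _ _
      have h4 : |(a - a') + (c - c')| ≤ 4 := by
        rw [abs_le]
        constructor <;> linarith
      calc A ^ 2 * (|(a - c) - (a' - c')| * |(a - a') + (c - c')|)
          ≤ 1 * ((|a - c| + |a' - c'|) * 4) := by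
            refine mul_le_mul hA2 ?_ (by positivity) zero_le_one
            exact mul_le_mul h3 h4 (abs_nonneg _) (by positivity)
        _ = _ := by ring
    have h5 : ((A - B) * (A + B)) * (c - c') ^ 2 ≤ 8 * |A - B| := by
      refine (le_abs_self _).trans ?_
      rw [abs_mul, abs_mul, abs_of_nonneg (sq_nonneg (c - c'))]
      have h6 : |A + B| ≤ 2 := by
        rw [abs_le]
        constructor <;> linarith
      have h7 : (c - c') ^ 2 ≤ 4 := by
        have := sq_diff_le_four hc hc'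
        rwa [abs_of_nonneg (sq_nonneg _)] at this
      calc |A - B| * |A + B| * (c - c') ^ 2 ≤ |A - B| * 2 * 4 := by
            refine mul_le_mul ?_ h7 (sq_nonneg _) (by positivity)
            exact mul_le_mul_of_nonneg_left h6 (abs_nonneg _)
        _ = _ := by ring
    linarith
  have := abs_nonneg (A' - B')
  unfold Phi
  linarith

lemma Phi_le_pow {A A' a a' p p' : ℝ} (hA : |A| ≤ p) (hA' : |A'| ≤ p') (ha : |a| ≤ 1)
    (ha' : |a'| ≤ 1) : Phi A A' a a' ≤ 6 * p ^ 2 + 2 * p' ^ 2 := by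
  have h1 : A ^ 2 ≤ p ^ 2 := by
    rw [← sq_abs A]
    exact pow_le_pow_left₀ (abs_nonneg _) hA 2
  have h2 : A' ^ 2 ≤ p' ^ 2 := by
    rw [← sq_abs A']
    exact pow_le_pow_left₀ (abs_nonneg _) hA' 2
  have h3 : (a - a') ^ 2 ≤ 4 := by
    have := sq_diff_le_four ha ha'
    rwa [abs_of_nonneg (sq_nonneg _)] at this
  have h4 : A ^ 2 * (a - a') ^ 2 ≤ A ^ 2 * 4 := mul_le_mul_of_nonneg_left h3 (sq_nonneg _)
  unfold Phi
  nlinarith [sq_nonneg (A + A')]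

/-- one vertex of the increment functional, for fields `m`, `m'` -/
noncomputable def PhiM (G : SimpleGraph V) (θ θ' : ℝ) (m m' : V → ℝ) (v w : V) : ℝ :=
  Phi (MM G θ m v w) (MM G θ' m' v w) (m w) (m' w)

/-- the Lipschitz constant -/
def LC : ℝ := 12 * (2 + 2 * 10 ^ 5) + 4

lemma LC_pos : 0 < LC := by unfold LC; norm_num

lemma MM_abs_le_one (hT : G.IsTree) {θ : ℝ} (h0 : 0 ≤ θ) (h2 : θ ^ 2 ≤ 1 / 2) {m : V → ℝ}
    (hm : ∀ x, |m x| ≤ 1) (v w : V) : |MM G θ m v w| ≤ 1 :=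
  (abs_MM_le (G := G) (rho_h01 h0 h2) h0 hm v w).trans
    (pow_le_one₀ h0 (theta_lt_one h0 h2).le)

lemma PhiM_sub_le (hT : G.IsTree) {θ θ' : ℝ} (h0 : 0 ≤ θ) (h2 : θ ^ 2 ≤ 1 / 2) (h0' : 0 ≤ θ')
    (h2' : θ' ^ 2 ≤ 1 / 2) {m m' n n' : V → ℝ} (hm : ∀ x, |m x| ≤ 1) (hm' : ∀ x, |m' x| ≤ 1)
    (hn : ∀ x, |n x| ≤ 1) (hn' : ∀ x, |n' x| ≤ 1) (v w : V) :
    PhiM G θ θ' m m' v w ≤ PhiM G θ θ' n n' v w + LC *
      ∑ i ∈ Finset.range (G.dist v w + 1), (|m (anc G v w i) - n (anc G v w i)| +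
        |m' (anc G v w i) - n' (anc G v w i)|) := by
  have a1 := MM_abs_le_one hT h0 h2 hm v w
  have a2 := MM_abs_le_one hT h0' h2' hm' v w
  have a3 := MM_abs_le_one hT h0 h2 hn v w
  have a4 := MM_abs_le_one hT h0' h2' hn' v w
  have e1 := Phi_le a1 a2 a3 a4 (hm w) (hm' w) (hn w) (hn' w)
  have e2 := abs_MM_sub_le (G := G) (rho_h01 h0 h2) (rho_hL h0 h2) hT h0 (by norm_num) hm hn v w
  have e3 := abs_MM_sub_le (G := G) (rho_h01 h0' h2') (rho_hL h0' h2') hT h0' (by norm_num)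
    hm' hn' v w
  set Sg : ℝ := ∑ i ∈ Finset.range (G.dist v w + 1), |m (anc G v w i) - n (anc G v w i)| with hSg
  set Sg' : ℝ := ∑ i ∈ Finset.range (G.dist v w + 1), |m' (anc G v w i) - n' (anc G v w i)|
    with hSg'
  have s0 : 0 ≤ Sg := Finset.sum_nonneg fun i _ => abs_nonneg _
  have s0' : 0 ≤ Sg' := Finset.sum_nonneg fun i _ => abs_nonneg _
  have e4 : |MM G θ m v w - MM G θ n v w| ≤ (2 + 2 * 10 ^ 5) * Sg := by
    refine e2.trans ?_
    refine mul_le_of_le_one_left (by positivity) (pow_le_one₀ h0 (theta_lt_one h0 h2).le)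
  have e5 : |MM G θ' m' v w - MM G θ' n' v w| ≤ (2 + 2 * 10 ^ 5) * Sg' := by
    refine e3.trans ?_
    refine mul_le_of_le_one_left (by positivity) (pow_le_one₀ h0' (theta_lt_one h0' h2').le)
  have e6 : |m w - n w| ≤ Sg := by
    have : |m w - n w| = |m (anc G v w 0) - n (anc G v w 0)| := by rw [anc_zero]
    rw [this]
    exact Finset.single_le_sum (f := fun i => |m (anc G v w i) - n (anc G v w i)|)
      (fun i _ => abs_nonneg _) (Finset.mem_range.2 (Nat.succ_pos _))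
  have e7 : |m' w - n' w| ≤ Sg' := by
    have : |m' w - n' w| = |m' (anc G v w 0) - n' (anc G v w 0)| := by rw [anc_zero]
    rw [this]
    exact Finset.single_le_sum (f := fun i => |m' (anc G v w i) - n' (anc G v w i)|)
      (fun i _ => abs_nonneg _) (Finset.mem_range.2 (Nat.succ_pos _))
  rw [Finset.sum_add_distrib, ← hSg, ← hSg']
  unfold PhiM LC
  refine e1.trans ?_
  linarith

lemma PhiM_le_pow (hT : G.IsTree) {θ θ' : ℝ} (h0 : 0 ≤ θ) (h2 : θ ^ 2 ≤ 1 / 2) (h0' : 0 ≤ θ')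
    (h2' : θ' ^ 2 ≤ 1 / 2) {m m' : V → ℝ} (hm : ∀ x, |m x| ≤ 1) (hm' : ∀ x, |m' x| ≤ 1)
    (v w : V) :
    PhiM G θ θ' m m' v w ≤ 6 * (θ ^ 2) ^ G.dist v w + 2 * (θ' ^ 2) ^ G.dist v w := by
  have := Phi_le_pow (abs_MM_le (G := G) (rho_h01 h0 h2) h0 hm v w)
    (abs_MM_le (G := G) (rho_h01 h0' h2') h0' hm' v w) (hm w) (hm' w)
  unfold PhiM
  refine this.trans (le_of_eq ?_)
  have e : ∀ x : ℝ, (x ^ G.dist v w) ^ 2 = (x ^ 2) ^ G.dist v w := fun x => by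
    rw [← pow_mul, ← pow_mul, mul_comm]
  rw [e, e]

lemma PhiM_nonneg {θ θ' : ℝ} {m m' : V → ℝ} (v w : V) : 0 ≤ PhiM G θ θ' m m' v w := by
  unfold PhiM Phi
  positivity

lemma measurable_rho {θ : ℝ} {f g : Om V → ℝ} (hf : Measurable f) (hg : Measurable g) :
    Measurable fun ω => rho θ (f ω) (g ω) := by
  unfold rho
  fun_prop

lemma measurable_MM {θ : ℝ} {m : Om V → V → ℝ} (hm : ∀ x, Measurable fun ω => m ω x) (v w : V) :
    Measurable fun ω => MM G θ (m ω) v w := by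
  unfold MM rprod
  refine (((hm v).pow_const 2).const_sub 1 |>.mul_const _).mul ?_
  simp only [rprodN_eq]
  refine Finset.measurable_fun_prod _ fun i _ => ?_
  exact measurable_rho (hm _) (hm _)

lemma measurable_PhiM {θ θ' : ℝ} {m m' : Om V → V → ℝ} (hm : ∀ x, Measurable fun ω => m ω x)
    (hm' : ∀ x, Measurable fun ω => m' ω x) (v w : V) :
    Measurable fun ω => PhiM G θ θ' (m ω) (m' ω) v w := by
  unfold PhiM Phi
  exact (((measurable_MM hm v w).sub (measurable_MM hm' v w)).pow_const 2).add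
    (((measurable_MM hm v w).pow_const 2).mul (((hm w).sub (hm' w)).pow_const 2))

lemma integrable_PhiM (hT : G.IsTree) {θ θ' : ℝ} (h0 : 0 ≤ θ) (h2 : θ ^ 2 ≤ 1 / 2) (h0' : 0 ≤ θ')
    (h2' : θ' ^ 2 ≤ 1 / 2) {m m' : Om V → V → ℝ} (hm : ∀ ω x, |m ω x| ≤ 1)
    (hm' : ∀ ω x, |m' ω x| ≤ 1) (mm : ∀ x, Measurable fun ω => m ω x)
    (mm' : ∀ x, Measurable fun ω => m' ω x) (v w : V) :
    Integrable (fun ω => PhiM G θ θ' (m ω) (m' ω) v w) (PP V) := by
  refine integrable_of_bdd (measurable_PhiM mm mm' v w) (C := 8) fun ω => ?_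
  rw [abs_of_nonneg (PhiM_nonneg v w)]
  have h3 := PhiM_le_pow hT h0 h2 h0' h2' (hm ω) (hm' ω) v w
  have h4 : (θ ^ 2) ^ G.dist v w ≤ 1 := pow_le_one₀ (sq_nonneg _) (by linarith)
  have h5 : (θ' ^ 2) ^ G.dist v w ≤ 1 := pow_le_one₀ (sq_nonneg _) (by linarith)
  linarith

/-- the tail of the sum over far vertices -/
lemma exists_tail (hT : G.IsTree) {b : ℕ} (hb : 2 ≤ b) (hreg : G.IsRegularOfDegree (b + 1))
    {θ θ' : ℝ} (h1 : (b : ℝ) * θ ^ 2 < 1) (h1' : (b : ℝ) * θ' ^ 2 < 1) (v : V) {δ : ℝ}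
    (hδ : 0 < δ) :
    ∃ N : ℕ, ∀ S : Finset V, (∀ w ∈ S, N ≤ G.dist v w) →
      ∑ w ∈ S, (6 * (θ ^ 2) ^ G.dist v w + 2 * (θ' ^ 2) ^ G.dist v w) ≤ δ := by
  have hcast : (((b + 1 : ℕ) : ℝ) - 1) = b := by push_cast; ring
  have key : ∀ q : ℝ, 0 ≤ q → (b : ℝ) * q < 1 → ∀ S : Finset V, ∀ N : ℕ,
      (∀ w ∈ S, N ≤ G.dist v w) → ∑ w ∈ S, q ^ G.dist v w ≤
        2 * (1 - (b : ℝ) * q)⁻¹ * ((b : ℝ) * q) ^ N := by
    intro q hq hq1 S N hS
    have := sum_far_le hT hreg (by omega) hq (by rw [hcast]; exact hq1) v S N hS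
    rwa [hcast] at this
  have hlim : Tendsto (fun N : ℕ => 6 * (2 * (1 - (b : ℝ) * θ ^ 2)⁻¹ * ((b : ℝ) * θ ^ 2) ^ N) +
      2 * (2 * (1 - (b : ℝ) * θ' ^ 2)⁻¹ * ((b : ℝ) * θ' ^ 2) ^ N)) atTop (𝓝 0) := by
    have t1 := tendsto_pow_atTop_nhds_zero_of_lt_one (r := (b : ℝ) * θ ^ 2) (by positivity) h1
    have t2 := tendsto_pow_atTop_nhds_zero_of_lt_one (r := (b : ℝ) * θ' ^ 2) (by positivity) h1'
    have := ((t1.const_mul (2 * (1 - (b : ℝ) * θ ^ 2)⁻¹)).const_mul 6).add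
      ((t2.const_mul (2 * (1 - (b : ℝ) * θ' ^ 2)⁻¹)).const_mul 2)
    simpa using this
  obtain ⟨N, hN⟩ := ((tendsto_order.1 hlim).2 δ hδ).exists
  refine ⟨N, fun S hS => ?_⟩
  rw [Finset.sum_add_distrib, ← Finset.mul_sum, ← Finset.mul_sum]
  have e1 := key (θ ^ 2) (sq_nonneg _) h1 S N hS
  have e2 := key (θ' ^ 2) (sq_nonneg _) h1' S N hS
  linarith

lemma sum_range_sph (hT : G.IsTree) (v : V) (N : ℕ) (f : V → ℝ) (hf : ∀ w, 0 ≤ f w)
    (S : Finset V) (hS : ∀ w ∈ S, G.dist v w < N) :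
    ∑ w ∈ S, f w ≤ ∑ n ∈ Finset.range N, ∑ w ∈ sph G v n, f w := by
  rw [← Finset.sum_biUnion]
  · refine Finset.sum_le_sum_of_subset_of_nonneg ?_ fun w _ _ => hf w
    intro w hw
    rw [Finset.mem_biUnion]
    exact ⟨G.dist v w, Finset.mem_range.2 (hS w hw), (mem_sph hT v w _).2 rfl⟩
  · intro n _ m _ hnm
    rw [Function.onFun, Finset.disjoint_left]
    intro w hw hw'
    exact hnm (((mem_sph hT v w n).1 hw).symm.trans ((mem_sph hT v w m).1 hw'))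

/-- the key uniform approximation -/
lemma exists_approx (hT : G.IsTree) {b : ℕ} (hb : 2 ≤ b) (hreg : G.IsRegularOfDegree (b + 1))
    {θ θ' : ℝ} (h0 : 0 ≤ θ) (h1 : (b : ℝ) * θ ^ 2 < 1) (h0' : 0 ≤ θ') (h1' : (b : ℝ) * θ' ^ 2 < 1)
    (v : V) (T : ℝ) {δ : ℝ} (hδ : 0 < δ) :
    ∃ n₀ N : ℕ, ∀ n, n₀ ≤ n → ∀ r, 0 ≤ r → r ≤ T →
      ∑ w ∈ bal G v n, ∫ ω, PhiM G θ θ' (fun x => mfin G θ (bal G v n) ω r x)
        (fun x => mfin G θ' (bal G v n) ω r x) v w ∂(PP V) ≤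
      (∑ k ∈ Finset.range N, ∑ w ∈ sph G v k, ∫ ω, PhiM G θ θ' (fun x => minf G θ r x ω)
        (fun x => minf G θ' r x ω) v w ∂(PP V)) + δ := by
  have hb' : (2 : ℝ) ≤ b := by exact_mod_cast hb
  have h2 : θ ^ 2 ≤ 1 / 2 := by nlinarith [sq_nonneg θ]
  have h2' : θ' ^ 2 ≤ 1 / 2 := by nlinarith [sq_nonneg θ']
  have hlt := theta_lt_one h0 h2
  have hlt' := theta_lt_one h0' h2'
  have hθ : |θ| < 1 := by rwa [abs_of_nonneg h0]
  have hθ' : |θ'| < 1 := by rwa [abs_of_nonneg h0']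
  obtain ⟨N, hN⟩ := exists_tail hT hb hreg h1 h1' v (half_pos hδ)
  obtain ⟨c, γ, hc, hγ, hγ1, H⟩ := exists_vol_le (G := G) hT hb hreg h0 h1 T
  obtain ⟨c', γ', hc', hγ', hγ1', H'⟩ := exists_vol_le (G := G) hT hb hreg h0' h1' T
  -- error for one vertex
  set E : ℕ → ℝ := fun j => Real.sqrt (c * γ ^ j) + Real.sqrt (c' * γ' ^ j) with hE
  have hE0 : ∀ j, 0 ≤ E j := fun j => by simp only [hE]; positivity
  have hElim : Tendsto E atTop (𝓝 0) := by
    have t1 := (tendsto_pow_atTop_nhds_zero_of_lt_one hγ.le hγ1).const_mul c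
    have t2 := (tendsto_pow_atTop_nhds_zero_of_lt_one hγ'.le hγ1').const_mul c'
    have := (t1.sqrt).add (t2.sqrt)
    simpa using this
  set M : ℝ := ((bal G v N).card : ℝ) * (LC * ((N : ℝ) + 1)) + 1 with hM
  have hM0 : 0 < M := by
    have := LC_pos
    positivity
  obtain ⟨j₀, hj₀⟩ := ((tendsto_order.1 hElim).2 (δ / 2 / M) (by positivity)).exists
  have hEanti : ∀ j, j₀ ≤ j → E j ≤ E j₀ := by
    intro j hj
    simp only [hE]
    refine add_le_add (Real.sqrt_le_sqrt ?_) (Real.sqrt_le_sqrt ?_)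
    · exact mul_le_mul_of_nonneg_left (pow_le_pow_of_le_one hγ.le hγ1.le hj) hc
    · exact mul_le_mul_of_nonneg_left (pow_le_pow_of_le_one hγ'.le hγ1'.le hj) hc'
  refine ⟨N + j₀, N, fun n hn r hr hrT => ?_⟩
  -- L¹ bounds
  have L1 : ∀ x, G.dist v x ≤ N →
      ∫ ω, |mfin G θ (bal G v n) ω r x - minf G θ r x ω| ∂(PP V) +
      ∫ ω, |mfin G θ' (bal G v n) ω r x - minf G θ' r x ω| ∂(PP V) ≤ δ / 2 / M := by
    intro x hx
    have hsub : bal G x j₀ ⊆ bal G v n := bal_sub_bal hT v x (by omega)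
    have e1 := H r hr hrT x v n j₀ hsub
    have e2 := H' r hr hrT x v n j₀ hsub
    have e3 := integral_abs_le_sqrt (V := V)
      (f := fun ω => mfin G θ (bal G v n) ω r x - minf G θ r x ω)
      ((measurable_mfin G θ _ r x).sub (measurable_minf G θ r x)) (C := 2) (fun ω => by
        have a1 := abs_le.1 (abs_mfin_le G hθ (bal G v n) ω r x)
        have a2 := abs_le.1 (abs_minf_le (G := G) h0 hlt r x ω)
        rw [abs_le]
        constructor <;> linarith)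
    have e4 := integral_abs_le_sqrt (V := V)
      (f := fun ω => mfin G θ' (bal G v n) ω r x - minf G θ' r x ω)
      ((measurable_mfin G θ' _ r x).sub (measurable_minf G θ' r x)) (C := 2) (fun ω => by
        have a1 := abs_le.1 (abs_mfin_le G hθ' (bal G v n) ω r x)
        have a2 := abs_le.1 (abs_minf_le (G := G) h0' hlt' r x ω)
        rw [abs_le]
        constructor <;> linarith)
    have e5 := e3.trans (Real.sqrt_le_sqrt e1)
    have e6 := e4.trans (Real.sqrt_le_sqrt e2)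
    have e7 : E j₀ < δ / 2 / M := hj₀
    simp only [hE] at e7
    linarith
  -- near vertices
  have near : ∀ w, G.dist v w < N →
      ∫ ω, PhiM G θ θ' (fun x => mfin G θ (bal G v n) ω r x)
        (fun x => mfin G θ' (bal G v n) ω r x) v w ∂(PP V) ≤
      ∫ ω, PhiM G θ θ' (fun x => minf G θ r x ω) (fun x => minf G θ' r x ω) v w ∂(PP V) +
        LC * ((N : ℝ) + 1) * (δ / 2 / M) := by
    intro w hw
    have i1 : Integrable (fun ω => PhiM G θ θ' (fun x => mfin G θ (bal G v n) ω r x)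
        (fun x => mfin G θ' (bal G v n) ω r x) v w) (PP V) :=
      integrable_PhiM hT h0 h2 h0' h2' (fun ω x => abs_mfin_le G hθ _ ω r x)
        (fun ω x => abs_mfin_le G hθ' _ ω r x) (fun x => measurable_mfin G θ _ r x)
        (fun x => measurable_mfin G θ' _ r x) v w
    have i2 : Integrable (fun ω => PhiM G θ θ' (fun x => minf G θ r x ω)
        (fun x => minf G θ' r x ω) v w) (PP V) :=
      integrable_PhiM hT h0 h2 h0' h2' (fun ω x => abs_minf_le h0 hlt r x ω)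
        (fun ω x => abs_minf_le h0' hlt' r x ω) (fun x => measurable_minf G θ r x)
        (fun x => measurable_minf G θ' r x) v w
    have i3 : ∀ x, Integrable (fun ω => |mfin G θ (bal G v n) ω r x - minf G θ r x ω|) (PP V) :=
      fun x => integrable_of_bdd
        ((measurable_mfin G θ _ r x).sub (measurable_minf G θ r x)).abs (C := 2) fun ω => by
          rw [abs_abs]
          have a1 := abs_le.1 (abs_mfin_le G hθ (bal G v n) ω r x)
          have a2 := abs_le.1 (abs_minf_le (G := G) h0 hlt r x ω)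
          rw [abs_le]
          constructor <;> linarith
    have i4 : ∀ x, Integrable (fun ω => |mfin G θ' (bal G v n) ω r x - minf G θ' r x ω|) (PP V) :=
      fun x => integrable_of_bdd
        ((measurable_mfin G θ' _ r x).sub (measurable_minf G θ' r x)).abs (C := 2) fun ω => by
          rw [abs_abs]
          have a1 := abs_le.1 (abs_mfin_le G hθ' (bal G v n) ω r x)
          have a2 := abs_le.1 (abs_minf_le (G := G) h0' hlt' r x ω)
          rw [abs_le]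
          constructor <;> linarith
    have i5 : Integrable (fun ω => LC * ∑ i ∈ Finset.range (G.dist v w + 1),
        (|mfin G θ (bal G v n) ω r (anc G v w i) - minf G θ r (anc G v w i) ω| +
          |mfin G θ' (bal G v n) ω r (anc G v w i) - minf G θ' r (anc G v w i) ω|)) (PP V) :=
      (integrable_finsetSum _ fun i _ => (i3 _).add (i4 _)).const_mul _
    have e1 := integral_mono i1 (i2.add i5) fun ω =>
      PhiM_sub_le hT h0 h2 h0' h2' (m := fun x => mfin G θ (bal G v n) ω r x)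
        (m' := fun x => mfin G θ' (bal G v n) ω r x) (n := fun x => minf G θ r x ω)
        (n' := fun x => minf G θ' r x ω) (fun x => abs_mfin_le G hθ _ ω r x)
        (fun x => abs_mfin_le G hθ' _ ω r x) (fun x => abs_minf_le h0 hlt r x ω)
        (fun x => abs_minf_le h0' hlt' r x ω) v w
    refine e1.trans ?_
    have e2 : ∫ ω, ((fun ω => PhiM G θ θ' (fun x => minf G θ r x ω)
        (fun x => minf G θ' r x ω) v w) + fun ω => LC * ∑ i ∈ Finset.range (G.dist v w + 1),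
        (|mfin G θ (bal G v n) ω r (anc G v w i) - minf G θ r (anc G v w i) ω| +
          |mfin G θ' (bal G v n) ω r (anc G v w i) - minf G θ' r (anc G v w i) ω|)) ω ∂(PP V) =
        ∫ ω, PhiM G θ θ' (fun x => minf G θ r x ω) (fun x => minf G θ' r x ω) v w ∂(PP V) +
        LC * ∑ i ∈ Finset.range (G.dist v w + 1),
          (∫ ω, |mfin G θ (bal G v n) ω r (anc G v w i) - minf G θ r (anc G v w i) ω| ∂(PP V) +
          ∫ ω, |mfin G θ' (bal G v n) ω r (anc G v w i) - minf G θ' r (anc G v w i) ω| ∂(PP V)) := by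
      have i6 : ∀ i ∈ Finset.range (G.dist v w + 1), Integrable (fun ω =>
          (|mfin G θ (bal G v n) ω r (anc G v w i) - minf G θ r (anc G v w i) ω| +
          |mfin G θ' (bal G v n) ω r (anc G v w i) - minf G θ' r (anc G v w i) ω|)) (PP V) :=
        fun i _ => (i3 _).add (i4 _)
      rw [integral_add' i2 i5, integral_const_mul, integral_finsetSum _ i6]
      congr 2
      refine Finset.sum_congr rfl fun i _ => ?_
      exact integral_add (i3 _) (i4 _)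
    rw [e2]
    refine add_le_add le_rfl ?_
    rw [mul_assoc]
    refine mul_le_mul_of_nonneg_left ?_ LC_pos.le
    have hp : 0 ≤ δ / 2 / M := by positivity
    calc ∑ i ∈ Finset.range (G.dist v w + 1),
          (∫ ω, |mfin G θ (bal G v n) ω r (anc G v w i) - minf G θ r (anc G v w i) ω| ∂(PP V) +
          ∫ ω, |mfin G θ' (bal G v n) ω r (anc G v w i) - minf G θ' r (anc G v w i) ω| ∂(PP V))
        ≤ ∑ i ∈ Finset.range (G.dist v w + 1), δ / 2 / M := by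
          refine Finset.sum_le_sum fun i hi => L1 _ ?_
          have hi' : i ≤ G.dist v w := by simpa [Nat.lt_succ_iff] using hi
          have := dist_anc hT v w i hi'
          omega
      _ = ((G.dist v w : ℝ) + 1) * (δ / 2 / M) := by
          rw [Finset.sum_const, Finset.card_range, nsmul_eq_mul]
          push_cast
          ring
      _ ≤ ((N : ℝ) + 1) * (δ / 2 / M) := by
          refine mul_le_mul_of_nonneg_right ?_ hp
          have : (G.dist v w : ℝ) ≤ N := by exact_mod_cast hw.le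
          linarith
  -- far vertices
  have far : ∀ w, ∫ ω, PhiM G θ θ' (fun x => mfin G θ (bal G v n) ω r x)
        (fun x => mfin G θ' (bal G v n) ω r x) v w ∂(PP V) ≤
        6 * (θ ^ 2) ^ G.dist v w + 2 * (θ' ^ 2) ^ G.dist v w := by
    intro w
    have e1 := integral_mono_of_nonneg (μ := PP V)
      (Eventually.of_forall fun ω => PhiM_nonneg (G := G) (θ := θ) (θ' := θ')
        (m := fun x => mfin G θ (bal G v n) ω r x) (m' := fun x => mfin G θ' (bal G v n) ω r x) v w)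
      (integrable_const (6 * (θ ^ 2) ^ G.dist v w + 2 * (θ' ^ 2) ^ G.dist v w))
      (Eventually.of_forall fun ω => PhiM_le_pow hT h0 h2 h0' h2'
        (m := fun x => mfin G θ (bal G v n) ω r x) (m' := fun x => mfin G θ' (bal G v n) ω r x)
        (fun x => abs_mfin_le G hθ _ ω r x) (fun x => abs_mfin_le G hθ' _ ω r x) v w)
    refine e1.trans (le_of_eq ?_)
    simp
  rw [← Finset.sum_filter_add_sum_filter_not (bal G v n) (fun w => G.dist v w < N)]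
  have p1 : ∑ w ∈ (bal G v n).filter (fun w => G.dist v w < N),
      ∫ ω, PhiM G θ θ' (fun x => mfin G θ (bal G v n) ω r x)
        (fun x => mfin G θ' (bal G v n) ω r x) v w ∂(PP V) ≤
      (∑ k ∈ Finset.range N, ∑ w ∈ sph G v k, ∫ ω, PhiM G θ θ' (fun x => minf G θ r x ω)
        (fun x => minf G θ' r x ω) v w ∂(PP V)) + δ / 2 := by
    have q1 : ∑ w ∈ (bal G v n).filter (fun w => G.dist v w < N),
        ∫ ω, PhiM G θ θ' (fun x => mfin G θ (bal G v n) ω r x)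
        (fun x => mfin G θ' (bal G v n) ω r x) v w ∂(PP V) ≤
        ∑ w ∈ (bal G v n).filter (fun w => G.dist v w < N),
        (∫ ω, PhiM G θ θ' (fun x => minf G θ r x ω) (fun x => minf G θ' r x ω) v w ∂(PP V) +
        LC * ((N : ℝ) + 1) * (δ / 2 / M)) :=
      Finset.sum_le_sum fun w hw => near w (Finset.mem_filter.1 hw).2
    rw [Finset.sum_add_distrib, Finset.sum_const, nsmul_eq_mul] at q1
    have q2 := sum_range_sph hT v N (fun w => ∫ ω, PhiM G θ θ' (fun x => minf G θ r x ω)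
      (fun x => minf G θ' r x ω) v w ∂(PP V)) (fun w => integral_nonneg fun ω => PhiM_nonneg v w)
      ((bal G v n).filter (fun w => G.dist v w < N)) (fun w hw => (Finset.mem_filter.1 hw).2)
    have q3 : (((bal G v n).filter (fun w => G.dist v w < N)).card : ℝ) ≤
        ((bal G v N).card : ℝ) := by
      have : (bal G v n).filter (fun w => G.dist v w < N) ⊆ bal G v N := by
        intro w hw
        rw [mem_bal hT]
        exact (Finset.mem_filter.1 hw).2.le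
      exact_mod_cast Finset.card_le_card this
    have q4 : (((bal G v n).filter (fun w => G.dist v w < N)).card : ℝ) *
        (LC * ((N : ℝ) + 1) * (δ / 2 / M)) ≤ δ / 2 := by
      have hp : 0 ≤ LC * ((N : ℝ) + 1) * (δ / 2 / M) := by
        have := LC_pos
        positivity
      calc (((bal G v n).filter (fun w => G.dist v w < N)).card : ℝ) *
          (LC * ((N : ℝ) + 1) * (δ / 2 / M)) ≤ ((bal G v N).card : ℝ) *
          (LC * ((N : ℝ) + 1) * (δ / 2 / M)) := mul_le_mul_of_nonneg_right q3 hp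
        _ = (((bal G v N).card : ℝ) * (LC * ((N : ℝ) + 1))) * (δ / 2 / M) := by ring
        _ ≤ M * (δ / 2 / M) := by
            refine mul_le_mul_of_nonneg_right ?_ (by positivity)
            rw [hM]
            linarith
        _ = δ / 2 := by field_simp
    linarith
  have p2 : ∑ w ∈ (bal G v n).filter (fun w => ¬ G.dist v w < N),
      ∫ ω, PhiM G θ θ' (fun x => mfin G θ (bal G v n) ω r x)
        (fun x => mfin G θ' (bal G v n) ω r x) v w ∂(PP V) ≤ δ / 2 :=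
    (Finset.sum_le_sum fun w _ => far w).trans
      (hN _ fun w hw => not_lt.1 (Finset.mem_filter.1 hw).2)
  linarith

end Crest.Agent.R160.Vol

namespace Crest.Agent.R160

open Crest.Agent.R160.Vol Crest.Agent.R160.DI

open scoped Classical

variable {V : Type*} {G : SimpleGraph V} [G.LocallyFinite]

/-- monotonicity in time -/
theorem DD_mono (hT : G.IsTree) {b : ℕ} (hb : 2 ≤ b) (hreg : G.IsRegularOfDegree (b + 1))
    {θ θ' : ℝ} (h0 : 0 ≤ θ) (h1 : (b : ℝ) * θ ^ 2 < 1) (h0' : 0 ≤ θ') (h1' : (b : ℝ) * θ' ^ 2 < 1)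
    (v : V) {s t : ℝ} (hs : 0 ≤ s) (hst : s ≤ t) : DD G θ θ' s v ≤ DD G θ θ' t v := by
  have hb' : (2 : ℝ) ≤ b := by exact_mod_cast hb
  have hlt : θ < 1 := theta_lt_one h0 (by nlinarith [sq_nonneg θ])
  have hlt' : θ' < 1 := theta_lt_one h0' (by nlinarith [sq_nonneg θ'])
  exact le_of_tendsto_of_tendsto' (tendsto_DF hT hb hreg h0 h1 h0' h1' hs v)
    (tendsto_DF hT hb hreg h0 h1 h0' h1' (hs.trans hst) v)
    fun n => DF_mono h0 hlt h0' hlt' _ _ v hst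

/-- increment inequality in infinite volume, sup form -/
theorem DD_incr (hT : G.IsTree) {b : ℕ} (hb : 2 ≤ b) (hreg : G.IsRegularOfDegree (b + 1))
    {θ θ' : ℝ} (h0 : 0 ≤ θ) (h1 : (b : ℝ) * θ ^ 2 < 1) (h0' : 0 ≤ θ') (h1' : (b : ℝ) * θ' ^ 2 < 1)
    (v : V) (k : ℕ) {s t : ℝ} (hs : (k : ℝ) ≤ s) (hst : s ≤ t) (ht : t ≤ k + 1 / 2) (B : ℝ)
    (hB : ∀ r, s ≤ r → r ≤ t → ∀ N : ℕ,
      ∑ n ∈ Finset.range N, ∑ w ∈ sph G v n,
        ∫ ω, ((MM G θ (fun x => minf G θ r x ω) v w - MM G θ' (fun x => minf G θ' r x ω) v w) ^ 2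
          + (MM G θ (fun x => minf G θ r x ω) v w) ^ 2
              * (minf G θ r w ω - minf G θ' r w ω) ^ 2) ∂(PP V) ≤ B) :
    DD G θ θ' t v ≤ DD G θ θ' s v
      + 100 * (if k = 0 then t / 2 else 1 / 2) ^ 2 * (t - s) * B := by
  have hb' : (2 : ℝ) ≤ b := by exact_mod_cast hb
  have h2 : θ ^ 2 ≤ 1 / 2 := by nlinarith [sq_nonneg θ]
  have h2' : θ' ^ 2 ≤ 1 / 2 := by nlinarith [sq_nonneg θ']
  have hlt := theta_lt_one h0 h2
  have hlt' := theta_lt_one h0' h2'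
  have hk0 : (0 : ℝ) ≤ k := Nat.cast_nonneg k
  have hs0 : 0 ≤ s := hk0.trans hs
  set K : ℝ := 100 * (if k = 0 then t / 2 else 1 / 2) ^ 2 * (t - s) with hK
  have hK0 : 0 ≤ K := mul_nonneg (mul_nonneg (by norm_num) (sq_nonneg _)) (by linarith)
  have main : ∀ δ : ℝ, 0 < δ → DD G θ θ' t v ≤ DD G θ θ' s v + K * (B + δ) := by
    intro δ hδ
    obtain ⟨n₀, N, H⟩ := exists_approx hT hb hreg h0 h1 h0' h1' v t hδ
    have fin : ∀ n, n₀ ≤ n → DF G θ θ' (bal G v n) (bal G v n) t v ≤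
        DF G θ θ' (bal G v n) (bal G v n) s v + K * (B + δ) := by
      intro n hn
      have ht0 : t ≤ (⌈t⌉₊ : ℝ) := Nat.le_ceil t
      have hv := self_mem_bal' (G := G) v n
      have e1 := diff_incr G h0 hlt h0' hlt' (bal G v n) (bal G v n) ⌈t⌉₊ v k hs hst ht (B + δ) ?_
      · simp only [DF_eq_mt θ θ' _ _ ht0, DF_eq_mt θ θ' _ _ (hst.trans ht0)]
        exact e1
      · intro r hr1 hr2
        have e2 := H n hn r (hs0.trans hr1) hr2
        have e3 := hB r hr1 hr2 N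
        rw [Finset.union_self]
        have e4 : ∀ w ∈ bal G v n, ∫ ω, ((ct G θ (bal G v n) (evs (bal G v n) ⌈t⌉₊) ω r v w -
            ct G θ' (bal G v n) (evs (bal G v n) ⌈t⌉₊) ω r v w) ^ 2
            + (ct G θ (bal G v n) (evs (bal G v n) ⌈t⌉₊) ω r v w) ^ 2 *
            (mt G θ (bal G v n) (evs (bal G v n) ⌈t⌉₊) ω r w -
              mt G θ' (bal G v n) (evs (bal G v n) ⌈t⌉₊) ω r w) ^ 2) ∂(PP V) =
            ∫ ω, PhiM G θ θ' (fun x => mfin G θ (bal G v n) ω r x)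
              (fun x => mfin G θ' (bal G v n) ω r x) v w ∂(PP V) := by
          intro w hw
          refine integral_congr_ae (Eventually.of_forall fun ω => ?_)
          simp only
          rw [ct_eq_MM hT h0 hlt (GC_bal hT v n) _ ω r hv hw,
            ct_eq_MM hT h0' hlt' (GC_bal hT v n) _ ω r hv hw]
          simp only [mt_evs G _ (hr2.trans ht0)]
          rfl
        rw [Finset.sum_congr rfl e4]
        refine e2.trans ?_
        have e5 : (∑ k ∈ Finset.range N, ∑ w ∈ sph G v k, ∫ ω, PhiM G θ θ'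
            (fun x => minf G θ r x ω) (fun x => minf G θ' r x ω) v w ∂(PP V)) ≤ B := e3
        linarith
    refine le_of_tendsto_of_tendsto (tendsto_DF hT hb hreg h0 h1 h0' h1' (hs0.trans hst) v)
      ((tendsto_DF hT hb hreg h0 h1 h0' h1' hs0 v).add_const _) ?_
    filter_upwards [eventually_ge_atTop n₀] with n hn
    exact fin n hn
  have hlim : Tendsto (fun δ : ℝ => DD G θ θ' s v + K * (B + δ)) (𝓝[>] 0)
      (𝓝 (DD G θ θ' s v + K * (B + 0))) := by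
    refine Tendsto.mono_left ?_ nhdsWithin_le_nhds
    exact ((tendsto_const_nhds.add tendsto_id).const_mul K).const_add _
  have := ge_of_tendsto hlim (by
    filter_upwards [self_mem_nhdsWithin] with δ hδ
    exact main δ hδ)
  simpa using this

end Crest.Agent.R160
end

-- ▼ part R160/GC

/-! # Row 160, module GC: Cauchy property at the critical parameter -/

set_option autoImplicit false

open MeasureTheory Finset Filter Topology
open scoped Classical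

namespace Crest.Agent.R160.GC

open Crest.Agent.R160 Crest.Agent.R160.TreeAut Crest.Agent.R160.GA

lemma continuous_LL_cl {θ : ℝ} (h0 : 0 ≤ θ) (h2 : θ ^ 2 ≤ 1 / 2) :
    Continuous (Function.uncurry fun a b : ℝ => LL θ (cl a) (cl b)) := by
  rw [continuous_iff_continuousAt]
  rintro ⟨a, b⟩
  rw [ContinuousAt, tendsto_iff_dist_tendsto_zero]
  have h1 : Tendsto (fun p : ℝ × ℝ => 8 * 10 ^ 6 * (|cl p.1 - cl a| + |cl p.2 - cl b|))
      (𝓝 (a, b)) (𝓝 0) := by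
    have h : Continuous fun p : ℝ × ℝ => 8 * 10 ^ 6 * (|cl p.1 - cl a| + |cl p.2 - cl b|) := by
      have c1 : Continuous fun p : ℝ × ℝ => cl p.1 := continuous_cl.comp continuous_fst
      have c2 : Continuous fun p : ℝ × ℝ => cl p.2 := continuous_cl.comp continuous_snd
      fun_prop
    have := h.tendsto (a, b)
    simpa using this
  refine squeeze_zero (fun _ => dist_nonneg) (fun p => ?_) h1
  rw [Real.dist_eq]
  simp only [Function.uncurry]
  have h3 := LL_diff' h0 h2 h0 h2 (abs_cl_le p.1) (abs_cl_le p.2) (abs_cl_le a) (abs_cl_le b)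
  rw [sub_self, abs_zero, add_zero] at h3
  have c1 := abs_cl_le p.1
  have c2 := abs_cl_le p.2
  have c3 := abs_cl_le a
  have c4 := abs_cl_le b
  have h5 : (|cl p.1| + |cl p.2| + |cl a| + |cl b|) * (|cl p.1 - cl a| + |cl p.2 - cl b|)
      ≤ 2 * (|cl p.1 - cl a| + |cl p.2 - cl b|) :=
    mul_le_mul_of_nonneg_right (by linarith) (by positivity)
  linarith

variable {V : Type*} {G : SimpleGraph V} [G.LocallyFinite]

lemma bet_le {θ θ₀ : ℝ} (h0 : 0 ≤ θ) (h2 : θ ^ 2 ≤ 1 / 2) (h0' : 0 ≤ θ₀) (h2' : θ₀ ^ 2 ≤ 1 / 2)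
    (r : ℝ) (x y : V) :
    |bet G θ r x y - ∫ ω, LL θ₀ (cl (minf G θ r x ω)) (cl (minf G θ r y ω)) ∂(PP V)|
      ≤ 4 * 10 ^ 6 * |θ - θ₀| := by
  have hm : Measurable fun ω : Om V => LL θ₀ (cl (minf G θ r x ω)) (cl (minf G θ r y ω)) := by
    have h1 : Measurable fun ω : Om V => cl (minf G θ r x ω) :=
      measurable_cl.comp (meas_minf θ r x)
    have h2 : Measurable fun ω : Om V => cl (minf G θ r y ω) :=
      measurable_cl.comp (meas_minf θ r y)
    change Measurable ((fun p : ℝ × ℝ => LL θ₀ p.1 p.2) ∘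
      fun ω : Om V => (cl (minf G θ r x ω), cl (minf G θ r y ω)))
    exact (measurable_LL θ₀).comp (h1.prodMk h2)
  have i1 : Integrable (fun ω : Om V => LL θ (cl (minf G θ r x ω)) (cl (minf G θ r y ω))) (PP V) :=
    GA.integrable_of_bdd (measurable_LLm θ r x y) (10 ^ 6) fun ω => abs_LL_cl_le h0 h2 _ _
  have i2 : Integrable (fun ω : Om V => LL θ₀ (cl (minf G θ r x ω)) (cl (minf G θ r y ω))) (PP V) :=
    GA.integrable_of_bdd hm (10 ^ 6) fun ω => abs_LL_cl_le h0' h2' _ _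
  unfold bet
  rw [← integral_sub i1 i2]
  have hpt : ∀ ω : Om V, ‖LL θ (cl (minf G θ r x ω)) (cl (minf G θ r y ω))
      - LL θ₀ (cl (minf G θ r x ω)) (cl (minf G θ r y ω))‖ ≤ 4 * 10 ^ 6 * |θ - θ₀| := by
    intro ω
    have h3 := LL_diff' h0 h2 h0' h2' (abs_cl_le (minf G θ r x ω)) (abs_cl_le (minf G θ r y ω))
      (abs_cl_le (minf G θ r x ω)) (abs_cl_le (minf G θ r y ω))
    simp only [sub_self, abs_zero, add_zero, mul_zero, zero_add] at h3
    rw [Real.norm_eq_abs]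
    exact h3
  have := norm_integral_le_of_norm_le_const (μ := PP V) (Eventually.of_forall hpt)
  simpa using this

/-- from a neighbourhood statement to an eventual statement -/
lemma ev_of_exists {b : ℕ} {p : ℝ → ℝ → Prop}
    (h : ∃ δ, 0 < δ ∧ ∀ θ θ', thc b - δ < θ → θ < thc b → thc b - δ < θ' → θ' < thc b → p θ θ') :
    ∀ᶠ q in (𝓝[<] (thc b)) ×ˢ (𝓝[<] (thc b)), p q.1 q.2 := by
  obtain ⟨δ, hδ, h⟩ := h
  have h1 : ∀ᶠ θ in 𝓝[<] (thc b), thc b - δ < θ ∧ θ < thc b := by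
    have : Set.Ioo (thc b - δ) (thc b) ∈ 𝓝[<] (thc b) := Ioo_mem_nhdsLT (by linarith)
    filter_upwards [this] with θ hθ using ⟨hθ.1, hθ.2⟩
  filter_upwards [h1.prod_mk h1] with q hq
  exact h q.1 q.2 hq.1.1 hq.1.2 hq.2.1 hq.2.2

lemma exists_of_ev {b : ℕ} {p : ℝ → ℝ → Prop}
    (h : ∀ᶠ q in (𝓝[<] (thc b)) ×ˢ (𝓝[<] (thc b)), p q.1 q.2) :
    ∃ δ, 0 < δ ∧ ∀ θ θ', thc b - δ < θ → θ < thc b → thc b - δ < θ' → θ' < thc b → p θ θ' := by
  rw [eventually_prod_iff] at h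
  obtain ⟨pa, ha, pb, hb, h⟩ := h
  have key : ∀ p : ℝ → Prop, (∀ᶠ θ in 𝓝[<] (thc b), p θ) →
      ∃ δ, 0 < δ ∧ ∀ θ, thc b - δ < θ → θ < thc b → p θ := by
    intro p hp
    obtain ⟨l, hl, hl2⟩ := (mem_nhdsLT_iff_exists_Ioo_subset (α := ℝ)).1 hp
    refine ⟨thc b - l, by rw [Set.mem_Iio] at hl; linarith, fun θ h1 h2 => ?_⟩
    exact hl2 ⟨by linarith, h2⟩
  obtain ⟨δ1, hδ1, h1⟩ := key pa ha
  obtain ⟨δ2, hδ2, h2⟩ := key pb hb
  refine ⟨min δ1 δ2, lt_min hδ1 hδ2, fun θ θ' a1 a2 a3 a4 => ?_⟩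
  exact h (h1 θ (by linarith [min_le_left δ1 δ2]) a2) (h2 θ' (by linarith [min_le_right δ1 δ2]) a4)

set_option maxHeartbeats 1000000 in
/-- **the magnetizations are Cauchy as `θ ↑ θ_c`** -/
theorem cauchy_crit_of (hT : G.IsTree) {b : ℕ} (hb : 2 ≤ b) (hreg : G.IsRegularOfDegree (b + 1))
    (hsm : ∃ C : ℝ, 0 < C ∧ ∀ θ, 0 ≤ θ → (b : ℝ) * θ ^ 2 < 1 → ∀ t, 0 < t → t ≤ 1 / 2 → ∀ v : V,
      ∫ ω, (minf G θ t v ω) ^ 2 ∂(PP V) ≤ C * t ^ (3 / 2 : ℝ))
    (htail : ∃ C c : ℝ, 0 < C ∧ 0 < c ∧ ∀ θ, 0 ≤ θ → (b : ℝ) * θ ^ 2 < 1 → ∀ t, 0 < t →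
      t ≤ 1 / 2 → ∀ v : V, (PP V).real {ω | t ^ (1 / 4 : ℝ) < |minf G θ t v ω|}
        ≤ C * Real.exp (-c * t ^ (-(1 / 8) : ℝ)))
    (hlev : ∃ C c : ℝ, 0 < C ∧ 0 < c ∧ ∀ θ, thc b / 2 ≤ θ → θ < thc b → ∀ t, 0 < t → t ≤ 1 / 2 →
      ∀ (o : V) (k : ℕ),
      ((b : ℝ) * θ ^ 2) ^ k * ∫ ω, Alev G b θ (fun x => minf G θ t x ω) o k ∂(PP V)
        ≤ C * Real.exp (-c * t ^ (3 / 2 : ℝ) * k))
    (hlaw : ∀ t0 : ℝ, 0 < t0 → ∀ Φ : ℝ → ℝ → ℝ, Continuous (Function.uncurry Φ) → ∀ x y : V,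
      G.Adj x y → ∀ ε, 0 < ε →
      ∃ δ, 0 < δ ∧ ∀ θ θ', thc b - δ < θ → θ < thc b → thc b - δ < θ' → θ' < thc b →
      ∀ t, t0 ≤ t →
      |∫ ω, Φ (minf G θ t x ω) (minf G θ t y ω) ∂(PP V)
        - ∫ ω, Φ (minf G θ' t x ω) (minf G θ' t y ω) ∂(PP V)| ≤ ε)
    (hGB : ∃ C c : ℝ, 0 < C ∧ 0 < c ∧ ∀ s0, 0 < s0 → ∀ (N : ℕ) (ε : ℝ), 0 < ε →
      ∃ δ, 0 < δ ∧ ∀ θ θ', thc b - δ < θ → θ < thc b → thc b - δ < θ' → θ' < thc b →
      ∀ r, s0 ≤ r → ∀ (v : V) (M : ℕ), ∑ n ∈ range M, Slev G θ θ' r v n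
        ≤ C * ((N : ℝ) ^ 2 + ((min r 1) ^ 3)⁻¹) * DD G θ θ' r v
          + C * ((min r 1) ^ 3)⁻¹ * Real.exp (-Real.exp (c * N)) + ε)
    (t : ℝ) (ht : 0 ≤ t) (v : V) (ε : ℝ) (hε : 0 < ε) :
    ∃ δ, 0 < δ ∧ ∀ θ θ', thc b - δ < θ → θ < thc b → thc b - δ < θ' → θ' < thc b →
      DD G θ θ' t v ≤ ε := by
  -- trivial case
  rcases ht.eq_or_lt with ht0 | ht0
  · subst ht0
    refine ⟨1, one_pos, fun θ θ' _ _ _ _ => ?_⟩
    rw [DD_zero]
    exact hε.le
  obtain ⟨C1, c1, hC1, hc1, hGA⟩ := GA_main hT hb hreg htail hlev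
  obtain ⟨C2, c2, hC2, hc2, hGB⟩ := hGB
  obtain ⟨C3, hC3, hsm⟩ := hsm
  -- a neighbour of `v`
  obtain ⟨y, hvy⟩ : ∃ y, G.Adj v y := by
    have hd : G.degree v = b + 1 := hreg v
    have : 0 < G.degree v := by rw [hd]; omega
    rw [SimpleGraph.degree_pos_iff_exists_adj] at this
    exact this
  have hb0 : (0 : ℝ) < b := by exact_mod_cast (by omega : 0 < b)
  have hthc := thc_pos hb
  set F : Filter (ℝ × ℝ) := (𝓝[<] (thc b)) ×ˢ (𝓝[<] (thc b)) with hF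
  have hbase : ∀ᶠ q : ℝ × ℝ in F, (thc b / 2 ≤ q.1 ∧ q.1 < thc b) ∧ (thc b / 2 ≤ q.2 ∧ q.2 < thc b) := by
    refine ev_of_exists (b := b) (p := fun θ θ' => (thc b / 2 ≤ θ ∧ θ < thc b) ∧
      (thc b / 2 ≤ θ' ∧ θ' < thc b)) ⟨thc b / 2, by positivity, fun θ θ' h1 h2 h3 h4 => ?_⟩
    exact ⟨⟨by linarith, h2⟩, ⟨by linarith, h4⟩⟩
  have hthc2 : thc b ^ 2 ≤ 1 / 2 := by
    rw [thc_sq hb]
    have hb2 : (2 : ℝ) ≤ b := by exact_mod_cast hb
    exact one_div_le_one_div_of_le (by norm_num) hb2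
  set e : ℝ × ℝ → ℝ → ℝ := fun q r => (bet G q.1 r v y - bet G q.2 r v y) ^ 2 + (q.1 - q.2) ^ 2
    with he
  set D : ℝ × ℝ → ℝ → ℝ := fun q t =>
    if (thc b / 2 ≤ q.1 ∧ q.1 < thc b) ∧ (thc b / 2 ≤ q.2 ∧ q.2 < thc b) then DD G q.1 q.2 t v
    else 0 with hD
  have hDq : ∀ q : ℝ × ℝ, (thc b / 2 ≤ q.1 ∧ q.1 < thc b) ∧ (thc b / 2 ≤ q.2 ∧ q.2 < thc b) →
      ∀ t, D q t = DD G q.1 q.2 t v := by
    intro q hq t
    simp only [hD, if_pos hq]
  have hfin := conclude F D (fun q r M => ∑ n ∈ range M, Slev G q.1 q.2 r v n) e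
    (max C1 C2) (min c1 c2) (lt_max_of_lt_left hC1) (lt_min hc1 hc2) ?_ ?_ ?_ ?_ ?_ ?_ ?_ ?_ ?_ ?_
    t ht0
  · -- conclusion
    have h1 : ∀ᶠ q : ℝ × ℝ in F, DD G q.1 q.2 t v ≤ ε := by
      have h2 := (tendsto_order.1 hfin).2 ε hε
      filter_upwards [h2, hbase] with q hq hq2
      rw [hDq q hq2] at hq
      exact hq.le
    exact exists_of_ev (p := fun θ θ' => DD G θ θ' t v ≤ ε) h1
  · -- nonneg
    intro q t
    simp only [hD]
    split_ifs
    · exact DD_nonneg _ _ _ _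
    · exact le_rfl
  · -- le 4
    intro q t
    simp only [hD]
    split_ifs with hq
    · obtain ⟨f0, f1, _, _, _⟩ := theta_facts hb hq.1.1 hq.1.2
      obtain ⟨f0', f1', _, _, _⟩ := theta_facts hb hq.2.1 hq.2.2
      unfold DD
      have : ∫ ω, (minf G q.1 t v ω - minf G q.2 t v ω) ^ 2 ∂(PP V) ≤ ∫ _ω : Om V, (4 : ℝ) ∂(PP V) := by
        refine integral_mono (integrable_f_sq f0.le f1 f0'.le f1' t v) (integrable_const _)
          fun ω => ?_
        have e1 := abs_le.1 (abs_minf_le (G := G) f0.le f1 t v ω)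
        have e2 := abs_le.1 (abs_minf_le (G := G) f0'.le f1' t v ω)
        simp only
        nlinarith
      simpa using this
    · norm_num
  · -- monotone
    filter_upwards [hbase] with q hq s t hs hst
    rw [hDq q hq, hDq q hq]
    obtain ⟨f0, _, _, f3, _⟩ := theta_facts hb hq.1.1 hq.1.2
    obtain ⟨f0', _, _, f3', _⟩ := theta_facts hb hq.2.1 hq.2.2
    exact DD_mono hT hb hreg f0.le f3 f0'.le f3' v hs hst
  · -- small times
    intro ε' hε'
    refine ⟨min (1 / 2) (ε' / (4 * C3)), by positivity, ?_⟩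
    filter_upwards [hbase] with q hq
    rw [hDq q hq]
    obtain ⟨f0, f1, _, f3, _⟩ := theta_facts hb hq.1.1 hq.1.2
    obtain ⟨f0', f1', _, f3', _⟩ := theta_facts hb hq.2.1 hq.2.2
    set s : ℝ := min (1 / 2) (ε' / (4 * C3)) with hs
    have hs0 : 0 < s := by positivity
    have hs1 : s ≤ 1 / 2 := min_le_left _ _
    have hs2 : s ≤ ε' / (4 * C3) := min_le_right _ _
    have h1 := hsm q.1 f0.le f3 s hs0 hs1 v
    have h2 := hsm q.2 f0'.le f3' s hs0 hs1 v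
    have h3 : s ^ (3 / 2 : ℝ) ≤ s := by
      have : s ^ (3 / 2 : ℝ) ≤ s ^ (1 : ℝ) :=
        Real.rpow_le_rpow_of_exponent_ge hs0 (by linarith) (by norm_num)
      rwa [Real.rpow_one] at this
    have i1 : ∀ θ : ℝ, 0 ≤ θ → θ < 1 →
        Integrable (fun ω : Om V => (minf G θ s v ω) ^ 2) (PP V) := by
      intro θ g0 g1
      refine GA.integrable_of_bdd ((meas_minf θ s v).pow_const 2) 1 fun ω => ?_
      have e1 := abs_le.1 (abs_minf_le (G := G) g0 g1 s v ω)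
      rw [abs_of_nonneg (sq_nonneg _)]
      nlinarith
    have h4 : DD G q.1 q.2 s v ≤ 2 * ∫ ω, (minf G q.1 s v ω) ^ 2 ∂(PP V)
        + 2 * ∫ ω, (minf G q.2 s v ω) ^ 2 ∂(PP V) := by
      unfold DD
      rw [← integral_const_mul, ← integral_const_mul, ← integral_add ((i1 _ f0.le f1).const_mul _)
        ((i1 _ f0'.le f1').const_mul _)]
      refine integral_mono (integrable_f_sq f0.le f1 f0'.le f1' s v)
        (((i1 _ f0.le f1).const_mul _).add ((i1 _ f0'.le f1').const_mul _)) fun ω => ?_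
      simp only
      nlinarith [sq_nonneg (minf G q.1 s v ω + minf G q.2 s v ω)]
    have h5 : 4 * C3 * s ≤ ε' := by
      rw [le_div_iff₀ (by positivity)] at hs2
      linarith
    nlinarith
  · -- increments
    filter_upwards [hbase] with q hq k s t B hs hst ht hB
    rw [hDq q hq, hDq q hq]
    obtain ⟨f0, _, _, f3, _⟩ := theta_facts hb hq.1.1 hq.1.2
    obtain ⟨f0', _, _, f3', _⟩ := theta_facts hb hq.2.1 hq.2.2
    exact DD_incr hT hb hreg f0.le f3 f0'.le f3' v k hs hst ht B hB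
  · -- idle
    filter_upwards [hbase] with q hq k s t hs hst ht
    rw [hDq q hq, hDq q hq]
    exact DD_idle q.1 q.2 v k hs hst ht
  · -- (A)
    filter_upwards [hbase] with q hq r hr hr1 M
    rw [hDq q hq]
    refine (hGA q.1 q.2 hq.1.1 hq.1.2 hq.2.1 hq.2.2 v y hvy r hr hr1 v M).trans ?_
    have hD0 := DD_nonneg (G := G) q.1 q.2 r v
    have hr1' : 0 < r ^ (-(11 / 4) : ℝ) := Real.rpow_pos_of_pos hr _
    have hr2 : 0 < r ^ (-(39 / 8) : ℝ) := Real.rpow_pos_of_pos hr _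
    have hr3 : 0 ≤ r ^ (-(1 / 8) : ℝ) := (Real.rpow_pos_of_pos hr _).le
    have hexp : Real.exp (-c1 * r ^ (-(1 / 8) : ℝ))
        ≤ Real.exp (-(min c1 c2) * r ^ (-(1 / 8) : ℝ)) := by
      apply Real.exp_le_exp.2
      have : min c1 c2 ≤ c1 := min_le_left _ _
      nlinarith
    apply mul_le_mul (le_max_left _ _) _ (by positivity) (by positivity)
    simp only [he]
    linarith
  · -- e nonneg
    intro q r
    simp only [he]
    positivity
  · -- e small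
    intro t0 ht0' ε' hε'
    set κ : ℝ := min 1 (ε' / 4) / 4 with hκ
    have hκ0 : 0 < κ := by positivity
    have hκ1 : κ ≤ 1 / 4 := by
      rw [hκ]; have := min_le_left 1 (ε' / 4); linarith
    have hκ2 : κ ≤ ε' / 16 := by
      rw [hκ]; have := min_le_right 1 (ε' / 4); linarith
    have h1 : ∀ᶠ q : ℝ × ℝ in F, ∀ t, t0 ≤ t →
      |∫ ω, LL (thc b) (cl (minf G q.1 t v ω)) (cl (minf G q.1 t y ω)) ∂(PP V)
        - ∫ ω, LL (thc b) (cl (minf G q.2 t v ω)) (cl (minf G q.2 t y ω)) ∂(PP V)| ≤ κ :=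
      ev_of_exists (hlaw t0 ht0' (fun a b' => LL (thc b) (cl a) (cl b'))
        (continuous_LL_cl hthc.le hthc2) v y hvy κ hκ0)
    have h2 : ∀ᶠ q : ℝ × ℝ in F, thc b - κ / (4 * 10 ^ 6) < q.1 ∧ thc b - κ / (4 * 10 ^ 6) < q.2 :=
      ev_of_exists (p := fun θ θ' => thc b - κ / (4 * 10 ^ 6) < θ ∧ thc b - κ / (4 * 10 ^ 6) < θ')
        ⟨κ / (4 * 10 ^ 6), by positivity, fun θ θ' a1 _ a3 _ => ⟨a1, a3⟩⟩
    filter_upwards [hbase, h1, h2] with q hq h1 h2 r hr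
    obtain ⟨f0, _, f2, _, _⟩ := theta_facts hb hq.1.1 hq.1.2
    obtain ⟨f0', _, f2', _, _⟩ := theta_facts hb hq.2.1 hq.2.2
    have b1 := bet_le (G := G) f0.le f2 hthc.le hthc2 r v y
    have b2 := bet_le (G := G) f0'.le f2' hthc.le hthc2 r v y
    have d1 : |q.1 - thc b| ≤ κ / (4 * 10 ^ 6) := by
      rw [abs_le]; constructor <;> linarith [h2.1, hq.1.2, show 0 < κ / (4 * 10 ^ 6) by positivity]
    have d2 : |q.2 - thc b| ≤ κ / (4 * 10 ^ 6) := by
      rw [abs_le]; constructor <;> linarith [h2.2, hq.2.2, show 0 < κ / (4 * 10 ^ 6) by positivity]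
    have b1' : |bet G q.1 r v y - ∫ ω, LL (thc b) (cl (minf G q.1 r v ω)) (cl (minf G q.1 r y ω))
        ∂(PP V)| ≤ κ := by
      refine b1.trans ?_
      calc 4 * 10 ^ 6 * |q.1 - thc b| ≤ 4 * 10 ^ 6 * (κ / (4 * 10 ^ 6)) :=
            mul_le_mul_of_nonneg_left d1 (by norm_num)
        _ = κ := by field_simp
    have b2' : |bet G q.2 r v y - ∫ ω, LL (thc b) (cl (minf G q.2 r v ω)) (cl (minf G q.2 r y ω))
        ∂(PP V)| ≤ κ := by
      refine b2.trans ?_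
      calc 4 * 10 ^ 6 * |q.2 - thc b| ≤ 4 * 10 ^ 6 * (κ / (4 * 10 ^ 6)) :=
            mul_le_mul_of_nonneg_left d2 (by norm_num)
        _ = κ := by field_simp
    have b3 := h1 r hr
    have e1 := abs_le.1 b1'
    have e2 := abs_le.1 b2'
    have e3 := abs_le.1 b3
    have e4 : |bet G q.1 r v y - bet G q.2 r v y| ≤ 3 * κ := by
      rw [abs_le]; constructor <;> linarith [e1.1, e1.2, e2.1, e2.2, e3.1, e3.2]
    have e5 : (bet G q.1 r v y - bet G q.2 r v y) ^ 2 ≤ (3 * κ) ^ 2 := by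
      rw [← sq_abs]; exact pow_le_pow_left₀ (abs_nonneg _) e4 2
    have d3 : |q.1 - q.2| ≤ κ := by
      have g1 := abs_le.1 d1
      have g2 := abs_le.1 d2
      have g3 : κ / (4 * 10 ^ 6) ≤ κ / 2 := by
        apply div_le_div_of_nonneg_left hκ0.le (by norm_num) (by norm_num)
      rw [abs_le]; constructor <;> linarith [g1.1, g1.2, g2.1, g2.2]
    have e6 : (q.1 - q.2) ^ 2 ≤ κ ^ 2 := by
      rw [← sq_abs]; exact pow_le_pow_left₀ (abs_nonneg _) d3 2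
    simp only [he]
    nlinarith
  · -- (B)
    intro s0 hs0 N ε' hε'
    have h1 : ∀ᶠ q : ℝ × ℝ in F, ∀ r, s0 ≤ r → ∀ (v : V) (M : ℕ),
        ∑ n ∈ range M, Slev G q.1 q.2 r v n
        ≤ C2 * ((N : ℝ) ^ 2 + ((min r 1) ^ 3)⁻¹) * DD G q.1 q.2 r v
          + C2 * ((min r 1) ^ 3)⁻¹ * Real.exp (-Real.exp (c2 * N)) + ε' :=
      ev_of_exists (hGB s0 hs0 N ε' hε')
    filter_upwards [hbase, h1] with q hq h1 r hr M
    rw [hDq q hq]
    refine (h1 r hr v M).trans ?_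
    have hD0 := DD_nonneg (G := G) q.1 q.2 r v
    have hr0 : 0 < r := by linarith
    have hm : 0 < min r 1 := lt_min hr0 one_pos
    have g1 : C2 * ((N : ℝ) ^ 2 + ((min r 1) ^ 3)⁻¹) * DD G q.1 q.2 r v
        ≤ max C1 C2 * ((N : ℝ) ^ 2 + ((min r 1) ^ 3)⁻¹) * DD G q.1 q.2 r v := by
      apply mul_le_mul_of_nonneg_right _ hD0
      exact mul_le_mul_of_nonneg_right (le_max_right _ _) (by positivity)
    have g2 : C2 * ((min r 1) ^ 3)⁻¹ * Real.exp (-Real.exp (c2 * N))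
        ≤ max C1 C2 * ((min r 1) ^ 3)⁻¹ * Real.exp (-Real.exp (min c1 c2 * N)) := by
      apply mul_le_mul _ _ (Real.exp_pos _).le (by positivity)
      · exact mul_le_mul_of_nonneg_right (le_max_right _ _) (by positivity)
      · apply Real.exp_le_exp.2
        have : Real.exp (min c1 c2 * N) ≤ Real.exp (c2 * N) := by
          apply Real.exp_le_exp.2
          exact mul_le_mul_of_nonneg_right (min_le_right _ _) (Nat.cast_nonneg N)
        linarith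
    linarith

end Crest.Agent.R160.GC
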