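import Mathlib
import Crest.Agent.R160.Causal
import Crest.Agent.R160.Defs

-- ▼ part R160/Law
section

/-! Row 160: LAW of the observations: under the noise law the observation process has the law of
the null observations reweighted by the likelihood. -/

set_option autoImplicit false
set_option linter.unusedSectionVars false

open MeasureTheory Finset
open scoped Classical

namespace Crest.Agent.R160

variable {V : Type*}

/-! ### generalities -/

lemma integrable_of_bdd {f : Om V → ℝ} (hf : Measurable f) {C : ℝ} (hC : ∀ ω, |f ω| ≤ C) :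
    Integrable f (PP V) :=
  Integrable.of_bound hf.aestronglyMeasurable C (Filter.Eventually.of_forall hC)

/-- integral after resampling the noise of `e` -/
lemma integral_updz (e : Ev V) {f : Om V → ℝ} (hf : Measurable f) {C : ℝ}
    (hC : ∀ ω, |f ω| ≤ C) :
    ∫ ω, f ω ∂(PP V) = ∫ ω, (∫ z : unitInterval, f (updz ω e z)) ∂(PP V) := by
  have h1 := mp_updz (V := V) e
  have h2 : ∫ ω, f ω ∂(PP V) =
      ∫ p : Om V × unitInterval, f (updz p.1 e p.2) ∂((PP V).prod volume) := by
    conv_lhs => rw [← h1.map_eq]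
    rw [integral_map h1.measurable.aemeasurable]
    rw [h1.map_eq]
    exact hf.aestronglyMeasurable
  rw [h2, integral_prod]
  exact Integrable.of_bound (hf.comp h1.measurable).aestronglyMeasurable C
    (Filter.Eventually.of_forall fun p => hC _)

/-- no ties -/
lemma ae_tm_ne {e e' : Ev V} (h : e ≠ e') : ∀ᵐ ω ∂(PP V), tm ω e ≠ tm ω e' := by
  have hm : MeasurableSet {ω : Om V | tm ω e = tm ω e'} :=
    measurableSet_eq_fun (measurable_tm e) (measurable_tm e')
  rw [ae_iff]
  simp only [not_not]
  have h1 := mp_update (V := V) e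
  rw [← h1.measure_preimage hm.nullMeasurableSet]
  have hm2 : MeasurableSet ((fun p : Om V × (unitInterval × unitInterval) =>
      Function.update p.1 e p.2) ⁻¹' {ω : Om V | tm ω e = tm ω e'}) := h1.measurable hm
  rw [Measure.measure_prod_null hm2]
  apply Filter.Eventually.of_forall
  intro ω
  simp only [Pi.zero_apply]
  have h2 : (Prod.mk ω ⁻¹' ((fun p : Om V × (unitInterval × unitInterval) =>
      Function.update p.1 e p.2) ⁻¹' {ω : Om V | tm ω e = tm ω e'})) ⊆
      (Prod.fst ⁻¹' {u : unitInterval | (e.2 : ℝ) + (u : ℝ) = tm ω e'}) := by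
    intro p hp
    simp only [Set.mem_preimage, Set.mem_ofPred_eq] at hp ⊢
    unfold tm clk at hp ⊢
    rw [Function.update_self, Function.update_of_ne h.symm] at hp
    exact hp
  apply measure_mono_null h2
  have h3 : MeasurePreserving (Prod.fst : unitInterval × unitInterval → unitInterval)
      volume volume := measurePreserving_fst
  have h4 : MeasurableSet {u : unitInterval | (e.2 : ℝ) + (u : ℝ) = tm ω e'} :=
    measurableSet_eq_fun (measurable_subtype_coe.const_add _) measurable_const
  rw [h3.measure_preimage h4.nullMeasurableSet]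
  apply Set.Subsingleton.measure_zero
  intro u hu u' hu'
  simp only [Set.mem_ofPred_eq] at hu hu'
  apply Subtype.ext
  linarith

/-- `F` does not depend on the noises of the events in `E` (it may depend on all clocks) -/
def NoNz (E : Finset (Ev V)) (F : Om V → (Ev V → ℝ) → ℝ) : Prop :=
  ∀ ω ω' : Om V, (∀ e, (ω e).1 = (ω' e).1) → (∀ e, e ∉ E → ω e = ω' e) → ∀ o, F ω o = F ω' o

/-- masking -/
noncomputable def msk (E : Finset (Ev V)) (o : Ev V → ℝ) : Ev V → ℝ :=
  fun e => if e ∈ E then o e else 0

lemma measurable_msk (E : Finset (Ev V)) : Measurable (msk E) := by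
  apply measurable_pi_lambda
  intro e
  unfold msk
  split_ifs
  · exact measurable_pi_apply e
  · exact measurable_const

@[fun_prop]
lemma measurable_nul' : Measurable fun ω : Om V => nul ω :=
  measurable_pi_iff.mpr fun e => measurable_nul e

lemma abs_nul_le (ω : Om V) (e : Ev V) : |nul ω e| ≤ 1 / 2 := by
  unfold nul
  rw [abs_mul, abs_of_nonneg (st_nonneg ω e)]
  have h1 := st_le ω e
  have h2 := nz_mem ω e
  have h3 := st_nonneg ω e
  nlinarith [abs_nonneg (nz ω e)]

lemma abs_nul_lt (ω : Om V) (e : Ev V) : |nul ω e| < 1 :=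
  lt_of_le_of_lt (abs_nul_le ω e) (by norm_num)

variable (G : SimpleGraph V) (θ : ℝ) (S : Finset V)

lemma abs_ow_le {E : Finset (Ev V)} {o : Ev V → ℝ} (ho : ∀ e ∈ E, |o e| < 1) (A : Finset V) :
    |ow E o A| ≤ 2 ^ E.card := by
  unfold ow
  rw [Finset.abs_prod]
  calc ∏ e ∈ E, |1 + sg A e.1 * o e| ≤ ∏ _e ∈ E, (2 : ℝ) := by
        apply Finset.prod_le_prod (fun _ _ => abs_nonneg _)
        intro e he
        have h1 : |sg A e.1 * o e| ≤ 1 := by
          rw [abs_mul, abs_sg, one_mul]; exact (ho e he).le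
        calc |1 + sg A e.1 * o e| ≤ |(1 : ℝ)| + |sg A e.1 * o e| := abs_add_le _ _
          _ ≤ 2 := by rw [abs_one]; linarith
    _ = 2 ^ E.card := by simp

lemma abs_ZZ_le {E : Finset (Ev V)} {o : Ev V → ℝ} (ho : ∀ e ∈ E, |o e| < 1) :
    |ZZ G θ S E o| ≤ ∑ A ∈ S.powerset, |ew G θ S A| * 2 ^ E.card := by
  unfold ZZ num
  refine (Finset.abs_sum_le_sum_abs _ _).trans (Finset.sum_le_sum fun A _ => ?_)
  rw [one_mul, abs_mul]
  exact mul_le_mul_of_nonneg_left (abs_ow_le ho A) (abs_nonneg _)

lemma ZZ_empty (o o' : Ev V → ℝ) : ZZ G θ S ∅ o = ZZ G θ S ∅ o' := by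
  unfold ZZ
  exact num_congr G θ S (fun e he => absurd he (Finset.notMem_empty e)) _

/-- likelihood ratio of the null observations -/
noncomputable def LR (E : Finset (Ev V)) (ω : Om V) : ℝ :=
  ZZ G θ S E (nul ω) / ZZ G θ S ∅ (fun _ => 0)

lemma abs_LR_le (E : Finset (Ev V)) : ∃ C, 0 ≤ C ∧ ∀ ω : Om V, |LR G θ S E ω| ≤ C := by
  refine ⟨(∑ A ∈ S.powerset, |ew G θ S A| * 2 ^ E.card) / |ZZ G θ S ∅ (fun _ => 0)|,
    by positivity, fun ω => ?_⟩
  unfold LR
  rw [abs_div]
  exact div_le_div_of_nonneg_right (abs_ZZ_le G θ S fun e _ => abs_nul_lt ω e) (abs_nonneg _)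

lemma measurable_LR (E : Finset (Ev V)) : Measurable (LR G θ S E) := by
  unfold LR
  exact ((measurable_ZZ G θ S E).comp measurable_nul').div_const _

/-- the last observation -/
lemma obs_last {E : Finset (Ev V)} {ω : Om V} {e : Ev V} (he : e ∈ E)
    (h : ∀ e' ∈ E.erase e, tm ω e' < tm ω e) :
    obs G θ S E ω = Function.update (obs G θ S (E.erase e) ω) e
      (st ω e * TT (st ω e * mm G θ S (E.erase e) (obs G θ S (E.erase e) ω) e.1) (nz ω e)) := by
  have hb : before E ω (tm ω e) = E.erase e := by
    ext x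
    rw [mem_before, Finset.mem_erase]
    constructor
    · rintro ⟨h1, h2⟩
      exact ⟨fun hx => by rw [hx] at h2; exact lt_irrefl _ h2, h1⟩
    · rintro ⟨h1, h2⟩
      exact ⟨h2, h x (Finset.mem_erase.mpr ⟨h1, h2⟩)⟩
  funext x
  by_cases hx : x = e
  · rw [hx, Function.update_self, obs_of_mem G θ S he]
    unfold mt
    rw [hb]
    congr 3
    apply mm_congr
    intro e' he'
    rw [← hb] at he'
    have := obs_before G θ S he'
    rw [hb] at this
    exact this.symm
  · rw [Function.update_of_ne hx]
    by_cases hxE : x ∈ E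
    · have he' : x ∈ before E ω (tm ω e) := by
        rw [hb]; exact Finset.mem_erase.mpr ⟨hx, hxE⟩
      have := obs_before G θ S he'
      rw [hb] at this
      exact this.symm
    · rw [obs_of_not_mem G θ S hxE,
        obs_of_not_mem G θ S (fun h' => hxE (Finset.mem_of_mem_erase h'))]

/-- indicator that `e` is the last event of `E` -/
noncomputable def lst (E : Finset (Ev V)) (e : Ev V) (ω : Om V) : ℝ :=
  if ∀ e' ∈ E.erase e, tm ω e' < tm ω e then 1 else 0

lemma measurable_lst (E : Finset (Ev V)) (e : Ev V) : Measurable (lst E e) := by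
  unfold lst
  apply Measurable.ite _ measurable_const measurable_const
  have : {ω : Om V | ∀ e' ∈ E.erase e, tm ω e' < tm ω e} =
      ⋂ e' ∈ E.erase e, {ω : Om V | tm ω e' < tm ω e} := by
    ext ω; simp
  rw [this]
  exact Finset.measurableSet_biInter _ fun e' _ =>
    measurableSet_lt (measurable_tm e') (measurable_tm e)

lemma lst_mem (E : Finset (Ev V)) (e : Ev V) (ω : Om V) : 0 ≤ lst E e ω ∧ lst E e ω ≤ 1 := by
  unfold lst; split_ifs <;> norm_num

lemma lst_congr (E : Finset (Ev V)) (e : Ev V) {ω ω' : Om V} (h : ∀ e, (ω e).1 = (ω' e).1) :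
    lst E e ω = lst E e ω' := by
  have : ∀ x, tm ω x = tm ω' x := fun x => by unfold tm clk; rw [h x]
  unfold lst
  simp only [this]

lemma sum_lst {E : Finset (Ev V)} (hE : E.Nonempty) :
    ∀ᵐ ω ∂(PP V), ∑ e ∈ E, lst E e ω = 1 := by
  have h1 : ∀ᵐ ω ∂(PP V), ∀ e ∈ E, ∀ e' ∈ E, e ≠ e' → tm ω e ≠ tm ω e' := by
    rw [Filter.eventually_all_finset]
    intro e _
    rw [Filter.eventually_all_finset]
    intro e' _
    by_cases h : e = e'
    · exact Filter.Eventually.of_forall fun ω h' => absurd h h'
    · exact (ae_tm_ne h).mono fun ω hω _ => hω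
  filter_upwards [h1] with ω hω
  obtain ⟨e, he, hmax⟩ := Finset.exists_max_image E (fun e => tm ω e) hE
  rw [Finset.sum_eq_single e]
  · unfold lst
    rw [if_pos]
    intro e' he'
    rw [Finset.mem_erase] at he'
    exact lt_of_le_of_ne (hmax e' he'.2) (hω e' he'.2 e he he'.1)
  · intro e' he' hne
    unfold lst
    rw [if_neg]
    intro h
    have := h e (Finset.mem_erase.mpr ⟨hne.symm, he⟩)
    exact absurd (hmax e' he') (not_le.mpr this)
  · intro h
    exact absurd he h

/-- clamp to `[-1,1]` -/
noncomputable def clp (x : ℝ) : ℝ := max (-1) (min 1 x)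

lemma clp_eq {x : ℝ} (h : |x| ≤ 1) : clp x = x := by
  unfold clp
  rw [abs_le] at h
  rw [min_eq_right h.2, max_eq_right h.1]

lemma abs_clp_le (x : ℝ) : |clp x| ≤ 1 := by
  unfold clp
  rw [abs_le]
  constructor
  · exact le_max_left _ _
  · exact max_le (by norm_num) (min_le_left _ _)

@[fun_prop]
lemma measurable_clp : Measurable clp := by unfold clp; fun_prop

/-- one step of the law -/
lemma law_step {E : Finset (Ev V)} {e : Ev V} (he : e ∈ E) (hθ : |θ| < 1)
    {F : Om V → (Ev V → ℝ) → ℝ} (hF : Measurable (Function.uncurry F)) {C : ℝ}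
    (hC : ∀ ω o, |F ω o| ≤ C) (hN : NoNz E F) :
    ∫ ω, lst E e ω * F ω (obs G θ S E ω) ∂(PP V) =
      ∫ ω, lst E e ω * ((1 + clp (mm G θ S (E.erase e) (obs G θ S (E.erase e) ω) e.1) * nul ω e) *
        F ω (Function.update (obs G θ S (E.erase e) ω) e (nul ω e))) ∂(PP V) := by
  have hC0 : 0 ≤ C := (abs_nonneg _).trans (hC (fun _ => (0, 0)) (fun _ => 0))
  have hup : Measurable fun p : (Ev V → ℝ) × ℝ => Function.update p.1 e p.2 :=
    measurable_update'
  have hm1 : Measurable fun ω : Om V => lst E e ω * F ω (obs G θ S E ω) :=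
    (measurable_lst E e).mul (hF.comp (measurable_id.prodMk (measurable_obs' G θ S E)))
  have hm2 : Measurable fun ω : Om V => lst E e ω *
      ((1 + clp (mm G θ S (E.erase e) (obs G θ S (E.erase e) ω) e.1) * nul ω e) *
        F ω (Function.update (obs G θ S (E.erase e) ω) e (nul ω e))) := by
    apply (measurable_lst E e).mul
    apply Measurable.mul
    · exact ((measurable_clp.comp ((measurable_mm G θ S _ e.1).comp
        (measurable_obs' G θ S _))).mul (measurable_nul e)).const_add 1
    · exact hF.comp (measurable_id.prodMk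
        (hup.comp ((measurable_obs' G θ S _).prodMk (measurable_nul e))))
  rw [integral_updz e hm1 (C := C) ?_, integral_updz e hm2 (C := 2 * C) ?_]
  · congr 1
    funext ω
    -- the inner integrals
    set o' := obs G θ S (E.erase e) ω with ho'
    set m := mm G θ S (E.erase e) o' e.1 with hm
    have hobs : ∀ z : unitInterval, obs G θ S (E.erase e) (updz ω e z) = o' := by
      intro z
      apply obs_congr_noise
      intro e' he'
      exact updz_ne ω (Finset.ne_of_mem_erase he') z
    have hlst : ∀ z : unitInterval, lst E e (updz ω e z) = lst E e ω := fun z =>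
      lst_congr E e fun e' => updz_fst ω e e' z
    have hFz : ∀ z : unitInterval, ∀ o, F (updz ω e z) o = F ω o := by
      intro z o
      apply hN
      · exact fun e' => updz_fst ω e e' z
      · intro e' he'
        exact updz_ne ω (fun h => he' (by rw [h]; exact he)) z
    have habs : |m| ≤ 1 := abs_mm_le G S hθ (fun x _ => obs_lt_one G S hθ _ ω x) e.1
    have hnul : ∀ z : unitInterval, nul (updz ω e z) e = st ω e * (2 * (z : ℝ) - 1) := by
      intro z
      unfold nul
      rw [st_updz, nz_updz_same]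
    by_cases hl : ∀ e' ∈ E.erase e, tm ω e' < tm ω e
    · have h1 : lst E e ω = 1 := by unfold lst; rw [if_pos hl]
      have h2 : ∀ z : unitInterval, obs G θ S E (updz ω e z) =
          Function.update o' e (st ω e * TT (st ω e * m) (2 * (z : ℝ) - 1)) := by
        intro z
        rw [obs_last G θ S he (fun e' he' => by rw [tm_updz, tm_updz]; exact hl e' he')]
        rw [hobs z, st_updz, nz_updz_same]
      simp only [hlst, hFz, h1, one_mul, h2, hobs, hnul]
      rw [← hm, clp_eq habs]
      have h3 : |st ω e * m| ≤ 1 := by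
        rw [abs_mul, abs_of_nonneg (st_nonneg ω e)]
        have := st_le ω e
        have := st_nonneg ω e
        nlinarith [abs_nonneg m]
      have h4 := integral_TT h3 (fun y => F ω (Function.update o' e (st ω e * y)))
      rw [h4]
      congr 1
      funext z
      ring
    · have h1 : lst E e ω = 0 := by unfold lst; rw [if_neg hl]
      simp only [hlst, h1, zero_mul]
  · intro ω
    have h1 := lst_mem E e ω
    have h2 : |1 + clp (mm G θ S (E.erase e) (obs G θ S (E.erase e) ω) e.1) * nul ω e| ≤ 2 := by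
      have h3 := abs_clp_le (mm G θ S (E.erase e) (obs G θ S (E.erase e) ω) e.1)
      have h4 := abs_nul_lt ω e
      calc _ ≤ |(1 : ℝ)| + |clp (mm G θ S (E.erase e) (obs G θ S (E.erase e) ω) e.1) * nul ω e| :=
            abs_add_le _ _
        _ ≤ 2 := by
            rw [abs_one, abs_mul]
            nlinarith [abs_nonneg (clp (mm G θ S (E.erase e) (obs G θ S (E.erase e) ω) e.1)),
              abs_nonneg (nul ω e)]
    rw [abs_mul, abs_mul, abs_of_nonneg h1.1]
    calc lst E e ω * (|1 + clp (mm G θ S (E.erase e) (obs G θ S (E.erase e) ω) e.1) * nul ω e| *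
          |F ω (Function.update (obs G θ S (E.erase e) ω) e (nul ω e))|)
        ≤ 1 * (2 * C) := by
          apply mul_le_mul h1.2 _ (by positivity) zero_le_one
          exact mul_le_mul h2 (hC _ _) (abs_nonneg _) (by norm_num)
      _ = 2 * C := one_mul _
  · intro ω
    have h1 := lst_mem E e ω
    rw [abs_mul, abs_of_nonneg h1.1]
    calc lst E e ω * |F ω (obs G θ S E ω)| ≤ 1 * C :=
          mul_le_mul h1.2 (hC _ _) (abs_nonneg _) zero_le_one
      _ = C := one_mul C

/-- **LAW**, full version -/
theorem law_full (hθ : |θ| < 1) : ∀ (E : Finset (Ev V)) (F : Om V → (Ev V → ℝ) → ℝ),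
    Measurable (Function.uncurry F) → (∃ C, ∀ ω o, |F ω o| ≤ C) → NoNz E F →
    ∫ ω, F ω (obs G θ S E ω) ∂(PP V) =
      ∫ ω, LR G θ S E ω * F ω (msk E (nul ω)) ∂(PP V) := by
  intro E
  induction hn : E.card using Nat.strong_induction_on generalizing E with
  | _ n ih =>
    intro F hF ⟨C, hC⟩ hN
    rcases E.eq_empty_or_nonempty with hE | hE
    · subst hE
      congr 1
      funext ω
      have h1 : obs G θ S ∅ ω = msk ∅ (nul ω) := by
        funext e
        rw [obs_of_not_mem G θ S (Finset.notMem_empty e)]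
        simp [msk]
      have h2 : LR G θ S ∅ ω = 1 := by
        unfold LR
        rw [ZZ_empty G θ S (nul ω) (fun _ => 0)]
        apply div_self
        exact (ZZ_pos G S hθ (fun e he => absurd he (Finset.notMem_empty e))).ne'
      rw [h1, h2, one_mul]
    · have hC0 : 0 ≤ C := (abs_nonneg _).trans (hC (fun _ => (0, 0)) (fun _ => 0))
      obtain ⟨K, hK0, hK⟩ := abs_LR_le G θ S E
      have hms : Measurable fun ω : Om V => F ω (msk E (nul ω)) :=
        hF.comp (measurable_id.prodMk ((measurable_msk E).comp measurable_nul'))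
      have hobsm : Measurable fun ω : Om V => F ω (obs G θ S E ω) :=
        hF.comp (measurable_id.prodMk (measurable_obs' G θ S E))
      -- split according to the last event
      have h1 : ∫ ω, F ω (obs G θ S E ω) ∂(PP V) =
          ∑ e ∈ E, ∫ ω, lst E e ω * F ω (obs G θ S E ω) ∂(PP V) := by
        rw [← integral_finsetSum]
        · apply integral_congr_ae
          filter_upwards [sum_lst hE] with ω hω
          rw [← Finset.sum_mul, hω, one_mul]
        · intro e _
          apply integrable_of_bdd (f := fun ω => lst E e ω * F ω (obs G θ S E ω)) (C := C)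
            ((measurable_lst E e).mul hobsm)
          intro ω
          have h1 := lst_mem E e ω
          rw [abs_mul, abs_of_nonneg h1.1]
          calc lst E e ω * |F ω (obs G θ S E ω)| ≤ 1 * C :=
                mul_le_mul h1.2 (hC _ _) (abs_nonneg _) zero_le_one
            _ = C := one_mul C
      have h2 : ∫ ω, LR G θ S E ω * F ω (msk E (nul ω)) ∂(PP V) =
          ∑ e ∈ E, ∫ ω, lst E e ω * (LR G θ S E ω * F ω (msk E (nul ω))) ∂(PP V) := by
        rw [← integral_finsetSum]
        · apply integral_congr_ae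
          filter_upwards [sum_lst hE] with ω hω
          rw [← Finset.sum_mul, hω, one_mul]
        · intro e _
          apply integrable_of_bdd
            (f := fun ω => lst E e ω * (LR G θ S E ω * F ω (msk E (nul ω)))) (C := K * C)
            ((measurable_lst E e).mul ((measurable_LR G θ S E).mul hms))
          intro ω
          have h1 := lst_mem E e ω
          rw [abs_mul, abs_of_nonneg h1.1, abs_mul]
          calc lst E e ω * (|LR G θ S E ω| * |F ω (msk E (nul ω))|) ≤ 1 * (K * C) := by
                apply mul_le_mul h1.2 _ (by positivity) zero_le_one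
                exact mul_le_mul (hK ω) (hC _ _) (abs_nonneg _) hK0
            _ = K * C := one_mul _
      rw [h1, h2]
      apply Finset.sum_congr rfl
      intro e he
      rw [law_step G θ S he hθ hF hC hN]
      -- induction hypothesis
      set E' := E.erase e with hE'
      have hcard : E'.card < n := by
        rw [hE', Finset.card_erase_of_mem he]
        have := Finset.card_pos.mpr hE
        omega
      have heE' : e ∉ E' := Finset.notMem_erase e E
      have hins : insert e E' = E := Finset.insert_erase he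
      have hup : Measurable fun p : (Ev V → ℝ) × ℝ => Function.update p.1 e p.2 :=
        measurable_update'
      let F' : Om V → (Ev V → ℝ) → ℝ := fun ω o =>
        lst E e ω * ((1 + clp (mm G θ S E' o e.1) * nul ω e) *
          F ω (Function.update o e (nul ω e)))
      have hF' : Measurable (Function.uncurry F') := by
        show Measurable fun p : Om V × (Ev V → ℝ) => lst E e p.1 *
          ((1 + clp (mm G θ S E' p.2 e.1) * nul p.1 e) *
          F p.1 (Function.update p.2 e (nul p.1 e)))
        apply ((measurable_lst E e).comp measurable_fst).mul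
        apply Measurable.mul
        · exact ((measurable_clp.comp ((measurable_mm G θ S _ e.1).comp
            measurable_snd)).mul ((measurable_nul e).comp measurable_fst)).const_add 1
        · exact hF.comp (measurable_fst.prodMk
            (hup.comp (measurable_snd.prodMk ((measurable_nul e).comp measurable_fst))))
      have hb' : ∃ C', ∀ ω o, |F' ω o| ≤ C' := by
        refine ⟨2 * C, fun ω o => ?_⟩
        have h1 := lst_mem E e ω
        have h2 : |1 + clp (mm G θ S E' o e.1) * nul ω e| ≤ 2 := by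
          have h3 := abs_clp_le (mm G θ S E' o e.1)
          have h4 := abs_nul_lt ω e
          calc _ ≤ |(1 : ℝ)| + |clp (mm G θ S E' o e.1) * nul ω e| := abs_add_le _ _
            _ ≤ 2 := by
                rw [abs_one, abs_mul]
                nlinarith [abs_nonneg (clp (mm G θ S E' o e.1)), abs_nonneg (nul ω e)]
        show |lst E e ω * ((1 + clp (mm G θ S E' o e.1) * nul ω e) *
          F ω (Function.update o e (nul ω e)))| ≤ 2 * C
        rw [abs_mul, abs_mul, abs_of_nonneg h1.1]
        calc lst E e ω * (|1 + clp (mm G θ S E' o e.1) * nul ω e| *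
              |F ω (Function.update o e (nul ω e))|)
            ≤ 1 * (2 * C) := by
              apply mul_le_mul h1.2 _ (by positivity) zero_le_one
              exact mul_le_mul h2 (hC _ _) (abs_nonneg _) (by norm_num)
          _ = 2 * C := one_mul _
      have hN' : NoNz E' F' := by
        intro ω ω' hc hn o
        show lst E e ω * ((1 + clp (mm G θ S E' o e.1) * nul ω e) *
          F ω (Function.update o e (nul ω e))) = lst E e ω' *
          ((1 + clp (mm G θ S E' o e.1) * nul ω' e) * F ω' (Function.update o e (nul ω' e)))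
        have h1 : nul ω e = nul ω' e := by
          unfold nul st clk nz
          rw [hn e heE']
        rw [lst_congr E e hc, h1]
        congr 2
        apply hN ω ω' hc
        intro x hx
        exact hn x fun h => hx (Finset.mem_of_mem_erase h)
      have hIH := ih E'.card hcard E' rfl F' hF' hb' hN'
      have hLHS : ∫ ω, lst E e ω * ((1 + clp (mm G θ S E' (obs G θ S E' ω) e.1) * nul ω e) *
          F ω (Function.update (obs G θ S E' ω) e (nul ω e))) ∂(PP V) =
          ∫ ω, F' ω (obs G θ S E' ω) ∂(PP V) := rfl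
      rw [hLHS, hIH]
      congr 1
      funext ω
      show LR G θ S E' ω * (lst E e ω * ((1 + clp (mm G θ S E' (msk E' (nul ω)) e.1) * nul ω e) *
          F ω (Function.update (msk E' (nul ω)) e (nul ω e)))) = _
      have e1 : mm G θ S E' (msk E' (nul ω)) e.1 = mm G θ S E' (nul ω) e.1 := by
        apply mm_congr
        intro x hx
        simp [msk, hx]
      have e2 : Function.update (msk E' (nul ω)) e (nul ω e) = msk E (nul ω) := by
        funext x
        by_cases hx : x = e
        · rw [hx, Function.update_self]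
          simp [msk, he]
        · rw [Function.update_of_ne hx]
          simp [msk, hE', hx]
      have e3 : |mm G θ S E' (nul ω) e.1| ≤ 1 :=
        abs_mm_le G S hθ (fun x _ => abs_nul_lt ω x) e.1
      have e4 : LR G θ S E ω = LR G θ S E' ω * (1 + mm G θ S E' (nul ω) e.1 * nul ω e) := by
        unfold LR
        rw [← hins, ZZ_insert G θ S heE'
          (ZZ_pos G S hθ (fun x _ => abs_nul_lt ω x)).ne']
        ring
      rw [e1, e2, clp_eq e3, e4]
      ring

/-- **LAW at time `t`**: for functionals of the clocks and of the observations before `t` -/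
theorem law_before (hθ : |θ| < 1) (E : Finset (Ev V)) (t : ℝ)
    (F : Om V → (Ev V → ℝ) → ℝ) (hF : Measurable (Function.uncurry F))
    (hb : ∃ C, ∀ ω o, |F ω o| ≤ C)
    (hN : ∀ ω ω' : Om V, (∀ e, (ω e).1 = (ω' e).1) → ∀ o, F ω o = F ω' o) :
    ∫ ω, F ω (msk (before E ω t) (obs G θ S E ω)) ∂(PP V) =
      ∫ ω, LR G θ S (before E ω t) ω * F ω (msk (before E ω t) (nul ω)) ∂(PP V) := by
  obtain ⟨C, hC⟩ := hb
  have hC0 : 0 ≤ C := (abs_nonneg _).trans (hC (fun _ => (0, 0)) (fun _ => 0))
  -- indicator of the set of past events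
  let ind : Finset (Ev V) → Om V → ℝ := fun B ω => if before E ω t = B then 1 else 0
  have hindm : ∀ B, Measurable (ind B) := by
    intro B
    apply Measurable.ite _ measurable_const measurable_const
    by_cases hB : B ⊆ E
    · have : {ω : Om V | before E ω t = B} =
          ⋂ e ∈ E, {ω : Om V | (tm ω e < t) ↔ e ∈ B} := by
        ext ω
        simp only [Set.mem_ofPred_eq, Set.mem_iInter]
        constructor
        · intro h e he
          rw [← h, mem_before]
          simp [he]
        · intro h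
          ext e
          rw [mem_before]
          constructor
          · rintro ⟨h1, h2⟩; exact (h e h1).mp h2
          · intro h1; exact ⟨hB h1, (h e (hB h1)).mpr h1⟩
      rw [this]
      apply Finset.measurableSet_biInter
      intro e _
      have hm : MeasurableSet {ω : Om V | tm ω e < t} :=
        measurableSet_lt (measurable_tm e) measurable_const
      by_cases heB : e ∈ B
      · simpa [heB] using hm
      · have : {ω : Om V | (tm ω e < t) ↔ e ∈ B} = {ω : Om V | tm ω e < t}ᶜ := by
          ext ω; simp [heB]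
        rw [this]; exact hm.compl
    · have : {ω : Om V | before E ω t = B} = ∅ := by
        ext ω
        simp only [Set.mem_ofPred_eq, Set.mem_empty_iff_false, iff_false]
        intro h
        exact hB (h ▸ before_subset E ω t)
      rw [this]; exact MeasurableSet.empty
  have hind : ∀ B ω, 0 ≤ ind B ω ∧ ind B ω ≤ 1 := by
    intro B ω
    show 0 ≤ (if before E ω t = B then (1:ℝ) else 0) ∧ (if before E ω t = B then (1:ℝ) else 0) ≤ 1
    split_ifs <;> norm_num
  have hsum : ∀ (ω : Om V) (Φ : Finset (Ev V) → ℝ),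
      Φ (before E ω t) = ∑ B ∈ E.powerset, ind B ω * Φ B := by
    intro ω Φ
    rw [Finset.sum_eq_single (before E ω t)]
    · show _ = (if before E ω t = before E ω t then (1:ℝ) else 0) * _
      rw [if_pos rfl, one_mul]
    · intro B _ hB
      show (if before E ω t = B then (1:ℝ) else 0) * _ = 0
      rw [if_neg (Ne.symm hB), zero_mul]
    · intro h
      exact absurd (Finset.mem_powerset.mpr (before_subset E ω t)) h
  have hmskm : ∀ B : Finset (Ev V), Measurable fun ω : Om V => F ω (msk B (nul ω)) := fun B =>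
    hF.comp (measurable_id.prodMk ((measurable_msk B).comp measurable_nul'))
  have hobsm : ∀ B : Finset (Ev V), Measurable fun ω : Om V => F ω (obs G θ S B ω) := fun B =>
    hF.comp (measurable_id.prodMk (measurable_obs' G θ S B))
  have h1 : ∀ ω : Om V, F ω (msk (before E ω t) (obs G θ S E ω)) =
      ∑ B ∈ E.powerset, ind B ω * F ω (obs G θ S B ω) := by
    intro ω
    rw [← hsum ω (fun B => F ω (obs G θ S B ω))]
    congr 1
    funext e
    by_cases he : e ∈ before E ω t
    · rw [obs_before G θ S he]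
      simp [msk, he]
    · rw [obs_of_not_mem G θ S he]
      simp [msk, he]
  have h2 : ∀ ω : Om V, LR G θ S (before E ω t) ω * F ω (msk (before E ω t) (nul ω)) =
      ∑ B ∈ E.powerset, ind B ω * (LR G θ S B ω * F ω (msk B (nul ω))) := by
    intro ω
    exact hsum ω (fun B => LR G θ S B ω * F ω (msk B (nul ω)))
  simp_rw [h1, h2]
  rw [integral_finsetSum, integral_finsetSum]
  · apply Finset.sum_congr rfl
    intro B _
    have hF2 : Measurable (Function.uncurry fun (ω : Om V) (o : Ev V → ℝ) => ind B ω * F ω o) :=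
      ((hindm B).comp measurable_fst).mul hF
    have hN2 : NoNz B fun (ω : Om V) (o : Ev V → ℝ) => ind B ω * F ω o := by
      intro ω ω' hc _ o
      have h3 : before E ω t = before E ω' t := by
        apply Finset.filter_congr
        intro x _
        have : tm ω x = tm ω' x := by unfold tm clk; rw [hc x]
        rw [this]
      show (if before E ω t = B then (1:ℝ) else 0) * F ω o =
        (if before E ω' t = B then (1:ℝ) else 0) * F ω' o
      rw [h3, hN ω ω' hc]
    have hb2 : ∃ C', ∀ (ω : Om V) (o : Ev V → ℝ), |ind B ω * F ω o| ≤ C' := by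
      refine ⟨C, fun ω o => ?_⟩
      rw [abs_mul, abs_of_nonneg (hind B ω).1]
      calc ind B ω * |F ω o| ≤ 1 * C :=
            mul_le_mul (hind B ω).2 (hC _ _) (abs_nonneg _) zero_le_one
        _ = C := one_mul C
    have h4 := law_full G θ S hθ B (fun (ω : Om V) (o : Ev V → ℝ) => ind B ω * F ω o) hF2 hb2 hN2
    rw [h4]
    congr 1
    funext ω
    ring
  · intro B _
    obtain ⟨K, hK0, hK⟩ := abs_LR_le G θ S B
    apply integrable_of_bdd
      (f := fun ω => ind B ω * (LR G θ S B ω * F ω (msk B (nul ω)))) (C := K * C)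
      ((hindm B).mul ((measurable_LR G θ S B).mul (hmskm B)))
    intro ω
    rw [abs_mul, abs_of_nonneg (hind B ω).1, abs_mul]
    calc ind B ω * (|LR G θ S B ω| * |F ω (msk B (nul ω))|) ≤ 1 * (K * C) := by
          apply mul_le_mul (hind B ω).2 _ (by positivity) zero_le_one
          exact mul_le_mul (hK ω) (hC _ _) (abs_nonneg _) hK0
      _ = K * C := one_mul _
  · intro B _
    apply integrable_of_bdd (f := fun ω => ind B ω * F ω (obs G θ S B ω)) (C := C)
      ((hindm B).mul (hobsm B))
    intro ω
    rw [abs_mul, abs_of_nonneg (hind B ω).1]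
    calc ind B ω * |F ω (obs G θ S B ω)| ≤ 1 * C :=
          mul_le_mul (hind B ω).2 (hC _ _) (abs_nonneg _) zero_le_one
      _ = C := one_mul C

end Crest.Agent.R160
end

-- ▼ part R160/H0Marg
section

/-! Row 160, module H0, part 1: Ising marginals on connected subsets of a tree by leaf peeling. -/

set_option autoImplicit false

open MeasureTheory Finset
open scoped Classical

namespace Crest.Agent.R160.H0

open Crest.Agent.R160 Crest.Agent.R160.TreeAut SimpleGraph

variable {V : Type*} {G : SimpleGraph V}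

/-- contains the root and is closed under parents -/
def PC (G : SimpleGraph V) (r : V) (S : Finset V) : Prop :=
  r ∈ S ∧ ∀ x ∈ S, x ≠ r → par G r x ∈ S

lemma PC_of_connected (hT : G.IsTree) {S : Finset V}
    (hS : (G.induce (S : Set V)).Connected) {r : V} (hr : r ∈ S) : PC G r S := by
  refine ⟨hr, fun x hx hxr => ?_⟩
  obtain ⟨p⟩ := hS.preconnected ⟨r, hr⟩ ⟨x, hx⟩
  let q := p.toPath
  let f : G.induce (S : Set V) ↪g G := SimpleGraph.Embedding.induce _
  have h1 : (q.1.map f.toHom).IsPath := Walk.IsPath.map f.injective q.2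
  obtain ⟨w, hw, hwl⟩ := hT.connected.exists_path_of_dist r (par G r x)
  have hadj := par_adj hT hxr
  have h2 : (w.concat hadj.symm).IsPath := by
    apply Walk.isPath_of_length_eq_dist
    rw [Walk.length_concat, hwl, par_dist hT hxr]
  have h3 := congrArg Subtype.val
    ((hT.isAcyclic.subsingleton_path r x).elim ⟨_, h1⟩ ⟨_, h2⟩)
  simp only at h3
  have h4 : par G r x ∈ (q.1.map f.toHom).support := by
    have h5 : (w.concat hadj.symm).support = (q.1.map f.toHom).support := by
      rw [← h3]; rfl
    rw [← h5, Walk.support_concat]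
    simp
  rw [Walk.support_map] at h4
  obtain ⟨y, _, hy⟩ := List.mem_map.mp h4
  rw [← hy]
  exact y.2

lemma exists_leaf (hT : G.IsTree) {r : V} {S B : Finset V} (hS : PC G r S) (hB : PC G r B)
    (hSB : S ⊆ B) (hne : S ≠ B) :
    ∃ x ∈ B, x ∉ S ∧ PC G r (B.erase x) ∧ par G r x ∈ B.erase x ∧ G.Adj x (par G r x) ∧
      ∀ y ∈ B.erase x, G.Adj x y → y = par G r x := by
  have hne' : (B \ S).Nonempty := by
    rw [Finset.sdiff_nonempty]
    exact fun h => hne (Finset.Subset.antisymm hSB h)
  obtain ⟨x, hx, hmax⟩ := Finset.exists_max_image (B \ S) (fun y => G.dist r y) hne'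
  rw [Finset.mem_sdiff] at hx
  have hxr : x ≠ r := fun h => hx.2 (h ▸ hS.1)
  have hpar : ∀ y ∈ B, y ≠ r → par G r y ≠ x := by
    intro y hy hyr h
    by_cases hyS : y ∈ S
    · exact hx.2 (h ▸ hS.2 y hyS hyr)
    · have h1 := hmax y (Finset.mem_sdiff.mpr ⟨hy, hyS⟩)
      have h2 := par_dist hT hyr
      rw [h] at h2
      omega
  have hadj := par_adj hT hxr
  refine ⟨x, hx.1, hx.2, ⟨Finset.mem_erase.mpr ⟨hxr.symm, hB.1⟩, fun y hy hyr => ?_⟩,
    Finset.mem_erase.mpr ⟨hadj.ne', hB.2 x hx.1 hxr⟩, hadj, fun y hy hxy => ?_⟩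
  · rw [Finset.mem_erase] at hy ⊢
    exact ⟨hpar y hy.2 hyr, hB.2 y hy.2 hyr⟩
  · rw [Finset.mem_erase] at hy
    rcases adj_cases hT r hxy with h | h
    · exact h.2.symm
    · exact absurd h.2 (hpar y hy.2 h.1)

/-- leaf induction -/
lemma pc_induction (hT : G.IsTree) {r : V} {S : Finset V} (hS : PC G r S)
    {P : Finset V → Prop} (h0 : P S)
    (hstep : ∀ (B : Finset V) (x p : V), PC G r B → S ⊆ B → x ∉ B → p ∈ B → G.Adj x p →
      (∀ y ∈ B, G.Adj x y → y = p) → P B → P (insert x B)) :
    ∀ B : Finset V, PC G r B → S ⊆ B → P B := by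
  intro B
  induction hn : B.card using Nat.strong_induction_on generalizing B with
  | _ n ih =>
    intro hB hSB
    by_cases hne : S = B
    · rw [← hne]; exact h0
    · obtain ⟨x, hxB, hxS, hPC, hpar, hadj, huniq⟩ := exists_leaf hT hS hB hSB hne
      have hsub : S ⊆ B.erase x := fun y hy =>
        Finset.mem_erase.mpr ⟨fun h => hxS (h ▸ hy), hSB hy⟩
      have hcard : (B.erase x).card < n := by
        rw [Finset.card_erase_of_mem hxB]
        have := Finset.card_pos.mpr ⟨x, hxB⟩
        omega
      have h1 := ih _ hcard (B.erase x) rfl hPC hsub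
      have h2 := hstep (B.erase x) x (par G r x) hPC hsub (Finset.notMem_erase x B) hpar hadj
        huniq h1
      rwa [Finset.insert_erase hxB] at h2

lemma edges_insert {B : Finset V} {x p : V} (hx : x ∉ B) (hp : p ∈ B) (hadj : G.Adj x p)
    (huniq : ∀ y ∈ B, G.Adj x y → y = p) :
    (insert x B).sym2.filter (fun e => e ∈ G.edgeSet) =
      insert s(x, p) (B.sym2.filter (fun e => e ∈ G.edgeSet)) := by
  ext e
  induction e using Sym2.ind with
  | _ a b =>
    simp only [Finset.mem_filter, Finset.mem_insert, Finset.mk_mem_sym2_iff,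
      SimpleGraph.mem_edgeSet, Sym2.eq_iff]
    constructor
    · rintro ⟨⟨ha | ha, hb | hb⟩, hab⟩
      · rw [ha, hb] at hab
        exact absurd hab (G.irrefl)
      · rw [ha] at hab
        exact Or.inl (Or.inl ⟨ha, huniq b hb hab⟩)
      · rw [hb] at hab
        exact Or.inl (Or.inr ⟨huniq a ha hab.symm, hb⟩)
      · exact Or.inr ⟨⟨ha, hb⟩, hab⟩
    · rintro ((⟨rfl, rfl⟩ | ⟨rfl, rfl⟩) | ⟨⟨ha, hb⟩, hab⟩)
      · exact ⟨⟨Or.inl rfl, Or.inr hp⟩, hadj⟩
      · exact ⟨⟨Or.inr hp, Or.inl rfl⟩, hadj.symm⟩
      · exact ⟨⟨Or.inr ha, Or.inr hb⟩, hab⟩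

lemma leaf_notMem {B : Finset V} {x p : V} (hx : x ∉ B) :
    s(x, p) ∉ B.sym2.filter (fun e => e ∈ G.edgeSet) := by
  simp only [Finset.mem_filter, Finset.mk_mem_sym2_iff, not_and]
  intro h
  exact absurd h.1 hx

lemma ew_insert {θ : ℝ} {B : Finset V} {x p : V} (hx : x ∉ B) (hp : p ∈ B) (hadj : G.Adj x p)
    (huniq : ∀ y ∈ B, G.Adj x y → y = p) (A : Finset V) :
    ew G θ (insert x B) A = (1 + θ * (sg A x * sg A p)) * ew G θ B A := by
  unfold ew
  rw [edges_insert hx hp hadj huniq, Finset.prod_insert (leaf_notMem hx)]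
  rfl

lemma sg_congr {A A' : Finset V} {v : V} (h : v ∈ A ↔ v ∈ A') : sg A v = sg A' v := by
  unfold sg
  simp only [h]

lemma ew_congr {θ : ℝ} {S A A' : Finset V} (h : ∀ v ∈ S, (v ∈ A ↔ v ∈ A')) :
    ew G θ S A = ew G θ S A' := by
  unfold ew
  apply Finset.prod_congr rfl
  intro e he
  induction e using Sym2.ind with
  | _ a b =>
    simp only [Finset.mem_filter, Finset.mk_mem_sym2_iff] at he
    have h1 : sgE A s(a, b) = sgE A' s(a, b) := by
      show sg A a * sg A b = sg A' a * sg A' b
      rw [sg_congr (h a he.1.1), sg_congr (h b he.1.2)]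
    rw [h1]

/-- normalised prior expectation -/
noncomputable def MA (G : SimpleGraph V) (θ : ℝ) (B : Finset V) (F : Finset V → ℝ) : ℝ :=
  (1 / 2 : ℝ) ^ B.card * ∑ A ∈ B.powerset, F A * ew G θ B A

lemma MA_insert {θ : ℝ} {B : Finset V} {x p : V} (hx : x ∉ B) (hp : p ∈ B) (hadj : G.Adj x p)
    (huniq : ∀ y ∈ B, G.Adj x y → y = p) (F : Finset V → ℝ)
    (hF : ∀ A ∈ B.powerset, F (insert x A) = F A) :
    MA G θ (insert x B) F = MA G θ B F := by
  unfold MA
  rw [Finset.sum_powerset_insert hx, ← Finset.sum_add_distrib, Finset.card_insert_of_notMem hx,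
    pow_succ]
  have hxp : p ≠ x := fun h => hx (h ▸ hp)
  have h1 : ∀ A ∈ B.powerset, F A * ew G θ (insert x B) A +
      F (insert x A) * ew G θ (insert x B) (insert x A) = 2 * (F A * ew G θ B A) := by
    intro A hA
    have hxA : x ∉ A := fun h => hx (Finset.mem_powerset.mp hA h)
    rw [hF A hA, ew_insert hx hp hadj huniq, ew_insert hx hp hadj huniq]
    have h2 : ew G θ B (insert x A) = ew G θ B A := by
      apply ew_congr
      intro v hv
      have : v ≠ x := fun h => hx (h ▸ hv)
      simp [this]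
    have h3 : sg (insert x A) p = sg A p := sg_congr (by simp [hxp])
    have h4 : sg (insert x A) x = 1 := by simp [sg]
    have h5 : sg A x = -1 := by simp [sg, hxA]
    rw [h2, h3, h4, h5]
    ring
  rw [Finset.sum_congr rfl h1, ← Finset.mul_sum]
  ring

lemma MA_eq (hT : G.IsTree) {θ : ℝ} {r : V} {S B : Finset V} (hS : PC G r S) (hB : PC G r B)
    (hSB : S ⊆ B) (F : Finset V → ℝ)
    (hF : ∀ A A', (∀ v ∈ S, (v ∈ A ↔ v ∈ A')) → F A = F A') :
    MA G θ B F = MA G θ S F := by
  refine pc_induction hT hS (P := fun B => MA G θ B F = MA G θ S F) rfl ?_ B hB hSB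
  intro B x p _ hSB hx hp hadj huniq hB
  rw [MA_insert hx hp hadj huniq F, hB]
  intro A _
  apply hF
  intro v hv
  have : v ≠ x := fun h => hx (h ▸ hSB hv)
  simp [this]

open Crest.ProbabilityR.TreeIsing in
lemma isingWeight_insert {θ : ℝ} {B : Finset V} {x p : V} (hx : x ∉ B) (hp : p ∈ B)
    (hadj : G.Adj x p) (huniq : ∀ y ∈ B, G.Adj x y → y = p) (η : V → Bool) :
    isingWeight G θ (insert x B) η =
      (if η x = η p then (1 + θ) / 2 else (1 - θ) / 2) * isingWeight G θ B η := by
  unfold isingWeight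
  have h1 := edges_insert hx hp hadj huniq
  have h2 := leaf_notMem (G := G) (p := p) hx
  rw [h1, Finset.prod_insert h2]
  have h3 : (Sym2.map η s(x, p)).IsDiag ↔ η x = η p := by
    simp
  simp only [h3]
  ring

lemma sg_mul_filter (η : V → Bool) {S : Finset V} {x p : V} (hx : x ∈ S) (hp : p ∈ S) :
    sg (S.filter (fun v => η v = true)) x * sg (S.filter (fun v => η v = true)) p =
      if η x = η p then 1 else -1 := by
  unfold sg
  simp only [Finset.mem_filter, hx, hp, true_and]
  cases η x <;> cases η p <;> simp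

open Crest.ProbabilityR.TreeIsing in
lemma ew_eq_isingWeight (hT : G.IsTree) {θ : ℝ} {r : V} {S : Finset V} (hS : PC G r S)
    (η : V → Bool) :
    (1 / 2 : ℝ) ^ S.card * ew G θ S (S.filter (fun v => η v = true)) = isingWeight G θ S η := by
  have h0 : PC G r {r} := ⟨by simp, fun x hx hxr => absurd (by simpa using hx) hxr⟩
  refine pc_induction hT h0 (P := fun S =>
    (1 / 2 : ℝ) ^ S.card * ew G θ S (S.filter (fun v => η v = true)) = isingWeight G θ S η)
    ?_ ?_ S hS (by simpa using hS.1)
  · have hE : ∀ (inst : DecidablePred fun e : Sym2 V => e ∈ G.edgeSet),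
        @Finset.filter _ (fun e => e ∈ G.edgeSet) inst ({r} : Finset V).sym2 = ∅ := by
      intro inst
      rw [Finset.filter_eq_empty_iff]
      intro e he
      induction e using Sym2.ind with
      | _ a b =>
        simp only [Finset.mk_mem_sym2_iff, Finset.mem_singleton] at he
        rw [he.1, he.2]
        simp
    unfold ew isingWeight
    simp only [hE]
    simp
  · intro B x p _ _ hx hp hadj huniq hB
    rw [isingWeight_insert hx hp hadj huniq, ← hB, Finset.card_insert_of_notMem hx,
      ew_insert hx hp hadj huniq,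
      sg_mul_filter η (Finset.mem_insert_self x B) (Finset.mem_insert_of_mem hp)]
    have h2 : ew G θ B ((insert x B).filter (fun v => η v = true)) =
        ew G θ B (B.filter (fun v => η v = true)) := by
      apply ew_congr
      intro v hv
      simp [hv]
    rw [h2]
    split_ifs <;> ring

open Crest.ProbabilityR.TreeIsing in
/-- the marginal of the Ising prior on a connected set -/
theorem MA_marginal (hT : G.IsTree) {θ : ℝ} {r : V} {S B : Finset V} (hS : PC G r S)
    (hB : PC G r B) (hSB : S ⊆ B) (η : V → Bool) :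
    MA G θ B (fun A => if ∀ v ∈ S, (v ∈ A ↔ η v = true) then 1 else 0) =
      isingWeight G θ S η := by
  rw [MA_eq hT hS hB hSB, ← ew_eq_isingWeight hT hS η]
  · unfold MA
    congr 1
    rw [Finset.sum_eq_single (S.filter (fun v => η v = true))]
    · have h1 : ∀ v ∈ S, (v ∈ S.filter (fun v => η v = true) ↔ η v = true) := by
        intro v hv
        simp [hv]
      show (if ∀ v ∈ S, (v ∈ S.filter (fun v => η v = true) ↔ η v = true) then (1:ℝ) else 0) * _
        = _
      rw [if_pos h1, one_mul]
    · intro A hA hne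
      show (if ∀ v ∈ S, (v ∈ A ↔ η v = true) then (1:ℝ) else 0) * _ = _
      rw [if_neg, zero_mul]
      intro h
      apply hne
      ext v
      simp only [Finset.mem_filter]
      constructor
      · intro hv
        exact ⟨Finset.mem_powerset.mp hA hv, (h v (Finset.mem_powerset.mp hA hv)).mp hv⟩
      · rintro ⟨h1, h2⟩
        exact (h v h1).mpr h2
    · intro h
      exact absurd (Finset.mem_powerset.mpr (Finset.filter_subset _ _)) h
  · intro A A' h
    have : (∀ v ∈ S, (v ∈ A ↔ η v = true)) ↔ (∀ v ∈ S, (v ∈ A' ↔ η v = true)) := by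
      constructor
      · intro h1 v hv
        rw [← h v hv]; exact h1 v hv
      · intro h1 v hv
        rw [h v hv]; exact h1 v hv
    simp only [this]

lemma MA_one (hT : G.IsTree) {θ : ℝ} {r : V} {B : Finset V} (hB : PC G r B) :
    MA G θ B (fun _ => 1) = 1 := by
  have h0 : PC G r {r} := ⟨by simp, fun x hx hxr => absurd (by simpa using hx) hxr⟩
  rw [MA_eq hT h0 hB (by simpa using hB.1) _ (fun _ _ _ => rfl)]
  have hE : ∀ (inst : DecidablePred fun e : Sym2 V => e ∈ G.edgeSet),
      @Finset.filter _ (fun e => e ∈ G.edgeSet) inst ({r} : Finset V).sym2 = ∅ := by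
    intro inst
    rw [Finset.filter_eq_empty_iff]
    intro e he
    induction e using Sym2.ind with
    | _ a b =>
      simp only [Finset.mk_mem_sym2_iff, Finset.mem_singleton] at he
      rw [he.1, he.2]
      simp
  unfold MA ew
  simp only [hE]
  simp

end Crest.Agent.R160.H0
end

-- ▼ part R160/H0Conc

/-! Row 160, module H0, part 2: concentration of the posterior at a vertex from its own
observations (Bhattacharyya bound) under the null law, and the law of the signs. -/

set_option autoImplicit false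

open MeasureTheory Finset
open scoped Classical

namespace Crest.Agent.R160.H0

open Crest.Agent.R160 Crest.Agent.R160.TreeAut SimpleGraph

variable {V : Type*} {G : SimpleGraph V}

local notation "II" => unitInterval × unitInterval

instance : IsProbabilityMeasure (PP V) := by unfold PP; infer_instance

/-- expectation of a product of functions of distinct events -/
lemma integral_prod_events (s : Finset (Ev V)) (φ : Ev V → II → ℝ)
    (hφ : ∀ e, Measurable (φ e)) :
    ∫ ω, ∏ e ∈ s, φ e (ω e) ∂(PP V) = ∏ e ∈ s, ∫ p, φ e p := by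
  have h1 : ∀ ω : Om V, ∏ e ∈ s, φ e (ω e) = ∏ i : s, φ i ((s.restrict ω) i) := by
    intro ω
    rw [← Finset.prod_attach]
    rfl
  simp_rw [h1]
  have hm : AEStronglyMeasurable (fun y : (∀ _ : s, II) => ∏ i : s, φ i (y i))
      (Measure.pi (fun _ : s => (volume : Measure II))) := by
    apply Measurable.aestronglyMeasurable
    apply Finset.measurable_prod
    intro i _
    exact (hφ i).comp (measurable_pi_apply i)
  have h2 := integral_restrict_infinitePi (μ := fun _ : Ev V => (volume : Measure II)) (s := s)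
    (f := fun y : (∀ _ : s, II) => ∏ i : s, φ i (y i)) hm
  refine Eq.trans h2 ?_
  rw [integral_fintype_prod_eq_prod (𝕜 := ℝ) (f := fun (i : s) p => φ i p)]
  exact Finset.prod_coe_sort s (fun e => ∫ p, φ e p)

/-- null observation masked at time `t` -/
noncomputable def xx (t : ℝ) (j : ℕ) (p : II) : ℝ :=
  if (j : ℝ) + (p.1 : ℝ) < t then str j (p.1 : ℝ) * (2 * (p.2 : ℝ) - 1) else 0

lemma str_mem (j : ℕ) {u : ℝ} (hu : 0 ≤ u) : 0 ≤ str j u ∧ str j u ≤ 1 / 2 := by
  unfold str
  split_ifs <;> constructor <;> linarith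

lemma measurable_str (j : ℕ) : Measurable (str j) := by
  unfold str
  apply Measurable.ite (measurableSet_lt measurable_id measurable_const)
  · split_ifs
    · exact measurable_id.div_const 2
    · exact measurable_const
  · exact measurable_const

lemma measurable_xx (t : ℝ) (j : ℕ) : Measurable (xx t j) := by
  unfold xx
  have h1 : Measurable fun p : II => (p.1 : ℝ) := measurable_subtype_coe.comp measurable_fst
  have h2 : Measurable fun p : II => (p.2 : ℝ) := measurable_subtype_coe.comp measurable_snd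
  apply Measurable.ite
  · exact measurableSet_lt (measurable_const.add h1) measurable_const
  · exact ((measurable_str j).comp h1).mul ((h2.const_mul 2).sub_const 1)
  · exact measurable_const

lemma abs_xx_le (t : ℝ) (j : ℕ) (p : II) : |xx t j p| ≤ 1 / 2 := by
  unfold xx
  split_ifs
  · rw [abs_mul]
    have h1 := str_mem j p.1.2.1
    have h2 : |2 * (p.2 : ℝ) - 1| ≤ 1 := by
      rw [abs_le]
      constructor <;> linarith [p.2.2.1, p.2.2.2]
    rw [abs_of_nonneg h1.1]
    nlinarith [abs_nonneg (2 * (p.2 : ℝ) - 1)]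
  · simp

/-- masked null observations -/
noncomputable def yy (E : Finset (Ev V)) (t : ℝ) (ω : Om V) : Ev V → ℝ := fun e =>
  if e ∈ E then xx t e.2 (ω e) else 0

lemma abs_yy_le (E : Finset (Ev V)) (t : ℝ) (ω : Om V) (e : Ev V) : |yy E t ω e| ≤ 1 / 2 := by
  unfold yy
  split_ifs
  · exact abs_xx_le _ _ _
  · simp

lemma ow_before (E : Finset (Ev V)) (ω : Om V) (t : ℝ) (o : Ev V → ℝ) (A : Finset V) :
    ow (before E ω t) o A = ow E (fun e => if e ∈ before E ω t then o e else 0) A := by
  unfold ow before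
  rw [Finset.prod_filter]
  apply Finset.prod_congr rfl
  intro e he
  simp only [Finset.mem_filter, he, true_and]
  split_ifs <;> simp

lemma mask_nul (E : Finset (Ev V)) (ω : Om V) (t : ℝ) :
    (fun e => if e ∈ before E ω t then nul ω e else 0) = yy E t ω := by
  funext e
  unfold before yy xx nul st tm clk nz
  simp only [Finset.mem_filter]
  by_cases h1 : e ∈ E
  · simp only [h1, true_and, if_true]
  · simp [h1]

lemma num_mask (θ : ℝ) (S : Finset V) (E : Finset (Ev V)) (ω : Om V) (t : ℝ) (o : Ev V → ℝ)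
    (f : Finset V → ℝ) :
    num G θ S (before E ω t) o f =
      num G θ S E (fun e => if e ∈ before E ω t then o e else 0) f := by
  unfold num
  apply Finset.sum_congr rfl
  intro A _
  rw [ow_before]

lemma mm_mask (θ : ℝ) (S : Finset V) (E : Finset (Ev V)) (ω : Om V) (t : ℝ) (o : Ev V → ℝ)
    (v : V) :
    mm G θ S (before E ω t) o v =
      mm G θ S E (fun e => if e ∈ before E ω t then o e else 0) v := by
  unfold mm mean ZZ
  rw [num_mask, num_mask]

lemma abs_sg (A : Finset V) (v : V) : |sg A v| = 1 := by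
  unfold sg; split_ifs <;> simp

lemma ew_nonneg {θ : ℝ} (h0 : 0 ≤ θ) (h1 : θ < 1) (S A : Finset V) : 0 ≤ ew G θ S A := by
  unfold ew
  apply Finset.prod_nonneg
  intro e _
  induction e using Sym2.ind with
  | _ a b =>
    have h2 : |sgE A s(a, b)| = 1 := by
      show |sg A a * sg A b| = 1
      rw [abs_mul, abs_sg, abs_sg, one_mul]
    have h3 := neg_abs_le (sgE A s(a, b))
    rw [h2] at h3
    nlinarith

lemma ow_nonneg {E : Finset (Ev V)} {o : Ev V → ℝ} (ho : ∀ e ∈ E, |o e| ≤ 1) (A : Finset V) :
    0 ≤ ow E o A := by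
  unfold ow
  apply Finset.prod_nonneg
  intro e he
  have h1 : |sg A e.1 * o e| ≤ 1 := by
    rw [abs_mul, abs_sg, one_mul]; exact ho e he
  linarith [neg_abs_le (sg A e.1 * o e)]

/-- plus part -/
noncomputable def Zp (G : SimpleGraph V) (θ : ℝ) (S : Finset V) (E : Finset (Ev V))
    (o : Ev V → ℝ) (v : V) : ℝ :=
  ∑ A ∈ S.powerset, if v ∈ A then ew G θ S A * ow E o A else 0

/-- minus part -/
noncomputable def Zm (G : SimpleGraph V) (θ : ℝ) (S : Finset V) (E : Finset (Ev V))
    (o : Ev V → ℝ) (v : V) : ℝ :=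
  ∑ A ∈ S.powerset, if v ∈ A then 0 else ew G θ S A * ow E o A

lemma ZZ_eq (θ : ℝ) (S : Finset V) (E : Finset (Ev V)) (o : Ev V → ℝ) (v : V) :
    ZZ G θ S E o = Zp G θ S E o v + Zm G θ S E o v := by
  unfold ZZ num Zp Zm
  rw [← Finset.sum_add_distrib]
  apply Finset.sum_congr rfl
  intro A _
  split_ifs <;> ring

lemma num_sg_eq (θ : ℝ) (S : Finset V) (E : Finset (Ev V)) (o : Ev V → ℝ) (v : V) :
    num G θ S E o (fun A => sg A v) = Zp G θ S E o v - Zm G θ S E o v := by
  unfold num Zp Zm
  rw [← Finset.sum_sub_distrib]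
  apply Finset.sum_congr rfl
  intro A _
  by_cases h : v ∈ A
  · simp [sg, h]
  · simp [sg, h]

lemma mm_eq (θ : ℝ) (S : Finset V) (E : Finset (Ev V)) (o : Ev V → ℝ) (v : V) :
    mm G θ S E o v = (Zp G θ S E o v - Zm G θ S E o v) / (Zp G θ S E o v + Zm G θ S E o v) := by
  unfold mm mean
  rw [num_sg_eq, ZZ_eq θ S E o v]

lemma Zp_nonneg {θ : ℝ} (h0 : 0 ≤ θ) (h1 : θ < 1) (S : Finset V) {E : Finset (Ev V)}
    {o : Ev V → ℝ} (ho : ∀ e ∈ E, |o e| ≤ 1) (v : V) : 0 ≤ Zp G θ S E o v := by
  unfold Zp
  apply Finset.sum_nonneg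
  intro A _
  split_ifs
  · exact mul_nonneg (ew_nonneg h0 h1 S A) (ow_nonneg ho A)
  · exact le_rfl

lemma Zm_nonneg {θ : ℝ} (h0 : 0 ≤ θ) (h1 : θ < 1) (S : Finset V) {E : Finset (Ev V)}
    {o : Ev V → ℝ} (ho : ∀ e ∈ E, |o e| ≤ 1) (v : V) : 0 ≤ Zm G θ S E o v := by
  unfold Zm
  apply Finset.sum_nonneg
  intro A _
  split_ifs
  · exact le_rfl
  · exact mul_nonneg (ew_nonneg h0 h1 S A) (ow_nonneg ho A)

/-- `ab/(a+b)` type inequalities -/
lemma aux1 {a b : ℝ} (ha : 0 ≤ a) (hb : 0 ≤ b) :
    (a + b) * (1 - ((a - b) / (a + b)) ^ 2) ≤ 2 * Real.sqrt (a * b) := by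
  rcases (add_nonneg ha hb).eq_or_lt with h | h
  · rw [← h]
    simp only [zero_mul]
    positivity
  · have h1 : (a + b) * (1 - ((a - b) / (a + b)) ^ 2) = 4 * (a * b) / (a + b) := by
      field_simp; ring
    rw [h1, div_le_iff₀ h]
    have h2 : Real.sqrt (a * b) ^ 2 = a * b := Real.sq_sqrt (mul_nonneg ha hb)
    have h3 : 2 * Real.sqrt (a * b) ≤ a + b := by
      rw [Real.sqrt_mul ha]
      nlinarith [sq_nonneg (Real.sqrt a - Real.sqrt b), Real.sq_sqrt ha, Real.sq_sqrt hb]
    nlinarith [Real.sqrt_nonneg (a * b)]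

lemma aux2 {a b : ℝ} (ha : 0 ≤ a) (hb : 0 ≤ b) :
    (if 0 < (a - b) / (a + b) then b else a) ≤ (a + b) * (1 - ((a - b) / (a + b)) ^ 2) / 2 := by
  rcases (add_nonneg ha hb).eq_or_lt with h | h
  · have ha' : a = 0 := by linarith
    have hb' : b = 0 := by linarith
    subst ha' hb'
    simp
  · have h1 : (a + b) * (1 - ((a - b) / (a + b)) ^ 2) / 2 = 2 * (a * b) / (a + b) := by
      field_simp; ring
    rw [h1, le_div_iff₀ h]
    split_ifs with h2
    · have : b ≤ a := by
        rw [div_pos_iff_of_pos_right h] at h2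
        linarith
      nlinarith
    · have : a ≤ b := by
        rw [div_pos_iff_of_pos_right h] at h2
        linarith
      nlinarith

/-- pointwise Bhattacharyya bound -/
lemma bhatt {θ : ℝ} (h0 : 0 ≤ θ) (h1 : θ < 1) (S : Finset V) {E : Finset (Ev V)}
    {o : Ev V → ℝ} (ho : ∀ e ∈ E, |o e| ≤ 1) (v : V) :
    ZZ G θ S E o * (1 - (mm G θ S E o v) ^ 2) ≤
      ∑ A ∈ S.powerset, ew G θ S A * ∏ e ∈ E, (if e.1 = v then Real.sqrt (1 - (o e) ^ 2)
        else 1 + sg A e.1 * o e) := by
  rw [ZZ_eq θ S E o v, mm_eq]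
  refine (aux1 (Zp_nonneg h0 h1 S ho v) (Zm_nonneg h0 h1 S ho v)).trans ?_
  set Q : Finset V → ℝ := fun A => ∏ e ∈ E, (if e.1 = v then 1 else 1 + sg A e.1 * o e) with hQ
  have hQ0 : ∀ A, 0 ≤ Q A := by
    intro A
    apply Finset.prod_nonneg
    intro e he
    split_ifs
    · exact zero_le_one
    · have h1 : |sg A e.1 * o e| ≤ 1 := by
        rw [abs_mul, abs_sg, one_mul]; exact ho e he
      linarith [neg_abs_le (sg A e.1 * o e)]
  set P : ℝ → ℝ := fun σ => ∏ e ∈ E, (if e.1 = v then 1 + σ * o e else 1) with hP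
  have how : ∀ A, ow E o A = P (sg A v) * Q A := by
    intro A
    rw [hP, hQ, ← Finset.prod_mul_distrib]
    unfold ow
    apply Finset.prod_congr rfl
    intro e _
    split_ifs with h
    · rw [h, mul_one]
    · rw [one_mul]
  set Rp : ℝ := ∑ A ∈ S.powerset, if v ∈ A then ew G θ S A * Q A else 0 with hRp
  set Rm : ℝ := ∑ A ∈ S.powerset, if v ∈ A then 0 else ew G θ S A * Q A with hRm
  have e1 : Zp G θ S E o v = P 1 * Rp := by
    unfold Zp
    rw [hRp, Finset.mul_sum]
    apply Finset.sum_congr rfl
    intro A _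
    split_ifs with h
    · rw [how]
      have : sg A v = 1 := by simp [sg, h]
      rw [this]; ring
    · simp
  have e2 : Zm G θ S E o v = P (-1) * Rm := by
    unfold Zm
    rw [hRm, Finset.mul_sum]
    apply Finset.sum_congr rfl
    intro A _
    split_ifs with h
    · simp
    · rw [how]
      have : sg A v = -1 := by simp [sg, h]
      rw [this]; ring
  have hRp0 : 0 ≤ Rp := by
    apply Finset.sum_nonneg
    intro A _
    split_ifs
    · exact mul_nonneg (ew_nonneg h0 h1 S A) (hQ0 A)
    · exact le_rfl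
  have hRm0 : 0 ≤ Rm := by
    apply Finset.sum_nonneg
    intro A _
    split_ifs
    · exact le_rfl
    · exact mul_nonneg (ew_nonneg h0 h1 S A) (hQ0 A)
  have hPP : P 1 * P (-1) = ∏ e ∈ E, (if e.1 = v then 1 - (o e) ^ 2 else 1) := by
    rw [hP, ← Finset.prod_mul_distrib]
    apply Finset.prod_congr rfl
    intro e _
    split_ifs <;> ring
  set T : ℝ := ∏ e ∈ E, (if e.1 = v then Real.sqrt (1 - (o e) ^ 2) else 1) with hT
  have hT0 : 0 ≤ T := by
    apply Finset.prod_nonneg
    intro e _
    split_ifs
    · exact Real.sqrt_nonneg _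
    · exact zero_le_one
  have hT2 : T ^ 2 = P 1 * P (-1) := by
    rw [hPP, hT, ← Finset.prod_pow]
    apply Finset.prod_congr rfl
    intro e he
    split_ifs
    · apply Real.sq_sqrt
      have := ho e he
      rw [abs_le] at this
      nlinarith
    · ring
  have hsum : ∑ A ∈ S.powerset, ew G θ S A * ∏ e ∈ E,
      (if e.1 = v then Real.sqrt (1 - (o e) ^ 2) else 1 + sg A e.1 * o e) = T * (Rp + Rm) := by
    rw [hRp, hRm, ← Finset.sum_add_distrib, Finset.mul_sum]
    apply Finset.sum_congr rfl
    intro A _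
    have : ∏ e ∈ E, (if e.1 = v then Real.sqrt (1 - (o e) ^ 2) else 1 + sg A e.1 * o e) =
        T * Q A := by
      rw [hT, hQ, ← Finset.prod_mul_distrib]
      apply Finset.prod_congr rfl
      intro e _
      split_ifs <;> ring
    rw [this]
    split_ifs <;> ring
  rw [hsum, e1, e2]
  have h4 : P 1 * Rp * (P (-1) * Rm) = T ^ 2 * (Rp * Rm) := by rw [hT2]; ring
  rw [h4, Real.sqrt_mul (sq_nonneg T), Real.sqrt_sq hT0]
  have h5 : 2 * Real.sqrt (Rp * Rm) ≤ Rp + Rm := by
    rw [Real.sqrt_mul hRp0]
    nlinarith [sq_nonneg (Real.sqrt Rp - Real.sqrt Rm), Real.sq_sqrt hRp0, Real.sq_sqrt hRm0]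
  nlinarith

lemma integral_xx (t : ℝ) (j : ℕ) : ∫ p : II, xx t j p = 0 := by
  have hmp : MeasurePreserving (Prod.map (id : unitInterval → unitInterval) unitInterval.symm)
      (volume : Measure II) (volume : Measure II) :=
    (MeasurePreserving.id _).prod unitInterval.measurePreserving_symm
  have h1 := hmp.integral_comp'
    (f := (MeasurableEquiv.refl unitInterval).prodCongr unitInterval.symmMeasurableEquiv)
    (g := xx t j)
  have h2 : ∀ p : II, xx t j (Prod.map id unitInterval.symm p) = - xx t j p := by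
    intro p
    unfold xx
    simp only [Prod.map_fst, Prod.map_snd, id, unitInterval.coe_symm_eq]
    split_ifs <;> ring
  have h3 : ∫ p : II, xx t j (Prod.map id unitInterval.symm p) = ∫ p : II, xx t j p := h1
  simp_rw [h2] at h3
  rw [integral_neg] at h3
  linarith

/-- the Bhattacharyya factor of one event -/
noncomputable def kap (t : ℝ) (j : ℕ) : ℝ := ∫ p : II, Real.sqrt (1 - (xx t j p) ^ 2)

lemma sqrt_le_aux {x : ℝ} (hx : |x| ≤ 1 / 2) : Real.sqrt (1 - x ^ 2) ≤ 1 - x ^ 2 / 2 := by
  have h1 : x ^ 2 ≤ 1 / 4 := by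
    rw [← sq_abs]; nlinarith [abs_nonneg x]
  apply Real.sqrt_le_iff.mpr
  constructor
  · linarith
  · nlinarith [sq_nonneg x]

lemma integrable_of_abs_le {f : II → ℝ} (hf : Measurable f) {C : ℝ} (h : ∀ p, |f p| ≤ C) :
    Integrable f (volume : Measure II) :=
  Integrable.of_bound hf.aestronglyMeasurable C (Filter.Eventually.of_forall h)

lemma measurable_sqrt_xx (t : ℝ) (j : ℕ) :
    Measurable fun p : II => Real.sqrt (1 - (xx t j p) ^ 2) :=
  (((measurable_xx t j).pow_const 2).const_sub 1).sqrt

lemma abs_sqrt_xx_le (t : ℝ) (j : ℕ) (p : II) : |Real.sqrt (1 - (xx t j p) ^ 2)| ≤ 1 := by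
  rw [abs_of_nonneg (Real.sqrt_nonneg _)]
  have h := sqrt_le_aux (abs_xx_le t j p)
  nlinarith [sq_nonneg (xx t j p)]

lemma kap_nonneg (t : ℝ) (j : ℕ) : 0 ≤ kap t j :=
  integral_nonneg fun _ => Real.sqrt_nonneg _

lemma kap_le_one (t : ℝ) (j : ℕ) : kap t j ≤ 1 := by
  unfold kap
  calc ∫ p : II, Real.sqrt (1 - (xx t j p) ^ 2) ≤ ∫ _ : II, (1 : ℝ) := by
        apply integral_mono
        · exact integrable_of_abs_le (measurable_sqrt_xx t j) (abs_sqrt_xx_le t j)
        · exact integrable_const _
        · intro p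
          exact (le_abs_self _).trans (abs_sqrt_xx_le t j p)
    _ = 1 := by simp

lemma integral_z : ∫ z : unitInterval, (2 * (z : ℝ) - 1) ^ 2 = 1 / 3 := by
  have h1 : ∫ z : unitInterval, (2 * (z : ℝ) - 1) ^ 2 =
      ∫ z in (0 : ℝ)..1, (2 * z - 1) ^ 2 := by
    rw [intervalIntegral.integral_of_le zero_le_one, ← integral_Icc_eq_integral_Ioc]
    exact integral_subtype_comap measurableSet_Icc (fun z : ℝ => (2 * z - 1) ^ 2)
  rw [h1]
  have h2 : ∀ z : ℝ, (2 * z - 1) ^ 2 = 4 * z ^ 2 - 4 * z + 1 := fun z => by ring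
  simp_rw [h2]
  rw [intervalIntegral.integral_add, intervalIntegral.integral_sub,
    intervalIntegral.integral_const_mul, intervalIntegral.integral_const_mul]
  · simp
    norm_num
  · exact (by fun_prop : Continuous fun z : ℝ => 4 * z ^ 2).intervalIntegrable _ _
  · exact (by fun_prop : Continuous fun z : ℝ => 4 * z).intervalIntegrable _ _
  · exact (by fun_prop : Continuous fun z : ℝ => 4 * z ^ 2 - 4 * z).intervalIntegrable _ _
  · exact (by fun_prop : Continuous fun _ : ℝ => (1 : ℝ)).intervalIntegrable _ _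

lemma integral_u : ∫ u : unitInterval, (if (u : ℝ) < 1 / 2 then (1 / 4 : ℝ) else 0) = 1 / 8 := by
  have h1 : (fun u : unitInterval => if (u : ℝ) < 1 / 2 then (1 / 4 : ℝ) else 0) =
      (Set.Iio (⟨1 / 2, by norm_num, by norm_num⟩ : unitInterval)).indicator
        (fun _ => (1 / 4 : ℝ)) := by
    funext u
    simp only [Set.indicator, Set.mem_Iio, ← Subtype.coe_lt_coe]
  rw [h1, integral_indicator_const _ measurableSet_Iio]
  simp only [Measure.real, unitInterval.volume_Iio]
  rw [ENNReal.toReal_ofReal (by norm_num)]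
  norm_num

lemma kap_le (t : ℝ) {j : ℕ} (hj : 1 ≤ j) (ht : (j : ℝ) + 1 ≤ t) : kap t j ≤ 47 / 48 := by
  have hxx : ∀ p : II, (xx t j p) ^ 2 =
      (if (p.1 : ℝ) < 1 / 2 then (1 / 4 : ℝ) else 0) * (2 * (p.2 : ℝ) - 1) ^ 2 := by
    intro p
    unfold xx str
    have hj0 : j ≠ 0 := by omega
    by_cases h : (p.1 : ℝ) < 1 / 2
    · have h2 : (j : ℝ) + (p.1 : ℝ) < t := by linarith
      simp only [h, h2, hj0, if_true, if_false]
      ring
    · simp only [h, if_false]
      split_ifs <;> ring
  have hI : ∫ p : II, (xx t j p) ^ 2 = 1 / 24 := by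
    simp_rw [hxx]
    have h := integral_prod_mul (μ := (volume : Measure unitInterval))
      (ν := (volume : Measure unitInterval))
      (fun u : unitInterval => if (u : ℝ) < 1 / 2 then (1 / 4 : ℝ) else 0)
      (fun z : unitInterval => (2 * (z : ℝ) - 1) ^ 2)
    rw [integral_u, integral_z] at h
    refine Eq.trans h ?_
    norm_num
  have hint : Integrable (fun p : II => (xx t j p) ^ 2) (volume : Measure II) := by
    apply integrable_of_abs_le ((measurable_xx t j).pow_const 2) (C := 1)
    intro p
    have := abs_xx_le t j p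
    rw [abs_pow]
    nlinarith [abs_nonneg (xx t j p)]
  unfold kap
  calc ∫ p : II, Real.sqrt (1 - (xx t j p) ^ 2) ≤ ∫ p : II, (1 - (xx t j p) ^ 2 / 2) := by
        apply integral_mono
        · exact integrable_of_abs_le (measurable_sqrt_xx t j) (abs_sqrt_xx_le t j)
        · exact (integrable_const _).sub (hint.div_const 2)
        · intro p
          exact sqrt_le_aux (abs_xx_le t j p)
    _ = 47 / 48 := by
        rw [integral_sub (integrable_const _) (hint.div_const 2), integral_div, hI]
        simp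
        norm_num

/-- one-event factor of the Bhattacharyya bound -/
noncomputable def psi (t : ℝ) (v : V) (A : Finset V) (e : Ev V) (p : II) : ℝ :=
  if e.1 = v then Real.sqrt (1 - (xx t e.2 p) ^ 2) else 1 + sg A e.1 * xx t e.2 p

lemma measurable_psi (t : ℝ) (v : V) (A : Finset V) (e : Ev V) : Measurable (psi t v A e) := by
  unfold psi
  split_ifs
  · exact measurable_sqrt_xx t e.2
  · exact ((measurable_xx t e.2).const_mul _).const_add 1

lemma integrable_xx (t : ℝ) (j : ℕ) : Integrable (xx t j) (volume : Measure II) :=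
  integrable_of_abs_le (measurable_xx t j) (abs_xx_le t j)

lemma integral_psi (t : ℝ) (v : V) (A : Finset V) (e : Ev V) :
    ∫ p, psi t v A e p = if e.1 = v then kap t e.2 else 1 := by
  unfold psi
  split_ifs
  · rfl
  · rw [integral_add (integrable_const _) ((integrable_xx t e.2).const_mul _),
      integral_const_mul, integral_xx]
    simp

lemma prod_evs (S : Finset V) (R : ℕ) {v : V} (hv : v ∈ S) (f : ℕ → ℝ) :
    ∏ e ∈ evs S R, (if e.1 = v then f e.2 else 1) = ∏ j ∈ Finset.range R, f j := by
  unfold evs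
  rw [Finset.prod_product, Finset.prod_eq_single v]
  · simp
  · intro x _ hx
    simp [hx]
  · intro h
    exact absurd hv h

lemma abs_psi_le (t : ℝ) (v : V) (A : Finset V) (e : Ev V) (p : II) : |psi t v A e p| ≤ 2 := by
  unfold psi
  split_ifs
  · exact (abs_sqrt_xx_le t e.2 p).trans (by norm_num)
  · have h1 : |sg A e.1 * xx t e.2 p| ≤ 1 / 2 := by
      rw [abs_mul, abs_sg, one_mul]; exact abs_xx_le _ _ _
    calc |1 + sg A e.1 * xx t e.2 p| ≤ |(1 : ℝ)| + |sg A e.1 * xx t e.2 p| := abs_add_le _ _
      _ ≤ 2 := by rw [abs_one]; linarith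

lemma integrable_prod_psi (s : Finset (Ev V)) (φ : Ev V → II → ℝ) (hφ : ∀ e, Measurable (φ e))
    {C : ℝ} (hC : ∀ e p, |φ e p| ≤ C) :
    Integrable (fun ω : Om V => ∏ e ∈ s, φ e (ω e)) (PP V) := by
  have hC0 : 0 ≤ C ∨ s = ∅ := by
    by_cases hs : s = ∅
    · exact Or.inr hs
    · left
      obtain ⟨e, _⟩ := Finset.nonempty_iff_ne_empty.mpr hs
      exact (abs_nonneg _).trans (hC e (0, 0))
  apply Integrable.of_bound (C := C ^ s.card)
  · apply Measurable.aestronglyMeasurable
    apply Finset.measurable_prod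
    intro e _
    exact (hφ e).comp (measurable_pi_apply e)
  · apply Filter.Eventually.of_forall
    intro ω
    rw [Real.norm_eq_abs, Finset.abs_prod]
    calc ∏ e ∈ s, |φ e (ω e)| ≤ ∏ _e ∈ s, C :=
          Finset.prod_le_prod (fun _ _ => abs_nonneg _) (fun e _ => hC e _)
      _ = C ^ s.card := by simp

/-- **Bhattacharyya bound under the null law** -/
theorem null_conc (hT : G.IsTree) {θ : ℝ} (h0 : 0 ≤ θ) (h1 : θ < 1) {r v : V} {S : Finset V}
    (hS : PC G r S) (hv : v ∈ S) (R : ℕ) (t : ℝ) :
    ∫ ω, (1 / 2 : ℝ) ^ S.card * (ZZ G θ S (evs S R) (yy (evs S R) t ω) *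
      (1 - (mm G θ S (evs S R) (yy (evs S R) t ω) v) ^ 2)) ∂(PP V) ≤
      ∏ j ∈ Finset.range R, kap t j := by
  have hy : ∀ ω : Om V, ∀ e ∈ evs S R, |yy (evs S R) t ω e| ≤ 1 := fun ω e _ =>
    (abs_yy_le _ _ _ _).trans (by norm_num)
  have hrw : ∀ ω : Om V, ∑ A ∈ S.powerset, ew G θ S A * ∏ e ∈ evs S R,
      (if e.1 = v then Real.sqrt (1 - (yy (evs S R) t ω e) ^ 2)
        else 1 + sg A e.1 * yy (evs S R) t ω e) =
      ∑ A ∈ S.powerset, ew G θ S A * ∏ e ∈ evs S R, psi t v A e (ω e) := by
    intro ω
    apply Finset.sum_congr rfl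
    intro A _
    congr 1
    apply Finset.prod_congr rfl
    intro e he
    unfold yy psi
    simp only [he, if_true]
  have hint : Integrable (fun ω : Om V => (1 / 2 : ℝ) ^ S.card *
      ∑ A ∈ S.powerset, ew G θ S A * ∏ e ∈ evs S R, psi t v A e (ω e)) (PP V) := by
    apply Integrable.const_mul
    apply integrable_finsetSum
    intro A _
    apply Integrable.const_mul
    exact integrable_prod_psi _ _ (measurable_psi t v A) (fun e p => abs_psi_le t v A e p)
  calc ∫ ω, (1 / 2 : ℝ) ^ S.card * (ZZ G θ S (evs S R) (yy (evs S R) t ω) *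
      (1 - (mm G θ S (evs S R) (yy (evs S R) t ω) v) ^ 2)) ∂(PP V)
      ≤ ∫ ω, (1 / 2 : ℝ) ^ S.card *
          ∑ A ∈ S.powerset, ew G θ S A * ∏ e ∈ evs S R, psi t v A e (ω e) ∂(PP V) := by
        apply integral_mono_of_nonneg _ hint
        · apply Filter.Eventually.of_forall
          intro ω
          apply mul_le_mul_of_nonneg_left _ (by positivity)
          refine (bhatt h0 h1 S (hy ω) v).trans (le_of_eq (hrw ω))
        · apply Filter.Eventually.of_forall
          intro ω
          apply mul_nonneg (by positivity)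
          have ha := Zp_nonneg (G := G) h0 h1 S (hy ω) v
          have hb := Zm_nonneg (G := G) h0 h1 S (hy ω) v
          have h3 := aux2 ha hb
          rw [ZZ_eq θ S _ _ v, mm_eq]
          split_ifs at h3 <;> linarith
    _ = (1 / 2 : ℝ) ^ S.card * ∑ A ∈ S.powerset,
          ew G θ S A * ∏ j ∈ Finset.range R, kap t j := by
        rw [integral_const_mul, integral_finsetSum]
        · congr 1
          apply Finset.sum_congr rfl
          intro A _
          rw [integral_const_mul, integral_prod_events _ _ (measurable_psi t v A)]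
          congr 1
          simp_rw [integral_psi]
          exact prod_evs S R hv (fun j => kap t j)
        · intro A _
          apply Integrable.const_mul
          exact integrable_prod_psi _ _ (measurable_psi t v A) (fun e p => abs_psi_le t v A e p)
    _ = ∏ j ∈ Finset.range R, kap t j := by
        have h2 := MA_one hT (θ := θ) hS
        unfold MA at h2
        simp only [one_mul] at h2
        rw [← Finset.sum_mul, ← mul_assoc, h2, one_mul]

/-- the product of the factors decays exponentially -/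
lemma prod_kap_le {t : ℝ} (ht : 0 ≤ t) {R : ℕ} (hR : t ≤ R) :
    ∏ j ∈ Finset.range R, kap t j ≤ (48 / 47) ^ 2 * Real.exp (-Real.log (48 / 47) * t) := by
  have hpos : (0 : ℝ) < 48 / 47 := by norm_num
  have hlog : 0 < Real.log (48 / 47) := Real.log_pos (by norm_num)
  set n := ⌊t⌋₊ with hn
  have hnt : (n : ℝ) ≤ t := Nat.floor_le ht
  have htn : t < n + 1 := Nat.lt_floor_add_one t
  have hnR : n ≤ R := by
    have : (n : ℝ) ≤ R := hnt.trans hR
    exact_mod_cast this
  have h1 : ∏ j ∈ Finset.range R, kap t j ≤ ∏ j ∈ Finset.Ico 1 n, kap t j := by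
    have hsub : Finset.Ico 1 n ⊆ Finset.range R := by
      intro j hj
      rw [Finset.mem_Ico] at hj
      rw [Finset.mem_range]
      omega
    rw [← Finset.prod_sdiff hsub]
    calc (∏ j ∈ Finset.range R \ Finset.Ico 1 n, kap t j) * ∏ j ∈ Finset.Ico 1 n, kap t j
        ≤ 1 * ∏ j ∈ Finset.Ico 1 n, kap t j := by
          apply mul_le_mul_of_nonneg_right
          · exact Finset.prod_le_one (fun j _ => kap_nonneg t j) (fun j _ => kap_le_one t j)
          · exact Finset.prod_nonneg (fun j _ => kap_nonneg t j)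
      _ = _ := one_mul _
  have h2 : ∏ j ∈ Finset.Ico 1 n, kap t j ≤ ∏ _j ∈ Finset.Ico 1 n, (47 / 48 : ℝ) := by
    apply Finset.prod_le_prod (fun j _ => kap_nonneg t j)
    intro j hj
    rw [Finset.mem_Ico] at hj
    apply kap_le t hj.1
    have : (j : ℝ) + 1 ≤ n := by exact_mod_cast hj.2
    linarith
  have h3 : ∏ _j ∈ Finset.Ico 1 n, (47 / 48 : ℝ) = (47 / 48 : ℝ) ^ (n - 1) := by
    rw [Finset.prod_const, Nat.card_Ico]
  refine (h1.trans (h2.trans (le_of_eq h3))).trans ?_
  have h4 : (47 / 48 : ℝ) = Real.exp (-Real.log (48 / 47)) := by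
    rw [Real.exp_neg, Real.exp_log hpos]; norm_num
  have h5 : ((48 : ℝ) / 47) ^ 2 = Real.exp (Real.log (48 / 47) * 2) := by
    rw [Real.exp_mul, Real.exp_log hpos]
    norm_num
  rw [h5, ← Real.exp_add, h4, ← Real.exp_nat_mul]
  apply Real.exp_le_exp.mpr
  have h6 : t - 2 ≤ ((n - 1 : ℕ) : ℝ) := by
    rcases Nat.eq_zero_or_pos n with h | h
    · rw [h] at htn ⊢
      simp at htn ⊢
      linarith
    · rw [Nat.cast_sub h]
      push_cast
      linarith
  nlinarith

lemma measurable_num (θ : ℝ) (S : Finset V) (E : Finset (Ev V)) (f : Finset V → ℝ) :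
    Measurable (fun y : Ev V → ℝ => num G θ S E y f) := by
  unfold num ow
  apply Finset.measurable_sum
  intro A _
  apply Measurable.const_mul
  apply Measurable.const_mul
  apply Finset.measurable_prod
  intro e _
  exact ((measurable_pi_apply e).const_mul _).const_add 1

lemma measurable_mm (θ : ℝ) (S : Finset V) (E : Finset (Ev V)) (v : V) :
    Measurable (fun y : Ev V → ℝ => mm G θ S E y v) := by
  unfold mm mean ZZ
  exact (measurable_num θ S E _).div (measurable_num θ S E _)

lemma measurable_yy (E : Finset (Ev V)) (t : ℝ) : Measurable (yy E t : Om V → Ev V → ℝ) := by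
  apply measurable_pi_lambda
  intro e
  unfold yy
  split_ifs
  · exact (measurable_xx t e.2).comp (measurable_pi_apply e)
  · exact measurable_const

lemma abs_mm_le {θ : ℝ} (h0 : 0 ≤ θ) (h1 : θ < 1) (S : Finset V) {E : Finset (Ev V)}
    {o : Ev V → ℝ} (ho : ∀ e ∈ E, |o e| ≤ 1) (v : V) : |mm G θ S E o v| ≤ 1 := by
  rw [mm_eq, abs_div]
  have ha := Zp_nonneg (G := G) h0 h1 S ho v
  have hb := Zm_nonneg (G := G) h0 h1 S ho v
  apply div_le_one_of_le₀ _ (abs_nonneg _)
  rw [abs_of_nonneg (add_nonneg ha hb), abs_le]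
  constructor <;> linarith

lemma ow_yy (E : Finset (Ev V)) (t : ℝ) (ω : Om V) (A : Finset V) :
    ow E (yy E t ω) A = ∏ e ∈ E, (1 + sg A e.1 * xx t e.2 (ω e)) := by
  unfold ow
  apply Finset.prod_congr rfl
  intro e he
  unfold yy
  simp only [he, if_true]

lemma measurable_fac (t : ℝ) (A : Finset V) (e : Ev V) :
    Measurable (fun p : II => 1 + sg A e.1 * xx t e.2 p) :=
  ((measurable_xx t e.2).const_mul _).const_add 1

lemma abs_fac_le (t : ℝ) (A : Finset V) (e : Ev V) (p : II) :
    |1 + sg A e.1 * xx t e.2 p| ≤ 2 := by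
  have h1 : |sg A e.1 * xx t e.2 p| ≤ 1 / 2 := by
    rw [abs_mul, abs_sg, one_mul]; exact abs_xx_le _ _ _
  calc |1 + sg A e.1 * xx t e.2 p| ≤ |(1 : ℝ)| + |sg A e.1 * xx t e.2 p| := abs_add_le _ _
    _ ≤ 2 := by rw [abs_one]; linarith

lemma integrable_ow (E : Finset (Ev V)) (t : ℝ) (A : Finset V) :
    Integrable (fun ω : Om V => ow E (yy E t ω) A) (PP V) := by
  simp_rw [ow_yy]
  exact integrable_prod_psi E (fun e p => 1 + sg A e.1 * xx t e.2 p) (measurable_fac t A)
    (abs_fac_le t A)

lemma integral_ow (E : Finset (Ev V)) (t : ℝ) (A : Finset V) :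
    ∫ ω : Om V, ow E (yy E t ω) A ∂(PP V) = 1 := by
  simp_rw [ow_yy]
  rw [integral_prod_events E (fun e p => 1 + sg A e.1 * xx t e.2 p) (measurable_fac t A)]
  apply Finset.prod_eq_one
  intro e _
  rw [integral_add (integrable_const _) ((integrable_xx t e.2).const_mul _),
    integral_const_mul, integral_xx]
  simp

/-- the sign pattern indicator -/
noncomputable def sgn (G : SimpleGraph V) (θ : ℝ) (S : Finset V) (E : Finset (Ev V))
    (W : Finset V) (η : V → Bool) (y : Ev V → ℝ) : ℝ :=
  if ∀ v ∈ W, decide (0 < mm G θ S E y v) = η v then 1 else 0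

lemma measurableSet_sgn (θ : ℝ) (S : Finset V) (E : Finset (Ev V)) (W : Finset V)
    (η : V → Bool) :
    MeasurableSet {y : Ev V → ℝ | ∀ v ∈ W, decide (0 < mm G θ S E y v) = η v} := by
  have : {y : Ev V → ℝ | ∀ v ∈ W, decide (0 < mm G θ S E y v) = η v} =
      ⋂ v ∈ W, {y : Ev V → ℝ | decide (0 < mm G θ S E y v) = η v} := by
    ext y; simp
  rw [this]
  apply Finset.measurableSet_biInter
  intro v _
  have hm : MeasurableSet {y : Ev V → ℝ | 0 < mm G θ S E y v} :=
    measurableSet_lt measurable_const (measurable_mm θ S E v)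
  cases η v with
  | true =>
    have : {y : Ev V → ℝ | decide (0 < mm G θ S E y v) = true} =
        {y : Ev V → ℝ | 0 < mm G θ S E y v} := by ext y; simp
    rw [this]; exact hm
  | false =>
    have : {y : Ev V → ℝ | decide (0 < mm G θ S E y v) = false} =
        {y : Ev V → ℝ | 0 < mm G θ S E y v}ᶜ := by ext y; simp
    rw [this]; exact hm.compl

lemma measurable_sgn (θ : ℝ) (S : Finset V) (E : Finset (Ev V)) (W : Finset V)
    (η : V → Bool) : Measurable (sgn G θ S E W η) := by
  unfold sgn
  exact Measurable.ite (measurableSet_sgn θ S E W η) measurable_const measurable_const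

lemma sgn_mem (θ : ℝ) (S : Finset V) (E : Finset (Ev V)) (W : Finset V)
    (η : V → Bool) (y : Ev V → ℝ) : 0 ≤ sgn G θ S E W η y ∧ sgn G θ S E W η y ≤ 1 := by
  unfold sgn
  split_ifs <;> norm_num

/-- pointwise: pattern of signs versus pattern of spins -/
lemma sgn_sub_le {θ : ℝ} (S : Finset V) {E : Finset (Ev V)} (W : Finset V) (η : V → Bool)
    (y : Ev V → ℝ) (A : Finset V) :
    |sgn G θ S E W η y - (if ∀ v ∈ W, (v ∈ A ↔ η v = true) then 1 else 0)| ≤
      ∑ v ∈ W, (if (0 < mm G θ S E y v ↔ v ∈ A) then (0 : ℝ) else 1) := by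
  by_cases h : ∀ v ∈ W, (0 < mm G θ S E y v ↔ v ∈ A)
  · have h1 : (∀ v ∈ W, decide (0 < mm G θ S E y v) = η v) ↔
        (∀ v ∈ W, (v ∈ A ↔ η v = true)) := by
      apply forall₂_congr
      intro v hv
      rw [← h v hv]
      cases η v <;> simp
    unfold sgn
    simp only [h1]
    rw [sub_self, abs_zero]
    apply Finset.sum_nonneg
    intro v _
    split_ifs <;> norm_num
  · push Not at h
    obtain ⟨v, hv, hne⟩ := h
    have h2 : ¬ (0 < mm G θ S E y v ↔ v ∈ A) := by
      rintro ⟨h3, h4⟩
      rcases hne with ⟨h5, h6⟩ | ⟨h5, h6⟩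
      · exact h6 (h3 h5)
      · exact absurd (h4 h6) (not_lt.mpr h5)
    have h3 : (1 : ℝ) ≤ ∑ v ∈ W, (if (0 < mm G θ S E y v ↔ v ∈ A) then (0 : ℝ) else 1) := by
      calc (1 : ℝ) = (if (0 < mm G θ S E y v ↔ v ∈ A) then (0 : ℝ) else 1) := by
            rw [if_neg h2]
        _ ≤ _ := Finset.single_le_sum (f := fun v =>
            (if (0 < mm G θ S E y v ↔ v ∈ A) then (0 : ℝ) else 1))
            (fun v _ => by split_ifs <;> norm_num) hv
    refine le_trans ?_ h3
    have h4 := sgn_mem (G := G) θ S E W η y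
    rw [abs_le]
    split_ifs <;> constructor <;> linarith

/-- weight of the wrong spins -/
lemma wrong_le {θ : ℝ} (h0 : 0 ≤ θ) (h1 : θ < 1) (S : Finset V) {E : Finset (Ev V)}
    {o : Ev V → ℝ} (ho : ∀ e ∈ E, |o e| ≤ 1) (v : V) :
    ∑ A ∈ S.powerset, ew G θ S A * ow E o A *
        (if (0 < mm G θ S E o v ↔ v ∈ A) then (0 : ℝ) else 1) ≤
      (1 / 2) * ∑ A ∈ S.powerset, ew G θ S A * ∏ e ∈ E, (if e.1 = v then Real.sqrt (1 - (o e) ^ 2)
        else 1 + sg A e.1 * o e) := by
  have ha := Zp_nonneg (G := G) h0 h1 S ho v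
  have hb := Zm_nonneg (G := G) h0 h1 S ho v
  have h2 := bhatt (G := G) h0 h1 S ho v
  have h3 := aux2 ha hb
  rw [← mm_eq, ← ZZ_eq] at h3
  have h4 : ∑ A ∈ S.powerset, ew G θ S A * ow E o A *
      (if (0 < mm G θ S E o v ↔ v ∈ A) then (0 : ℝ) else 1) =
      (if 0 < mm G θ S E o v then Zm G θ S E o v else Zp G θ S E o v) := by
    by_cases h : 0 < mm G θ S E o v
    · rw [if_pos h]
      unfold Zm
      apply Finset.sum_congr rfl
      intro A _
      by_cases hA : v ∈ A
      · simp [h, hA]
      · simp [h, hA]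
    · rw [if_neg h]
      unfold Zp
      apply Finset.sum_congr rfl
      intro A _
      by_cases hA : v ∈ A
      · simp [h, hA]
      · simp [h, hA]
  rw [h4]
  linarith

open Crest.ProbabilityR.TreeIsing in
/-- **law of the signs under the null law** -/
theorem null_sign (hT : G.IsTree) {θ : ℝ} (h0 : 0 ≤ θ) (h1 : θ < 1) {r : V} {S W : Finset V}
    (hS : PC G r S) (hW : PC G r W) (hWS : W ⊆ S) (η : V → Bool) (R : ℕ) (t : ℝ) :
    |(∫ ω, (1 / 2 : ℝ) ^ S.card * (ZZ G θ S (evs S R) (yy (evs S R) t ω) *
      sgn G θ S (evs S R) W η (yy (evs S R) t ω)) ∂(PP V)) - isingWeight G θ W η| ≤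
      W.card / 2 * ∏ j ∈ Finset.range R, kap t j := by
  set E := evs S R with hE
  have hy : ∀ ω : Om V, ∀ e ∈ E, |yy E t ω e| ≤ 1 := fun ω e _ =>
    (abs_yy_le _ _ _ _).trans (by norm_num)
  set ind : Finset V → ℝ := fun A => if ∀ v ∈ W, (v ∈ A ↔ η v = true) then 1 else 0 with hind
  -- the spin pattern
  have hint1 : Integrable (fun ω : Om V => (1 / 2 : ℝ) ^ S.card *
      ∑ A ∈ S.powerset, ind A * ew G θ S A * ow E (yy E t ω) A) (PP V) := by
    apply Integrable.const_mul
    apply integrable_finsetSum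
    intro A _
    exact (integrable_ow E t A).const_mul _
  have hI1 : ∫ ω : Om V, (1 / 2 : ℝ) ^ S.card *
      ∑ A ∈ S.powerset, ind A * ew G θ S A * ow E (yy E t ω) A ∂(PP V) =
      isingWeight G θ W η := by
    rw [integral_const_mul, integral_finsetSum, ← MA_marginal hT hW hS hWS η]
    · unfold MA
      congr 1
      apply Finset.sum_congr rfl
      intro A _
      rw [integral_const_mul, integral_ow, mul_one]
    · intro A _
      exact (integrable_ow E t A).const_mul _
  have hZZ : ∀ ω : Om V, ZZ G θ S E (yy E t ω) = ∑ A ∈ S.powerset,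
      ew G θ S A * ow E (yy E t ω) A := by
    intro ω
    unfold ZZ num
    simp
  have hint2 : Integrable (fun ω : Om V => (1 / 2 : ℝ) ^ S.card * (ZZ G θ S E (yy E t ω) *
      sgn G θ S E W η (yy E t ω))) (PP V) := by
    apply Integrable.const_mul
    simp_rw [hZZ]
    have h3 : Integrable (fun ω : Om V => ∑ A ∈ S.powerset,
        ew G θ S A * ow E (yy E t ω) A) (PP V) := by
      apply integrable_finsetSum
      intro A _
      exact (integrable_ow E t A).const_mul _
    refine h3.mul_bdd (c := 1) ?_ ?_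
    · exact ((measurable_sgn θ S E W η).comp (measurable_yy E t)).aestronglyMeasurable
    · apply Filter.Eventually.of_forall
      intro ω
      have := sgn_mem (G := G) θ S E W η (yy E t ω)
      rw [Real.norm_eq_abs, abs_of_nonneg this.1]
      exact this.2
  rw [← hI1, ← integral_sub hint2 hint1]
  -- the bound
  have hint3 : Integrable (fun ω : Om V => ∑ v ∈ W, (1 / 2 : ℝ) ^ S.card * ((1 / 2) *
      ∑ A ∈ S.powerset, ew G θ S A * ∏ e ∈ E, psi t v A e (ω e))) (PP V) := by
    apply integrable_finsetSum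
    intro v _
    apply Integrable.const_mul
    apply Integrable.const_mul
    apply integrable_finsetSum
    intro A _
    apply Integrable.const_mul
    exact integrable_prod_psi _ _ (measurable_psi t v A) (fun e p => abs_psi_le t v A e p)
  have hpt : ∀ ω : Om V, |(1 / 2 : ℝ) ^ S.card * (ZZ G θ S E (yy E t ω) *
      sgn G θ S E W η (yy E t ω)) - (1 / 2 : ℝ) ^ S.card *
      ∑ A ∈ S.powerset, ind A * ew G θ S A * ow E (yy E t ω) A| ≤
      ∑ v ∈ W, (1 / 2 : ℝ) ^ S.card * ((1 / 2) *
      ∑ A ∈ S.powerset, ew G θ S A * ∏ e ∈ E, psi t v A e (ω e)) := by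
    intro ω
    rw [hZZ, ← mul_sub, abs_mul, abs_of_nonneg (by positivity : (0:ℝ) ≤ (1 / 2 : ℝ) ^ S.card),
      Finset.sum_mul, ← Finset.sum_sub_distrib, ← Finset.mul_sum]
    apply mul_le_mul_of_nonneg_left _ (by positivity)
    calc |∑ A ∈ S.powerset, (ew G θ S A * ow E (yy E t ω) A * sgn G θ S E W η (yy E t ω) -
          ind A * ew G θ S A * ow E (yy E t ω) A)|
        ≤ ∑ A ∈ S.powerset, |ew G θ S A * ow E (yy E t ω) A * sgn G θ S E W η (yy E t ω) -
          ind A * ew G θ S A * ow E (yy E t ω) A| := Finset.abs_sum_le_sum_abs _ _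
      _ ≤ ∑ A ∈ S.powerset, ew G θ S A * ow E (yy E t ω) A *
          ∑ v ∈ W, (if (0 < mm G θ S E (yy E t ω) v ↔ v ∈ A) then (0 : ℝ) else 1) := by
          apply Finset.sum_le_sum
          intro A _
          have h5 : ew G θ S A * ow E (yy E t ω) A * sgn G θ S E W η (yy E t ω) -
              ind A * ew G θ S A * ow E (yy E t ω) A =
              ew G θ S A * ow E (yy E t ω) A * (sgn G θ S E W η (yy E t ω) - ind A) := by ring
          have h6 : 0 ≤ ew G θ S A * ow E (yy E t ω) A :=
            mul_nonneg (ew_nonneg h0 h1 S A) (ow_nonneg (hy ω) A)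
          rw [h5, abs_mul, abs_of_nonneg h6]
          exact mul_le_mul_of_nonneg_left (sgn_sub_le S W η _ A) h6
      _ = ∑ v ∈ W, ∑ A ∈ S.powerset, ew G θ S A * ow E (yy E t ω) A *
          (if (0 < mm G θ S E (yy E t ω) v ↔ v ∈ A) then (0 : ℝ) else 1) := by
          simp_rw [Finset.mul_sum]
          rw [Finset.sum_comm]
      _ ≤ ∑ v ∈ W, (1 / 2) *
          ∑ A ∈ S.powerset, ew G θ S A * ∏ e ∈ E, psi t v A e (ω e) := by
          apply Finset.sum_le_sum
          intro v _
          refine (wrong_le h0 h1 S (hy ω) v).trans (le_of_eq ?_)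
          congr 1
          apply Finset.sum_congr rfl
          intro A _
          congr 1
          apply Finset.prod_congr rfl
          intro e he
          unfold yy psi
          simp only [he, if_true]
  calc |∫ ω, ((1 / 2 : ℝ) ^ S.card * (ZZ G θ S E (yy E t ω) *
      sgn G θ S E W η (yy E t ω)) - (1 / 2 : ℝ) ^ S.card *
      ∑ A ∈ S.powerset, ind A * ew G θ S A * ow E (yy E t ω) A) ∂(PP V)|
      ≤ ∫ ω, |(1 / 2 : ℝ) ^ S.card * (ZZ G θ S E (yy E t ω) *
      sgn G θ S E W η (yy E t ω)) - (1 / 2 : ℝ) ^ S.card *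
      ∑ A ∈ S.powerset, ind A * ew G θ S A * ow E (yy E t ω) A| ∂(PP V) :=
        abs_integral_le_integral_abs
    _ ≤ ∫ ω, ∑ v ∈ W, (1 / 2 : ℝ) ^ S.card * ((1 / 2) *
      ∑ A ∈ S.powerset, ew G θ S A * ∏ e ∈ E, psi t v A e (ω e)) ∂(PP V) := by
        apply integral_mono_of_nonneg _ hint3
        · exact Filter.Eventually.of_forall hpt
        · exact Filter.Eventually.of_forall fun ω => abs_nonneg _
    _ = ∑ v ∈ W, (1 / 2) * ∏ j ∈ Finset.range R, kap t j := by
        rw [integral_finsetSum]
        · apply Finset.sum_congr rfl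
          intro v hv
          rw [integral_const_mul, integral_const_mul, integral_finsetSum]
          · have h7 : ∀ A ∈ S.powerset, ∫ ω : Om V, ew G θ S A *
                ∏ e ∈ E, psi t v A e (ω e) ∂(PP V) =
                ew G θ S A * ∏ j ∈ Finset.range R, kap t j := by
              intro A _
              rw [integral_const_mul, integral_prod_events _ _ (measurable_psi t v A)]
              congr 1
              simp_rw [integral_psi]
              exact prod_evs S R (hWS hv) (fun j => kap t j)
            rw [Finset.sum_congr rfl h7, ← Finset.sum_mul]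
            have h2 := MA_one hT (θ := θ) hS
            unfold MA at h2
            simp only [one_mul] at h2
            calc (1 / 2 : ℝ) ^ S.card * (1 / 2 * ((∑ A ∈ S.powerset, ew G θ S A) *
                ∏ j ∈ Finset.range R, kap t j)) =
                ((1 / 2 : ℝ) ^ S.card * ∑ A ∈ S.powerset, ew G θ S A) *
                  (1 / 2 * ∏ j ∈ Finset.range R, kap t j) := by ring
              _ = _ := by rw [h2, one_mul]
          · intro A _
            apply Integrable.const_mul
            exact integrable_prod_psi _ _ (measurable_psi t v A)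
              (fun e p => abs_psi_le t v A e p)
        · intro v _
          apply Integrable.const_mul
          apply Integrable.const_mul
          apply integrable_finsetSum
          intro A _
          apply Integrable.const_mul
          exact integrable_prod_psi _ _ (measurable_psi t v A) (fun e p => abs_psi_le t v A e p)
    _ = W.card / 2 * ∏ j ∈ Finset.range R, kap t j := by
        rw [Finset.sum_const, nsmul_eq_mul]
        ring

end Crest.Agent.R160.H0
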