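import Mathlib
import Crest.Agent.R160.Glue

-- ▼ part R160/StaticField
section

/-! Row 160, module E: random fields `X v = (∏ (1 + o), ∏ (1 - o))` of independent
swap-symmetric local data; independence and flip lemmas. -/

set_option autoImplicit false

open MeasureTheory ProbabilityTheory
open scoped Classical

namespace Crest.Agent.R160.Static

variable {V : Type*} {Ω : Type*} [MeasurableSpace Ω]

/-- independent swap-symmetric positive bounded local data of mean one -/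
structure FieldData (P : Measure Ω) (X : V → Ω → ℝ × ℝ) : Prop where
  prob : IsProbabilityMeasure P
  meas : ∀ v, Measurable (X v)
  indep : iIndepFun X P
  symm : ∀ v, P.map (fun ω => (X v ω).swap) = P.map (X v)
  pos : ∀ v ω, 0 < (X v ω).1 ∧ 0 < (X v ω).2
  bdd : ∃ C, ∀ v ω, (X v ω).1 ≤ C ∧ (X v ω).2 ≤ C
  mean : ∀ v, ∫ ω, (X v ω).1 ∂P = 1

/-- swap on the vertices of `B` -/
noncomputable def flipOn (B : Set V) (f : V → ℝ × ℝ) : V → ℝ × ℝ :=
  fun v => if v ∈ B then (f v).swap else f v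


/-- extension of a function on `A` by `(1,1)` -/
noncomputable def extA (A : Finset V) (g : A → ℝ × ℝ) : V → ℝ × ℝ :=
  fun v => if h : v ∈ A then g ⟨v, h⟩ else (1, 1)

lemma measurable_extA (A : Finset V) : Measurable (extA A) := by
  rw [measurable_pi_iff]
  intro v
  unfold extA
  by_cases h : v ∈ A
  · simp only [h, dite_true]
    exact measurable_pi_apply _
  · simp only [h, dite_false]
    exact measurable_const

lemma dependsOn_extA {β : Type*} {F : (V → ℝ × ℝ) → β} {A : Finset V}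
    (hF : DependsOn F (A : Set V)) (f : V → ℝ × ℝ) : F (extA A fun i => f i) = F f := by
  apply hF
  intro v hv
  have hv' : v ∈ A := by simpa using hv
  simp [extA, hv']

namespace FieldData

variable {P : Measure Ω} {X : V → Ω → ℝ × ℝ}

lemma measurable_field (h : FieldData P X) : Measurable (fun ω v => X v ω) :=
  measurable_pi_iff.mpr h.meas

theorem integral_mul (h : FieldData P X) {F H : (V → ℝ × ℝ) → ℝ} {A B : Finset V}
    (hF : Measurable F) (hH : Measurable H) (hFA : DependsOn F (A : Set V))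
    (hHB : DependsOn H (B : Set V)) (hAB : Disjoint A B) :
    ∫ ω, F (fun v => X v ω) * H (fun v => X v ω) ∂P
      = (∫ ω, F (fun v => X v ω) ∂P) * ∫ ω, H (fun v => X v ω) ∂P := by
  have h1 := h.indep.indepFun_finset A B hAB h.meas
  have h2 := h1.comp (φ := fun g => F (extA A g)) (ψ := fun g => H (extA B g))
    (hF.comp (measurable_extA A)) (hH.comp (measurable_extA B))
  have e1 : (fun g => F (extA A g)) ∘ (fun a (i : A) => X i a) = fun ω => F (fun v => X v ω) := by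
    funext ω
    exact dependsOn_extA hFA (fun v => X v ω)
  have e2 : (fun g => H (extA B g)) ∘ (fun a (i : B) => X i a) = fun ω => H (fun v => X v ω) := by
    funext ω
    exact dependsOn_extA hHB (fun v => X v ω)
  rw [e1, e2] at h2
  exact h2.integral_fun_mul_eq_mul_integral
    (hF.comp h.measurable_field).aestronglyMeasurable
    (hH.comp h.measurable_field).aestronglyMeasurable

theorem integral_flip (h : FieldData P X) {F : (V → ℝ × ℝ) → ℝ} {A : Finset V}
    (hF : Measurable F) (hFA : DependsOn F (A : Set V)) (B : Set V) :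
    ∫ ω, F (flipOn B (fun v => X v ω)) ∂P = ∫ ω, F (fun v => X v ω) ∂P := by
  have := h.prob
  -- the flipped field
  let g : V → ℝ × ℝ → ℝ × ℝ := fun v p => if v ∈ B then p.swap else p
  have hg : ∀ v, Measurable (g v) := by
    intro v
    by_cases hv : v ∈ B
    · simp only [g, hv, if_true]; exact measurable_swap
    · simp only [g, hv, if_false]; exact measurable_id
  have hYmeas : ∀ v, Measurable (g v ∘ X v) := fun v => (hg v).comp (h.meas v)
  have hY : iIndepFun (fun v => g v ∘ X v) P := h.indep.comp g hg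
  have hlaw : ∀ v, P.map (g v ∘ X v) = P.map (X v) := by
    intro v
    by_cases hv : v ∈ B
    · have : g v ∘ X v = fun ω => (X v ω).swap := by
        funext ω
        simp [g, hv]
      rw [this, h.symm v]
    · have : g v ∘ X v = X v := by
        funext ω
        simp [g, hv]
      rw [this]
  have hXA : iIndepFun (fun i : A => X i) P := h.indep.precomp Subtype.val_injective
  have hYA : iIndepFun (fun i : A => g i ∘ X i) P := hY.precomp (g := ((↑) : A → V))
    Subtype.val_injective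
  have m1 := iIndepFun.map_fun_eq_pi_map (f := fun (i : A) => X i)
    (fun i => (h.meas i).aemeasurable) hXA
  have m2 := iIndepFun.map_fun_eq_pi_map (f := fun (i : A) => g i ∘ X i)
    (fun i => (hYmeas i).aemeasurable) hYA
  have m3 : P.map (fun ω (i : A) => (g i ∘ X i) ω) = P.map (fun ω (i : A) => X i ω) := by
    rw [m1, m2]
    congr 1
    funext i
    exact hlaw i
  have hFm : Measurable (fun q : A → ℝ × ℝ => F (extA A q)) := hF.comp (measurable_extA A)
  have e1 : ∫ ω, F (flipOn B (fun v => X v ω)) ∂P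
      = ∫ q, F (extA A q) ∂(P.map (fun ω (i : A) => (g i ∘ X i) ω)) := by
    have hm : Measurable (fun ω (i : A) => (g i ∘ X i) ω) :=
      measurable_pi_iff.mpr fun i => hYmeas i
    rw [integral_map hm.aemeasurable hFm.aestronglyMeasurable]
    refine integral_congr_ae (Filter.Eventually.of_forall fun ω => ?_)
    simp only
    rw [← dependsOn_extA hFA (flipOn B (fun v => X v ω))]
    rfl
  have e2 : ∫ ω, F (fun v => X v ω) ∂P
      = ∫ q, F (extA A q) ∂(P.map (fun ω (i : A) => X i ω)) := by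
    have hm : Measurable (fun ω (i : A) => X i ω) :=
      measurable_pi_iff.mpr fun i => h.meas i
    rw [integral_map hm.aemeasurable hFm.aestronglyMeasurable]
    refine integral_congr_ae (Filter.Eventually.of_forall fun ω => ?_)
    simp only
    rw [← dependsOn_extA hFA (fun v => X v ω)]
  rw [e1, e2, m3]

/-- functionals which are odd under a flip have mean zero -/
theorem integral_odd (h : FieldData P X) {F : (V → ℝ × ℝ) → ℝ} {A : Finset V}
    (hF : Measurable F) (hFA : DependsOn F (A : Set V)) (B : Set V)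
    (hodd : ∀ f, F (flipOn B f) = - F f) :
    ∫ ω, F (fun v => X v ω) ∂P = 0 := by
  have h1 := h.integral_flip hF hFA B
  simp only [hodd] at h1
  rw [integral_neg] at h1
  linarith

end FieldData

end Crest.Agent.R160.Static
end

-- ▼ part R160/StaticScalar
section

/-! Row 160, module E (static estimates): one-dimensional lemmas. -/

set_option autoImplicit false

namespace Crest.Agent.R160.Static

/-! ### combination of two squared biases -/

lemma comb_sq {a b : ℝ} (h : |a * b| < 1) :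
    ((a + b) ^ 2 / (1 + a * b) + (a - b) ^ 2 / (1 - a * b)) / 2
      = (a ^ 2 + b ^ 2 - 2 * (a ^ 2 * b ^ 2)) / (1 - a ^ 2 * b ^ 2) := by
  have h1 := (abs_lt.mp h).1
  have h2 := (abs_lt.mp h).2
  have h3 : (1 + a * b) ≠ 0 := by linarith
  have h4 : (1 - a * b) ≠ 0 := by linarith
  have h5 : 1 - a ^ 2 * b ^ 2 ≠ 0 := by
    have : 1 - a ^ 2 * b ^ 2 = (1 + a * b) * (1 - a * b) := by ring
    rw [this]
    exact mul_ne_zero h3 h4
  field_simp
  ring

lemma sq_mul_lt_one {a b : ℝ} (h : |a * b| < 1) : a ^ 2 * b ^ 2 < 1 := by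
  have h1 := (abs_lt.mp h).1
  have h2 := (abs_lt.mp h).2
  nlinarith

lemma comb_sq_le {a b : ℝ} (ha : |a| ≤ 1) (hb : |b| ≤ 1) (h : |a * b| < 1) :
    ((a + b) ^ 2 / (1 + a * b) + (a - b) ^ 2 / (1 - a * b)) / 2
      ≤ a ^ 2 + b ^ 2 - a ^ 2 * b ^ 2 := by
  rw [comb_sq h]
  have hA : a ^ 2 ≤ 1 := by
    have := sq_abs a ▸ pow_le_one₀ (abs_nonneg a) ha (n := 2)
    simpa using this
  have hB : b ^ 2 ≤ 1 := by
    have := sq_abs b ▸ pow_le_one₀ (abs_nonneg b) hb (n := 2)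
    simpa using this
  have hAB := sq_mul_lt_one h
  rw [div_le_iff₀ (by linarith)]
  have h0 : 0 ≤ a ^ 2 := sq_nonneg a
  have h0' : 0 ≤ b ^ 2 := sq_nonneg b
  have h1 : 0 ≤ (a ^ 2 * b ^ 2) * ((1 - a ^ 2) * (1 - b ^ 2)) :=
    mul_nonneg (mul_nonneg h0 h0') (mul_nonneg (by linarith) (by linarith))
  nlinarith [h1]

lemma le_comb_sq {a b : ℝ} (ha : |a| ≤ 1) (hb : |b| ≤ 1) (h : |a * b| < 1) :
    a ^ 2 + b ^ 2 - 2 * (a ^ 2 * b ^ 2)
      ≤ ((a + b) ^ 2 / (1 + a * b) + (a - b) ^ 2 / (1 - a * b)) / 2 := by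
  rw [comb_sq h]
  have hA : a ^ 2 ≤ 1 := by
    have := sq_abs a ▸ pow_le_one₀ (abs_nonneg a) ha (n := 2)
    simpa using this
  have hB : b ^ 2 ≤ 1 := by
    have := sq_abs b ▸ pow_le_one₀ (abs_nonneg b) hb (n := 2)
    simpa using this
  have hAB := sq_mul_lt_one h
  rw [le_div_iff₀ (by linarith)]
  have h0 : 0 ≤ a ^ 2 := sq_nonneg a
  have h0' : 0 ≤ b ^ 2 := sq_nonneg b
  have h2 : 0 ≤ a ^ 2 + b ^ 2 - 2 * (a ^ 2 * b ^ 2) := by nlinarith
  have h3 : 0 ≤ a ^ 2 * b ^ 2 := mul_nonneg h0 h0'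
  nlinarith

lemma le_comb_sq_left {a b : ℝ} (h : |a * b| < 1) :
    a ^ 2 ≤ ((a + b) ^ 2 / (1 + a * b) + (a - b) ^ 2 / (1 - a * b)) / 2 := by
  rw [comb_sq h]
  have hAB := sq_mul_lt_one h
  rw [le_div_iff₀ (by linarith)]
  have h0' : 0 ≤ b ^ 2 := sq_nonneg b
  have h2 : 0 ≤ b ^ 2 * (1 - a ^ 2) ^ 2 := mul_nonneg h0' (sq_nonneg _)
  nlinarith

lemma le_comb_sq_right {a b : ℝ} (h : |a * b| < 1) :
    b ^ 2 ≤ ((a + b) ^ 2 / (1 + a * b) + (a - b) ^ 2 / (1 - a * b)) / 2 := by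
  rw [comb_sq h]
  have hAB := sq_mul_lt_one h
  rw [le_div_iff₀ (by linarith)]
  have h0' : 0 ≤ a ^ 2 := sq_nonneg a
  have h2 : 0 ≤ a ^ 2 * (1 - b ^ 2) ^ 2 := mul_nonneg h0' (sq_nonneg _)
  nlinarith

/-! ### recursion for the second moment: upper bound -/

lemma one_sub_div_pow_ge {b : ℕ} (hb : 2 ≤ b) {X : ℝ} (_hX0 : 0 ≤ X) (hX1 : X ≤ 1) :
    (1 - X / 2) ^ 2 ≤ (1 - X / b) ^ b := by
  have hb' : (2 : ℝ) ≤ b := by exact_mod_cast hb
  have hb0 : (0 : ℝ) < b := by linarith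
  have hy : 0 ≤ 1 - X / b := by
    rw [sub_nonneg, div_le_one hb0]
    linarith
  have h1 := one_add_mul_self_le_rpow_one_add (s := -(X / b)) (p := (b : ℝ) / 2)
    (by linarith) (by linarith)
  have h2 : 1 + (b : ℝ) / 2 * -(X / b) = 1 - X / 2 := by
    field_simp
    ring
  rw [h2] at h1
  have h3 : 1 + -(X / (b : ℝ)) = 1 - X / b := by ring
  rw [h3] at h1
  have h4 : ((1 - X / b) ^ ((b : ℝ) / 2)) ^ 2 = (1 - X / b) ^ b := by
    rw [← Real.rpow_natCast ((1 - X / b) ^ ((b : ℝ) / 2)) 2, ← Real.rpow_mul hy]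
    have : (b : ℝ) / 2 * ((2 : ℕ) : ℝ) = (b : ℝ) := by
      push_cast
      ring
    rw [this, Real.rpow_natCast]
  rw [← h4]
  exact pow_le_pow_left₀ (by linarith) h1 2

lemma upper_step {b : ℕ} (hb : 2 ≤ b) {I X : ℝ} (hI : 0 ≤ I) (hX0 : 0 ≤ X)
    (hX : 4 * I ≤ X ^ 2) (hX1 : X ≤ 1) : 1 - X ≤ (1 - I) * (1 - X / b) ^ b := by
  have h1 := one_sub_div_pow_ge hb hX0 hX1
  have hI1 : I ≤ 1 := by nlinarith
  have h2 : (1 - I) * (1 - X / 2) ^ 2 ≤ (1 - I) * (1 - X / b) ^ b :=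
    mul_le_mul_of_nonneg_left h1 (by linarith)
  refine le_trans ?_ h2
  have h3 : (1 - X / 2) ^ 2 ≤ 1 := by nlinarith
  nlinarith

/-! ### recursion for the second moment: lower bound -/

lemma exp_neg_two_le {s : ℝ} (hs : 0 ≤ s) : Real.exp (-(2 * s)) ≤ 1 - 2 * s + 2 * s ^ 2 := by
  have h := Real.quadratic_le_exp_of_nonneg (x := 2 * s) (by linarith)
  rw [Real.exp_neg]
  have h1 : 0 < 1 + 2 * s + (2 * s) ^ 2 / 2 := by nlinarith
  have h2 : (Real.exp (2 * s))⁻¹ ≤ (1 + 2 * s + (2 * s) ^ 2 / 2)⁻¹ :=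
    inv_anti₀ h1 h
  refine le_trans h2 ?_
  rw [inv_le_iff_one_le_mul₀ h1]
  nlinarith [pow_nonneg hs 4]

lemma lower_step {b : ℕ} {θ I I0 l : ℝ} (hI0 : 0 ≤ I0) (hI : I0 ≤ I) (hI1 : I0 ≤ 1 / 16)
    (hδ : 1 - Real.sqrt I0 ≤ b * θ ^ 2) (hθ : b * θ ^ 2 ≤ 1) (hl0 : 0 ≤ l)
    (hl : l ≤ Real.sqrt I0 / 4) :
    l + I0 / 2 ≤ (1 - max (1 - 2 * I) 0 * (max (1 - 2 * (θ ^ 2 * l)) 0) ^ b) / 2 := by
  set r := Real.sqrt I0 with hr
  have hr0 : 0 ≤ r := Real.sqrt_nonneg _
  have hrr : r * r = I0 := Real.mul_self_sqrt hI0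
  have hr1 : r ≤ 1 / 4 := by
    rw [hr, show (1 : ℝ) / 4 = Real.sqrt ((1 / 4) ^ 2) by
      rw [Real.sqrt_sq (by norm_num)]]
    exact Real.sqrt_le_sqrt (by norm_num; linarith)
  set s := I0 + b * θ ^ 2 * l with hs
  have hbl : 0 ≤ b * θ ^ 2 * l := by positivity
  have hs0 : 0 ≤ s := by positivity
  have h1 : max (1 - 2 * I) 0 ≤ Real.exp (-(2 * I0)) := by
    apply max_le _ (Real.exp_pos _).le
    have := Real.add_one_le_exp (-(2 * I0))
    linarith
  have h2 : max (1 - 2 * (θ ^ 2 * l)) 0 ≤ Real.exp (-(2 * (θ ^ 2 * l))) := by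
    apply max_le _ (Real.exp_pos _).le
    have := Real.add_one_le_exp (-(2 * (θ ^ 2 * l)))
    linarith
  have h3 : (max (1 - 2 * (θ ^ 2 * l)) 0) ^ b ≤ Real.exp (-(2 * (θ ^ 2 * l))) ^ b :=
    pow_le_pow_left₀ (le_max_right _ _) h2 b
  have h4 : max (1 - 2 * I) 0 * (max (1 - 2 * (θ ^ 2 * l)) 0) ^ b ≤ Real.exp (-(2 * s)) := by
    calc _ ≤ Real.exp (-(2 * I0)) * Real.exp (-(2 * (θ ^ 2 * l))) ^ b :=
          mul_le_mul h1 h3 (pow_nonneg (le_max_right _ _) _) (Real.exp_pos _).le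
      _ = Real.exp (-(2 * s)) := by
          rw [← Real.exp_nat_mul, ← Real.exp_add]
          congr 1
          rw [hs]
          ring
  have h5 := exp_neg_two_le hs0
  have h6 : s ≤ r / 2 := by
    have : b * θ ^ 2 * l ≤ 1 * l := mul_le_mul_of_nonneg_right hθ hl0
    nlinarith
  have h7 : s ^ 2 ≤ I0 / 4 := by nlinarith
  have h8 : (1 - r) * l ≤ b * θ ^ 2 * l := mul_le_mul_of_nonneg_right hδ hl0
  have h9 : r * l ≤ I0 / 4 := by nlinarith
  linarith

/-! ### submultiplicativity -/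

lemma max_submul {q q1 q2 : ℝ} (h : q1 + q2 - 2 * (q1 * q2) ≤ q) (h1 : q1 ≤ q) (h2 : q2 ≤ q) :
    max (1 - 2 * q) 0 ≤ max (1 - 2 * q1) 0 * max (1 - 2 * q2) 0 := by
  apply max_le _ (mul_nonneg (le_max_right _ _) (le_max_right _ _))
  rcases le_or_gt (1 / 2) q1 with hq1 | hq1
  · have : 1 - 2 * q ≤ 0 := by linarith
    exact this.trans (mul_nonneg (le_max_right _ _) (le_max_right _ _))
  · rcases le_or_gt (1 / 2) q2 with hq2 | hq2
    · have : 1 - 2 * q ≤ 0 := by linarith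
      exact this.trans (mul_nonneg (le_max_right _ _) (le_max_right _ _))
    · rw [max_eq_left (by linarith), max_eq_left (by linarith)]
      nlinarith

/-! ### slopes -/

/-- normalised slope as a function of the cavity bias -/
noncomputable def rhoh (θ y : ℝ) : ℝ := (1 - y ^ 2) / (1 - θ ^ 2 * y ^ 2)

lemma rhoh_den_pos {θ y : ℝ} (hθ : θ ^ 2 ≤ 1 / 2) (hy : |y| ≤ 1) : 0 < 1 - θ ^ 2 * y ^ 2 := by
  have hY : y ^ 2 ≤ 1 := by
    have := sq_abs y ▸ pow_le_one₀ (abs_nonneg y) hy (n := 2)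
    simpa using this
  nlinarith [sq_nonneg θ, sq_nonneg y]

lemma rhoh_nonneg {θ y : ℝ} (hθ : θ ^ 2 ≤ 1 / 2) (hy : |y| ≤ 1) : 0 ≤ rhoh θ y := by
  have hY : y ^ 2 ≤ 1 := by
    have := sq_abs y ▸ pow_le_one₀ (abs_nonneg y) hy (n := 2)
    simpa using this
  exact div_nonneg (by linarith) (rhoh_den_pos hθ hy).le

lemma rhoh_le {θ y : ℝ} (hθ : θ ^ 2 ≤ 1 / 2) (hy : |y| ≤ 1) : rhoh θ y ≤ 1 - y ^ 2 / 2 := by
  have hY : y ^ 2 ≤ 1 := by
    have := sq_abs y ▸ pow_le_one₀ (abs_nonneg y) hy (n := 2)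
    simpa using this
  rw [rhoh, div_le_iff₀ (rhoh_den_pos hθ hy)]
  have h0 := sq_nonneg y
  have h1 := sq_nonneg θ
  have h2 : θ ^ 2 * y ^ 2 ≤ 1 / 2 * y ^ 2 := mul_le_mul_of_nonneg_right hθ h0
  have h3 : 0 ≤ θ ^ 2 * y ^ 2 * y ^ 2 := by positivity
  nlinarith

lemma rhoh_le_one {θ y : ℝ} (hθ : θ ^ 2 ≤ 1 / 2) (hy : |y| ≤ 1) : rhoh θ y ≤ 1 := by
  have := rhoh_le hθ hy
  nlinarith [sq_nonneg y]

/-- two consecutive slopes give a gain in terms of the off-path bias -/
lemma two_step_gain {θ y z g : ℝ} (h0 : 0 ≤ θ) (hθ : θ ^ 2 ≤ 1 / 2) (hy : |y| ≤ 1) (hz : |z| ≤ 1)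
    (h : y * (1 + g * (θ * z)) = g + θ * z) :
    rhoh θ y * rhoh θ z ≤ 1 - g ^ 2 / 96 := by
  have hY : y ^ 2 ≤ 1 := by
    have := sq_abs y ▸ pow_le_one₀ (abs_nonneg y) hy (n := 2)
    simpa using this
  have hZ : z ^ 2 ≤ 1 := by
    have := sq_abs z ▸ pow_le_one₀ (abs_nonneg z) hz (n := 2)
    simpa using this
  have h1 : rhoh θ y * rhoh θ z ≤ (1 - y ^ 2 / 2) * (1 - z ^ 2 / 2) :=
    mul_le_mul (rhoh_le hθ hy) (rhoh_le hθ hz) (rhoh_nonneg hθ hz) (by linarith)
  refine h1.trans ?_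
  have hg : g * (1 - θ * (y * z)) = y - θ * z := by linarith
  have hyz : |y * z| ≤ 1 := by
    rw [abs_mul]
    exact mul_le_one₀ hy (abs_nonneg z) hz
  have hyz1 := (abs_le.mp hyz).2
  have hyz2 := (abs_le.mp hyz).1
  have hθ1 : θ ≤ 71 / 100 := by nlinarith
  have h2 : 29 / 100 ≤ 1 - θ * (y * z) := by nlinarith
  have h3 : (29 / 100) ^ 2 * g ^ 2 ≤ (y - θ * z) ^ 2 := by
    rw [← hg, mul_pow]
    have : (29 / 100 : ℝ) ^ 2 ≤ (1 - θ * (y * z)) ^ 2 := pow_le_pow_left₀ (by norm_num) h2 2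
    nlinarith [sq_nonneg g]
  have h4 : (y - θ * z) ^ 2 ≤ 2 * (y ^ 2 + z ^ 2) := by
    nlinarith [sq_nonneg (y + θ * z), sq_nonneg z, sq_nonneg θ]
  nlinarith [sq_nonneg y, sq_nonneg z, mul_nonneg (sq_nonneg y) (sq_nonneg z)]

/-! ### exponentials -/

lemma exp_le_one_add_two_mul {x : ℝ} (h0 : 0 ≤ x) (h1 : x ≤ 1) : Real.exp x ≤ 1 + 2 * x := by
  have h := Real.abs_exp_sub_one_sub_id_le (x := x) (by rw [abs_of_nonneg h0]; exact h1)
  have h2 := (abs_le.mp h).2
  nlinarith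

end Crest.Agent.R160.Static
end

-- ▼ part R160/StaticPE

/-! Row 160, module E: planted expectations of functionals of the field, gluing along one edge. -/

set_option autoImplicit false
set_option linter.unusedSectionVars false

open MeasureTheory ProbabilityTheory
open scoped Classical

namespace Crest.Agent.R160.Static

open Crest.Agent.R160

variable {V : Type*} {G : SimpleGraph V} {θ : ℝ}

/-- positive field -/
def Pos (f : V → ℝ × ℝ) : Prop := ∀ v, 0 < (f v).1 ∧ 0 < (f v).2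

lemma Zf_pos' (h0 : 0 ≤ θ) (h1 : θ < 1) {f : V → ℝ × ℝ} (hf : Pos f) (S : Finset V) :
    0 < Zf G θ S f := Zf_pos h0 h1 fun v _ => hf v

lemma abs_magf_le' (h0 : 0 ≤ θ) (h1 : θ < 1) {f : V → ℝ × ℝ} (hf : Pos f) (S : Finset V) (x : V) :
    |magf G θ S f x| ≤ 1 := abs_magf_le h0 h1 (fun v _ => hf v) x

lemma dependsOn_numf (S : Finset V) (F : Finset V → ℝ) :
    DependsOn (fun f => numf G θ S f F) (S : Set V) := by
  intro f g h
  unfold numf
  refine Finset.sum_congr rfl fun A _ => ?_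
  congr 2
  unfold fw
  refine Finset.prod_congr rfl fun v hv => ?_
  rw [h v (by simpa using hv)]

lemma dependsOn_Zf (S : Finset V) : DependsOn (fun f => Zf G θ S f) (S : Set V) :=
  dependsOn_numf S _

lemma dependsOn_magf (S : Finset V) (x : V) : DependsOn (fun f => magf G θ S f x) (S : Set V) := by
  intro f g h
  have h1 := dependsOn_numf (G := G) (θ := θ) S (fun A => sg A x) h
  have h2 := dependsOn_Zf (G := G) (θ := θ) S h
  simp only [magf, meanf] at h1 h2 ⊢
  rw [h1, h2]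

lemma measurable_numf (S : Finset V) (F : Finset V → ℝ) :
    Measurable (fun f : V → ℝ × ℝ => numf G θ S f F) := by
  unfold numf fw
  refine Finset.measurable_fun_sum _ fun A _ => ?_
  refine Measurable.const_mul (Measurable.const_mul ?_ _) _
  refine Finset.measurable_fun_prod _ fun v _ => ?_
  split_ifs
  · exact measurable_fst.comp (measurable_pi_apply v)
  · exact measurable_snd.comp (measurable_pi_apply v)

lemma measurable_Zf (S : Finset V) : Measurable (fun f : V → ℝ × ℝ => Zf G θ S f) :=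
  measurable_numf S _

lemma measurable_magf (S : Finset V) (x : V) :
    Measurable (fun f : V → ℝ × ℝ => magf G θ S f x) := by
  unfold magf meanf
  exact (measurable_numf S _).div (measurable_Zf S)

lemma sg_sdiff {S A : Finset V} {v : V} (hv : v ∈ S) : sg (S \ A) v = -sg A v := by
  unfold sg
  by_cases h : v ∈ A
  · simp [h]
  · simp [h, hv]

lemma sgE_sdiff {S A : Finset V} {e : Sym2 V} (he : e ∈ S.sym2) : sgE (S \ A) e = sgE A e := by
  induction e with
  | h a b =>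
    rw [Finset.mk_mem_sym2_iff] at he
    simp only [sgE, Sym2.lift_mk]
    rw [sg_sdiff he.1, sg_sdiff he.2]
    ring

lemma ew_sdiff (S A : Finset V) : ew G θ S (S \ A) = ew G θ S A := by
  unfold ew
  refine Finset.prod_congr rfl fun e he => ?_
  rw [sgE_sdiff (Finset.mem_filter.1 he).1]

lemma numf_flip {S : Finset V} {B : Set V} (hSB : (S : Set V) ⊆ B) (f : V → ℝ × ℝ)
    (F : Finset V → ℝ) :
    numf G θ S (flipOn B f) F = numf G θ S f (fun A => F (S \ A)) := by
  unfold numf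
  refine Finset.sum_nbij' (fun A => S \ A) (fun A => S \ A) ?_ ?_ ?_ ?_ ?_
  · intro A _
    exact Finset.mem_powerset.2 Finset.sdiff_subset
  · intro A _
    exact Finset.mem_powerset.2 Finset.sdiff_subset
  · intro A hA
    exact Finset.sdiff_sdiff_eq_self (Finset.mem_powerset.1 hA)
  · intro A hA
    exact Finset.sdiff_sdiff_eq_self (Finset.mem_powerset.1 hA)
  · intro A hA
    simp only
    rw [ew_sdiff, Finset.sdiff_sdiff_eq_self (Finset.mem_powerset.1 hA)]
    congr 2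
    unfold fw
    refine Finset.prod_congr rfl fun v hv => ?_
    have hvB : v ∈ B := hSB (by simpa using hv)
    by_cases h : v ∈ A
    · simp [flipOn, hvB, h]
    · simp [flipOn, hvB, h, hv]

lemma Zf_flip {S : Finset V} {B : Set V} (hSB : (S : Set V) ⊆ B) (f : V → ℝ × ℝ) :
    Zf G θ S (flipOn B f) = Zf G θ S f := by
  unfold Zf
  rw [numf_flip hSB]

lemma magf_flip {S : Finset V} {B : Set V} (hSB : (S : Set V) ⊆ B) (f : V → ℝ × ℝ) {x : V}
    (hx : x ∈ S) : magf G θ S (flipOn B f) x = - magf G θ S f x := by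
  unfold magf meanf
  rw [Zf_flip hSB, numf_flip hSB]
  have : numf G θ S f (fun A => sg (S \ A) x) = - numf G θ S f (fun A => sg A x) := by
    unfold numf
    rw [← Finset.sum_neg_distrib]
    refine Finset.sum_congr rfl fun A _ => ?_
    simp only
    rw [sg_sdiff hx]
    ring
  rw [this, neg_div]

/-- agreement outside of the flipped set -/
lemma flipOn_of_notMem {B : Set V} {v : V} (hv : v ∉ B) (f : V → ℝ × ℝ) : flipOn B f v = f v := by
  simp [flipOn, hv]

lemma dependsOn_flip {β : Type*} {F : (V → ℝ × ℝ) → β} {S : Finset V} {B : Set V}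
    (hF : DependsOn F (S : Set V)) (hB : Disjoint (S : Set V) B) (f : V → ℝ × ℝ) :
    F (flipOn B f) = F f := by
  apply hF
  intro v hv
  exact flipOn_of_notMem (Set.disjoint_left.mp hB hv) f

/-- normalised partition function -/
noncomputable def zf (G : SimpleGraph V) (θ : ℝ) (S : Finset V) (f : V → ℝ × ℝ) : ℝ :=
  Zf G θ S f / 2 ^ S.card

lemma zf_pos (h0 : 0 ≤ θ) (h1 : θ < 1) {f : V → ℝ × ℝ} (hf : Pos f) (S : Finset V) :
    0 < zf G θ S f := div_pos (Zf_pos' h0 h1 hf S) (by positivity)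

lemma dependsOn_zf (S : Finset V) : DependsOn (fun f => zf G θ S f) (S : Set V) := by
  intro f g h
  have h2 := dependsOn_Zf (G := G) (θ := θ) S h
  simp only [zf] at h2 ⊢
  rw [h2]

lemma measurable_zf (S : Finset V) : Measurable (fun f : V → ℝ × ℝ => zf G θ S f) :=
  (measurable_Zf S).div_const _

lemma zf_flip {S : Finset V} {B : Set V} (hSB : (S : Set V) ⊆ B) (f : V → ℝ × ℝ) :
    zf G θ S (flipOn B f) = zf G θ S f := by
  unfold zf
  rw [Zf_flip hSB]

/-- two disjoint finite sets of vertices joined by a single edge -/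
structure Edge1 (G : SimpleGraph V) (S1 S2 : Finset V) (x c : V) : Prop where
  disj : Disjoint S1 S2
  hx : x ∈ S1
  hc : c ∈ S2
  adj : G.Adj x c
  edge : ∀ a ∈ S1, ∀ b ∈ S2, G.Adj a b → a = x ∧ b = c

lemma Edge1.symm {S1 S2 : Finset V} {x c : V} (e : Edge1 G S1 S2 x c) : Edge1 G S2 S1 c x :=
  ⟨e.disj.symm, e.hc, e.hx, e.adj.symm, fun a ha b hb hab =>
    (e.edge b hb a ha hab.symm).symm⟩

lemma zf_glue {S1 S2 : Finset V} {x c : V} (e : Edge1 G S1 S2 x c) (h0 : 0 ≤ θ) (h1 : θ < 1)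
    {f : V → ℝ × ℝ} (hf : Pos f) :
    zf G θ (S1 ∪ S2) f = zf G θ S1 f * zf G θ S2 f
      * (1 + θ * magf G θ S1 f x * magf G θ S2 f c) := by
  unfold zf
  rw [Zf_glue h0 h1 e.disj e.hx e.hc e.adj e.edge (fun v _ => hf v),
    Finset.card_union_of_disjoint e.disj]
  field_simp
  ring

lemma magf_glue {S1 S2 : Finset V} {x c : V} (e : Edge1 G S1 S2 x c) (h0 : 0 ≤ θ) (h1 : θ < 1)
    {f : V → ℝ × ℝ} (hf : Pos f) :
    magf G θ (S1 ∪ S2) f x = mg θ (magf G θ S1 f x) (magf G θ S2 f c) :=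
  magf_glue_left h0 h1 e.disj e.hx e.hc e.adj e.edge (fun v _ => hf v)

/-! ### bounded functionals -/

section Prob

variable {Ω : Type*} [MeasurableSpace Ω] {P : Measure Ω} {X : V → Ω → ℝ × ℝ}

/-- the field at `ω` -/
def fd (X : V → Ω → ℝ × ℝ) (ω : Ω) : V → ℝ × ℝ := fun v => X v ω

/-- functional bounded along the random field -/
def Bdd (X : V → Ω → ℝ × ℝ) (F : (V → ℝ × ℝ) → ℝ) : Prop := ∃ K, ∀ ω, |F (fd X ω)| ≤ K

lemma Bdd.const (c : ℝ) : Bdd X (fun _ => c) := ⟨|c|, fun _ => le_rfl⟩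

lemma Bdd.mul {F H : (V → ℝ × ℝ) → ℝ} (hF : Bdd X F) (hH : Bdd X H) :
    Bdd X (fun f => F f * H f) := by
  obtain ⟨K, hK⟩ := hF
  obtain ⟨L, hL⟩ := hH
  refine ⟨K * L, fun ω => ?_⟩
  rw [abs_mul]
  exact mul_le_mul (hK ω) (hL ω) (abs_nonneg _) ((abs_nonneg _).trans (hK ω))

lemma Bdd.add {F H : (V → ℝ × ℝ) → ℝ} (hF : Bdd X F) (hH : Bdd X H) :
    Bdd X (fun f => F f + H f) := by
  obtain ⟨K, hK⟩ := hF
  obtain ⟨L, hL⟩ := hH
  exact ⟨K + L, fun ω => (abs_add_le _ _).trans (add_le_add (hK ω) (hL ω))⟩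

lemma Bdd.sum {ι : Type*} {s : Finset ι} {F : ι → (V → ℝ × ℝ) → ℝ} (hF : ∀ i ∈ s, Bdd X (F i)) :
    Bdd X (fun f => ∑ i ∈ s, F i f) := by
  induction s using Finset.induction_on with
  | empty => simpa using Bdd.const (X := X) 0
  | insert a s ha ih =>
    have h1 := ih fun i hi => hF i (Finset.mem_insert_of_mem hi)
    have h2 := hF a (Finset.mem_insert_self _ _)
    simpa [Finset.sum_insert ha] using h2.add h1

lemma Bdd.prod {ι : Type*} {s : Finset ι} {F : ι → (V → ℝ × ℝ) → ℝ} (hF : ∀ i ∈ s, Bdd X (F i)) :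
    Bdd X (fun f => ∏ i ∈ s, F i f) := by
  induction s using Finset.induction_on with
  | empty => simpa using Bdd.const (X := X) 1
  | insert a s ha ih =>
    have h1 := ih fun i hi => hF i (Finset.mem_insert_of_mem hi)
    have h2 := hF a (Finset.mem_insert_self _ _)
    simpa [Finset.prod_insert ha] using h2.mul h1

lemma FieldData.posf (h : FieldData P X) (ω : Ω) : Pos (fd X ω) := fun v => h.pos v ω

lemma FieldData.bdd_numf (h : FieldData P X) (S : Finset V) (F : Finset V → ℝ) :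
    Bdd X (fun f => numf G θ S f F) := by
  obtain ⟨C, hC⟩ := h.bdd
  unfold numf
  refine Bdd.sum fun A _ => (Bdd.const _).mul ((Bdd.const _).mul ?_)
  unfold fw
  refine Bdd.prod fun v _ => ⟨C, fun ω => ?_⟩
  split_ifs
  · change |(X v ω).1| ≤ C
    rw [abs_of_pos (h.pos v ω).1]
    exact (hC v ω).1
  · change |(X v ω).2| ≤ C
    rw [abs_of_pos (h.pos v ω).2]
    exact (hC v ω).2

lemma FieldData.bdd_zf (h : FieldData P X) (S : Finset V) : Bdd X (fun f => zf G θ S f) := by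
  unfold zf
  have := (h.bdd_numf (G := G) (θ := θ) S (fun _ => 1)).mul (Bdd.const (X := X) (1 / 2 ^ S.card))
  simpa [Zf, div_eq_mul_inv] using this

lemma FieldData.bdd_magf (h : FieldData P X) (h0 : 0 ≤ θ) (h1 : θ < 1) (S : Finset V) (x : V) :
    Bdd X (fun f => magf G θ S f x) := ⟨1, fun ω => abs_magf_le' h0 h1 (h.posf ω) S x⟩

lemma FieldData.integrable (h : FieldData P X) {F : (V → ℝ × ℝ) → ℝ} (hF : Measurable F)
    (hb : Bdd X F) : Integrable (fun ω => F (fd X ω)) P := by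
  have := h.prob
  obtain ⟨K, hK⟩ := hb
  refine Integrable.of_bound (hF.comp h.measurable_field).aestronglyMeasurable K ?_
  exact Filter.Eventually.of_forall fun ω => by rw [Real.norm_eq_abs]; exact hK ω

/-- even functionals of one side are independent of the other side under the planted law -/
theorem FieldData.planted_mul (h : FieldData P X) (h0 : 0 ≤ θ) (h1 : θ < 1) {S1 S2 : Finset V} {x c : V}
    (e : Edge1 G S1 S2 x c) {F H : (V → ℝ × ℝ) → ℝ} (hF : Measurable F) (hH : Measurable H)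
    (hFd : DependsOn F (S1 : Set V)) (hHd : DependsOn H (S2 : Set V)) (hFb : Bdd X F)
    (hHb : Bdd X H) (heven : ∀ f, F (flipOn (S1 : Set V) f) = F f) :
    ∫ ω, zf G θ (S1 ∪ S2) (fd X ω) * (F (fd X ω) * H (fd X ω)) ∂P
      = (∫ ω, zf G θ S1 (fd X ω) * F (fd X ω) ∂P)
        * ∫ ω, zf G θ S2 (fd X ω) * H (fd X ω) ∂P := by
  have hz1 := measurable_zf (G := G) (θ := θ) S1
  have hz2 := measurable_zf (G := G) (θ := θ) S2
  have hm1 := measurable_magf (G := G) (θ := θ) S1 x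
  have hm2 := measurable_magf (G := G) (θ := θ) S2 c
  have dz1 := dependsOn_zf (G := G) (θ := θ) S1
  have dz2 := dependsOn_zf (G := G) (θ := θ) S2
  have dm1 := dependsOn_magf (G := G) (θ := θ) S1 x
  have dm2 := dependsOn_magf (G := G) (θ := θ) S2 c
  have e1 : ∀ ω, zf G θ (S1 ∪ S2) (fd X ω) * (F (fd X ω) * H (fd X ω))
      = (zf G θ S1 (fd X ω) * F (fd X ω)) * (zf G θ S2 (fd X ω) * H (fd X ω))
        + θ * ((zf G θ S1 (fd X ω) * magf G θ S1 (fd X ω) x * F (fd X ω))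
          * (zf G θ S2 (fd X ω) * magf G θ S2 (fd X ω) c * H (fd X ω))) := by
    intro ω
    rw [zf_glue e h0 h1 (h.posf ω)]
    ring
  simp only [e1]
  have D1 : DependsOn (fun f => zf G θ S1 f * F f) (S1 : Set V) := by
    intro f g hfg
    have a := dz1 hfg
    have b := hFd hfg
    simp only at a b ⊢
    rw [a, b]
  have D2 : DependsOn (fun f => zf G θ S2 f * H f) (S2 : Set V) := by
    intro f g hfg
    have a := dz2 hfg
    have b := hHd hfg
    simp only at a b ⊢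
    rw [a, b]
  have D3 : DependsOn (fun f => zf G θ S1 f * magf G θ S1 f x * F f) (S1 : Set V) := by
    intro f g hfg
    have a := dz1 hfg
    have a' := dm1 hfg
    have b := hFd hfg
    simp only at a a' b ⊢
    rw [a, a', b]
  have D4 : DependsOn (fun f => zf G θ S2 f * magf G θ S2 f c * H f) (S2 : Set V) := by
    intro f g hfg
    have a := dz2 hfg
    have a' := dm2 hfg
    have b := hHd hfg
    simp only at a a' b ⊢
    rw [a, a', b]
  have I1 := h.integrable ((hz1.mul hF).mul (hz2.mul hH))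
    (((h.bdd_zf (G := G) (θ := θ) S1).mul hFb).mul ((h.bdd_zf (G := G) (θ := θ) S2).mul hHb))
  have I2 := h.integrable (((hz1.mul hm1).mul hF).mul ((hz2.mul hm2).mul hH))
    ((((h.bdd_zf (G := G) (θ := θ) S1).mul (h.bdd_magf (G := G) h0 h1 S1 x)).mul hFb).mul
      (((h.bdd_zf (G := G) (θ := θ) S2).mul (h.bdd_magf (G := G) h0 h1 S2 c)).mul hHb))
  have J1 := h.integral_mul (hz1.mul hF) (hz2.mul hH) D1 D2 e.disj
  have J2 := h.integral_mul ((hz1.mul hm1).mul hF) ((hz2.mul hm2).mul hH) D3 D4 e.disj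
  have J3 := h.integral_odd ((hz1.mul hm1).mul hF) D3 (S1 : Set V) (by
    intro f
    simp only [Pi.mul_apply]
    rw [zf_flip (subset_refl _), magf_flip (subset_refl _) f e.hx, heven]
    ring)
  rw [J3, zero_mul] at J2
  have I1' : Integrable (fun ω => (zf G θ S1 (fd X ω) * F (fd X ω))
      * (zf G θ S2 (fd X ω) * H (fd X ω))) P := I1
  have I2' : Integrable (fun ω => θ * ((zf G θ S1 (fd X ω) * magf G θ S1 (fd X ω) x
      * F (fd X ω)) * (zf G θ S2 (fd X ω) * magf G θ S2 (fd X ω) c * H (fd X ω)))) P :=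
    I2.const_mul θ
  rw [integral_add I1' I2', integral_const_mul]
  have J1' : ∫ ω, (zf G θ S1 (fd X ω) * F (fd X ω)) * (zf G θ S2 (fd X ω) * H (fd X ω)) ∂P
      = (∫ ω, zf G θ S1 (fd X ω) * F (fd X ω) ∂P)
        * ∫ ω, zf G θ S2 (fd X ω) * H (fd X ω) ∂P := J1
  have J2' : ∫ ω, (zf G θ S1 (fd X ω) * magf G θ S1 (fd X ω) x * F (fd X ω))
      * (zf G θ S2 (fd X ω) * magf G θ S2 (fd X ω) c * H (fd X ω)) ∂P = 0 := J2
  rw [J1', J2']
  ring

lemma DependsOn.mul' {A : Finset V} {F H : (V → ℝ × ℝ) → ℝ} (hF : DependsOn F (A : Set V))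
    (hH : DependsOn H (A : Set V)) : DependsOn (fun f => F f * H f) (A : Set V) := by
  intro f g hfg
  have a := hF hfg
  have b := hH hfg
  simp only at a b ⊢
  rw [a, b]

lemma DependsOn.mono' {A B : Finset V} (h : A ⊆ B) {F : (V → ℝ × ℝ) → ℝ}
    (hF : DependsOn F (A : Set V)) : DependsOn F (B : Set V) := by
  intro f g hfg
  exact hF fun v hv => hfg v (by simpa using h (by simpa using hv))

/-- restriction of the volume -/
theorem FieldData.planted_restrict (h : FieldData P X) (h0 : 0 ≤ θ) (h1 : θ < 1)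
    {S1 S2 : Finset V} {x c : V} (e : Edge1 G S1 S2 x c) {F : (V → ℝ × ℝ) → ℝ}
    (hF : Measurable F) (hFd : DependsOn F (S1 : Set V)) (hFb : Bdd X F)
    (hz : ∫ ω, zf G θ S2 (fd X ω) ∂P = 1) :
    ∫ ω, zf G θ (S1 ∪ S2) (fd X ω) * F (fd X ω) ∂P = ∫ ω, zf G θ S1 (fd X ω) * F (fd X ω) ∂P := by
  have h2 := h.planted_mul (G := G) h0 h1 e.symm (F := fun _ => 1) (H := F) measurable_const hF
    (fun _ _ _ => rfl) hFd (Bdd.const 1) hFb (fun _ => rfl)
  simp only [one_mul, mul_one] at h2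
  rw [Finset.union_comm, h2, hz, one_mul]

theorem FieldData.planted_one (h : FieldData P X) (h0 : 0 ≤ θ) (h1 : θ < 1)
    {S1 S2 : Finset V} {x c : V} (e : Edge1 G S1 S2 x c)
    (hz1 : ∫ ω, zf G θ S1 (fd X ω) ∂P = 1) (hz2 : ∫ ω, zf G θ S2 (fd X ω) ∂P = 1) :
    ∫ ω, zf G θ (S1 ∪ S2) (fd X ω) ∂P = 1 := by
  have h2 := h.planted_restrict (G := G) h0 h1 e (F := fun _ => 1) measurable_const
    (fun _ _ _ => rfl) (Bdd.const 1) hz2
  simpa [hz1] using h2

/-- average over the two relative signs of `φ (u ⊕ w)`, `w` already multiplied by `θ` -/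
noncomputable def avg2 (φ : ℝ → ℝ) (u w : ℝ) : ℝ :=
  ((1 + u * w) * φ ((u + w) / (1 + u * w)) + (1 - u * w) * φ ((u - w) / (1 - u * w))) / 2

theorem FieldData.planted_phi (h : FieldData P X) (h0 : 0 ≤ θ) (h1 : θ < 1)
    {S1 S2 : Finset V} {x c : V} (e : Edge1 G S1 S2 x c) {φ : ℝ → ℝ} (hφ : Measurable φ)
    (heven : ∀ u, φ (-u) = φ u) {K : ℝ} (hK : ∀ u, |u| ≤ 1 → |φ u| ≤ K) :
    ∫ ω, zf G θ (S1 ∪ S2) (fd X ω) * φ (magf G θ (S1 ∪ S2) (fd X ω) x) ∂P
      = ∫ ω, zf G θ S1 (fd X ω) * zf G θ S2 (fd X ω)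
          * avg2 φ (magf G θ S1 (fd X ω) x) (θ * magf G θ S2 (fd X ω) c) ∂P := by
  have hz1 := measurable_zf (G := G) (θ := θ) S1
  have hz2 := measurable_zf (G := G) (θ := θ) S2
  have hm1 := measurable_magf (G := G) (θ := θ) S1 x
  have hm2 := measurable_magf (G := G) (θ := θ) S2 c
  -- the functional
  let Ψ : (V → ℝ × ℝ) → ℝ := fun f => zf G θ S1 f * zf G θ S2 f *
    ((1 + magf G θ S1 f x * (θ * magf G θ S2 f c)) *
      φ ((magf G θ S1 f x + θ * magf G θ S2 f c) / (1 + magf G θ S1 f x * (θ * magf G θ S2 f c))))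
  have hΨ : Measurable Ψ := by
    refine (hz1.mul hz2).mul ?_
    have a : Measurable (fun f : V → ℝ × ℝ => 1 + magf G θ S1 f x * (θ * magf G θ S2 f c)) :=
      (hm1.mul (hm2.const_mul θ)).const_add 1
    exact a.mul (hφ.comp ((hm1.add (hm2.const_mul θ)).div a))
  have hΨd : DependsOn Ψ ((S1 ∪ S2 : Finset V) : Set V) := by
    intro f g hfg
    have i1 : ∀ v ∈ (S1 : Set V), f v = g v := fun v hv => hfg v (by simp at hv ⊢; exact Or.inl hv)
    have i2 : ∀ v ∈ (S2 : Set V), f v = g v := fun v hv => hfg v (by simp at hv ⊢; exact Or.inr hv)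
    have a1 := dependsOn_zf (G := G) (θ := θ) S1 i1
    have a2 := dependsOn_zf (G := G) (θ := θ) S2 i2
    have a3 := dependsOn_magf (G := G) (θ := θ) S1 x i1
    have a4 := dependsOn_magf (G := G) (θ := θ) S2 c i2
    simp only at a1 a2 a3 a4
    simp only [Ψ]
    rw [a1, a2, a3, a4]
  have e1 : ∀ ω, zf G θ (S1 ∪ S2) (fd X ω) * φ (magf G θ (S1 ∪ S2) (fd X ω) x) = Ψ (fd X ω) := by
    intro ω
    simp only [Ψ]
    rw [zf_glue e h0 h1 (h.posf ω), magf_glue e h0 h1 (h.posf ω)]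
    unfold mg
    have r : θ * magf G θ S1 (fd X ω) x * magf G θ S2 (fd X ω) c
        = magf G θ S1 (fd X ω) x * (θ * magf G θ S2 (fd X ω) c) := by ring
    rw [r]
    ring
  have hΨb : Bdd X Ψ := by
    obtain ⟨K1, hK1⟩ := h.bdd_zf (G := G) (θ := θ) (S1 ∪ S2)
    refine ⟨K1 * K, fun ω => ?_⟩
    rw [← e1 ω, abs_mul]
    exact mul_le_mul (hK1 ω) (hK _ (abs_magf_le' h0 h1 (h.posf ω) _ _)) (abs_nonneg _)
      ((abs_nonneg _).trans (hK1 ω))
  have e2 : ∀ f : V → ℝ × ℝ, Ψ (flipOn (S1 : Set V) f) = zf G θ S1 f * zf G θ S2 f *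
      ((1 - magf G θ S1 f x * (θ * magf G θ S2 f c)) *
        φ ((magf G θ S1 f x - θ * magf G θ S2 f c) /
          (1 - magf G θ S1 f x * (θ * magf G θ S2 f c)))) := by
    intro f
    simp only [Ψ]
    have b1 := zf_flip (G := G) (θ := θ) (subset_refl (S1 : Set V)) f
    have b2 := magf_flip (G := G) (θ := θ) (subset_refl (S1 : Set V)) f e.hx
    have hd : Disjoint (S2 : Set V) (S1 : Set V) := by
      rw [Finset.disjoint_coe]
      exact e.disj.symm
    have b3 : zf G θ S2 (flipOn (S1 : Set V) f) = zf G θ S2 f :=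
      dependsOn_flip (dependsOn_zf (G := G) (θ := θ) S2) hd f
    have b4 : magf G θ S2 (flipOn (S1 : Set V) f) c = magf G θ S2 f c :=
      dependsOn_flip (dependsOn_magf (G := G) (θ := θ) S2 c) hd f
    rw [b1, b2, b3, b4]
    have r1 : (-magf G θ S1 f x + θ * magf G θ S2 f c)
        / (1 + -magf G θ S1 f x * (θ * magf G θ S2 f c))
        = -((magf G θ S1 f x - θ * magf G θ S2 f c)
          / (1 - magf G θ S1 f x * (θ * magf G θ S2 f c))) := by
      rw [← neg_div]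
      congr 1 <;> ring
    rw [r1, heven]
    ring
  have hflip := h.integral_flip hΨ hΨd (S1 : Set V)
  have i1 : Integrable (fun ω => Ψ (fd X ω)) P := h.integrable hΨ hΨb
  have hflipm : Measurable (fun f : V → ℝ × ℝ => Ψ (flipOn (S1 : Set V) f)) := by
    have : (fun f : V → ℝ × ℝ => Ψ (flipOn (S1 : Set V) f)) = fun f => zf G θ S1 f * zf G θ S2 f *
      ((1 - magf G θ S1 f x * (θ * magf G θ S2 f c)) *
        φ ((magf G θ S1 f x - θ * magf G θ S2 f c) /
          (1 - magf G θ S1 f x * (θ * magf G θ S2 f c)))) := funext e2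
    rw [this]
    refine (hz1.mul hz2).mul ?_
    have a : Measurable (fun f : V → ℝ × ℝ => 1 - magf G θ S1 f x * (θ * magf G θ S2 f c)) :=
      (hm1.mul (hm2.const_mul θ)).const_sub 1
    exact a.mul (hφ.comp ((hm1.sub (hm2.const_mul θ)).div a))
  have i2 : Integrable (fun ω => Ψ (flipOn (S1 : Set V) (fd X ω))) P := by
    have := h.prob
    obtain ⟨K1, hK1⟩ := h.bdd_zf (G := G) (θ := θ) S1
    obtain ⟨K2, hK2⟩ := h.bdd_zf (G := G) (θ := θ) S2
    refine Integrable.of_bound (hflipm.comp h.measurable_field).aestronglyMeasurable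
      (K1 * K2 * (2 * K)) ?_
    refine Filter.Eventually.of_forall fun ω => ?_
    rw [Real.norm_eq_abs, e2]
    have c1 := abs_magf_le' (G := G) h0 h1 (h.posf ω) S1 x
    have c2 := abs_magf_le' (G := G) h0 h1 (h.posf ω) S2 c
    have c3 : |θ * magf G θ S2 (fd X ω) c| ≤ θ := by
      rw [abs_mul, abs_of_nonneg h0]
      exact mul_le_of_le_one_right h0 c2
    set u := magf G θ S1 (fd X ω) x
    set w := θ * magf G θ S2 (fd X ω) c
    have hw1 : |w| < 1 := lt_of_le_of_lt c3 h1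
    have huw : |u * w| < 1 := by
      rw [abs_mul]
      exact lt_of_le_of_lt (mul_le_of_le_one_left (abs_nonneg _) c1) hw1
    have d1 := (abs_lt.mp huw).1
    have d2 := (abs_lt.mp huw).2
    have c4 : |1 - u * w| ≤ 2 := by
      rw [abs_le]
      constructor <;> linarith
    have c5 : |(u - w) / (1 - u * w)| ≤ 1 := by
      have hpos' : 0 < 1 - u * w := by linarith
      rw [abs_div, abs_of_pos hpos', div_le_one hpos', abs_le]
      have u1 := (abs_le.mp c1).1
      have u2 := (abs_le.mp c1).2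
      have w1 := (abs_lt.mp hw1).1
      have w2 := (abs_lt.mp hw1).2
      constructor <;> nlinarith
    have hK0 : 0 ≤ K := (abs_nonneg _).trans (hK _ c5)
    rw [abs_mul, abs_mul, abs_mul]
    refine mul_le_mul (mul_le_mul (hK1 ω) (hK2 ω) (abs_nonneg _) ((abs_nonneg _).trans (hK1 ω)))
      (mul_le_mul c4 (hK _ c5) (abs_nonneg _) (by norm_num)) (by positivity)
      (mul_nonneg ((abs_nonneg _).trans (hK1 ω)) ((abs_nonneg _).trans (hK2 ω)))
  have e3 : ∫ ω, Ψ (fd X ω) ∂P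
      = ∫ ω, (Ψ (fd X ω) + Ψ (flipOn (S1 : Set V) (fd X ω))) / 2 ∂P := by
    rw [integral_div, integral_add i1 i2]
    have hflip' : ∫ ω, Ψ (flipOn (S1 : Set V) (fd X ω)) ∂P = ∫ ω, Ψ (fd X ω) ∂P := hflip
    rw [hflip']
    ring
  simp only [e1]
  rw [e3]
  refine integral_congr_ae (Filter.Eventually.of_forall fun ω => ?_)
  simp only
  rw [e2]
  simp only [Ψ, avg2]
  ring

end Prob

end Crest.Agent.R160.Static
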