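import Mathlib
import Crest.Agent.R160.StaticPE
import Crest.Agent.R160.H0Conc_Mg

/-! # Row 160, module E: bridge between the process and the planted expectations

* `nfl t v ω` = field generated at `v` by the null observations before time `t`;
  `FieldData (PP V) (nfl t)`.
* `planted_formula`: expectations of functionals of the observed field at time `t` in the finite
  volume `S` equal planted expectations `∫ zf G θ S (nfl t) * F (nfl t)`.
* `tendsto_integral_minf`: passage to the infinite volume. -/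

set_option autoImplicit false
set_option linter.unusedSectionVars false

open MeasureTheory ProbabilityTheory Finset
open scoped Classical Topology

namespace Crest.Agent.R160.Bridge

open Crest.Agent.R160 Crest.Agent.R160.Static Crest.Agent.R160.TreeAut

variable {V : Type*} {G : SimpleGraph V} {θ : ℝ}

local notation "II" => unitInterval × unitInterval

/-! ### The null field -/

/-- field generated by the noise sequence of one vertex -/
noncomputable def nf1 (t : ℝ) (x : ℕ → II) : ℝ × ℝ :=
  (∏ j ∈ Finset.range ⌈t⌉₊, (1 + H0.xx t j (x j)), ∏ j ∈ Finset.range ⌈t⌉₊, (1 - H0.xx t j (x j)))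

/-- null field at time `t` -/
noncomputable def nfl (t : ℝ) (v : V) (ω : Om V) : ℝ × ℝ := nf1 t (fun j => ω (v, j))

lemma measurable_nf1 (t : ℝ) : Measurable (nf1 t) := by
  unfold nf1
  refine Measurable.prodMk ?_ ?_
  · refine Finset.measurable_fun_prod _ fun j _ => ?_
    exact ((H0.measurable_xx t j).comp (measurable_pi_apply j)).const_add 1
  · refine Finset.measurable_fun_prod _ fun j _ => ?_
    exact ((H0.measurable_xx t j).comp (measurable_pi_apply j)).const_sub 1

lemma measurable_slice (v : V) : Measurable fun (ω : Om V) (j : ℕ) => ω (v, j) :=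
  measurable_pi_iff.mpr fun _ => measurable_pi_apply _

lemma measurable_nfl (t : ℝ) (v : V) : Measurable (nfl t v : Om V → ℝ × ℝ) :=
  (measurable_nf1 t).comp (measurable_slice v)

lemma map_slice (v : V) : (PP V).map (fun (ω : Om V) (j : ℕ) => ω (v, j))
    = Measure.infinitePi (fun _ : ℕ => (volume : Measure II)) := by
  unfold PP
  exact Measure.map_infinitePi_infinitePi_of_inj (P := fun _ : Ev V => (volume : Measure II))
    (f := fun j : ℕ => (v, j)) (fun i j h => (Prod.mk.inj h).2)

lemma map_nfl (t : ℝ) (v : V) : (PP V).map (nfl t v)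
    = (Measure.infinitePi (fun _ : ℕ => (volume : Measure II))).map (nf1 t) := by
  have h : (nfl t v : Om V → ℝ × ℝ) = nf1 t ∘ (fun (ω : Om V) (j : ℕ) => ω (v, j)) := rfl
  rw [h, ← Measure.map_map (measurable_nf1 t) (measurable_slice v), map_slice]

theorem indep_nfl (t : ℝ) : iIndepFun (nfl (V := V) t) (PP V) := by
  rw [iIndepFun_iff_map_fun_eq_infinitePi_map (fun v => measurable_nfl t v)]
  have h1 : (fun (ω : Om V) v => nfl t v ω)
      = (fun (x : V → ℕ → II) v => nf1 t (x v)) ∘ (MeasurableEquiv.curry V ℕ II) := rfl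
  have hm : Measurable (fun (x : V → ℕ → II) v => nf1 t (x v)) :=
    measurable_pi_iff.mpr fun v => (measurable_nf1 t).comp (measurable_pi_apply v)
  rw [h1, ← Measure.map_map hm (MeasurableEquiv.measurable _)]
  have h2 : (PP V).map (MeasurableEquiv.curry V ℕ II)
      = Measure.infinitePi fun _ : V => Measure.infinitePi fun _ : ℕ => (volume : Measure II) := by
    unfold PP
    exact Measure.infinitePi_map_curry (fun (_ : V) (_ : ℕ) => (volume : Measure II))
  rw [h2, Measure.infinitePi_map_pi _ (fun _ => measurable_nf1 t)]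
  congr 1
  funext v
  rw [map_nfl]

/-- the flip of the noise of one event -/
def flp (p : II) : II := (p.1, unitInterval.symm p.2)

lemma measurable_flp : Measurable flp :=
  measurable_fst.prodMk (unitInterval.continuous_symm.measurable.comp measurable_snd)

lemma mp_symm : MeasurePreserving unitInterval.symm (volume : Measure unitInterval) volume :=
  unitInterval.measurePreserving_symm

lemma map_flp : (volume : Measure II).map flp = volume := by
  have h : MeasurePreserving (Prod.map id unitInterval.symm)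
      ((volume : Measure unitInterval).prod volume) ((volume : Measure unitInterval).prod volume) :=
    (MeasurePreserving.id _).prod mp_symm
  exact h.map_eq

lemma xx_flp (t : ℝ) (j : ℕ) (p : II) : H0.xx t j (flp p) = - H0.xx t j p := by
  unfold H0.xx flp
  simp only [unitInterval.coe_symm_eq]
  split_ifs
  · ring
  · simp

lemma map_flip_all : (PP V).map (fun (ω : Om V) e => flp (ω e)) = PP V := by
  unfold PP
  rw [Measure.infinitePi_map_pi _ (fun _ => measurable_flp)]
  congr 1
  funext e
  exact map_flp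

lemma nfl_flip (t : ℝ) (v : V) (ω : Om V) :
    nfl t v (fun e => flp (ω e)) = (nfl t v ω).swap := by
  unfold nfl nf1
  simp only [xx_flp, Prod.swap, sub_neg_eq_add]
  congr 1

lemma nfl_symm (t : ℝ) (v : V) :
    (PP V).map (fun ω => (nfl t v ω).swap) = (PP V).map (nfl t v) := by
  have h : (fun ω : Om V => (nfl t v ω).swap)
      = nfl t v ∘ (fun (ω : Om V) e => flp (ω e)) := by
    funext ω
    exact (nfl_flip t v ω).symm
  have hm : Measurable (fun (ω : Om V) e => flp (ω e)) :=
    measurable_pi_iff.mpr fun e => measurable_flp.comp (measurable_pi_apply e)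
  rw [h, ← Measure.map_map (measurable_nfl t v) hm, map_flip_all]

lemma nfl_pos (t : ℝ) (v : V) (ω : Om V) : 0 < (nfl t v ω).1 ∧ 0 < (nfl t v ω).2 := by
  have h1 : 0 < ∏ j ∈ Finset.range ⌈t⌉₊, (1 + H0.xx t j (ω (v, j))) := by
    refine Finset.prod_pos fun j _ => ?_
    have := (abs_le.mp (H0.abs_xx_le t j (ω (v, j)))).1
    linarith
  have h2 : 0 < ∏ j ∈ Finset.range ⌈t⌉₊, (1 - H0.xx t j (ω (v, j))) := by
    refine Finset.prod_pos fun j _ => ?_
    have := (abs_le.mp (H0.abs_xx_le t j (ω (v, j)))).2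
    linarith
  exact ⟨h1, h2⟩

lemma nfl_le (t : ℝ) (v : V) (ω : Om V) :
    (nfl t v ω).1 ≤ 2 ^ ⌈t⌉₊ ∧ (nfl t v ω).2 ≤ 2 ^ ⌈t⌉₊ := by
  unfold nfl nf1
  constructor
  · calc ∏ j ∈ Finset.range ⌈t⌉₊, (1 + H0.xx t j (ω (v, j)))
        ≤ ∏ _j ∈ Finset.range ⌈t⌉₊, (2 : ℝ) := by
          refine Finset.prod_le_prod (fun j _ => ?_) fun j _ => ?_
          · have := (abs_le.mp (H0.abs_xx_le t j (ω (v, j)))).1
            linarith
          · have := (abs_le.mp (H0.abs_xx_le t j (ω (v, j)))).2
            linarith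
      _ = 2 ^ ⌈t⌉₊ := by simp
  · calc ∏ j ∈ Finset.range ⌈t⌉₊, (1 - H0.xx t j (ω (v, j)))
        ≤ ∏ _j ∈ Finset.range ⌈t⌉₊, (2 : ℝ) := by
          refine Finset.prod_le_prod (fun j _ => ?_) fun j _ => ?_
          · have := (abs_le.mp (H0.abs_xx_le t j (ω (v, j)))).2
            linarith
          · have := (abs_le.mp (H0.abs_xx_le t j (ω (v, j)))).1
            linarith
      _ = 2 ^ ⌈t⌉₊ := by simp

lemma nfl_mean (t : ℝ) (v : V) : ∫ ω, (nfl t v ω).1 ∂(PP V) = 1 := by
  have h1 : ∀ ω : Om V, (nfl t v ω).1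
      = ∏ e ∈ ({v} : Finset V) ×ˢ Finset.range ⌈t⌉₊, (1 + H0.xx t e.2 (ω e)) := by
    intro ω
    unfold nfl nf1
    rw [Finset.prod_product, Finset.prod_singleton]
  simp_rw [h1]
  rw [H0.integral_prod_events _ (fun e p => 1 + H0.xx t e.2 p)
    (fun e => (H0.measurable_xx t e.2).const_add 1)]
  refine Finset.prod_eq_one fun e _ => ?_
  rw [integral_add (integrable_const 1) (H0.integrable_xx t e.2), H0.integral_xx]
  simp

/-- the null field is `FieldData` -/
theorem fieldData (t : ℝ) : FieldData (PP V) (nfl (V := V) t) where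
  prob := inferInstance
  meas := measurable_nfl t
  indep := indep_nfl t
  symm := nfl_symm t
  pos := nfl_pos t
  bdd := ⟨2 ^ ⌈t⌉₊, fun v ω => nfl_le t v ω⟩
  mean := nfl_mean t

/-! ### Prior partition function of a finite subset of a tree -/


/-- adding a vertex without edges -/
lemma ew_insert_isolated {S : Finset V} {v : V} (hv : v ∉ S) (hiso : ∀ u ∈ S, ¬ G.Adj v u)
    (A : Finset V) : ew G θ (insert v S) A = ew G θ S A := by
  unfold ew
  have hset : (insert v S).sym2.filter (· ∈ G.edgeSet) = S.sym2.filter (· ∈ G.edgeSet) := by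
    ext e
    induction e with
    | _ a b =>
      simp only [Finset.mem_filter, Finset.mk_mem_sym2_iff, Finset.mem_insert,
        SimpleGraph.mem_edgeSet]
      constructor
      · rintro ⟨⟨ha, hb⟩, hab⟩
        refine ⟨⟨?_, ?_⟩, hab⟩
        · rcases ha with rfl | ha
          · rcases hb with rfl | hb
            · exact absurd hab (SimpleGraph.irrefl G)
            · exact absurd hab (hiso b hb)
          · exact ha
        · rcases hb with rfl | hb
          · rcases ha with rfl | ha
            · exact absurd hab (SimpleGraph.irrefl G)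
            · exact absurd hab.symm (hiso a ha)
          · exact hb
      · rintro ⟨⟨ha, hb⟩, hab⟩
        exact ⟨⟨Or.inr ha, Or.inr hb⟩, hab⟩
  rw [hset]

/-- sum of the prior weights over configurations -/
noncomputable def EW (G : SimpleGraph V) (θ : ℝ) (S : Finset V) : ℝ :=
  ∑ A ∈ S.powerset, ew G θ S A

lemma EW_eq_Zf (S : Finset V) : EW G θ S = Zf G θ S (fun _ => (1, 1)) := by
  unfold EW Zf numf fw
  refine Finset.sum_congr rfl fun A _ => ?_
  simp

lemma EW_insert_isolated {S : Finset V} {v : V} (hv : v ∉ S) (hiso : ∀ u ∈ S, ¬ G.Adj v u) :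
    EW G θ (insert v S) = 2 * EW G θ S := by
  unfold EW
  rw [Finset.sum_powerset_insert hv]
  have h1 : ∀ A ∈ S.powerset, ew G θ (insert v S) A = ew G θ S A := fun A _ =>
    ew_insert_isolated hv hiso A
  have h2 : ∀ A ∈ S.powerset, ew G θ (insert v S) (insert v A) = ew G θ S A := by
    intro A _
    rw [ew_insert_isolated hv hiso]
    exact ew_congr fun u hu => by
      rw [Finset.mem_insert]
      exact ⟨fun h => h.resolve_left (fun h' => hv (h' ▸ hu)), Or.inr⟩
  rw [Finset.sum_congr rfl h1, Finset.sum_congr rfl h2]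
  ring

lemma EW_insert_leaf {S : Finset V} {v p : V} (hv : v ∉ S) (hp : p ∈ S) (hadj : G.Adj p v)
    (honly : ∀ u ∈ S, G.Adj u v → u = p) : EW G θ (insert v S) = 2 * EW G θ S := by
  have hd : Disjoint S {v} := Finset.disjoint_singleton_right.mpr hv
  have hU : insert v S = S ∪ {v} := by
    rw [Finset.union_comm]; rfl
  have honly' : ∀ y ∈ S, ∀ z ∈ ({v} : Finset V), G.Adj y z → y = p ∧ z = v := by
    intro y hy z hz hyz
    rw [Finset.mem_singleton] at hz
    subst hz
    exact ⟨honly y hy hyz, rfl⟩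
  have h := numf_glue (θ := θ) hd hp (Finset.mem_singleton_self v) hadj honly'
    (fun _ => (1, 1)) (F1 := fun _ => 1) (F2 := fun _ => 1) (fun _ => rfl) (fun _ => rfl)
  have e1 : numf G θ {v} (fun _ => (1, 1)) (fun _ => 1) = 2 := by
    have : ({v} : Finset V).powerset = {∅, {v}} := rfl
    have hew : ∀ A : Finset V, ew G θ {v} A = 1 := by
      intro A
      unfold ew
      apply Finset.prod_eq_one
      intro e he
      exfalso
      induction e with
      | _ a b =>
        simp only [Finset.mem_filter, Finset.mk_mem_sym2_iff, Finset.mem_singleton,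
          SimpleGraph.mem_edgeSet] at he
        obtain ⟨⟨rfl, rfl⟩, hab⟩ := he
        exact SimpleGraph.irrefl G hab
    unfold numf fw
    have hp2 : ({v} : Finset V).powerset.card = 2 := by simp
    rw [Finset.sum_congr rfl (g := fun _ => (1:ℝ))]
    · rw [Finset.sum_const, hp2]; norm_num
    · intro A _
      rw [hew]; simp
  have e2 : numf G θ {v} (fun _ => (1, 1)) (fun A => 1 * sg A v) = 0 := by
    have hew : ∀ A : Finset V, ew G θ {v} A = 1 := by
      intro A
      unfold ew
      apply Finset.prod_eq_one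
      intro e he
      exfalso
      induction e with
      | _ a b =>
        simp only [Finset.mem_filter, Finset.mk_mem_sym2_iff, Finset.mem_singleton,
          SimpleGraph.mem_edgeSet] at he
        obtain ⟨⟨rfl, rfl⟩, hab⟩ := he
        exact SimpleGraph.irrefl G hab
    unfold numf fw
    have hp2 : ({v} : Finset V).powerset = insert ∅ {{v}} := by
      ext A
      simp [Finset.subset_singleton_iff]
    rw [hp2, Finset.sum_insert (by simp [Finset.ext_iff]), Finset.sum_singleton]
    simp [hew, sg]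
  rw [e1, e2] at h
  rw [EW_eq_Zf, EW_eq_Zf, hU]
  simp only [mul_one, one_mul, mul_zero, add_zero] at h
  unfold Zf
  rw [h]; ring

/-- **prior partition function** of any finite subset of a tree. -/
theorem EW_eq (hT : G.IsTree) (S : Finset V) : EW G θ S = 2 ^ S.card := by
  induction hn : S.card generalizing S with
  | zero =>
    rw [Finset.card_eq_zero] at hn
    subst hn
    unfold EW ew
    simp
  | succ n ih =>
    have hne : S.Nonempty := Finset.card_pos.mp (by omega)
    obtain ⟨r, hr⟩ := hne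
    obtain ⟨v, hv, hmax⟩ := Finset.exists_max_image S (fun u => G.dist r u) ⟨r, hr⟩
    have hS : insert v (S.erase v) = S := Finset.insert_erase hv
    have hcard : (S.erase v).card = n := by rw [Finset.card_erase_of_mem hv]; omega
    have ih' := ih (S.erase v) hcard
    have hnot : v ∉ S.erase v := Finset.notMem_erase v S
    by_cases hex : ∃ p ∈ S.erase v, G.Adj p v
    · obtain ⟨p, hp, hadj⟩ := hex
      have huniq : ∀ u ∈ S.erase v, G.Adj u v → u = p := by
        intro u hu huv
        have hclose : ∀ w ∈ S.erase v, G.Adj w v → G.dist r w + 1 = G.dist r v := by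
          intro w hw hwv
          have h1 := hmax w (Finset.mem_of_mem_erase hw)
          rcases hT.dist_eq_dist_add_one_of_adj r hwv with h | h
          · omega
          · omega
        exact unique_closer hT huv.symm hadj.symm (hclose u hu huv) (hclose p hp hadj)
      rw [← hS, EW_insert_leaf hnot hp hadj huniq, ih']
      ring
    · push Not at hex
      have hiso : ∀ u ∈ S.erase v, ¬ G.Adj v u := fun u hu h => hex u hu h.symm
      rw [← hS, EW_insert_isolated hnot hiso, ih']
      ring

lemma ZZ_empty_eq (hT : G.IsTree) (S : Finset V) (o : Ev V → ℝ) :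
    ZZ G θ S ∅ o = 2 ^ S.card := by
  rw [← EW_eq (θ := θ) hT S]
  unfold ZZ num EW ow
  exact Finset.sum_congr rfl fun A _ => by simp

/-! ### Fields at time `t` -/

/-- field of an observation function with `R` rounds -/
noncomputable def ofd (R : ℕ) (o : Ev V → ℝ) (v : V) : ℝ × ℝ :=
  (∏ j ∈ Finset.range R, (1 + o (v, j)), ∏ j ∈ Finset.range R, (1 - o (v, j)))

lemma measurable_ofd (R : ℕ) : Measurable (ofd (V := V) R) := by
  unfold ofd
  refine measurable_pi_iff.mpr fun v => Measurable.prodMk ?_ ?_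
  · exact Finset.measurable_fun_prod _ fun j _ => (measurable_pi_apply _).const_add 1
  · exact Finset.measurable_fun_prod _ fun j _ => (measurable_pi_apply _).const_sub 1

lemma fld_eq_ofd {S : Finset V} {R : ℕ} {B : Finset (Ev V)} (hB : B ⊆ evs S R) (o : Ev V → ℝ)
    (v : V) : fld B o v = ofd R (msk B o) v := by
  have key : ∀ g : ℝ → ℝ, g 0 = 1 →
      ∏ e ∈ B.filter (fun e => e.1 = v), g (o e) = ∏ j ∈ Finset.range R, g (msk B o (v, j)) := by
    intro g hg
    have h1 : ∏ j ∈ Finset.range R, g (msk B o (v, j))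
        = ∏ e ∈ ({v} : Finset V) ×ˢ Finset.range R, g (msk B o e) := by
      rw [Finset.prod_product, Finset.prod_singleton]
    rw [h1]
    have h2 : B.filter (fun e => e.1 = v) ⊆ ({v} : Finset V) ×ˢ Finset.range R := by
      intro e he
      rw [Finset.mem_filter] at he
      have := hB he.1
      unfold evs at this
      rw [Finset.mem_product] at this
      rw [Finset.mem_product, Finset.mem_singleton]
      exact ⟨he.2, this.2⟩
    rw [← Finset.prod_subset h2]
    · refine Finset.prod_congr rfl fun e he => ?_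
      rw [Finset.mem_filter] at he
      simp [msk, he.1]
    · intro e he he'
      rw [Finset.mem_product, Finset.mem_singleton] at he
      have : e ∉ B := fun h => he' (Finset.mem_filter.mpr ⟨h, he.1⟩)
      simp [msk, this, hg]
  unfold fld ofd
  rw [key (fun x => 1 + x) (by simp), key (fun x => 1 - x) (by simp)]

/-- at a vertex of `S` the field of the null observations before `t` is `nfl t` -/
lemma fld_null {S : Finset V} (t : ℝ) (ω : Om V) {v : V} (hv : v ∈ S) :
    fld (before (evs S ⌈t⌉₊) ω t) (nul ω) v = nfl t v ω := by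
  rw [fld_eq_ofd (before_subset _ ω t)]
  have h : ∀ j ∈ Finset.range ⌈t⌉₊, msk (before (evs S ⌈t⌉₊) ω t) (nul ω) (v, j)
      = H0.xx t j (ω (v, j)) := by
    intro j hj
    unfold msk before H0.xx nul st tm clk nz
    have hmem : (v, j) ∈ evs S ⌈t⌉₊ := by
      unfold evs; rw [Finset.mem_product]; exact ⟨hv, hj⟩
    simp only [Finset.mem_filter, hmem, true_and]
  unfold ofd nfl nf1
  refine Prod.ext ?_ ?_
  · change ∏ j ∈ Finset.range ⌈t⌉₊, (1 + msk (before (evs S ⌈t⌉₊) ω t) (nul ω) (v, j))
      = ∏ j ∈ Finset.range ⌈t⌉₊, (1 + H0.xx t j (ω (v, j)))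
    exact Finset.prod_congr rfl fun j hj => by rw [h j hj]
  · change ∏ j ∈ Finset.range ⌈t⌉₊, (1 - msk (before (evs S ⌈t⌉₊) ω t) (nul ω) (v, j))
      = ∏ j ∈ Finset.range ⌈t⌉₊, (1 - H0.xx t j (ω (v, j)))
    exact Finset.prod_congr rfl fun j hj => by rw [h j hj]

/-- observed field at time `t` in the system `(θ, S)` -/
noncomputable def ofl (G : SimpleGraph V) (θ : ℝ) (S : Finset V) (t : ℝ) (ω : Om V) :
    V → ℝ × ℝ :=
  fld (before (evs S ⌈t⌉₊) ω t) (obs G θ S (evs S ⌈t⌉₊) ω)

lemma mem_before_evs {S : Finset V} {t : ℝ} {ω : Om V} {e : Ev V}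
    (he : e ∈ before (evs S ⌈t⌉₊) ω t) : e.1 ∈ S := by
  have := before_subset _ ω t he
  unfold evs at this
  exact (Finset.mem_product.mp this).1

/-- the finite-volume magnetization is the magnetization of the observed field -/
lemma mfin_eq (S : Finset V) (t : ℝ) (ω : Om V) (v : V) :
    mfin G θ S ω t v = magf G θ S (ofl G θ S t ω) v := by
  unfold mfin mt ofl
  exact mm_eq_magf (fun e he => mem_before_evs he) _ v

/-- **Planted formula.** -/
theorem planted_formula (hT : G.IsTree) (hθ : |θ| < 1) (S : Finset V) (t : ℝ)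
    {F : (V → ℝ × ℝ) → ℝ} (hF : Measurable F) (hFS : DependsOn F (S : Set V))
    (hb : ∃ C, ∀ f, |F f| ≤ C) :
    ∫ ω, F (ofl G θ S t ω) ∂(PP V)
      = ∫ ω, zf G θ S (fd (nfl t) ω) * F (fd (nfl t) ω) ∂(PP V) := by
  have hlaw := law_before G θ S hθ (evs S ⌈t⌉₊) t (fun _ o => F (ofd ⌈t⌉₊ o))
    ((hF.comp (measurable_ofd _)).comp measurable_snd)
    (by obtain ⟨C, hC⟩ := hb; exact ⟨C, fun _ o => hC _⟩) (fun _ _ _ _ => rfl)
  have e1 : ∀ ω : Om V, ofd ⌈t⌉₊ (msk (before (evs S ⌈t⌉₊) ω t) (obs G θ S (evs S ⌈t⌉₊) ω))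
      = ofl G θ S t ω := by
    intro ω
    funext v
    exact (fld_eq_ofd (before_subset _ ω t) _ v).symm
  simp only [e1] at hlaw
  rw [hlaw]
  refine integral_congr_ae (Filter.Eventually.of_forall fun ω => ?_)
  simp only
  have e2 : LR G θ S (before (evs S ⌈t⌉₊) ω t) ω = zf G θ S (fd (nfl t) ω) := by
    unfold LR zf
    rw [ZZ_empty_eq hT, ZZ_eq_Zf (fun e he => mem_before_evs he)]
    congr 1
    exact Zf_congr_field fun v hv => fld_null t ω hv
  rw [e2]
  congr 1
  apply hFS
  intro v hv
  rw [← fld_eq_ofd (before_subset _ ω t)]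
  exact fld_null t ω (by simpa using hv)

/-- admissible fields: positive and bounded by `2^R`. -/
def Adm (R : ℕ) (f : V → ℝ × ℝ) : Prop :=
  ∀ v, (0 < (f v).1 ∧ 0 < (f v).2) ∧ (f v).1 ≤ 2 ^ R ∧ (f v).2 ≤ 2 ^ R

lemma Adm.pos {R : ℕ} {f : V → ℝ × ℝ} (h : Adm R f) : Pos f := fun v => (h v).1

lemma adm_nfl (t : ℝ) (ω : Om V) : Adm ⌈t⌉₊ (fd (nfl t) ω) := fun v =>
  ⟨nfl_pos t v ω, nfl_le t v ω⟩

lemma adm_ofd {R : ℕ} {o : Ev V → ℝ} (ho : ∀ e, |o e| < 1) : Adm R (ofd R o) := by
  intro v
  have h1 : ∀ j, 0 < 1 + o (v, j) := fun j => by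
    have := (abs_lt.mp (ho (v, j))).1; linarith
  have h2 : ∀ j, 0 < 1 - o (v, j) := fun j => by
    have := (abs_lt.mp (ho (v, j))).2; linarith
  have p1 : 0 < ∏ j ∈ Finset.range R, (1 + o (v, j)) := Finset.prod_pos fun j _ => h1 j
  have p2 : 0 < ∏ j ∈ Finset.range R, (1 - o (v, j)) := Finset.prod_pos fun j _ => h2 j
  refine ⟨⟨p1, p2⟩, ?_, ?_⟩
  · calc ∏ j ∈ Finset.range R, (1 + o (v, j)) ≤ ∏ _j ∈ Finset.range R, (2 : ℝ) :=
          Finset.prod_le_prod (fun j _ => (h1 j).le) fun j _ => by
            have := h2 j; linarith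
      _ = 2 ^ R := by simp
  · calc ∏ j ∈ Finset.range R, (1 - o (v, j)) ≤ ∏ _j ∈ Finset.range R, (2 : ℝ) :=
          Finset.prod_le_prod (fun j _ => (h2 j).le) fun j _ => by
            have := h1 j; linarith
      _ = 2 ^ R := by simp

lemma adm_ofl (hθ : |θ| < 1) (S : Finset V) (t : ℝ) (ω : Om V) :
    Adm ⌈t⌉₊ (ofl G θ S t ω) := by
  have e1 : ofl G θ S t ω
      = ofd ⌈t⌉₊ (msk (before (evs S ⌈t⌉₊) ω t) (obs G θ S (evs S ⌈t⌉₊) ω)) := by
    funext v
    exact fld_eq_ofd (before_subset _ ω t) _ v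
  rw [e1]
  apply adm_ofd
  intro e
  unfold msk
  split_ifs
  · exact lt_of_le_of_lt ((obs_bound G S hθ (evs S ⌈t⌉₊) ω e).trans (st_le ω e)) (by norm_num)
  · simp

/-- **Planted formula**, for functionals which are bounded on admissible fields. -/
theorem planted_formula' (hT : G.IsTree) (hθ : |θ| < 1) (S : Finset V) (t : ℝ)
    {F : (V → ℝ × ℝ) → ℝ} (hF : Measurable F) (hFS : DependsOn F (S : Set V))
    (hb : ∃ C, ∀ f, Adm ⌈t⌉₊ f → |F f| ≤ C) :
    ∫ ω, F (ofl G θ S t ω) ∂(PP V)
      = ∫ ω, zf G θ S (fd (nfl t) ω) * F (fd (nfl t) ω) ∂(PP V) := by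
  obtain ⟨C, hC⟩ := hb
  have hC' : ∀ f, Adm ⌈t⌉₊ f → |F f| ≤ |C| := fun f hf => (hC f hf).trans (le_abs_self C)
  have key : ∀ f, Adm ⌈t⌉₊ f → max (-|C|) (min |C| (F f)) = F f := by
    intro f hf
    have h := abs_le.mp (hC' f hf)
    rw [min_eq_right h.2, max_eq_right h.1]
  have h := planted_formula (θ := θ) hT hθ S t (F := fun f => max (-|C|) (min |C| (F f)))
    (measurable_const.max (measurable_const.min hF))
    (fun f g hfg => by simp only [hFS hfg])
    ⟨|C|, fun f => by
      rw [abs_le]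
      exact ⟨le_max_left _ _, max_le (by linarith [abs_nonneg C]) (min_le_left _ _)⟩⟩
  have e1 : ∀ ω : Om V, max (-|C|) (min |C| (F (ofl G θ S t ω))) = F (ofl G θ S t ω) :=
    fun ω => key _ (adm_ofl hθ S t ω)
  have e2 : ∀ ω : Om V, max (-|C|) (min |C| (F (fd (nfl t) ω))) = F (fd (nfl t) ω) :=
    fun ω => key _ (adm_nfl t ω)
  simp only [e1, e2] at h
  exact h

/-! ### One-vertex quantities of the null field -/


/-! ### Passage to the infinite volume -/

/-- `L²` convergence of the magnetizations at finitely many vertices implies convergence of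
expectations of continuous functions. -/
theorem tendsto_integral_of_L2 {Ω : Type*} [MeasurableSpace Ω] {P : Measure Ω}
    [IsProbabilityMeasure P] {W : Type*} [Fintype W] {m : ℕ → W → Ω → ℝ} {m' : W → Ω → ℝ}
    (hm : ∀ n w, Measurable (m n w)) (hm' : ∀ w, Measurable (m' w))
    (hb : ∀ n w ω, |m n w ω| ≤ 1) (hb' : ∀ w ω, |m' w ω| ≤ 1)
    (hL : ∀ w, Filter.Tendsto (fun n => ∫ ω, (m n w ω - m' w ω) ^ 2 ∂P) Filter.atTop (𝓝 0))
    {H : (W → ℝ) → ℝ} (hH : Continuous H) :
    Filter.Tendsto (fun n => ∫ ω, H (fun w => m n w ω) ∂P) Filter.atTop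
      (𝓝 (∫ ω, H (fun w => m' w ω) ∂P)) := by
  -- `H` is bounded and uniformly continuous on the cube
  have hK : IsCompact (Set.pi Set.univ (fun _ : W => Set.Icc (-1:ℝ) 1)) :=
    isCompact_univ_pi fun _ => isCompact_Icc
  have hmem : ∀ n ω, (fun w => m n w ω) ∈ Set.pi Set.univ (fun _ : W => Set.Icc (-1:ℝ) 1) :=
    fun n ω w _ => abs_le.mp (hb n w ω)
  have hmem' : ∀ ω, (fun w => m' w ω) ∈ Set.pi Set.univ (fun _ : W => Set.Icc (-1:ℝ) 1) :=
    fun ω w _ => abs_le.mp (hb' w ω)
  obtain ⟨C, hC⟩ := hK.exists_bound_of_continuousOn hH.continuousOn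
  have hmm : ∀ n, Measurable (fun ω w => m n w ω) := fun n => measurable_pi_iff.mpr (hm n)
  have hmm' : Measurable (fun ω w => m' w ω) := measurable_pi_iff.mpr hm'
  apply Filter.tendsto_of_subseq_tendsto
  intro ns hns
  -- convergence of the sum of the squares along `ns`, pass to an a.e. convergent subsequence
  have hsum : Filter.Tendsto (fun k => ∫ ω, ∑ w, (m (ns k) w ω - m' w ω) ^ 2 ∂P) Filter.atTop
      (𝓝 0) := by
    have h1 : ∀ k, ∫ ω, ∑ w, (m (ns k) w ω - m' w ω) ^ 2 ∂P
        = ∑ w, ∫ ω, (m (ns k) w ω - m' w ω) ^ 2 ∂P := by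
      intro k
      rw [integral_finsetSum]
      intro w _
      refine Integrable.of_bound (((hm _ w).sub (hm' w)).pow_const 2).aestronglyMeasurable 4 ?_
      refine Filter.Eventually.of_forall fun ω => ?_
      rw [Real.norm_eq_abs, abs_of_nonneg (sq_nonneg _)]
      have a1 := abs_le.mp (hb (ns k) w ω)
      have a2 := abs_le.mp (hb' w ω)
      nlinarith
    simp_rw [h1]
    have : (0:ℝ) = ∑ _w : W, (0:ℝ) := by simp
    rw [this]
    exact tendsto_finsetSum _ fun w _ => (hL w).comp hns
  have hint : ∀ k, Integrable (fun ω => ∑ w, (m (ns k) w ω - m' w ω) ^ 2) P := by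
    intro k
    refine integrable_finsetSum _ fun w _ => ?_
    refine Integrable.of_bound (((hm _ w).sub (hm' w)).pow_const 2).aestronglyMeasurable 4 ?_
    refine Filter.Eventually.of_forall fun ω => ?_
    rw [Real.norm_eq_abs, abs_of_nonneg (sq_nonneg _)]
    have a1 := abs_le.mp (hb (ns k) w ω)
    have a2 := abs_le.mp (hb' w ω)
    nlinarith
  have hmeasure : TendstoInMeasure P (fun k ω => ∑ w, (m (ns k) w ω - m' w ω) ^ 2)
      Filter.atTop (fun _ => (0:ℝ)) := by
    have hL1 : Filter.Tendsto (fun k => eLpNorm ((fun ω => ∑ w, (m (ns k) w ω - m' w ω) ^ 2)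
        - fun _ => (0:ℝ)) 1 P) Filter.atTop (𝓝 0) := by
      have e : ∀ k, eLpNorm ((fun ω => ∑ w, (m (ns k) w ω - m' w ω) ^ 2)
          - fun _ => (0:ℝ)) 1 P
          = ENNReal.ofReal (∫ ω, ∑ w, (m (ns k) w ω - m' w ω) ^ 2 ∂P) := by
        intro k
        have e0 : ((fun ω => ∑ w, (m (ns k) w ω - m' w ω) ^ 2) - fun _ => (0:ℝ))
            = fun ω => ∑ w, (m (ns k) w ω - m' w ω) ^ 2 := by
          funext ω; simp
        rw [e0, eLpNorm_one_eq_lintegral_enorm, ofReal_integral_eq_lintegral_ofReal (hint k)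
          (Filter.Eventually.of_forall fun ω => Finset.sum_nonneg fun w _ => sq_nonneg _)]
        refine lintegral_congr fun ω => ?_
        rw [← ofReal_norm, Real.norm_eq_abs,
          abs_of_nonneg (Finset.sum_nonneg fun w _ => sq_nonneg _)]
      simp_rw [e]
      have := (ENNReal.continuous_ofReal.tendsto 0).comp hsum
      simpa [Function.comp_def] using this
    refine tendstoInMeasure_of_tendsto_eLpNorm one_ne_zero (fun k => ?_) ?_ hL1
    · exact (hint k).aestronglyMeasurable
    · exact aestronglyMeasurable_const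
  obtain ⟨ms, hms, hae⟩ := hmeasure.exists_seq_tendsto_ae
  refine ⟨ms, ?_⟩
  refine tendsto_integral_of_dominated_convergence (fun _ => C) (fun k => ?_)
    (integrable_const C) (fun k => ?_) ?_
  · exact (hH.measurable.comp (hmm _)).aestronglyMeasurable
  · exact Filter.Eventually.of_forall fun ω => hC _ (hmem _ ω)
  · filter_upwards [hae] with ω hω
    refine (hH.tendsto _).comp ?_
    rw [tendsto_pi_nhds]
    intro w
    have h2 : Filter.Tendsto (fun k => (m (ns (ms k)) w ω - m' w ω) ^ 2) Filter.atTop (𝓝 0) := by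
      refine squeeze_zero (fun k => sq_nonneg _) (fun k => ?_) hω
      exact Finset.single_le_sum (f := fun w => (m (ns (ms k)) w ω - m' w ω) ^ 2)
        (fun w _ => sq_nonneg _) (Finset.mem_univ w)
    have h3 : Filter.Tendsto (fun k => |m (ns (ms k)) w ω - m' w ω|) Filter.atTop (𝓝 0) := by
      have := (Real.continuous_sqrt.tendsto 0).comp h2
      simp only [Real.sqrt_zero, Function.comp_def, Real.sqrt_sq_eq_abs] at this
      exact this
    have h4 := (tendsto_zero_iff_abs_tendsto_zero _).mpr h3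
    have h5 := h4.add_const (m' w ω)
    simpa using h5

/-- passage to the infinite volume for the magnetizations at finitely many vertices. -/
theorem tendsto_integral_minf [G.LocallyFinite] {t : ℝ} (x : V) (W : Finset V)
    (hb : ∀ n, ∀ w ∈ W, ∀ ω, |mfin G θ (bal G x n) ω t w| ≤ 1)
    (hb' : ∀ w ∈ W, ∀ ω, |minf G θ t w ω| ≤ 1)
    (hm : ∀ n, ∀ w ∈ W, Measurable fun ω => mfin G θ (bal G x n) ω t w)
    (hm' : ∀ w ∈ W, Measurable (minf G θ t w))
    (hL : ∀ w ∈ W, Filter.Tendsto (fun n => ∫ ω, (mfin G θ (bal G x n) ω t w - minf G θ t w ω) ^ 2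
      ∂(PP V)) Filter.atTop (𝓝 0)) {H : (W → ℝ) → ℝ} (hH : Continuous H) :
    Filter.Tendsto (fun n => ∫ ω, H (fun w => mfin G θ (bal G x n) ω t w) ∂(PP V)) Filter.atTop
      (𝓝 (∫ ω, H (fun w => minf G θ t w ω) ∂(PP V))) :=
  tendsto_integral_of_L2 (m := fun n (w : W) ω => mfin G θ (bal G x n) ω t w)
    (m' := fun (w : W) ω => minf G θ t w ω) (fun n w => hm n w w.2) (fun w => hm' w w.2)
    (fun n w ω => hb n w w.2 ω) (fun w ω => hb' w w.2 ω) (fun w => hL w w.2) hH

end Crest.Agent.R160.Bridge
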