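import Mathlib
import Crest.Agent.R160.StaticBridge
import Crest.Agent.R160.StaticRec

/-! Row 160, module E: the one-vertex moment of the null field. -/

set_option autoImplicit false
set_option linter.unusedSectionVars false

open MeasureTheory ProbabilityTheory Finset
open scoped Classical

namespace Crest.Agent.R160.One

open Crest.Agent.R160 Crest.Agent.R160.Static Crest.Agent.R160.Bridge

local notation "II" => unitInterval × unitInterval

variable {V : Type*} {G : SimpleGraph V} {θ : ℝ}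

lemma intg_of_bdd {α : Type*} [MeasurableSpace α] {μ : Measure α} [IsFiniteMeasure μ]
    {f : α → ℝ} (hf : Measurable f) {C : ℝ} (hC : ∀ a, |f a| ≤ C) : Integrable f μ :=
  Integrable.of_bound hf.aestronglyMeasurable C (Filter.Eventually.of_forall fun a => by
    rw [Real.norm_eq_abs]; exact hC a)

/-! ### the round zero observation -/

/-- second moment of the round-zero null observation -/
noncomputable def J (t : ℝ) : ℝ := ∫ p : II, (H0.xx t 0 p) ^ 2

lemma integral_u2 {m : ℝ} (h0 : 0 ≤ m) (h1 : m ≤ 1) :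
    ∫ u : unitInterval, (if (u : ℝ) < m then (u : ℝ) ^ 2 / 4 else 0) = m ^ 3 / 12 := by
  have e1 : ∫ u : unitInterval, (if (u : ℝ) < m then (u : ℝ) ^ 2 / 4 else 0)
      = ∫ u in Set.Icc (0:ℝ) 1, (if u < m then u ^ 2 / 4 else 0) :=
    integral_subtype_comap measurableSet_Icc (fun u : ℝ => if u < m then u ^ 2 / 4 else 0)
  have e2 : (fun u : ℝ => if u < m then u ^ 2 / 4 else 0)
      = (Set.Iio m).indicator (fun u => u ^ 2 / 4) := by
    funext u
    simp only [Set.indicator, Set.mem_Iio]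
  have e3 : Set.Icc (0:ℝ) 1 ∩ Set.Iio m = Set.Ico 0 m := by
    ext u
    simp only [Set.mem_inter_iff, Set.mem_Icc, Set.mem_Iio, Set.mem_Ico]
    constructor
    · rintro ⟨⟨a, _⟩, c⟩; exact ⟨a, c⟩
    · rintro ⟨a, c⟩; exact ⟨⟨a, by linarith⟩, c⟩
  rw [e1, e2, setIntegral_indicator measurableSet_Iio, e3, integral_Ico_eq_integral_Ioc,
    ← intervalIntegral.integral_of_le h0, intervalIntegral.integral_div, integral_pow]
  norm_num
  ring

lemma J_eq {t : ℝ} (ht : 0 < t) : J t = (min t (1 / 2)) ^ 3 / 36 := by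
  have hm0 : 0 ≤ min t (1 / 2) := le_min ht.le (by norm_num)
  have hm1 : min t (1 / 2) ≤ 1 := (min_le_right _ _).trans (by norm_num)
  have hxx : ∀ p : II, (H0.xx t 0 p) ^ 2
      = (if (p.1 : ℝ) < min t (1 / 2) then (p.1 : ℝ) ^ 2 / 4 else 0) * (2 * (p.2 : ℝ) - 1) ^ 2 := by
    intro p
    unfold H0.xx str
    simp only [Nat.cast_zero, zero_add, if_true, lt_min_iff]
    by_cases h1 : (p.1 : ℝ) < t
    · by_cases h2 : (p.1 : ℝ) < 1 / 2
      · simp only [h1, h2, if_true, and_self]; ring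
      · simp only [h1, h2, if_true, if_false, and_false]; ring
    · simp only [h1, if_false, false_and]; ring
  unfold J
  simp_rw [hxx]
  have h := integral_prod_mul (μ := (volume : Measure unitInterval))
      (ν := (volume : Measure unitInterval))
      (fun u : unitInterval => if (u : ℝ) < min t (1 / 2) then (u : ℝ) ^ 2 / 4 else 0)
      (fun z : unitInterval => (2 * (z : ℝ) - 1) ^ 2)
  rw [integral_u2 hm0 hm1, H0.integral_z] at h
  refine Eq.trans h ?_
  ring

/-! ### the one-vertex moment -/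

lemma qq_one (t : ℝ) (v : V) : qq (PP V) (nfl t) G θ {v} v
    = ∫ ω, ((nfl t v ω).1 - (nfl t v ω).2) ^ 2 / (2 * ((nfl t v ω).1 + (nfl t v ω).2)) ∂(PP V) := by
  unfold qq
  refine integral_congr_ae (Filter.Eventually.of_forall fun ω => ?_)
  beta_reduce
  rw [zf_singleton, magf_singleton]
  change ((nfl t v ω).1 + (nfl t v ω).2) / 2
    * (((nfl t v ω).1 - (nfl t v ω).2) / ((nfl t v ω).1 + (nfl t v ω).2)) ^ 2 = _
  have h := nfl_pos t v ω
  have h1 : (nfl t v ω).1 + (nfl t v ω).2 ≠ 0 := by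
    have := h.1; have := h.2; positivity
  field_simp







lemma harm_le {a b p q : ℝ} (ha : 0 < a) (hb : 0 < b) (hp : 0 < p) (hq : 0 < q) :
    a * b / (a + b) ≤ (q ^ 2 * a + p ^ 2 * b) / (p + q) ^ 2 := by
  rw [div_le_div_iff₀ (by positivity) (by positivity)]
  nlinarith [sq_nonneg (q * a - p * b)]

/-- product over the rounds, split off round zero -/
lemma integral_split (t : ℝ) (v : V) {R : ℕ} (hR : 0 < R) {φ : II → ℝ} (hφ : Measurable φ)
    (ε : ℝ) :
    ∫ ω, φ (ω (v, 0)) * ∏ j ∈ Finset.range R, (if j = 0 then 1 else 1 + ε * H0.xx t j (ω (v, j)))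
      ∂(PP V) = ∫ p, φ p := by
  set ψ : Ev V → II → ℝ := fun e p => if e.2 = 0 then φ p else 1 + ε * H0.xx t e.2 p with hψ
  have hψm : ∀ e, Measurable (ψ e) := by
    intro e
    rw [hψ]
    by_cases h : e.2 = 0
    · simp only [h, if_true]; exact hφ
    · simp only [h, if_false]; exact ((H0.measurable_xx t e.2).const_mul ε).const_add 1
  have h := H0.integral_prod_events (V := V) (({v} : Finset V) ×ˢ Finset.range R) ψ hψm
  rw [Finset.prod_product, Finset.prod_singleton] at h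
  have h0 : (0:ℕ) ∈ Finset.range R := Finset.mem_range.mpr hR
  have e1 : ∀ ω : Om V, ∏ e ∈ ({v} : Finset V) ×ˢ Finset.range R, ψ e (ω e)
      = φ (ω (v, 0)) * ∏ j ∈ Finset.range R,
        (if j = 0 then 1 else 1 + ε * H0.xx t j (ω (v, j))) := by
    intro ω
    rw [Finset.prod_product, Finset.prod_singleton, ← Finset.mul_prod_erase _ _ h0,
      ← Finset.mul_prod_erase (Finset.range R) _ h0]
    simp only [hψ, if_true, one_mul]
    congr 1
    refine Finset.prod_congr rfl fun j hj => ?_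
    rw [if_neg (Finset.ne_of_mem_erase hj), if_neg (Finset.ne_of_mem_erase hj)]
  simp only [e1] at h
  rw [h, ← Finset.mul_prod_erase _ _ h0]
  have e2 : ∏ j ∈ (Finset.range R).erase 0, ∫ p, ψ (v, j) p = 1 := by
    refine Finset.prod_eq_one fun j hj => ?_
    have hj0 : j ≠ 0 := Finset.ne_of_mem_erase hj
    simp only [hψ, if_neg hj0]
    rw [integral_add (integrable_const _) ((H0.integrable_xx t j).const_mul _),
      integral_const_mul, H0.integral_xx]
    simp
  rw [e2, mul_one]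
  simp only [hψ, if_true]

/-- **lower bound for all times** -/
theorem J_le_qq_one {t : ℝ} (h0 : 0 < t) (v : V) : J t ≤ qq (PP V) (nfl t) G θ {v} v := by
  rw [qq_one]
  set R := ⌈t⌉₊ with hR
  have hRpos : 0 < R := Nat.ceil_pos.mpr h0
  have hR0 : (0:ℕ) ∈ Finset.range R := Finset.mem_range.mpr hRpos
  set x0 : Om V → ℝ := fun ω => H0.xx t 0 (ω (v, 0)) with hx0
  set P : Om V → ℝ := fun ω => ∏ j ∈ Finset.range R,
    (if j = 0 then 1 else 1 + 1 * H0.xx t j (ω (v, j))) with hP
  set Q : Om V → ℝ := fun ω => ∏ j ∈ Finset.range R,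
    (if j = 0 then 1 else 1 + (-1) * H0.xx t j (ω (v, j))) with hQ
  have hp : ∀ ω, (nfl t v ω).1 = (1 + x0 ω) * P ω := by
    intro ω
    unfold nfl nf1
    change ∏ j ∈ Finset.range R, (1 + H0.xx t j (ω (v, j))) = _
    rw [hP]
    beta_reduce
    rw [← Finset.mul_prod_erase _ _ hR0, ← Finset.mul_prod_erase (Finset.range R)
      (fun j => if j = 0 then 1 else 1 + 1 * H0.xx t j (ω (v, j))) hR0]
    simp only [if_true, one_mul, hx0]
    congr 1
    refine Finset.prod_congr rfl fun j hj => ?_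
    rw [if_neg (Finset.ne_of_mem_erase hj)]
  have hq : ∀ ω, (nfl t v ω).2 = (1 - x0 ω) * Q ω := by
    intro ω
    unfold nfl nf1
    change ∏ j ∈ Finset.range R, (1 - H0.xx t j (ω (v, j))) = _
    rw [hQ]
    beta_reduce
    rw [← Finset.mul_prod_erase _ _ hR0, ← Finset.mul_prod_erase (Finset.range R)
      (fun j => if j = 0 then 1 else 1 + (-1) * H0.xx t j (ω (v, j))) hR0]
    simp only [if_true, one_mul, hx0]
    congr 1
    refine Finset.prod_congr rfl fun j hj => ?_
    rw [if_neg (Finset.ne_of_mem_erase hj)]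
    ring
  have hx : ∀ ω, |x0 ω| ≤ 1 / 2 := fun ω => H0.abs_xx_le t 0 _
  have hpos := fun ω => nfl_pos t v ω
  have hle := fun ω => nfl_le t v ω
  set C : ℝ := 2 ^ R with hC
  have hxm : Measurable x0 := (H0.measurable_xx t 0).comp (measurable_pi_apply _)
  have hnm := measurable_nfl (V := V) t v
  -- the pointwise lower bound
  have hpt : ∀ ω, ((nfl t v ω).1 + (nfl t v ω).2) / 2
      - (1 / 2) * ((1 - x0 ω) ^ 2 * (nfl t v ω).1 + (1 + x0 ω) ^ 2 * (nfl t v ω).2)
      ≤ ((nfl t v ω).1 - (nfl t v ω).2) ^ 2 / (2 * ((nfl t v ω).1 + (nfl t v ω).2)) := by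
    intro ω
    have h1 := (abs_le.mp (hx ω)).1
    have h2 := (abs_le.mp (hx ω)).2
    have h3 := harm_le (hpos ω).1 (hpos ω).2 (p := 1 + x0 ω) (q := 1 - x0 ω) (by linarith)
      (by linarith)
    have h4 : (1 + x0 ω + (1 - x0 ω)) ^ 2 = 4 := by ring
    rw [h4] at h3
    have hs : 0 < (nfl t v ω).1 + (nfl t v ω).2 := add_pos (hpos ω).1 (hpos ω).2
    have h5 : ((nfl t v ω).1 - (nfl t v ω).2) ^ 2 / (2 * ((nfl t v ω).1 + (nfl t v ω).2))
        = ((nfl t v ω).1 + (nfl t v ω).2) / 2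
          - 2 * ((nfl t v ω).1 * (nfl t v ω).2 / ((nfl t v ω).1 + (nfl t v ω).2)) := by
      field_simp
      ring
    rw [h5]
    linarith
  -- integrability
  have i1 : Integrable (fun ω => (nfl t v ω).1) (PP V) :=
    intg_of_bdd (measurable_fst.comp hnm) (C := C) fun ω => by
      rw [abs_of_pos (hpos ω).1]; exact (hle ω).1
  have i2 : Integrable (fun ω => (nfl t v ω).2) (PP V) :=
    intg_of_bdd (measurable_snd.comp hnm) (C := C) fun ω => by
      rw [abs_of_pos (hpos ω).2]; exact (hle ω).2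
  have i3 : Integrable (fun ω => (1 - x0 ω) ^ 2 * (nfl t v ω).1) (PP V) :=
    intg_of_bdd (((hxm.const_sub 1).pow_const 2).mul (measurable_fst.comp hnm)) (C := 4 * C)
      fun ω => by
      rw [abs_mul, abs_of_pos (hpos ω).1, abs_of_nonneg (sq_nonneg _)]
      have h1 := abs_le.mp (hx ω)
      have : (1 - x0 ω) ^ 2 ≤ 4 := by nlinarith [h1.1, h1.2]
      exact mul_le_mul this (hle ω).1 (hpos ω).1.le (by norm_num)
  have i4 : Integrable (fun ω => (1 + x0 ω) ^ 2 * (nfl t v ω).2) (PP V) :=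
    intg_of_bdd (((hxm.const_add 1).pow_const 2).mul (measurable_snd.comp hnm)) (C := 4 * C)
      fun ω => by
      rw [abs_mul, abs_of_pos (hpos ω).2, abs_of_nonneg (sq_nonneg _)]
      have h1 := abs_le.mp (hx ω)
      have : (1 + x0 ω) ^ 2 ≤ 4 := by nlinarith [h1.1, h1.2]
      exact mul_le_mul this (hle ω).2 (hpos ω).2.le (by norm_num)
  have i5 : Integrable (fun ω => ((nfl t v ω).1 + (nfl t v ω).2) / 2) (PP V) :=
    (i1.add i2).div_const 2
  have i6 : Integrable (fun ω => (1 / 2) * ((1 - x0 ω) ^ 2 * (nfl t v ω).1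
      + (1 + x0 ω) ^ 2 * (nfl t v ω).2)) (PP V) := (i3.add i4).const_mul _
  have i7 : Integrable (fun ω => ((nfl t v ω).1 - (nfl t v ω).2) ^ 2
      / (2 * ((nfl t v ω).1 + (nfl t v ω).2))) (PP V) := by
    refine intg_of_bdd ?_ (C := C) fun ω => ?_
    · have hm : Measurable fun p : ℝ × ℝ => (p.1 - p.2) ^ 2 / (2 * (p.1 + p.2)) := by fun_prop
      exact hm.comp hnm
    · have hs : 0 < (nfl t v ω).1 + (nfl t v ω).2 := add_pos (hpos ω).1 (hpos ω).2
      rw [abs_of_nonneg (by positivity), div_le_iff₀ (by positivity)]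
      have a := hpos ω
      have b := hle ω
      nlinarith [mul_pos a.1 a.2, a.1, a.2, b.1, b.2,
        mul_nonneg (sub_nonneg.mpr b.1) a.1.le, mul_nonneg (sub_nonneg.mpr b.2) a.2.le,
        mul_nonneg (sub_nonneg.mpr b.1) a.2.le, mul_nonneg (sub_nonneg.mpr b.2) a.1.le]
  -- the two expectations
  have k3 : ∫ ω, (1 - x0 ω) ^ 2 * (nfl t v ω).1 ∂(PP V)
      = ∫ p : II, (1 - H0.xx t 0 p) ^ 2 * (1 + H0.xx t 0 p) := by
    have hφ : Measurable fun p : II => (1 - H0.xx t 0 p) ^ 2 * (1 + H0.xx t 0 p) :=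
      (((H0.measurable_xx t 0).const_sub 1).pow_const 2).mul ((H0.measurable_xx t 0).const_add 1)
    rw [← integral_split t v hRpos hφ 1]
    refine integral_congr_ae (Filter.Eventually.of_forall fun ω => ?_)
    beta_reduce
    rw [hp]
    ring
  have k4 : ∫ ω, (1 + x0 ω) ^ 2 * (nfl t v ω).2 ∂(PP V)
      = ∫ p : II, (1 + H0.xx t 0 p) ^ 2 * (1 - H0.xx t 0 p) := by
    have hφ : Measurable fun p : II => (1 + H0.xx t 0 p) ^ 2 * (1 - H0.xx t 0 p) :=
      (((H0.measurable_xx t 0).const_add 1).pow_const 2).mul ((H0.measurable_xx t 0).const_sub 1)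
    rw [← integral_split t v hRpos hφ (-1)]
    refine integral_congr_ae (Filter.Eventually.of_forall fun ω => ?_)
    beta_reduce
    rw [hq]
    ring
  have ii1 : ∀ ε : ℝ, Integrable (fun p : II => (1 - ε * H0.xx t 0 p) ^ 2 * (1 + ε * H0.xx t 0 p))
      (volume : Measure II) := fun ε =>
    intg_of_bdd (((((H0.measurable_xx t 0).const_mul ε).const_sub 1).pow_const 2).mul
      (((H0.measurable_xx t 0).const_mul ε).const_add 1)) (C := (1 + |ε|) ^ 3) fun p => by
      have h1 : |ε * H0.xx t 0 p| ≤ |ε| := by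
        rw [abs_mul]
        have := H0.abs_xx_le t 0 p
        nlinarith [abs_nonneg ε, abs_nonneg (H0.xx t 0 p)]
      have h2 : |1 - ε * H0.xx t 0 p| ≤ 1 + |ε| :=
        (abs_sub _ _).trans (by rw [abs_one]; linarith)
      have h3 : |1 + ε * H0.xx t 0 p| ≤ 1 + |ε| :=
        (abs_add_le _ _).trans (by rw [abs_one]; linarith)
      rw [abs_mul, abs_pow]
      calc |1 - ε * H0.xx t 0 p| ^ 2 * |1 + ε * H0.xx t 0 p|
          ≤ (1 + |ε|) ^ 2 * (1 + |ε|) := by gcongr
        _ = (1 + |ε|) ^ 3 := by ring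
  have j1 : Integrable (fun p : II => (1 - H0.xx t 0 p) ^ 2 * (1 + H0.xx t 0 p))
      (volume : Measure II) := by simpa using ii1 1
  have j2 : Integrable (fun p : II => (1 + H0.xx t 0 p) ^ 2 * (1 - H0.xx t 0 p))
      (volume : Measure II) := by
    have := ii1 (-1)
    simpa [sub_eq_add_neg] using this
  have j3 : Integrable (fun p : II => (H0.xx t 0 p) ^ 2) (volume : Measure II) :=
    intg_of_bdd ((H0.measurable_xx t 0).pow_const 2) (C := 1) fun p => by
      have := H0.abs_xx_le t 0 p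
      rw [abs_pow]
      nlinarith [abs_nonneg (H0.xx t 0 p)]
  have hsum : (∫ p : II, (1 - H0.xx t 0 p) ^ 2 * (1 + H0.xx t 0 p))
      + ∫ p : II, (1 + H0.xx t 0 p) ^ 2 * (1 - H0.xx t 0 p) = 2 - 2 * J t := by
    rw [← integral_add j1 j2]
    have : ∀ p : II, (1 - H0.xx t 0 p) ^ 2 * (1 + H0.xx t 0 p)
        + (1 + H0.xx t 0 p) ^ 2 * (1 - H0.xx t 0 p) = 2 - 2 * (H0.xx t 0 p) ^ 2 := fun p => by ring
    simp only [this]
    rw [integral_sub (integrable_const _) (j3.const_mul 2), integral_const_mul]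
    unfold J
    simp
  have m1 : ∫ ω, (nfl t v ω).1 ∂(PP V) = 1 := nfl_mean t v
  have m2 : ∫ ω, (nfl t v ω).2 ∂(PP V) = 1 := (fieldData t).mean_snd v
  have hfin : ∫ ω, (((nfl t v ω).1 + (nfl t v ω).2) / 2
      - (1 / 2) * ((1 - x0 ω) ^ 2 * (nfl t v ω).1 + (1 + x0 ω) ^ 2 * (nfl t v ω).2)) ∂(PP V)
      = J t := by
    rw [integral_sub i5 i6, integral_div, integral_add i1 i2, m1, m2, integral_const_mul,
      integral_add i3 i4, k3, k4, hsum]
    ring
  rw [← hfin]
  exact integral_mono (i5.sub i6) i7 hpt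

/-- lower bound for all times, explicit -/
theorem qq_one_lower {t : ℝ} (h0 : 0 < t) (v : V) :
    (min t (1 / 2)) ^ 3 / 36 ≤ qq (PP V) (nfl t) G θ {v} v := by
  rw [← J_eq h0]
  exact J_le_qq_one h0 v

end Crest.Agent.R160.One
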