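import Mathlib
import Crest.Agent.R160.Defs
import Crest.Agent.R160.Proc
import Crest.Agent.R160.Causal
import Crest.Agent.R160.StaticPE
import Crest.Agent.R160.Product
import Crest.Agent.R160.Homog

-- ▼ part R160/LawCont1
section

/-! Row 160, `law_cont`, part 1: continuity in `θ` of the finite-volume process, uniformly over
bounded times. -/

set_option autoImplicit false

open MeasureTheory Finset Filter
open scoped Classical Topology

namespace Crest.Agent.R160.LawCont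

open Crest.Agent.R160

variable {V : Type*} {G : SimpleGraph V}

lemma continuous_ew (S A : Finset V) : Continuous fun θ : ℝ => ew G θ S A := by
  unfold ew
  exact continuous_finsetProd _ fun e _ => by fun_prop

lemma continuous_TT (z : ℝ) : Continuous fun s : ℝ => TT s z := by
  unfold TT
  refine Continuous.div (by fun_prop) (by fun_prop) fun s => ?_
  have := Real.sqrt_nonneg (1 + 2 * s * z + s ^ 2)
  positivity

lemma continuousAt_num {S : Finset V} {E : Finset (Ev V)} {o : ℝ → Ev V → ℝ} {θ₀ : ℝ}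
    (ho : ∀ e ∈ E, ContinuousAt (fun θ => o θ e) θ₀) (f : Finset V → ℝ) :
    ContinuousAt (fun θ => num G θ S E (o θ) f) θ₀ := by
  unfold num
  refine tendsto_finsetSum _ fun A _ => ?_
  refine Tendsto.mul tendsto_const_nhds (Tendsto.mul (continuous_ew S A).continuousAt ?_)
  unfold ow
  refine tendsto_finsetProd _ fun e he => ?_
  exact Tendsto.add tendsto_const_nhds (Tendsto.mul tendsto_const_nhds (ho e he))

lemma continuousAt_mean {S : Finset V} {E : Finset (Ev V)} {o : ℝ → Ev V → ℝ} {θ₀ : ℝ}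
    (hθ : |θ₀| < 1) (ho : ∀ e ∈ E, ContinuousAt (fun θ => o θ e) θ₀)
    (ho1 : ∀ e ∈ E, |o θ₀ e| < 1) (f : Finset V → ℝ) :
    ContinuousAt (fun θ => mean G θ S E (o θ) f) θ₀ := by
  unfold mean
  exact ContinuousAt.div (continuousAt_num ho f) (continuousAt_num ho _)
    (ZZ_pos G S hθ ho1).ne'

/-- the observations are continuous in `θ` -/
lemma continuousAt_obs {S : Finset V} {E : Finset (Ev V)} {θ₀ : ℝ} (hθ : |θ₀| < 1) (ω : Om V)
    (e : Ev V) : ContinuousAt (fun θ => obs G θ S E ω e) θ₀ := by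
  induction hn : (before E ω (tm ω e)).card using Nat.strong_induction_on generalizing e with
  | _ n ih =>
    subst hn
    by_cases he : e ∈ E
    · have h1 : (fun θ => obs G θ S E ω e) =
        fun θ => st ω e * TT (st ω e * mt G θ S E ω (tm ω e) e.1) (nz ω e) := by
        funext θ
        exact obs_of_mem G θ S he
      rw [h1]
      have h2 : ContinuousAt (fun θ => mt G θ S E ω (tm ω e) e.1) θ₀ := by
        unfold mt mm
        exact continuousAt_mean hθ (fun e' he' => ih _ (before_card_lt he') e' rfl)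
          (fun e' _ => obs_lt_one G S hθ E ω e') _
      have h3 : ContinuousAt (fun s => TT s (nz ω e)) (st ω e * mt G θ₀ S E ω (tm ω e) e.1) :=
        (continuous_TT _).continuousAt
      exact ContinuousAt.mul continuousAt_const
        (ContinuousAt.comp (f := fun θ => st ω e * mt G θ S E ω (tm ω e) e.1) h3
          (ContinuousAt.mul continuousAt_const h2))
    · have h1 : (fun θ => obs G θ S E ω e) = fun _ => 0 := by
        funext θ
        exact obs_of_not_mem G θ S he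
      rw [h1]
      exact continuousAt_const

lemma continuousAt_mm {S : Finset V} {E : Finset (Ev V)} {θ₀ : ℝ} (hθ : |θ₀| < 1) (ω : Om V)
    (E' : Finset (Ev V)) (v : V) :
    ContinuousAt (fun θ => mm G θ S E' (obs G θ S E ω) v) θ₀ := by
  unfold mm
  exact continuousAt_mean hθ (fun e _ => continuousAt_obs hθ ω e)
    (fun e _ => obs_lt_one G S hθ E ω e) _

variable {Φ : ℝ → ℝ → ℝ}

/-- a bound for a continuous function on the square -/
lemma exists_bound (hΦ : Continuous (Function.uncurry Φ)) :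
    ∃ M : ℝ, 0 ≤ M ∧ ∀ a b : ℝ, |a| ≤ 1 → |b| ≤ 1 → |Φ a b| ≤ M := by
  have hc : IsCompact (Set.Icc (-1 : ℝ) 1 ×ˢ Set.Icc (-1 : ℝ) 1) := isCompact_Icc.prod isCompact_Icc
  obtain ⟨M, hM⟩ := hc.exists_bound_of_continuousOn hΦ.continuousOn
  refine ⟨max M 0, le_max_right _ _, fun a b ha hb => ?_⟩
  exact (hM (a, b) ⟨abs_le.mp ha, abs_le.mp hb⟩).trans (le_max_left _ _)

/-- uniform continuity in quadratic form -/
lemma exists_quad (hΦ : Continuous (Function.uncurry Φ)) {ε : ℝ} (hε : 0 < ε) :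
    ∃ K : ℝ, 0 ≤ K ∧ ∀ a b a' b' : ℝ, |a| ≤ 1 → |b| ≤ 1 → |a'| ≤ 1 → |b'| ≤ 1 →
      |Φ a b - Φ a' b'| ≤ ε + K * ((a - a') ^ 2 + (b - b') ^ 2) := by
  obtain ⟨M, hM0, hM⟩ := exists_bound hΦ
  have hc : IsCompact (Set.Icc (-1 : ℝ) 1 ×ˢ Set.Icc (-1 : ℝ) 1) := isCompact_Icc.prod isCompact_Icc
  have hu := hc.uniformContinuousOn_of_continuous hΦ.continuousOn
  rw [Metric.uniformContinuousOn_iff] at hu
  obtain ⟨δ, hδ, hu⟩ := hu ε hε
  refine ⟨2 * M / δ ^ 2, by positivity, fun a b a' b' ha hb ha' hb' => ?_⟩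
  by_cases h : |a - a'| < δ ∧ |b - b'| < δ
  · have h1 := hu (a, b) ⟨abs_le.mp ha, abs_le.mp hb⟩ (a', b') ⟨abs_le.mp ha', abs_le.mp hb'⟩
      (by rw [Prod.dist_eq]; exact max_lt h.1 h.2)
    have h2 : |Φ a b - Φ a' b'| < ε := h1
    have h3 : 0 ≤ 2 * M / δ ^ 2 * ((a - a') ^ 2 + (b - b') ^ 2) := by positivity
    linarith
  · have h1 : δ ^ 2 ≤ (a - a') ^ 2 + (b - b') ^ 2 := by
      by_cases h2 : |a - a'| < δ
      · have h3 : δ ≤ |b - b'| := by
          by_contra h4
          exact h ⟨h2, not_le.mp h4⟩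
        have h5 : δ ^ 2 ≤ |b - b'| ^ 2 := pow_le_pow_left₀ hδ.le h3 2
        rw [sq_abs] at h5
        nlinarith [sq_nonneg (a - a')]
      · have h3 : δ ≤ |a - a'| := not_lt.mp h2
        have h5 : δ ^ 2 ≤ |a - a'| ^ 2 := pow_le_pow_left₀ hδ.le h3 2
        rw [sq_abs] at h5
        nlinarith [sq_nonneg (b - b')]
    have h2 : |Φ a b - Φ a' b'| ≤ 2 * M := by
      have := abs_sub (Φ a b) (Φ a' b')
      linarith [hM a b ha hb, hM a' b' ha' hb']
    have h3 : 2 * M ≤ 2 * M / δ ^ 2 * ((a - a') ^ 2 + (b - b') ^ 2) := by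
      rw [div_mul_eq_mul_div, le_div_iff₀ (by positivity)]
      exact mul_le_mul_of_nonneg_left h1 (by positivity)
    linarith

lemma measurable_mm_obs {S : Finset V} {E : Finset (Ev V)} {θ : ℝ} (E' : Finset (Ev V)) (v : V) :
    Measurable fun ω : Om V => mm G θ S E' (obs G θ S E ω) v :=
  (measurable_mm G θ S E' v).comp (measurable_obs' G θ S E)

instance : IsProbabilityMeasure (PP V) := by unfold PP; infer_instance

/-- Continuity in `θ` of the law of two magnetizations in a fixed finite volume, uniformly over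
times `t ≤ R`. -/
theorem fin_cont (S : Finset V) (hΦ : Continuous (Function.uncurry Φ)) (x y : V) {θ₀ : ℝ}
    (hθ : |θ₀| < 1) (R : ℕ) {ε : ℝ} (hε : 0 < ε) :
    ∃ δ, 0 < δ ∧ ∀ θ, |θ - θ₀| < δ → ∀ t : ℝ, t ≤ R →
      |∫ ω, Φ (mfin G θ S ω t x) (mfin G θ S ω t y) ∂(PP V)
        - ∫ ω, Φ (mfin G θ₀ S ω t x) (mfin G θ₀ S ω t y) ∂(PP V)| ≤ ε := by
  obtain ⟨M, hM0, hM⟩ := exists_bound hΦ
  set E := evs S R with hE
  have hΦm : Measurable (Function.uncurry Φ) := hΦ.measurable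
  set D : ℝ → Om V → ℝ := fun θ ω => ∑ E' ∈ E.powerset,
    |Φ (mm G θ S E' (obs G θ S E ω) x) (mm G θ S E' (obs G θ S E ω) y)
      - Φ (mm G θ₀ S E' (obs G θ₀ S E ω) x) (mm G θ₀ S E' (obs G θ₀ S E ω) y)| with hD
  have hmeas : ∀ (θ : ℝ) (E' : Finset (Ev V)), Measurable fun ω : Om V =>
      Φ (mm G θ S E' (obs G θ S E ω) x) (mm G θ S E' (obs G θ S E ω) y) := fun θ E' =>
    hΦm.comp ((measurable_mm_obs E' x).prodMk (measurable_mm_obs E' y))
  have hDm : ∀ θ, Measurable (D θ) := fun θ =>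
    Finset.measurable_sum _ fun E' _ => ((hmeas θ E').sub (hmeas θ₀ E')).abs
  have hcont : ∀ ω, Tendsto (fun θ => D θ ω) (𝓝 θ₀) (𝓝 0) := by
    intro ω
    have h0 : (0 : ℝ) = ∑ E' ∈ E.powerset,
      |Φ (mm G θ₀ S E' (obs G θ₀ S E ω) x) (mm G θ₀ S E' (obs G θ₀ S E ω) y)
      - Φ (mm G θ₀ S E' (obs G θ₀ S E ω) x) (mm G θ₀ S E' (obs G θ₀ S E ω) y)| := by simp
    rw [h0]
    refine tendsto_finsetSum _ fun E' _ => Tendsto.abs (Tendsto.sub ?_ tendsto_const_nhds)
    have h1 : ContinuousAt (fun θ => ((mm G θ S E' (obs G θ S E ω) x),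
      (mm G θ S E' (obs G θ S E ω) y))) θ₀ :=
      (continuousAt_mm hθ ω E' x).prodMk (continuousAt_mm hθ ω E' y)
    exact (hΦ.continuousAt.comp h1 :
      ContinuousAt (Function.uncurry Φ ∘ fun θ => ((mm G θ S E' (obs G θ S E ω) x),
      (mm G θ S E' (obs G θ S E ω) y))) θ₀)
  have hev : ∀ᶠ θ in 𝓝 θ₀, |θ| < 1 := by
    have h1 : ContinuousAt (fun θ : ℝ => |θ|) θ₀ := continuous_abs.continuousAt
    exact h1.eventually (gt_mem_nhds hθ)
  have hab : ∀ (θ : ℝ), |θ| < 1 → ∀ (E' : Finset (Ev V)) (ω : Om V),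
      |Φ (mm G θ S E' (obs G θ S E ω) x) (mm G θ S E' (obs G θ S E ω) y)| ≤ M := fun θ h E' ω =>
    hM _ _ (abs_mm_le G S h (fun e _ => obs_lt_one G S h E ω e) x)
      (abs_mm_le G S h (fun e _ => obs_lt_one G S h E ω e) y)
  have hDb : ∀ θ, |θ| < 1 → ∀ ω, |D θ ω| ≤ E.powerset.card * (2 * M) := by
    intro θ h ω
    rw [abs_of_nonneg (Finset.sum_nonneg fun _ _ => abs_nonneg _), ← nsmul_eq_mul]
    refine Finset.sum_le_card_nsmul _ _ _ fun E' _ => ?_
    have := abs_sub (Φ (mm G θ S E' (obs G θ S E ω) x) (mm G θ S E' (obs G θ S E ω) y))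
      (Φ (mm G θ₀ S E' (obs G θ₀ S E ω) x) (mm G θ₀ S E' (obs G θ₀ S E ω) y))
    linarith [hab θ h E' ω, hab θ₀ hθ E' ω]
  have hlim : Tendsto (fun θ => ∫ ω, D θ ω ∂(PP V)) (𝓝 θ₀) (𝓝 0) := by
    have := tendsto_integral_filter_of_dominated_convergence (μ := PP V) (l := 𝓝 θ₀)
      (F := D) (f := fun _ => 0) (fun _ => (E.powerset.card : ℝ) * (2 * M))
      (Eventually.of_forall fun θ => (hDm θ).aestronglyMeasurable)
      (hev.mono fun θ h => ae_of_all _ fun ω => hDb θ h ω)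
      (integrable_const _) (ae_of_all _ fun ω => hcont ω)
    simpa using this
  have h2 : ∀ᶠ θ in 𝓝 θ₀, |θ| < 1 ∧ ∫ ω, D θ ω ∂(PP V) < ε :=
    hev.and (hlim.eventually (gt_mem_nhds hε))
  rw [Metric.eventually_nhds_iff] at h2
  obtain ⟨δ, hδ, h2⟩ := h2
  refine ⟨δ, hδ, fun θ hθ' t ht => ?_⟩
  obtain ⟨h3, h4⟩ := h2 (by rw [Real.dist_eq]; exact hθ')
  have hmf : ∀ (θ : ℝ) (ω : Om V) (v : V), mfin G θ S ω t v =
      mm G θ S (before E ω t) (obs G θ S E ω) v := by
    intro θ ω v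
    rw [← mt_evs G θ ht ω v]
    rfl
  have hint : ∀ θ, |θ| < 1 → Integrable (fun ω => Φ (mfin G θ S ω t x) (mfin G θ S ω t y))
      (PP V) := by
    intro θ h
    refine Integrable.of_bound (C := M) ?_ (ae_of_all _ fun ω => ?_)
    · exact (hΦm.comp ((measurable_mfin G θ S t x).prodMk (measurable_mfin G θ S t y))).aestronglyMeasurable
    · rw [hmf, hmf]
      exact hab θ h _ ω
  rw [← integral_sub (hint θ h3) (hint θ₀ hθ)]
  refine (abs_integral_le_integral_abs).trans (le_trans ?_ h4.le)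
  refine integral_mono ((hint θ h3).sub (hint θ₀ hθ)).abs ?_ fun ω => ?_
  · exact Integrable.of_bound (hDm θ).aestronglyMeasurable _ (ae_of_all _ fun ω => hDb θ h3 ω)
  · simp only [hmf]
    exact Finset.single_le_sum (f := fun E' =>
      |Φ (mm G θ S E' (obs G θ S E ω) x) (mm G θ S E' (obs G θ S E ω) y)
      - Φ (mm G θ₀ S E' (obs G θ₀ S E ω) x) (mm G θ₀ S E' (obs G θ₀ S E ω) y)|)
      (fun _ _ => abs_nonneg _) (Finset.mem_powerset.mpr (before_subset _ _ _))

end Crest.Agent.R160.LawCont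
end

-- ▼ part R160/PathBound
section

/-! Row 160: convex sets, removal of leaves, volume restriction, martingale property of the
magnetization under the planted law, monotonicity of second moments, and the path bound
`PE ∏ ρ ≤ (1 - I/40)^n`. -/

set_option autoImplicit false
set_option linter.unusedSectionVars false

open MeasureTheory ProbabilityTheory
open scoped Classical

namespace Crest.Agent.R160.PathBound

open Crest.Agent.R160 Crest.Agent.R160.TreeAut Crest.Agent.R160.Static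

variable {V : Type*} {G : SimpleGraph V} {θ : ℝ}

/-- geodesically convex finite sets -/
def Cvx (G : SimpleGraph V) (S : Finset V) : Prop := ∀ x ∈ S, ∀ y ∈ S, x ≠ y → par G x y ∈ S

lemma cvx_singleton (v : V) : Cvx G {v} := by
  intro x hx y hy h
  rw [Finset.mem_singleton] at hx hy
  exact absurd (hx.trans hy.symm) h

lemma cvx_side (hT : G.IsTree) {S : Finset V} (hS : Cvx G S) {x c : V} (hxc : G.Adj x c) :
    Cvx G (side G S x c) := by
  intro y hy z hz hyz
  rw [mem_side] at hy hz ⊢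
  refine ⟨hS y hy.1 z hz.1 hyz, ?_⟩
  by_contra hcon
  have h1 := hT.dist_eq_dist_add_one_of_adj (par G y z) hxc
  have h2 : G.dist (par G y z) c < G.dist (par G y z) x := by omega
  have hadj := par_adj hT (Ne.symm hyz)
  obtain ⟨h3, h4⟩ := crossing_edge hT hxc hadj hz.2 h2
  have h5 := par_dist hT (Ne.symm hyz)
  rw [h4, h3] at h5
  omega

/-- a leaf of the big set outside of the small set -/
lemma exists_leaf (hT : G.IsTree) {S0 S : Finset V} (h0 : Cvx G S0) (hS : Cvx G S)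
    (hsub : S0 ⊆ S) (hne : S0 ≠ S) {v : V} (hv : v ∈ S0) :
    ∃ u ∈ S, u ∉ S0 ∧ u ≠ v ∧ par G v u ∈ S.erase u ∧ Cvx G (S.erase u) ∧ S0 ⊆ S.erase u ∧
      Edge1 G (S.erase u) {u} (par G v u) u ∧ S.erase u ∪ {u} = S := by
  have hne' : (S \ S0).Nonempty := by
    rw [Finset.sdiff_nonempty]
    intro h
    exact hne (Finset.Subset.antisymm hsub h)
  obtain ⟨u, hu, hmax⟩ := Finset.exists_max_image (S \ S0) (fun u => G.dist v u) hne'
  rw [Finset.mem_sdiff] at hu
  have huv : u ≠ v := by rintro rfl; exact hu.2 hv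
  have hvS := hsub hv
  have hpar : par G v u ∈ S := hS v hvS u hu.1 (Ne.symm huv)
  have hadj := par_adj hT huv
  -- the leaf property
  have hleaf : ∀ w ∈ S, w ≠ v → par G v w ≠ u := by
    intro w hw hwv hpw
    have h1 := par_dist hT hwv
    rw [hpw] at h1
    by_cases hw0 : w ∈ S0
    · exact hu.2 (hpw ▸ h0 v hv w hw0 (Ne.symm hwv))
    · have := hmax w (Finset.mem_sdiff.mpr ⟨hw, hw0⟩)
      omega
  -- neighbours of `u` in `S`
  have hnb : ∀ w ∈ S, G.Adj w u → w = par G v u := by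
    intro w hw hwu
    rcases adj_cases hT v hwu with ⟨h1, h2⟩ | ⟨h1, h2⟩
    · exact absurd h2 (hleaf w hw h1)
    · exact h2.symm
  have hparne : par G v u ≠ u := fun h => by rw [h] at hadj; exact hadj.ne rfl
  refine ⟨u, hu.1, hu.2, huv, Finset.mem_erase.mpr ⟨hparne, hpar⟩, ?_, ?_, ?_, ?_⟩
  · intro x hx y hy hxy
    rw [Finset.mem_erase] at hx hy ⊢
    refine ⟨?_, hS x hx.2 y hy.2 hxy⟩
    intro hp
    -- `par x y = u`, so `u` has two neighbours in `S`
    have h1 := par_adj hT (Ne.symm hxy)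
    rw [hp] at h1
    have h2 := hnb y hy.2 h1
    have hxu : u ≠ x := Ne.symm hx.1
    have h3 := par_adj hT hxu
    have h4 : par G x u ∈ S := hS x hx.2 u hu.1 (Ne.symm hxu)
    have h5 := hnb _ h4 h3.symm
    have h6 := par_dist hT hxu
    have h7 := par_dist hT (Ne.symm hxy)
    rw [hp] at h7
    rw [h5, ← h2] at h6
    omega
  · intro w hw
    rw [Finset.mem_erase]
    exact ⟨fun h => hu.2 (h ▸ hw), hsub hw⟩
  · refine ⟨?_, Finset.mem_erase.mpr ⟨hparne, hpar⟩, Finset.mem_singleton_self u, hadj.symm, ?_⟩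
    · rw [Finset.disjoint_singleton_right]
      exact Finset.notMem_erase u S
    · intro a ha b hb hab
      rw [Finset.mem_singleton] at hb
      subst hb
      exact ⟨hnb a (Finset.mem_of_mem_erase ha) hab, rfl⟩
  · ext w
    simp only [Finset.mem_union, Finset.mem_erase, Finset.mem_singleton]
    constructor
    · rintro (h | rfl)
      · exact h.2
      · exact hu.1
    · intro h
      by_cases hw : w = u
      · exact Or.inr hw
      · exact Or.inl ⟨hw, h⟩

lemma numf_singleton (u : V) (f : V → ℝ × ℝ) (F : Finset V → ℝ) :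
    numf G θ {u} f F = F ∅ * (f u).2 + F {u} * (f u).1 := by
  unfold numf
  have hp : ({u} : Finset V).powerset = {∅, {u}} := by
    ext A
    rw [Finset.mem_powerset, Finset.subset_singleton_iff]
    simp
  rw [hp, Finset.sum_pair (Finset.singleton_ne_empty u).symm]
  have hew : ∀ A : Finset V, ew G θ {u} A = 1 := by
    intro A
    unfold ew
    apply Finset.prod_eq_one
    intro e he
    rw [Finset.mem_filter] at he
    exfalso
    have h1 := he.1
    have h2 := he.2
    induction e using Sym2.ind with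
    | _ a b =>
      rw [Finset.mk_mem_sym2_iff] at h1
      simp only [Finset.mem_singleton] at h1
      rw [SimpleGraph.mem_edgeSet, h1.1, h1.2] at h2
      exact h2.ne rfl
  rw [hew, hew]
  simp [fw]

section

variable {Ω : Type*} [MeasurableSpace Ω] {P : Measure Ω} {X : V → Ω → ℝ × ℝ}

lemma mean_snd (h : FieldData P X) (v : V) : ∫ ω, (X v ω).2 ∂P = 1 := by
  rw [← h.mean v]
  have h1 : ∫ ω, (X v ω).2 ∂P = ∫ p : ℝ × ℝ, p.1 ∂(P.map (fun ω => (X v ω).swap)) := by
    rw [integral_map]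
    · rfl
    · exact (measurable_swap.comp (h.meas v)).aemeasurable
    · exact measurable_fst.aestronglyMeasurable
  have h2 : ∫ ω, (X v ω).1 ∂P = ∫ p : ℝ × ℝ, p.1 ∂(P.map (X v)) := by
    rw [integral_map]
    · exact (h.meas v).aemeasurable
    · exact measurable_fst.aestronglyMeasurable
  rw [h1, h2, h.symm v]

lemma integrable_fst (h : FieldData P X) (v : V) : Integrable (fun ω => (X v ω).1) P := by
  have := h.prob
  obtain ⟨C, hC⟩ := h.bdd
  refine Integrable.of_bound (measurable_fst.comp (h.meas v)).aestronglyMeasurable C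
    (Filter.Eventually.of_forall fun ω => ?_)
  rw [Real.norm_of_nonneg (h.pos v ω).1.le]
  exact (hC v ω).1

lemma integrable_snd (h : FieldData P X) (v : V) : Integrable (fun ω => (X v ω).2) P := by
  have := h.prob
  obtain ⟨C, hC⟩ := h.bdd
  refine Integrable.of_bound (measurable_snd.comp (h.meas v)).aestronglyMeasurable C
    (Filter.Eventually.of_forall fun ω => ?_)
  rw [Real.norm_of_nonneg (h.pos v ω).2.le]
  exact (hC v ω).2

lemma zf_singleton (h : FieldData P X) (u : V) : ∫ ω, zf G θ {u} (fd X ω) ∂P = 1 := by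
  have e : ∀ ω, zf G θ {u} (fd X ω) = ((X u ω).2 + (X u ω).1) / 2 := by
    intro ω
    unfold zf Zf
    rw [numf_singleton]
    simp [fd]
  simp only [e]
  rw [integral_div, integral_add (integrable_snd h u) (integrable_fst h u), mean_snd h u, h.mean u]
  norm_num

lemma num_singleton_zero (h : FieldData P X) (u : V) :
    ∫ ω, numf G θ {u} (fd X ω) (fun A => sg A u) ∂P = 0 := by
  have e : ∀ ω, numf G θ {u} (fd X ω) (fun A => sg A u) = (X u ω).1 - (X u ω).2 := by
    intro ω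
    rw [numf_singleton]
    simp [fd, sg]
    ring
  simp only [e]
  rw [integral_sub (integrable_fst h u) (integrable_snd h u), mean_snd h u, h.mean u]
  norm_num

/-- volume restriction for convex sets -/
theorem restrict (hT : G.IsTree) (h : FieldData P X) (h0 : 0 ≤ θ) (h1 : θ < 1)
    {S0 : Finset V} (hc0 : Cvx G S0) {v : V} (hv : v ∈ S0) {F : (V → ℝ × ℝ) → ℝ}
    (hF : Measurable F) (hFd : DependsOn F (S0 : Set V)) (hFb : Bdd X F) :
    ∀ S : Finset V, Cvx G S → S0 ⊆ S →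
      ∫ ω, zf G θ S (fd X ω) * F (fd X ω) ∂P = ∫ ω, zf G θ S0 (fd X ω) * F (fd X ω) ∂P := by
  intro S
  induction hn : S.card using Nat.strong_induction_on generalizing S with
  | _ n ih =>
    intro hS hsub
    by_cases hne : S0 = S
    · rw [hne]
    · obtain ⟨u, huS, _, _, _, hcv, hsub', hE, hU⟩ := exists_leaf hT hc0 hS hsub hne hv
      have h2 := h.planted_restrict h0 h1 hE hF (DependsOn.mono' hsub' hFd) hFb
        (zf_singleton h u)
      rw [hU] at h2
      rw [h2]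
      refine ih _ ?_ _ rfl hcv hsub'
      rw [← hn]
      exact Finset.card_erase_lt_of_mem huS

theorem zf_one (hT : G.IsTree) (h : FieldData P X) (h0 : 0 ≤ θ) (h1 : θ < 1)
    {S : Finset V} (hc : Cvx G S) {v : V} (hv : v ∈ S) : ∫ ω, zf G θ S (fd X ω) ∂P = 1 := by
  have h2 := restrict (G := G) hT h h0 h1 (cvx_singleton v) (Finset.mem_singleton_self v)
    (F := fun _ => 1) measurable_const (fun _ _ _ => rfl) (Bdd.const 1) S hc (by simpa using hv)
  simp only [mul_one] at h2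
  rw [h2]
  exact zf_singleton h v

/-- martingale property, one leaf -/
theorem mart_one (h : FieldData P X) (h0 : 0 ≤ θ) (h1 : θ < 1) {S1 : Finset V} {x u v : V}
    (e : Edge1 G S1 {u} x u) (hv : v ∈ S1) {H : (V → ℝ × ℝ) → ℝ} (hH : Measurable H)
    (hHd : DependsOn H (S1 : Set V)) (hHb : Bdd X H) :
    ∫ ω, zf G θ (S1 ∪ {u}) (fd X ω) * (magf G θ (S1 ∪ {u}) (fd X ω) v * H (fd X ω)) ∂P
      = ∫ ω, zf G θ S1 (fd X ω) * (magf G θ S1 (fd X ω) v * H (fd X ω)) ∂P := by
  have hcard : (S1 ∪ {u}).card = S1.card + 1 := by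
    rw [Finset.card_union_of_disjoint e.disj, Finset.card_singleton]
  -- numerators
  have hz : ∀ (S : Finset V) (ω : Ω), zf G θ S (fd X ω) * magf G θ S (fd X ω) v =
      numf G θ S (fd X ω) (fun A => sg A v) / 2 ^ S.card := by
    intro S ω
    have hp := Zf_pos' (G := G) h0 h1 (h.posf ω) S
    unfold zf magf meanf
    field_simp
  have hglue : ∀ ω, numf G θ (S1 ∪ {u}) (fd X ω) (fun A => sg A v) =
      numf G θ S1 (fd X ω) (fun A => sg A v) * Zf G θ {u} (fd X ω) +
      θ * (numf G θ S1 (fd X ω) (fun A => sg A v * sg A x) *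
        numf G θ {u} (fd X ω) (fun A => sg A u)) := by
    intro ω
    have h2 := numf_glue (θ := θ) e.disj e.hx e.hc e.adj e.edge (fd X ω)
      (F1 := fun A => sg A v) (F2 := fun _ => 1) (fun A => sg_congr (by simp [hv])) (fun _ => rfl)
    simp only [mul_one, one_mul] at h2
    rw [h2]
    rfl
  have e1 : ∀ ω, zf G θ (S1 ∪ {u}) (fd X ω) * (magf G θ (S1 ∪ {u}) (fd X ω) v * H (fd X ω)) =
      (zf G θ S1 (fd X ω) * (magf G θ S1 (fd X ω) v * H (fd X ω))) * zf G θ {u} (fd X ω) +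
      θ / 2 ^ (S1.card + 1) * ((numf G θ S1 (fd X ω) (fun A => sg A v * sg A x) * H (fd X ω)) *
        numf G θ {u} (fd X ω) (fun A => sg A u)) := by
    intro ω
    have hzu : zf G θ {u} (fd X ω) = Zf G θ {u} (fd X ω) / 2 := by
      unfold zf; rw [Finset.card_singleton, pow_one]
    have hz1 : zf G θ S1 (fd X ω) * (magf G θ S1 (fd X ω) v * H (fd X ω)) =
        numf G θ S1 (fd X ω) (fun A => sg A v) / 2 ^ S1.card * H (fd X ω) := by
      rw [← mul_assoc, hz]
    rw [hz1, ← mul_assoc, hz, hglue, hcard, hzu]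
    field_simp
    ring
  simp only [e1]
  have hdisj : Disjoint S1 {u} := e.disj
  have m1 : Measurable fun f : V → ℝ × ℝ => zf G θ S1 f * (magf G θ S1 f v * H f) :=
    (measurable_zf S1).mul ((measurable_magf S1 v).mul hH)
  have m3 : Measurable fun f : V → ℝ × ℝ => numf G θ S1 f (fun A => sg A v * sg A x) * H f :=
    (measurable_numf S1 _).mul hH
  have d1 : DependsOn (fun f : V → ℝ × ℝ => zf G θ S1 f * (magf G θ S1 f v * H f))
      (S1 : Set V) :=
    DependsOn.mul' (dependsOn_zf S1) (DependsOn.mul' (dependsOn_magf S1 v) hHd)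
  have d3 : DependsOn (fun f : V → ℝ × ℝ => numf G θ S1 f (fun A => sg A v * sg A x) * H f)
      (S1 : Set V) := DependsOn.mul' (dependsOn_numf S1 _) hHd
  have b1 : Bdd X fun f => zf G θ S1 f * (magf G θ S1 f v * H f) :=
    (h.bdd_zf S1).mul ((h.bdd_magf h0 h1 S1 v).mul hHb)
  have b3 : Bdd X fun f => numf G θ S1 f (fun A => sg A v * sg A x) * H f :=
    (h.bdd_numf S1 _).mul hHb
  have J1 := h.integral_mul m1 (measurable_zf (G := G) (θ := θ) {u}) d1 (dependsOn_zf {u}) hdisj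
  have J2 := h.integral_mul m3 (measurable_numf (G := G) (θ := θ) {u} (fun A => sg A u)) d3
    (dependsOn_numf {u} _) hdisj
  have K1 : Integrable (fun ω => zf G θ S1 (fd X ω) * (magf G θ S1 (fd X ω) v * H (fd X ω)) *
      zf G θ {u} (fd X ω)) P :=
    h.integrable (m1.mul (measurable_zf (G := G) (θ := θ) {u})) (b1.mul (h.bdd_zf {u}))
  have K2 : Integrable (fun ω => (numf G θ S1 (fd X ω) (fun A => sg A v * sg A x) * H (fd X ω)) *
      numf G θ {u} (fd X ω) (fun A => sg A u)) P :=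
    h.integrable (m3.mul (measurable_numf (G := G) (θ := θ) {u} (fun A => sg A u)))
      (b3.mul (h.bdd_numf {u} _))
  rw [integral_add K1 (K2.const_mul _), integral_const_mul]
  have J1' : ∫ ω, zf G θ S1 (fd X ω) * (magf G θ S1 (fd X ω) v * H (fd X ω)) *
      zf G θ {u} (fd X ω) ∂P = (∫ ω, zf G θ S1 (fd X ω) * (magf G θ S1 (fd X ω) v *
        H (fd X ω)) ∂P) * ∫ ω, zf G θ {u} (fd X ω) ∂P := J1
  have J2' : ∫ ω, numf G θ S1 (fd X ω) (fun A => sg A v * sg A x) * H (fd X ω) *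
      numf G θ {u} (fd X ω) (fun A => sg A u) ∂P =
      (∫ ω, numf G θ S1 (fd X ω) (fun A => sg A v * sg A x) * H (fd X ω) ∂P) *
        ∫ ω, numf G θ {u} (fd X ω) (fun A => sg A u) ∂P := J2
  rw [J1', J2', zf_singleton h u, num_singleton_zero h u]
  ring

/-- martingale property -/
theorem mart (hT : G.IsTree) (h : FieldData P X) (h0 : 0 ≤ θ) (h1 : θ < 1)
    {S0 : Finset V} (hc0 : Cvx G S0) {v : V} (hv : v ∈ S0) {H : (V → ℝ × ℝ) → ℝ}
    (hH : Measurable H) (hHd : DependsOn H (S0 : Set V)) (hHb : Bdd X H) :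
    ∀ S : Finset V, Cvx G S → S0 ⊆ S →
      ∫ ω, zf G θ S (fd X ω) * (magf G θ S (fd X ω) v * H (fd X ω)) ∂P
        = ∫ ω, zf G θ S0 (fd X ω) * (magf G θ S0 (fd X ω) v * H (fd X ω)) ∂P := by
  intro S
  induction hn : S.card using Nat.strong_induction_on generalizing S with
  | _ n ih =>
    intro hS hsub
    by_cases hne : S0 = S
    · rw [hne]
    · obtain ⟨u, huS, _, _, _, hcv, hsub', hE, hU⟩ := exists_leaf hT hc0 hS hsub hne hv
      have h2 := mart_one h h0 h1 hE (hsub' hv) hH (DependsOn.mono' hsub' hHd) hHb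
      rw [hU] at h2
      rw [h2]
      refine ih _ ?_ _ rfl hcv hsub'
      rw [← hn]
      exact Finset.card_erase_lt_of_mem huS

lemma measurable_magf_sq (S : Finset V) (x : V) :
    Measurable (fun f : V → ℝ × ℝ => magf G θ S f x ^ 2) := (measurable_magf S x).pow_const 2

lemma bdd_magf_sq (h : FieldData P X) (h0 : 0 ≤ θ) (h1 : θ < 1) (S : Finset V) (x : V) :
    Bdd X (fun f => magf G θ S f x ^ 2) := by
  have := (h.bdd_magf (G := G) h0 h1 S x).mul (h.bdd_magf (G := G) h0 h1 S x)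
  simpa [sq] using this

lemma dependsOn_magf_sq (S : Finset V) (x : V) :
    DependsOn (fun f => magf G θ S f x ^ 2) (S : Set V) := by
  intro f g hfg
  have := dependsOn_magf (G := G) (θ := θ) S x hfg
  simp only at this ⊢
  rw [this]

/-- energy identity -/
theorem energy (hT : G.IsTree) (h : FieldData P X) (h0 : 0 ≤ θ) (h1 : θ < 1)
    {S0 : Finset V} (hc0 : Cvx G S0) {v : V} (hv : v ∈ S0) {S : Finset V} (hS : Cvx G S)
    (hsub : S0 ⊆ S) :
    ∫ ω, zf G θ S (fd X ω) * (magf G θ S (fd X ω) v - magf G θ S0 (fd X ω) v) ^ 2 ∂P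
      = ∫ ω, zf G θ S (fd X ω) * magf G θ S (fd X ω) v ^ 2 ∂P
        - ∫ ω, zf G θ S0 (fd X ω) * magf G θ S0 (fd X ω) v ^ 2 ∂P := by
  have e1 := mart hT h h0 h1 hc0 hv (H := fun f => magf G θ S0 f v) (measurable_magf S0 v)
    (dependsOn_magf S0 v) (h.bdd_magf h0 h1 S0 v) S hS hsub
  have e2 := restrict hT h h0 h1 hc0 hv (F := fun f => magf G θ S0 f v ^ 2)
    (measurable_magf_sq S0 v) (dependsOn_magf_sq S0 v) (bdd_magf_sq h h0 h1 S0 v) S hS hsub
  have e3 : ∫ ω, zf G θ S0 (fd X ω) * (magf G θ S0 (fd X ω) v * magf G θ S0 (fd X ω) v) ∂P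
      = ∫ ω, zf G θ S0 (fd X ω) * magf G θ S0 (fd X ω) v ^ 2 ∂P := by
    simp only [sq]
  have i1 : Integrable (fun ω => zf G θ S (fd X ω) * magf G θ S (fd X ω) v ^ 2) P :=
    h.integrable ((measurable_zf S).mul (measurable_magf_sq S v))
      ((h.bdd_zf S).mul (bdd_magf_sq h h0 h1 S v))
  have i2 : Integrable (fun ω => zf G θ S (fd X ω) *
      (magf G θ S (fd X ω) v * magf G θ S0 (fd X ω) v)) P :=
    h.integrable ((measurable_zf S).mul ((measurable_magf S v).mul (measurable_magf S0 v)))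
      ((h.bdd_zf S).mul ((h.bdd_magf h0 h1 S v).mul (h.bdd_magf h0 h1 S0 v)))
  have i3 : Integrable (fun ω => zf G θ S (fd X ω) * magf G θ S0 (fd X ω) v ^ 2) P :=
    h.integrable ((measurable_zf S).mul (measurable_magf_sq S0 v))
      ((h.bdd_zf S).mul (bdd_magf_sq h h0 h1 S0 v))
  have e4 : ∀ ω, zf G θ S (fd X ω) * (magf G θ S (fd X ω) v - magf G θ S0 (fd X ω) v) ^ 2
      = (zf G θ S (fd X ω) * magf G θ S (fd X ω) v ^ 2
        - 2 * (zf G θ S (fd X ω) * (magf G θ S (fd X ω) v * magf G θ S0 (fd X ω) v)))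
        + zf G θ S (fd X ω) * magf G θ S0 (fd X ω) v ^ 2 := by
    intro ω; ring
  simp only [e4]
  have i12 : Integrable (fun ω => zf G θ S (fd X ω) * magf G θ S (fd X ω) v ^ 2
      - 2 * (zf G θ S (fd X ω) * (magf G θ S (fd X ω) v * magf G θ S0 (fd X ω) v))) P :=
    i1.sub (i2.const_mul 2)
  rw [integral_add i12 i3, integral_sub i1 (i2.const_mul 2), integral_const_mul, e1, e2, e3]
  ring

/-- second moments increase with the volume -/
theorem second_mono (hT : G.IsTree) (h : FieldData P X) (h0 : 0 ≤ θ) (h1 : θ < 1)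
    {S0 : Finset V} (hc0 : Cvx G S0) {v : V} (hv : v ∈ S0) {S : Finset V} (hS : Cvx G S)
    (hsub : S0 ⊆ S) :
    ∫ ω, zf G θ S0 (fd X ω) * magf G θ S0 (fd X ω) v ^ 2 ∂P
      ≤ ∫ ω, zf G θ S (fd X ω) * magf G θ S (fd X ω) v ^ 2 ∂P := by
  have e := energy hT h h0 h1 hc0 hv hS hsub
  have : 0 ≤ ∫ ω, zf G θ S (fd X ω) *
      (magf G θ S (fd X ω) v - magf G θ S0 (fd X ω) v) ^ 2 ∂P :=
    integral_nonneg fun ω => mul_nonneg (zf_pos h0 h1 (h.posf ω) S).le (sq_nonneg _)
  linarith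

/-! ### the path decomposition -/

/-- the part of `S` beyond the `i`-th edge of the path -/
noncomputable def AA (G : SimpleGraph V) (S : Finset V) (p : ℕ → V) : ℕ → Finset V
  | 0 => S
  | i + 1 => side G (AA G S p i) (p (i + 1)) (p i)

/-- the part of `S` hanging at `p i` off the path of length `n` -/
noncomputable def TT' (G : SimpleGraph V) (S : Finset V) (p : ℕ → V) (n i : ℕ) : Finset V :=
  if i < n then side G (AA G S p i) (p i) (p (i + 1)) else AA G S p i


lemma AA_cvx (hT : G.IsTree) {S : Finset V} (hS : Cvx G S) {n : ℕ} {p : ℕ → V} (hp : IsNB G n p)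
    {i : ℕ} (hi : i ≤ n) : Cvx G (AA G S p i) := by
  induction i with
  | zero => exact hS
  | succ i ih => exact cvx_side hT (ih (by omega)) (hp.adj i (by omega)).symm

lemma TT_cvx (hT : G.IsTree) {S : Finset V} (hS : Cvx G S) {n : ℕ} {p : ℕ → V} (hp : IsNB G n p)
    {i : ℕ} (hi : i ≤ n) : Cvx G (TT' G S p n i) := by
  unfold TT'
  split_ifs with h
  · exact cvx_side hT (AA_cvx hT hS hp hi) (hp.adj i h)
  · exact AA_cvx hT hS hp hi

lemma mem_AA (hT : G.IsTree) {S : Finset V} {n : ℕ} {p : ℕ → V} (hp : IsNB G n p)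
    (hpS : ∀ i ≤ n, p i ∈ S) {i j : ℕ} (hij : i ≤ j) (hj : j ≤ n) : p j ∈ AA G S p i := by
  induction i with
  | zero => exact hpS j hj
  | succ i ih =>
    rw [AA, mem_side]
    refine ⟨ih (by omega), ?_⟩
    rw [SimpleGraph.dist_comm (u := p j) (v := p (i + 1)),
      SimpleGraph.dist_comm (u := p j) (v := p i), hp.dist hT hij hj,
      hp.dist hT (by omega) hj]
    omega

lemma mem_TT (hT : G.IsTree) {S : Finset V} {n : ℕ} {p : ℕ → V} (hp : IsNB G n p)
    (hpS : ∀ i ≤ n, p i ∈ S) {i : ℕ} (hi : i ≤ n) : p i ∈ TT' G S p n i := by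
  unfold TT'
  split_ifs with h
  · exact left_mem_side (mem_AA hT hp hpS le_rfl hi) (hp.adj i h)
  · exact mem_AA hT hp hpS le_rfl hi

lemma AA_eq (hT : G.IsTree) {S : Finset V} {n : ℕ} {p : ℕ → V} (hp : IsNB G n p) {i : ℕ}
    (hi : i < n) : AA G S p (i + 1) = side G S (p (i + 1)) (p i) := by
  induction i with
  | zero => rfl
  | succ i ih =>
    have h1 := ih (by omega)
    rw [AA, h1]
    ext y
    rw [mem_side, mem_side, mem_side]
    constructor
    · rintro ⟨⟨h2, _⟩, h3⟩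
      exact ⟨h2, h3⟩
    · rintro ⟨h2, h3⟩
      refine ⟨⟨h2, ?_⟩, h3⟩
      by_contra h4
      have a1 := hp.adj i (by omega)
      have a2 := hp.adj (i + 1) hi
      have b1 := hT.dist_eq_dist_add_one_of_adj y a1
      have b2 := hT.dist_eq_dist_add_one_of_adj y a2
      have h5 : p (i + 1 + 1) = p i := unique_closer hT (r := y) a2 a1.symm (by omega) (by omega)
      exact hp.nb i (by omega) h5

lemma TT_edge (hT : G.IsTree) {S : Finset V} {n : ℕ} {p : ℕ → V} (hp : IsNB G n p)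
    (hpS : ∀ i ≤ n, p i ∈ S) {i : ℕ} (hi : i < n) :
    Edge1 G (TT' G S p n i) (AA G S p (i + 1)) (p i) (p (i + 1)) ∧
      TT' G S p n i ∪ AA G S p (i + 1) = AA G S p i := by
  have e : TT' G S p n i = side G (AA G S p i) (p i) (p (i + 1)) := by
    unfold TT'; rw [if_pos hi]
  rw [e]
  have hadj := hp.adj i hi
  refine ⟨⟨side_disjoint _ _ _, left_mem_side (mem_AA hT hp hpS le_rfl hi.le) hadj, ?_, hadj,
    side_only hT _ hadj⟩, side_union hT _ hadj⟩
  exact left_mem_side (mem_AA hT hp hpS (by omega) (by omega)) hadj.symm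

/-- the functional `1 - γ_i²/40` -/
noncomputable def gg (G : SimpleGraph V) (θ : ℝ) (S : Finset V) (p : ℕ → V) (n i : ℕ)
    (f : V → ℝ × ℝ) : ℝ := 1 - magf G θ (TT' G S p n i) f (p i) ^ 2 / 40

lemma TT_sub_AA (S : Finset V) (p : ℕ → V) (n i : ℕ) : TT' G S p n i ⊆ AA G S p i := by
  unfold TT'
  split_ifs
  · exact side_subset _ _ _
  · exact subset_rfl

lemma AA_anti (S : Finset V) (p : ℕ → V) {i j : ℕ} (hij : i ≤ j) : AA G S p j ⊆ AA G S p i := by
  induction j with
  | zero =>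
    have : i = 0 := by omega
    rw [this]
  | succ j ih =>
    rcases Nat.lt_or_ge i (j + 1) with h | h
    · exact (side_subset _ _ _).trans (ih (by omega))
    · have : i = j + 1 := by omega
      rw [this]

lemma measurable_gg (S : Finset V) (p : ℕ → V) (n i : ℕ) : Measurable (gg G θ S p n i) := by
  unfold gg
  exact ((measurable_magf_sq _ _).div_const _).const_sub 1

lemma dependsOn_gg (S : Finset V) (p : ℕ → V) (n i : ℕ) :
    DependsOn (gg G θ S p n i) (TT' G S p n i : Set V) := by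
  intro f g hfg
  have := dependsOn_magf_sq (G := G) (θ := θ) (TT' G S p n i) (p i) hfg
  simp only [gg] at this ⊢
  rw [this]

lemma bdd_gg (h : FieldData P X) (h0 : 0 ≤ θ) (h1 : θ < 1) (S : Finset V) (p : ℕ → V) (n i : ℕ) :
    Bdd X (gg G θ S p n i) := by
  refine ⟨1, fun ω => ?_⟩
  have h2 := abs_magf_le' (G := G) h0 h1 (h.posf ω) (TT' G S p n i) (p i)
  have h3 := sq_le_one_of_abs h2
  unfold gg
  rw [abs_le]
  constructor <;> nlinarith [sq_nonneg (magf G θ (TT' G S p n i) (fd X ω) (p i))]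

lemma even_gg (hT : G.IsTree) {S : Finset V} {n : ℕ} {p : ℕ → V} (hp : IsNB G n p)
    (hpS : ∀ i ≤ n, p i ∈ S) {i : ℕ} (hi : i ≤ n) (f : V → ℝ × ℝ) :
    gg G θ S p n i (flipOn (TT' G S p n i : Set V) f) = gg G θ S p n i f := by
  unfold gg
  rw [magf_flip subset_rfl f (mem_TT hT hp hpS hi)]
  ring

/-- second moment of the local datum at `v` -/
noncomputable def own (P : Measure Ω) (X : V → Ω → ℝ × ℝ) (G : SimpleGraph V) (θ : ℝ) (v : V) : ℝ :=
  ∫ ω, zf G θ {v} (fd X ω) * magf G θ {v} (fd X ω) v ^ 2 ∂P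

/-- `PE (1 - γ_i²/40) ≤ 1 - I/40` -/
lemma int_gg_le (hT : G.IsTree) (h : FieldData P X) (h0 : 0 ≤ θ) (h1 : θ < 1) {S : Finset V}
    (hS : Cvx G S) {n : ℕ} {p : ℕ → V} (hp : IsNB G n p) (hpS : ∀ i ≤ n, p i ∈ S) {i : ℕ}
    (hi : i ≤ n) {I : ℝ} (hI : I ≤ own P X G θ (p i)) :
    ∫ ω, zf G θ (TT' G S p n i) (fd X ω) * gg G θ S p n i (fd X ω) ∂P ≤ 1 - I / 40 := by
  have hmem := mem_TT hT hp hpS hi
  have hc := TT_cvx hT hS hp hi
  have e : ∀ ω, zf G θ (TT' G S p n i) (fd X ω) * gg G θ S p n i (fd X ω)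
      = zf G θ (TT' G S p n i) (fd X ω)
        - (zf G θ (TT' G S p n i) (fd X ω) * magf G θ (TT' G S p n i) (fd X ω) (p i) ^ 2) / 40 := by
    intro ω
    unfold gg
    ring
  simp only [e]
  rw [integral_sub, integral_div, zf_one hT h h0 h1 hc hmem]
  · have h2 := second_mono hT h h0 h1 (cvx_singleton (p i)) (Finset.mem_singleton_self _) hc
      (by simpa using hmem)
    unfold own at hI
    linarith
  · exact h.integrable (measurable_zf _) (h.bdd_zf _)
  · exact (h.integrable ((measurable_zf (G := G) (θ := θ) (TT' G S p n i)).mul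
      (measurable_magf_sq _ _)) ((h.bdd_zf _).mul (bdd_magf_sq h h0 h1 _ _))).div_const _

lemma dependsOn_prod_gg (S : Finset V) (p : ℕ → V) (n i : ℕ) :
    DependsOn (fun f => ∏ j ∈ Finset.Ico i (n + 1), gg G θ S p n j f) (AA G S p i : Set V) := by
  intro f g hfg
  simp only
  refine Finset.prod_congr rfl fun j hj => ?_
  rw [Finset.mem_Ico] at hj
  apply dependsOn_gg (G := G) (θ := θ) S p n j
  intro v hv
  apply hfg
  have h1 := TT_sub_AA (G := G) S p n j
  have h2 := AA_anti (G := G) S p hj.1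
  exact_mod_cast h2 (h1 (by exact_mod_cast hv))

lemma measurable_prod_gg (S : Finset V) (p : ℕ → V) (n i : ℕ) :
    Measurable (fun f : V → ℝ × ℝ => ∏ j ∈ Finset.Ico i (n + 1), gg G θ S p n j f) :=
  Finset.measurable_fun_prod _ fun j _ => measurable_gg S p n j

/-- factorisation along the path -/
lemma prod_gg_le (hT : G.IsTree) (h : FieldData P X) (h0 : 0 ≤ θ) (h1 : θ < 1) {S : Finset V}
    (hS : Cvx G S) {n : ℕ} {p : ℕ → V} (hp : IsNB G n p) (hpS : ∀ i ≤ n, p i ∈ S) {I : ℝ}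
    (hI1 : I ≤ 40) (hI : ∀ i ≤ n, I ≤ own P X G θ (p i)) (k : ℕ) (hk : k ≤ n) :
    ∫ ω, zf G θ (AA G S p (n - k)) (fd X ω) *
      ∏ j ∈ Finset.Ico (n - k) (n + 1), gg G θ S p n j (fd X ω) ∂P ≤ (1 - I / 40) ^ (k + 1) := by
  induction k with
  | zero =>
    have h2 := int_gg_le hT h h0 h1 hS hp hpS le_rfl (hI n le_rfl)
    have e : TT' G S p n n = AA G S p n := by unfold TT'; rw [if_neg (lt_irrefl n)]
    rw [e] at h2
    simpa [Nat.Ico_succ_singleton] using h2
  | succ k ih =>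
    have hlt : n - (k + 1) < n := by omega
    have hk' : n - (k + 1) + 1 = n - k := by omega
    obtain ⟨hE, hU⟩ := TT_edge hT hp hpS hlt
    rw [hk'] at hE hU
    have h2 := h.planted_mul h0 h1 hE (F := gg G θ S p n (n - (k + 1)))
      (H := fun f => ∏ j ∈ Finset.Ico (n - k) (n + 1), gg G θ S p n j f)
      (measurable_gg S p n _) (measurable_prod_gg S p n _) (dependsOn_gg S p n _)
      (dependsOn_prod_gg S p n _) (bdd_gg h h0 h1 S p n _)
      (Bdd.prod fun j _ => bdd_gg h h0 h1 S p n j) (even_gg hT hp hpS hlt.le)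
    rw [hU] at h2
    have e : ∀ f, ∏ j ∈ Finset.Ico (n - (k + 1)) (n + 1), gg G θ S p n j f
        = gg G θ S p n (n - (k + 1)) f * ∏ j ∈ Finset.Ico (n - k) (n + 1), gg G θ S p n j f := by
      intro f
      rw [Finset.prod_eq_prod_Ico_succ_bot (by omega), hk']
    simp only [e]
    rw [h2, pow_succ, mul_comm]
    have h3 := int_gg_le hT h h0 h1 hS hp hpS hlt.le (hI _ hlt.le)
    have h4 : 0 ≤ ∫ ω, zf G θ (TT' G S p n (n - (k + 1))) (fd X ω) *
        gg G θ S p n (n - (k + 1)) (fd X ω) ∂P := by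
      refine integral_nonneg fun ω => mul_nonneg (zf_pos h0 h1 (h.posf ω) _).le ?_
      have h5 := sq_le_one_of_abs
        (abs_magf_le' (G := G) h0 h1 (h.posf ω) (TT' G S p n (n - (k + 1))) (p (n - (k + 1))))
      unfold gg
      linarith
    have h6 : 0 ≤ 1 - I / 40 := by linarith
    exact mul_le_mul (ih (by omega)) h3 h4 (by positivity)

/-- pathwise bound -/
lemma rprod_le_gg (hT : G.IsTree) (h0 : 0 ≤ θ) (h2 : θ ^ 2 ≤ 1 / 2) {S : Finset V}
    {n : ℕ} {p : ℕ → V} (hp : IsNB G n p) (hpS : ∀ i ≤ n, p i ∈ S)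
    {f : V → ℝ × ℝ} (hf : Pos f) :
    rprod G θ (magf G θ S f) (p 0) (p n) ≤ ∏ j ∈ Finset.Ico 1 (n + 1), gg G θ S p n j f := by
  have h1 := theta_lt_one h0 h2
  have hf' : ∀ v ∈ S, 0 < (f v).1 ∧ 0 < (f v).2 := fun v _ => hf v
  rw [rprod_path hT θ _ hp]
  have e1 : ∀ i ∈ Finset.range n, rho θ (magf G θ S f (p i)) (magf G θ S f (p (i + 1)))
      = (1 - magf G θ (AA G S p (i + 1)) f (p (i + 1)) ^ 2) /
        (1 - θ ^ 2 * magf G θ (AA G S p (i + 1)) f (p (i + 1)) ^ 2) := by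
    intro i hi
    rw [Finset.mem_range] at hi
    rw [AA_eq hT hp hi]
    exact (mag_edge hT h0 h1 hf' (hpS i hi.le) (hpS (i + 1) hi) (hp.adj i hi)).2.2
  rw [Finset.prod_congr rfl e1]
  have e2 := prod_rho_le h0 h2 n (fun i => magf G θ (AA G S p (i + 1)) f (p (i + 1)))
    (fun i => magf G θ (TT' G S p n (i + 1)) f (p (i + 1)))
    (fun j _ => abs_magf_le' h0 h1 hf _ _) (fun j _ => abs_magf_le' h0 h1 hf _ _)
    (fun j hj => by
      obtain ⟨hE, hU⟩ := TT_edge hT hp hpS hj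
      have := magf_glue hE h0 h1 hf
      rw [hU] at this
      exact this)
    (fun j hj => by
      have : TT' G S p n (j + 1) = AA G S p (j + 1) := by
        unfold TT'; rw [if_neg (by omega)]
      simp only [this])
  refine e2.trans (le_of_eq ?_)
  rw [Finset.prod_Ico_eq_prod_range]
  refine Finset.prod_congr (by congr 1) fun j _ => ?_
  unfold gg
  rw [add_comm 1 j]

/-- **Path bound**. -/
theorem path_bound (hT : G.IsTree) (h : FieldData P X) (h0 : 0 ≤ θ) (h2 : θ ^ 2 ≤ 1 / 2)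
    {S : Finset V} (hS : Cvx G S) {n : ℕ} {p : ℕ → V} (hp : IsNB G n p) (hpS : ∀ i ≤ n, p i ∈ S)
    {I : ℝ} (hI1 : I ≤ 40) (hI : ∀ i ≤ n, I ≤ own P X G θ (p i)) :
    ∫ ω, zf G θ S (fd X ω) * rprod G θ (magf G θ S (fd X ω)) (p 0) (p n) ∂P
      ≤ (1 - I / 40) ^ n := by
  have h1 := theta_lt_one h0 h2
  have hint : Integrable (fun ω => zf G θ S (fd X ω) *
      ∏ j ∈ Finset.Ico 1 (n + 1), gg G θ S p n j (fd X ω)) P :=
    h.integrable ((measurable_zf S).mul (measurable_prod_gg S p n 1))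
      ((h.bdd_zf S).mul (Bdd.prod fun j _ => bdd_gg h h0 h1 S p n j))
  have hle : ∫ ω, zf G θ S (fd X ω) * rprod G θ (magf G θ S (fd X ω)) (p 0) (p n) ∂P
      ≤ ∫ ω, zf G θ S (fd X ω) * ∏ j ∈ Finset.Ico 1 (n + 1), gg G θ S p n j (fd X ω) ∂P := by
    refine integral_mono_of_nonneg (Filter.Eventually.of_forall fun ω => ?_) hint
      (Filter.Eventually.of_forall fun ω => ?_)
    · exact mul_nonneg (zf_pos h0 h1 (h.posf ω) S).le
        (rprod_nonneg h0 h1 (fun v => abs_magf_le' h0 h1 (h.posf ω) S v) _ _)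
    · exact mul_le_mul_of_nonneg_left (rprod_le_gg hT h0 h2 hp hpS (h.posf ω))
        (zf_pos h0 h1 (h.posf ω) S).le
  refine hle.trans ?_
  rcases Nat.eq_zero_or_pos n with hn | hn
  · subst hn
    simp only [zero_add, Finset.Ico_self, Finset.prod_empty, mul_one, pow_zero]
    exact (zf_one hT h h0 h1 hS (hpS 0 le_rfl)).le
  · obtain ⟨hE, hU⟩ := TT_edge hT hp hpS hn
    have h3 := h.planted_mul h0 h1 hE (F := fun _ => 1)
      (H := fun f => ∏ j ∈ Finset.Ico 1 (n + 1), gg G θ S p n j f)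
      measurable_const (measurable_prod_gg S p n _) (fun _ _ _ => rfl)
      (dependsOn_prod_gg S p n _) (Bdd.const 1)
      (Bdd.prod fun j _ => bdd_gg h h0 h1 S p n j) (fun _ => rfl)
    rw [hU] at h3
    have hA0 : AA G S p 0 = S := rfl
    rw [hA0] at h3
    simp only [one_mul, mul_one] at h3
    rw [h3, zf_one hT h h0 h1 (TT_cvx hT hS hp hn.le) (mem_TT hT hp hpS hn.le), one_mul]
    have h4 := prod_gg_le hT h h0 h1 hS hp hpS hI1 hI (n - 1) (by omega)
    rw [show n - (n - 1) = 1 by omega, show n - 1 + 1 = n by omega] at h4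
    exact h4

lemma path_mem (hT : G.IsTree) {S : Finset V} (hS : Cvx G S) {n : ℕ} {p : ℕ → V}
    (hp : IsNB G n p) (h0 : p 0 ∈ S) (hn : p n ∈ S) : ∀ i ≤ n, p i ∈ S := by
  have key : ∀ k ≤ n, p (n - k) ∈ S := by
    intro k
    induction k with
    | zero => intro _; simpa using hn
    | succ k ih =>
      intro hk
      have h1 := ih (by omega)
      have h2 := hp.dist_par hT (n - k) (by omega)
      have h3 := h2.2 (by omega)
      have hne : p 0 ≠ p (n - k) := by
        intro h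
        rw [← h, SimpleGraph.dist_self] at h2
        omega
      have h4 := hS _ h0 _ h1 hne
      rw [h3] at h4
      rwa [show n - k - 1 = n - (k + 1) by omega] at h4
  intro i hi
  have := key (n - i) (by omega)
  rwa [show n - (n - i) = i by omega] at this

/-- **Path bound**, vertex form. -/
theorem path_bound' (hT : G.IsTree) (h : FieldData P X) (h0 : 0 ≤ θ) (h2 : θ ^ 2 ≤ 1 / 2)
    {S : Finset V} (hS : Cvx G S) {v x : V} (hv : v ∈ S) (hx : x ∈ S)
    {I : ℝ} (hI1 : I ≤ 40) (hI : ∀ u ∈ S, I ≤ own P X G θ u) :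
    ∫ ω, zf G θ S (fd X ω) * rprod G θ (magf G θ S (fd X ω)) v x ∂P
      ≤ (1 - I / 40) ^ G.dist v x := by
  obtain ⟨p, hp, e0, en⟩ := exists_geodesic hT v x
  have hpS := path_mem hT hS hp (by rwa [e0]) (by rwa [en])
  have := path_bound hT h h0 h2 hS hp hpS hI1 (fun i hi => hI _ (hpS i hi))
  rwa [e0, en] at this

/-- second moment of the covariance -/
theorem cov_sq_le (hT : G.IsTree) (h : FieldData P X) (h0 : 0 ≤ θ) (h2 : θ ^ 2 ≤ 1 / 2)
    {S : Finset V} (hS : Cvx G S) {v x : V} (hv : v ∈ S) (hx : x ∈ S)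
    {I : ℝ} (hI1 : I ≤ 40) (hI : ∀ u ∈ S, I ≤ own P X G θ u) :
    ∫ ω, zf G θ S (fd X ω) * covf G θ S (fd X ω) v x ^ 2 ∂P
      ≤ (θ ^ 2 * (1 - I / 40)) ^ G.dist v x := by
  have h1 := theta_lt_one h0 h2
  have hle : ∀ ω, zf G θ S (fd X ω) * covf G θ S (fd X ω) v x ^ 2 ≤
      (θ ^ 2) ^ G.dist v x * (zf G θ S (fd X ω) * rprod G θ (magf G θ S (fd X ω)) v x) := by
    intro ω
    have hm : ∀ v, |magf G θ S (fd X ω) v| ≤ 1 := fun v => abs_magf_le' h0 h1 (h.posf ω) S v
    rw [covf_eq_MM hT h0 h1 (fun v _ => (h.posf ω) v) hS hv hx]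
    have a1 := rprod_nonneg (G := G) h0 h1 hm v x
    have a2 := rprod_le_one (G := G) h0 h2 hm v x
    have a3 := sq_le_one_of_abs (hm v)
    have a4 := (zf_pos (G := G) h0 h1 (h.posf ω) S).le
    have a5 : MM G θ (magf G θ S (fd X ω)) v x ^ 2 ≤ (θ ^ 2) ^ G.dist v x *
        rprod G θ (magf G θ S (fd X ω)) v x := by
      unfold MM
      rw [mul_pow, mul_pow, ← pow_mul, ← pow_mul, mul_comm (G.dist v x) 2]
      have b1 : (1 - magf G θ S (fd X ω) v ^ 2) ^ 2 ≤ 1 := by
        nlinarith [sq_nonneg (magf G θ S (fd X ω) v)]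
      have b2 : rprod G θ (magf G θ S (fd X ω)) v x ^ 2 ≤
          rprod G θ (magf G θ S (fd X ω)) v x := by nlinarith
      have b3 : 0 ≤ θ ^ (2 * G.dist v x) := by positivity
      calc (1 - magf G θ S (fd X ω) v ^ 2) ^ 2 * θ ^ (2 * G.dist v x) *
            rprod G θ (magf G θ S (fd X ω)) v x ^ 2
          ≤ 1 * θ ^ (2 * G.dist v x) * rprod G θ (magf G θ S (fd X ω)) v x := by
            gcongr
        _ = θ ^ (2 * G.dist v x) * rprod G θ (magf G θ S (fd X ω)) v x := by ring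
    calc zf G θ S (fd X ω) * MM G θ (magf G θ S (fd X ω)) v x ^ 2
        ≤ zf G θ S (fd X ω) * ((θ ^ 2) ^ G.dist v x *
          rprod G θ (magf G θ S (fd X ω)) v x) := mul_le_mul_of_nonneg_left a5 a4
      _ = _ := by ring
  have hmr : Measurable fun ω => rprod G θ (magf G θ S (fd X ω)) v x :=
    measurable_rprod θ (fun u => (measurable_magf S u).comp h.measurable_field) v x
  have hir : Integrable (fun ω => zf G θ S (fd X ω) * rprod G θ (magf G θ S (fd X ω)) v x) P := by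
    have := h.prob
    obtain ⟨K, hK⟩ := h.bdd_zf (G := G) (θ := θ) S
    refine Integrable.of_bound (((measurable_zf S).comp h.measurable_field).mul hmr).aestronglyMeasurable K
      (Filter.Eventually.of_forall fun ω => ?_)
    have hm : ∀ v, |magf G θ S (fd X ω) v| ≤ 1 := fun v => abs_magf_le' h0 h1 (h.posf ω) S v
    rw [Real.norm_eq_abs, abs_mul, abs_of_nonneg (rprod_nonneg (G := G) h0 h1 hm v x)]
    exact (mul_le_of_le_one_right (abs_nonneg _) (rprod_le_one (G := G) h0 h2 hm v x)).trans (hK ω)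
  calc ∫ ω, zf G θ S (fd X ω) * covf G θ S (fd X ω) v x ^ 2 ∂P
      ≤ ∫ ω, (θ ^ 2) ^ G.dist v x *
        (zf G θ S (fd X ω) * rprod G θ (magf G θ S (fd X ω)) v x) ∂P := by
        refine integral_mono_of_nonneg (Filter.Eventually.of_forall fun ω => ?_)
          (hir.const_mul _) (Filter.Eventually.of_forall hle)
        exact mul_nonneg (zf_pos h0 h1 (h.posf ω) S).le (sq_nonneg _)
    _ = (θ ^ 2) ^ G.dist v x *
        ∫ ω, zf G θ S (fd X ω) * rprod G θ (magf G θ S (fd X ω)) v x ∂P := integral_const_mul _ _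
    _ ≤ (θ ^ 2) ^ G.dist v x * (1 - I / 40) ^ G.dist v x := by
        apply mul_le_mul_of_nonneg_left (path_bound' hT h h0 h2 hS hv hx hI1 hI) (by positivity)
    _ = _ := by rw [mul_pow]

end

end Crest.Agent.R160.PathBound
private theorem rz_d9927f1afa : type_of% @_root_.Crest.Agent.R160.PathBound.AA.eq_def := @_root_.Crest.Agent.R160.PathBound.AA.eq_def -- L384
private theorem rz_19040dee5b : type_of% @_root_.Crest.Agent.R160.PathBound.AA.eq_1 := @_root_.Crest.Agent.R160.PathBound.AA.eq_1 -- L384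
end

-- ▼ part R160/VolComp

/-! Row 160: comparison of the magnetizations in two convex volumes under the planted law. -/

set_option autoImplicit false
set_option linter.unusedSectionVars false

open MeasureTheory ProbabilityTheory
open scoped Classical

namespace Crest.Agent.R160.PathBound

open Crest.Agent.R160 Crest.Agent.R160.TreeAut Crest.Agent.R160.Static

variable {V : Type*} {G : SimpleGraph V} {θ : ℝ}

section

variable {Ω : Type*} [MeasurableSpace Ω] {P : Measure Ω} {X : V → Ω → ℝ × ℝ}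

lemma measurable_covf (S : Finset V) (v x : V) :
    Measurable (fun f : V → ℝ × ℝ => covf G θ S f v x) := by
  unfold covf meanf
  exact ((measurable_numf S _).div (measurable_Zf S)).sub
    ((measurable_magf S v).mul (measurable_magf S x))

lemma dependsOn_covf (S : Finset V) (v x : V) :
    DependsOn (fun f : V → ℝ × ℝ => covf G θ S f v x) (S : Set V) := by
  intro f g hfg
  have a1 := dependsOn_numf (G := G) (θ := θ) S (fun A => sg A v * sg A x) hfg
  have a2 := dependsOn_Zf (G := G) (θ := θ) S hfg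
  have a3 := dependsOn_magf (G := G) (θ := θ) S v hfg
  have a4 := dependsOn_magf (G := G) (θ := θ) S x hfg
  simp only [covf, meanf] at a1 a2 a3 a4 ⊢
  rw [a1, a2, a3, a4]

lemma abs_covf_le (h0 : 0 ≤ θ) (h1 : θ < 1) {f : V → ℝ × ℝ} (hf : Pos f) (S : Finset V)
    (v x : V) : |covf G θ S f v x| ≤ 2 := by
  have a1 : |meanf G θ S f (fun A => sg A v * sg A x)| ≤ 1 :=
    abs_meanf_le h0 h1 (fun v _ => hf v) fun A _ => by
      rw [abs_mul, abs_sg_eq, abs_sg_eq, one_mul]
  have a2 := abs_magf_le' (G := G) h0 h1 hf S v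
  have a3 := abs_magf_le' (G := G) h0 h1 hf S x
  unfold covf
  have a4 : |magf G θ S f v * magf G θ S f x| ≤ 1 := by
    rw [abs_mul]; exact mul_le_one₀ a2 (abs_nonneg _) a3
  refine (abs_sub _ _).trans ?_
  linarith

/-- increment of the magnetization when a leaf is added -/
lemma incr (h0 : 0 ≤ θ) (h1 : θ < 1) {S1 : Finset V} {x u v : V} (e : Edge1 G S1 {u} x u)
    (hv : v ∈ S1) {f : V → ℝ × ℝ} (hf : Pos f) :
    magf G θ (S1 ∪ {u}) f v - magf G θ S1 f v =
      θ * magf G θ {u} f u * covf G θ S1 f v x / (1 + θ * magf G θ S1 f x * magf G θ {u} f u) := by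
  have h2 := meanf_glue h0 h1 e.disj e.hx e.hc e.adj e.edge (fun w _ => hf w)
    (F1 := fun A => sg A v) (F2 := fun _ => 1) (fun A => sg_congr (by simp [hv])) (fun _ => rfl)
  have e2 : meanf G θ {u} f (fun _ => 1) = 1 := meanf_one h0 h1 fun w _ => hf w
  simp only [mul_one, one_mul, e2] at h2
  have hD := cav_den_pos h0 h1 (abs_magf_le' (G := G) h0 h1 hf S1 x)
    (abs_magf_le' (G := G) h0 h1 hf {u} u)
  have h3 : magf G θ (S1 ∪ {u}) f v = _ := h2
  rw [h3]
  have hm : meanf G θ S1 f (fun A => sg A v) = magf G θ S1 f v := rfl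
  have hmu : meanf G θ {u} f (fun A => sg A u) = magf G θ {u} f u := rfl
  rw [hm, hmu]
  unfold covf
  rw [eq_div_iff hD.ne', sub_mul, div_mul_cancel₀ _ hD.ne']
  ring

theorem incr_sq_le (h : FieldData P X) (h0 : 0 ≤ θ) (h2 : θ ^ 2 ≤ 1 / 2) {S1 : Finset V}
    {x u v : V} (e : Edge1 G S1 {u} x u) (hv : v ∈ S1) :
    ∫ ω, zf G θ (S1 ∪ {u}) (fd X ω) *
      (magf G θ (S1 ∪ {u}) (fd X ω) v - magf G θ S1 (fd X ω) v) ^ 2 ∂P
      ≤ 2 * ∫ ω, zf G θ S1 (fd X ω) * covf G θ S1 (fd X ω) v x ^ 2 ∂P := by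
  have h1 := theta_lt_one h0 h2
  have hpt : ∀ ω, zf G θ (S1 ∪ {u}) (fd X ω) *
      (magf G θ (S1 ∪ {u}) (fd X ω) v - magf G θ S1 (fd X ω) v) ^ 2
      ≤ 2 * ((zf G θ S1 (fd X ω) * covf G θ S1 (fd X ω) v x ^ 2) * zf G θ {u} (fd X ω)) := by
    intro ω
    have hf := h.posf ω
    rw [incr h0 h1 e hv hf, zf_glue e h0 h1 hf]
    have b1 := abs_magf_le' (G := G) h0 h1 hf S1 x
    have b2 := abs_magf_le' (G := G) h0 h1 hf {u} u
    set m := magf G θ S1 (fd X ω) x
    set a := magf G θ {u} (fd X ω) u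
    set c := covf G θ S1 (fd X ω) v x
    have z1 := (zf_pos (G := G) h0 h1 hf S1).le
    have z2 := (zf_pos (G := G) h0 h1 hf {u}).le
    set Z1 := zf G θ S1 (fd X ω)
    set Z2 := zf G θ {u} (fd X ω)
    have hD : 7 / 25 ≤ 1 + θ * m * a := by
      have c1 := one_sub_pos h0 h2
      obtain ⟨_, c2⟩ := mul_le_one_of_abs b1 b2
      nlinarith
    have hD0 : 0 < 1 + θ * m * a := by linarith
    have e1 : Z1 * Z2 * (1 + θ * m * a) * (θ * a * c / (1 + θ * m * a)) ^ 2
        = (Z1 * Z2 * c ^ 2) * (θ ^ 2 * a ^ 2 / (1 + θ * m * a)) := by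
      field_simp
    rw [e1]
    have e2 : θ ^ 2 * a ^ 2 / (1 + θ * m * a) ≤ 2 := by
      rw [div_le_iff₀ hD0]
      have := sq_le_one_of_abs b2
      nlinarith [sq_nonneg θ, sq_nonneg a]
    have e3 : 0 ≤ Z1 * Z2 * c ^ 2 := by positivity
    calc (Z1 * Z2 * c ^ 2) * (θ ^ 2 * a ^ 2 / (1 + θ * m * a)) ≤ (Z1 * Z2 * c ^ 2) * 2 :=
          mul_le_mul_of_nonneg_left e2 e3
      _ = 2 * (Z1 * c ^ 2 * Z2) := by ring
  have mc : Measurable fun f : V → ℝ × ℝ => zf G θ S1 f * covf G θ S1 f v x ^ 2 :=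
    (measurable_zf S1).mul ((measurable_covf S1 v x).pow_const 2)
  have dc : DependsOn (fun f : V → ℝ × ℝ => zf G θ S1 f * covf G θ S1 f v x ^ 2)
      (S1 : Set V) := by
    intro f g hfg
    have a1 := dependsOn_zf (G := G) (θ := θ) S1 hfg
    have a2 := dependsOn_covf (G := G) (θ := θ) S1 v x hfg
    simp only at a1 a2 ⊢
    rw [a1, a2]
  have bc : Bdd X fun f => zf G θ S1 f * covf G θ S1 f v x ^ 2 := by
    refine (h.bdd_zf S1).mul ⟨4, fun ω => ?_⟩
    have := abs_covf_le (G := G) h0 h1 (h.posf ω) S1 v x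
    rw [abs_pow]
    calc |covf G θ S1 (fd X ω) v x| ^ 2 ≤ 2 ^ 2 := pow_le_pow_left₀ (abs_nonneg _) this 2
      _ = 4 := by norm_num
  have J := h.integral_mul mc (measurable_zf (G := G) (θ := θ) {u}) dc (dependsOn_zf {u}) e.disj
  have J' : ∫ ω, (zf G θ S1 (fd X ω) * covf G θ S1 (fd X ω) v x ^ 2) * zf G θ {u} (fd X ω) ∂P
      = (∫ ω, zf G θ S1 (fd X ω) * covf G θ S1 (fd X ω) v x ^ 2 ∂P) *
        ∫ ω, zf G θ {u} (fd X ω) ∂P := J
  have K : Integrable (fun ω => (zf G θ S1 (fd X ω) * covf G θ S1 (fd X ω) v x ^ 2) *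
      zf G θ {u} (fd X ω)) P :=
    h.integrable (mc.mul (measurable_zf (G := G) (θ := θ) {u})) (bc.mul (h.bdd_zf {u}))
  calc ∫ ω, zf G θ (S1 ∪ {u}) (fd X ω) *
      (magf G θ (S1 ∪ {u}) (fd X ω) v - magf G θ S1 (fd X ω) v) ^ 2 ∂P
      ≤ ∫ ω, 2 * ((zf G θ S1 (fd X ω) * covf G θ S1 (fd X ω) v x ^ 2) *
        zf G θ {u} (fd X ω)) ∂P := by
        refine integral_mono_of_nonneg (Filter.Eventually.of_forall fun ω => ?_)
          (K.const_mul 2) (Filter.Eventually.of_forall hpt)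
        exact mul_nonneg (zf_pos h0 h1 (h.posf ω) _).le (sq_nonneg _)
    _ = _ := by rw [integral_const_mul, J', zf_singleton h u, mul_one]

/-- **Volume comparison** under the planted law. -/
theorem vol_comp (hT : G.IsTree) (h : FieldData P X) (h0 : 0 ≤ θ) (h2 : θ ^ 2 ≤ 1 / 2)
    {S0 : Finset V} (hc0 : Cvx G S0) {v : V} (hv : v ∈ S0) {I : ℝ} (hI1 : I ≤ 40) :
    ∀ S : Finset V, Cvx G S → S0 ⊆ S → (∀ u ∈ S, I ≤ own P X G θ u) →
      ∫ ω, zf G θ S (fd X ω) * (magf G θ S (fd X ω) v - magf G θ S0 (fd X ω) v) ^ 2 ∂P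
        ≤ ∑ u ∈ S \ S0, 2 * (θ ^ 2 * (1 - I / 40)) ^ (G.dist v u - 1) := by
  have h1 := theta_lt_one h0 h2
  intro S
  induction hn : S.card using Nat.strong_induction_on generalizing S with
  | _ n ih =>
    intro hS hsub hI
    by_cases hne : S0 = S
    · subst hne
      simp
    · obtain ⟨u, huS, hu0, huv, hpar, hcv, hsub', hE, hU⟩ := exists_leaf hT hc0 hS hsub hne hv
      have hv' : v ∈ S.erase u := hsub' hv
      have hI' : ∀ w ∈ S.erase u, I ≤ own P X G θ w := fun w hw => hI w (Finset.mem_of_mem_erase hw)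
      have ihS := ih _ (by rw [← hn]; exact Finset.card_erase_lt_of_mem huS) (S.erase u) rfl hcv
        hsub' hI'
      have e1 := energy hT h h0 h1 hc0 hv hS hsub
      have e2 := energy hT h h0 h1 hc0 hv hcv hsub'
      have e3 := energy hT h h0 h1 hcv hv' hS (Finset.erase_subset u S)
      have e4 := incr_sq_le h h0 h2 hE hv'
      rw [hU] at e4
      have e5 := cov_sq_le hT h h0 h2 hcv hv' hpar hI1 hI'
      have e6 := par_dist hT huv
      have e7 : G.dist v (par G v u) = G.dist v u - 1 := by omega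
      rw [e7] at e5
      have hsd : S \ S0 = insert u (S.erase u \ S0) := by
        ext w
        simp only [Finset.mem_sdiff, Finset.mem_insert, Finset.mem_erase]
        constructor
        · rintro ⟨a, b⟩
          by_cases hw : w = u
          · exact Or.inl hw
          · exact Or.inr ⟨⟨hw, a⟩, b⟩
        · rintro (rfl | ⟨⟨_, a⟩, b⟩)
          · exact ⟨huS, hu0⟩
          · exact ⟨a, b⟩
      rw [hsd, Finset.sum_insert (by simp)]
      linarith

end

end Crest.Agent.R160.PathBound
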