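import Mathlib
import Crest.Agent.R160.Tail
import Crest.Agent.R160.VolComp_Mg
import Crest.Agent.R160.StaticBridge
import Crest.Agent.R160.StaticRec
import Crest.Agent.R160.StaticMom
import Crest.Agent.R160.VolLim
import Crest.Agent.R160.Convex
import Crest.Agent.R160.H0Conc_Mg
import Crest.Agent.R160.H0
import Crest.Agent.R160.MinfBasic
import Crest.Agent.R160.StaticOne
import Crest.Agent.R160.GC
import Crest.Agent.R160.GB
import Crest.Agent.R160.Product
import Crest.Agent.R160.Final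

-- ▼ part R160/SecondMom
section

/-! Row 160, module E: the second moment of the magnetization at small times. -/

set_option autoImplicit false
set_option linter.unusedSectionVars false

open MeasureTheory Filter Topology
open scoped Classical

namespace Crest.Agent.R160.Static.Tl

open Crest.Agent.R160 Crest.Agent.R160.Static Crest.Agent.R160.Bridge Crest.Agent.R160.StaticConv

variable {V : Type*} {G : SimpleGraph V} {θ : ℝ} [G.LocallyFinite]

/-- second moment of the finite-volume magnetization = planted second moment -/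
lemma integral_mfin_sq (hT : G.IsTree) (h0 : 0 ≤ θ) (h1 : θ < 1) (S : Finset V) (t : ℝ) (v : V) :
    ∫ ω, (mfin G θ S ω t v) ^ 2 ∂(PP V) = qq (PP V) (nfl t) G θ S v := by
  have habs : |θ| < 1 := by rw [abs_of_nonneg h0]; exact h1
  have hpf := planted_formula' (G := G) (θ := θ) hT habs S t
    (F := fun f => (magf G θ S f v) ^ 2)
    ((measurable_magf _ _).pow_const 2)
    (fun f g hfg => by
      have hdep : magf G θ S f v = magf G θ S g v := dependsOn_magf S v hfg
      simp only [hdep])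
    ⟨1, fun f hf => by
      rw [abs_pow]
      exact pow_le_one₀ (abs_nonneg _) (abs_magf_le' h0 h1 hf.pos _ _)⟩
  simp_rw [mfin_eq]
  exact hpf

/-- the second moments converge along the balls around `x` -/
lemma tendsto_integral_sq (hT : G.IsTree) {b : ℕ} (hb : 2 ≤ b)
    (hreg : G.IsRegularOfDegree (b + 1)) (h0 : 0 ≤ θ) (hθ : (b : ℝ) * θ ^ 2 < 1) {t : ℝ}
    (ht : 0 ≤ t) (v : V) :
    Tendsto (fun n => qq (PP V) (nfl t) G θ (bal G v n) v) atTop
      (𝓝 (∫ ω, (minf G θ t v ω) ^ 2 ∂(PP V))) := by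
  have h1 : θ < 1 := theta_lt_one' hb h0 hθ.le
  have habs : |θ| < 1 := by rw [abs_of_nonneg h0]; exact h1
  have hlim := tendsto_integral_minf (G := G) (θ := θ) (t := t) v {v}
    (fun n w _ ω => abs_mfin_le G habs _ ω t w)
    (fun w _ ω => abs_minf_le h0 h1 t w ω)
    (fun n w _ => measurable_mfin G θ _ t w)
    (fun w _ => measurable_minf G θ t w)
    (fun w hw => by
      rw [Finset.mem_singleton] at hw
      subst hw
      exact tendsto_L2 hT hb hreg h0 hθ ht w)
    (H := fun m => (m ⟨v, Finset.mem_singleton_self v⟩) ^ 2)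
    (by fun_prop)
  refine hlim.congr fun n => ?_
  exact integral_mfin_sq hT h0 h1 _ t v

theorem second_moment (hT : G.IsTree) {b : ℕ} (hb : 2 ≤ b)
    (hreg : G.IsRegularOfDegree (b + 1)) :
    ∃ C : ℝ, 0 < C ∧ ∀ θ, 0 ≤ θ → (b : ℝ) * θ ^ 2 < 1 → ∀ t, 0 < t → t ≤ 1 / 2 → ∀ v : V,
      ∫ ω, (minf G θ t v ω) ^ 2 ∂(PP V) ≤ C * t ^ (3 / 2 : ℝ) := by
  refine ⟨2, by norm_num, ?_⟩
  intro θ h0 hθ t ht ht' v
  refine le_of_tendsto' (tendsto_integral_sq hT hb hreg h0 hθ ht.le v) fun n => ?_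
  have hY2 : (t ^ (3 / 2 : ℝ)) ^ 2 = t ^ 3 := by
    rw [← Real.rpow_natCast, ← Real.rpow_mul ht.le, ← Real.rpow_natCast]
    norm_num
  exact (fieldData (V := V) t).bal_upper hT hb hreg h0 hθ.le (I := t ^ 3 / 4)
    (fun w => qq_single ht ht' w) (by positivity) (by rw [hY2]; linarith) n v

end Crest.Agent.R160.Static.Tl
end

-- ▼ part R160/LawCont
section

/-! Row 160: continuity in law at the critical parameter, uniformly in `t ≥ t0`. -/

set_option autoImplicit false

open MeasureTheory Finset Filter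
open scoped Classical Topology

namespace Crest.Agent.R160.LawCont

open Crest.Agent.R160 Crest.Agent.R160.TreeAut Crest.Agent.R160.Static

variable {V : Type*} {G : SimpleGraph V} [G.LocallyFinite] {Φ : ℝ → ℝ → ℝ}

/-- the error of the volume comparison -/
noncomputable def BN (b : ℕ) (I : ℝ) (N : ℕ) : ℝ :=
  2 / ((1 - I / 40) / b) * (2 * (1 - (1 - I / 40))⁻¹ * (1 - I / 40) ^ N)

lemma tendsto_BN (b : ℕ) {I : ℝ} (hI0 : 0 < I) (hI1 : I ≤ 1) :
    Tendsto (BN b I) atTop (𝓝 0) := by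
  unfold BN
  have h1 : Tendsto (fun N : ℕ => (1 - I / 40) ^ N) atTop (𝓝 0) :=
    tendsto_pow_atTop_nhds_zero_of_lt_one (by linarith) (by linarith)
  have h2 := (h1.const_mul (2 * (1 - (1 - I / 40))⁻¹)).const_mul (2 / ((1 - I / 40) / b))
  simpa using h2

lemma sum_far (hT : G.IsTree) {b : ℕ} (hb : 2 ≤ b) (hreg : G.IsRegularOfDegree (b + 1)) {θ I : ℝ}
    (_h0 : 0 ≤ θ) (hbθ : (b : ℝ) * θ ^ 2 ≤ 1) (hI0 : 0 < I) (hI1 : I ≤ 1) (v : V) (S : Finset V)
    {N : ℕ} (hN : 1 ≤ N) (hS : ∀ u ∈ S, N ≤ G.dist v u) :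
    ∑ u ∈ S, 2 * (θ ^ 2 * (1 - I / 40)) ^ (G.dist v u - 1) ≤ BN b I N := by
  have hb' : (2 : ℝ) ≤ b := by exact_mod_cast hb
  have hb0 : (0 : ℝ) < b := by linarith
  have hc : 0 < 1 - I / 40 := by linarith
  set q := (1 - I / 40) / b with hq
  have hq0 : 0 < q := div_pos hc hb0
  have hbq : (b : ℝ) * q = 1 - I / 40 := by rw [hq]; field_simp
  have hθq : θ ^ 2 * (1 - I / 40) ≤ q := by
    rw [hq, le_div_iff₀ hb0]
    nlinarith
  have h1 : ∀ u ∈ S, 2 * (θ ^ 2 * (1 - I / 40)) ^ (G.dist v u - 1) ≤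
      2 / q * q ^ (G.dist v u) := by
    intro u hu
    have h2 := hS u hu
    have h3 : q ^ (G.dist v u) = q ^ (G.dist v u - 1) * q := by
      rw [← pow_succ]; congr 1; omega
    rw [h3]
    have h4 : (θ ^ 2 * (1 - I / 40)) ^ (G.dist v u - 1) ≤ q ^ (G.dist v u - 1) :=
      pow_le_pow_left₀ (by positivity) hθq _
    have h5 : 2 / q * (q ^ (G.dist v u - 1) * q) = 2 * q ^ (G.dist v u - 1) := by
      field_simp
    rw [h5]
    linarith
  have hd : ((b + 1 : ℕ) : ℝ) - 1 = b := by push_cast; ring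
  have h2 := Kern.sum_far_le hT hreg (by omega) hq0.le (by rw [hd, hbq]; linarith) v S N hS
  rw [hd, hbq] at h2
  calc ∑ u ∈ S, 2 * (θ ^ 2 * (1 - I / 40)) ^ (G.dist v u - 1)
      ≤ ∑ u ∈ S, 2 / q * q ^ (G.dist v u) := Finset.sum_le_sum h1
    _ = 2 / q * ∑ u ∈ S, q ^ (G.dist v u) := by rw [Finset.mul_sum]
    _ ≤ 2 / q * (2 * (1 - (1 - I / 40))⁻¹ * (1 - I / 40) ^ N) :=
        mul_le_mul_of_nonneg_left h2 (by positivity)
    _ = BN b I N := rfl

lemma int_lin {Ω : Type*} [MeasurableSpace Ω] {P : Measure Ω} {f g h : Ω → ℝ}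
    (hf : Integrable f P) (hg : Integrable g P) (hh : Integrable h P) (a c : ℝ) :
    ∫ ω, (a * f ω + c * (g ω + h ω)) ∂P = a * ∫ ω, f ω ∂P + c * (∫ ω, g ω ∂P + ∫ ω, h ω ∂P) := by
  have h1 : Integrable (fun ω => a * f ω) P := hf.const_mul a
  have h2 : Integrable (fun ω => c * (g ω + h ω)) P := (hg.add hh).const_mul c
  have h3 : ∫ ω, (g ω + h ω) ∂P = ∫ ω, g ω ∂P + ∫ ω, h ω ∂P := integral_add hg hh
  rw [integral_add h1 h2, integral_const_mul, integral_const_mul, h3]

/-- volume comparison of the law of two magnetizations -/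
lemma vol_law (hT : G.IsTree) {b : ℕ} (hb : 2 ≤ b) (hreg : G.IsRegularOfDegree (b + 1))
    (hΦ : Continuous (Function.uncurry Φ)) {θ I t : ℝ}
    (h0 : 0 ≤ θ) (hbθ : (b : ℝ) * θ ^ 2 ≤ 1) (hI0 : 0 < I) (hI1 : I ≤ 1)
    (hown : ∀ v, I ≤ Static.qq (PP V) (Bridge.nfl t) G θ {v} v) {x y : V} (hxy : G.Adj x y)
    {ε K : ℝ} (hK0 : 0 ≤ K)
    (hK : ∀ a b a' b' : ℝ, |a| ≤ 1 → |b| ≤ 1 → |a'| ≤ 1 → |b'| ≤ 1 →
      |Φ a b - Φ a' b'| ≤ ε + K * ((a - a') ^ 2 + (b - b') ^ 2))
    {N n : ℕ} (hN : 1 ≤ N) (hNn : N ≤ n) :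
    |∫ ω, Φ (mfin G θ (bal G x n) ω t x) (mfin G θ (bal G x n) ω t y) ∂(PP V)
      - ∫ ω, Φ (mfin G θ (bal G x N) ω t x) (mfin G θ (bal G x N) ω t y) ∂(PP V)|
      ≤ ε + K * (2 * BN b I N) := by
  have h1 := theta_lt_one' hb h0 hbθ
  have h2 := theta_sq_le_half hb hbθ
  have habs : |θ| < 1 := by rwa [abs_of_nonneg h0]
  obtain ⟨M, hM0, hM⟩ := exists_bound hΦ
  have hΦm : Measurable (Function.uncurry Φ) := hΦ.measurable
  have h := Bridge.fieldData (V := V) t
  -- the functional in field form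
  have hmeas : ∀ S : Finset V, Measurable fun f : V → ℝ × ℝ =>
      Φ (magf G θ S f x) (magf G θ S f y) := fun S =>
    hΦm.comp ((measurable_magf S x).prodMk (measurable_magf S y))
  have hdep : ∀ S : Finset V, DependsOn (fun f : V → ℝ × ℝ =>
      Φ (magf G θ S f x) (magf G θ S f y)) (S : Set V) := by
    intro S f g hfg
    have a1 := dependsOn_magf (G := G) (θ := θ) S x hfg
    have a2 := dependsOn_magf (G := G) (θ := θ) S y hfg
    simp only at a1 a2 ⊢
    rw [a1, a2]
  have hbd : ∀ (S : Finset V) (f : V → ℝ × ℝ), Pos f →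
      |Φ (magf G θ S f x) (magf G θ S f y)| ≤ M := fun S f hf =>
    hM _ _ (abs_magf_le' h0 h1 hf S x) (abs_magf_le' h0 h1 hf S y)
  have hpl : ∀ S : Finset V, ∫ ω, Φ (mfin G θ S ω t x) (mfin G θ S ω t y) ∂(PP V) =
      ∫ ω, zf G θ S (fd (Bridge.nfl t) ω) *
        Φ (magf G θ S (fd (Bridge.nfl t) ω) x) (magf G θ S (fd (Bridge.nfl t) ω) y) ∂(PP V) := by
    intro S
    rw [← Bridge.planted_formula' hT habs S t (hmeas S) (hdep S)
      ⟨M, fun f hf => hbd S f hf.pos⟩]
    refine integral_congr_ae (Eventually.of_forall fun ω => ?_)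
    simp only [Bridge.mfin_eq]
  have hcN : PathBound.Cvx G (bal G x N) := Vol.GC_bal hT x N
  have hcn : PathBound.Cvx G (bal G x n) := Vol.GC_bal hT x n
  have hsub : bal G x N ⊆ bal G x n := by
    intro w hw
    rw [mem_bal hT] at hw ⊢
    omega
  have hxN : x ∈ bal G x N := by rw [mem_bal hT, SimpleGraph.dist_self]; omega
  have hyN : y ∈ bal G x N := by
    rw [mem_bal hT, SimpleGraph.dist_eq_one_iff_adj.mpr hxy]; omega
  have hrest := PathBound.restrict hT h h0 h1 hcN hxN (hmeas (bal G x N)) (hdep (bal G x N))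
    ⟨M, fun ω => hbd _ _ (h.posf ω)⟩ (bal G x n) hcn hsub
  rw [hpl, hpl, ← hrest]
  -- integrability
  have i1 : ∀ S, Integrable (fun ω => zf G θ (bal G x n) (fd (Bridge.nfl t) ω) *
      Φ (magf G θ S (fd (Bridge.nfl t) ω) x) (magf G θ S (fd (Bridge.nfl t) ω) y)) (PP V) := fun S =>
    h.integrable ((measurable_zf (bal G x n)).mul (hmeas S))
      ((h.bdd_zf (bal G x n)).mul ⟨M, fun ω => hbd S _ (h.posf ω)⟩)
  have i2 : ∀ v, Integrable (fun ω => zf G θ (bal G x n) (fd (Bridge.nfl t) ω) *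
      (magf G θ (bal G x n) (fd (Bridge.nfl t) ω) v - magf G θ (bal G x N) (fd (Bridge.nfl t) ω) v) ^ 2)
      (PP V) := by
    intro v
    refine h.integrable ((measurable_zf (bal G x n)).mul
      (((measurable_magf (bal G x n) v).sub (measurable_magf (bal G x N) v)).pow_const 2))
      ((h.bdd_zf (bal G x n)).mul ⟨4, fun ω => ?_⟩)
    have b1 := abs_magf_le' (G := G) h0 h1 (h.posf ω) (bal G x n) v
    have b2 := abs_magf_le' (G := G) h0 h1 (h.posf ω) (bal G x N) v
    rw [abs_pow]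
    calc |magf G θ (bal G x n) (fd (Bridge.nfl t) ω) v - magf G θ (bal G x N) (fd (Bridge.nfl t) ω) v| ^ 2
        ≤ 2 ^ 2 := by
          apply pow_le_pow_left₀ (abs_nonneg _)
          refine (abs_sub _ _).trans ?_
          linarith
      _ = 4 := by norm_num
  have i3 : Integrable (fun ω => zf G θ (bal G x n) (fd (Bridge.nfl t) ω)) (PP V) :=
    h.integrable (measurable_zf _) (h.bdd_zf _)
  have hv : ∀ v ∈ bal G x N, (∀ u ∈ bal G x n \ bal G x N, N ≤ G.dist v u) →
      ∫ ω, zf G θ (bal G x n) (fd (Bridge.nfl t) ω) *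
      (magf G θ (bal G x n) (fd (Bridge.nfl t) ω) v - magf G θ (bal G x N) (fd (Bridge.nfl t) ω) v) ^ 2
      ∂(PP V) ≤ BN b I N := by
    intro v hvN hvd
    refine (PathBound.vol_comp hT h h0 h2 hcN hvN (by linarith : I ≤ 40) (bal G x n) hcn hsub
      (fun u _ => hown u)).trans ?_
    exact sum_far hT hb hreg h0 hbθ hI0 hI1 v _ hN hvd
  have hfar : ∀ u ∈ bal G x n \ bal G x N, N + 1 ≤ G.dist x u := by
    intro u hu
    rw [Finset.mem_sdiff, mem_bal hT, mem_bal hT] at hu
    omega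
  have hx := hv x hxN fun u hu => by have := hfar u hu; omega
  have hy := hv y hyN fun u hu => by
    have h3 := hfar u hu
    have h4 : G.dist x u ≤ G.dist x y + G.dist y u := hT.connected.dist_triangle
    rw [SimpleGraph.dist_eq_one_iff_adj.mpr hxy] at h4
    omega
  rw [← integral_sub (i1 _) (i1 _)]
  refine abs_integral_le_integral_abs.trans ?_
  have hle : ∀ ω, |zf G θ (bal G x n) (fd (Bridge.nfl t) ω) *
        Φ (magf G θ (bal G x n) (fd (Bridge.nfl t) ω) x) (magf G θ (bal G x n) (fd (Bridge.nfl t) ω) y) -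
      zf G θ (bal G x n) (fd (Bridge.nfl t) ω) *
        Φ (magf G θ (bal G x N) (fd (Bridge.nfl t) ω) x) (magf G θ (bal G x N) (fd (Bridge.nfl t) ω) y)|
      ≤ ε * zf G θ (bal G x n) (fd (Bridge.nfl t) ω) + K * (zf G θ (bal G x n) (fd (Bridge.nfl t) ω) *
        (magf G θ (bal G x n) (fd (Bridge.nfl t) ω) x - magf G θ (bal G x N) (fd (Bridge.nfl t) ω) x) ^ 2 +
        zf G θ (bal G x n) (fd (Bridge.nfl t) ω) *
        (magf G θ (bal G x n) (fd (Bridge.nfl t) ω) y - magf G θ (bal G x N) (fd (Bridge.nfl t) ω) y) ^ 2) := by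
    intro ω
    have hz := (zf_pos (G := G) h0 h1 (h.posf ω) (bal G x n)).le
    rw [← mul_sub, abs_mul, abs_of_nonneg hz]
    have := hK _ _ _ _ (abs_magf_le' (G := G) h0 h1 (h.posf ω) (bal G x n) x)
      (abs_magf_le' (G := G) h0 h1 (h.posf ω) (bal G x n) y)
      (abs_magf_le' (G := G) h0 h1 (h.posf ω) (bal G x N) x)
      (abs_magf_le' (G := G) h0 h1 (h.posf ω) (bal G x N) y)
    calc _ ≤ zf G θ (bal G x n) (fd (Bridge.nfl t) ω) * _ := mul_le_mul_of_nonneg_left this hz
      _ = _ := by ring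
  have iR : Integrable (fun ω => ε * zf G θ (bal G x n) (fd (Bridge.nfl t) ω) +
      K * (zf G θ (bal G x n) (fd (Bridge.nfl t) ω) *
        (magf G θ (bal G x n) (fd (Bridge.nfl t) ω) x - magf G θ (bal G x N) (fd (Bridge.nfl t) ω) x) ^ 2 +
        zf G θ (bal G x n) (fd (Bridge.nfl t) ω) *
        (magf G θ (bal G x n) (fd (Bridge.nfl t) ω) y - magf G θ (bal G x N) (fd (Bridge.nfl t) ω) y) ^ 2))
      (PP V) := (i3.const_mul ε).add (((i2 x).add (i2 y)).const_mul K)
  calc ∫ ω, |zf G θ (bal G x n) (fd (Bridge.nfl t) ω) *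
        Φ (magf G θ (bal G x n) (fd (Bridge.nfl t) ω) x) (magf G θ (bal G x n) (fd (Bridge.nfl t) ω) y) -
      zf G θ (bal G x n) (fd (Bridge.nfl t) ω) *
        Φ (magf G θ (bal G x N) (fd (Bridge.nfl t) ω) x) (magf G θ (bal G x N) (fd (Bridge.nfl t) ω) y)| ∂(PP V)
      ≤ _ := integral_mono ((i1 _).sub (i1 _)).abs iR hle
    _ = ε * 1 + K * ((∫ ω, zf G θ (bal G x n) (fd (Bridge.nfl t) ω) *
        (magf G θ (bal G x n) (fd (Bridge.nfl t) ω) x - magf G θ (bal G x N) (fd (Bridge.nfl t) ω) x) ^ 2 ∂(PP V)) +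
        ∫ ω, zf G θ (bal G x n) (fd (Bridge.nfl t) ω) *
        (magf G θ (bal G x n) (fd (Bridge.nfl t) ω) y - magf G θ (bal G x N) (fd (Bridge.nfl t) ω) y) ^ 2
          ∂(PP V)) := by
        rw [int_lin i3 (i2 x) (i2 y) ε K, PathBound.zf_one hT h h0 h1 hcn (hsub hxN)]
    _ ≤ ε + K * (2 * BN b I N) := by
        rw [mul_one]
        have : K * ((∫ ω, zf G θ (bal G x n) (fd (Bridge.nfl t) ω) *
          (magf G θ (bal G x n) (fd (Bridge.nfl t) ω) x - magf G θ (bal G x N) (fd (Bridge.nfl t) ω) x) ^ 2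
            ∂(PP V)) + ∫ ω, zf G θ (bal G x n) (fd (Bridge.nfl t) ω) *
          (magf G θ (bal G x n) (fd (Bridge.nfl t) ω) y - magf G θ (bal G x N) (fd (Bridge.nfl t) ω) y) ^ 2
            ∂(PP V)) ≤ K * (2 * BN b I N) :=
          mul_le_mul_of_nonneg_left (by linarith) hK0
        linarith

lemma fin_sub_le {Φ : ℝ → ℝ → ℝ} (hΦ : Continuous (Function.uncurry Φ)) {m m' : V → Om V → ℝ}
    (hm : ∀ v, Measurable (m v)) (hm' : ∀ v, Measurable (m' v)) {x y : V}
    (hb : ∀ v, v = x ∨ v = y → ∀ ω, |m v ω| ≤ 1) (hb' : ∀ v, v = x ∨ v = y → ∀ ω, |m' v ω| ≤ 1)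
    {ε K D : ℝ} (hK0 : 0 ≤ K)
    (hK : ∀ a b a' b' : ℝ, |a| ≤ 1 → |b| ≤ 1 → |a'| ≤ 1 → |b'| ≤ 1 →
      |Φ a b - Φ a' b'| ≤ ε + K * ((a - a') ^ 2 + (b - b') ^ 2))
    (hx : ∫ ω, (m x ω - m' x ω) ^ 2 ∂(PP V) ≤ D) (hy : ∫ ω, (m y ω - m' y ω) ^ 2 ∂(PP V) ≤ D) :
    |∫ ω, Φ (m x ω) (m y ω) ∂(PP V) - ∫ ω, Φ (m' x ω) (m' y ω) ∂(PP V)| ≤ ε + K * (2 * D) := by
  obtain ⟨M, hM0, hM⟩ := exists_bound hΦ
  have hΦm : Measurable (Function.uncurry Φ) := hΦ.measurable
  have i1 : Integrable (fun ω => Φ (m x ω) (m y ω)) (PP V) :=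
    Integrable.of_bound (hΦm.comp ((hm x).prodMk (hm y))).aestronglyMeasurable M
      (Eventually.of_forall fun ω => hM _ _ (hb x (Or.inl rfl) ω) (hb y (Or.inr rfl) ω))
  have i2 : Integrable (fun ω => Φ (m' x ω) (m' y ω)) (PP V) :=
    Integrable.of_bound (hΦm.comp ((hm' x).prodMk (hm' y))).aestronglyMeasurable M
      (Eventually.of_forall fun ω => hM _ _ (hb' x (Or.inl rfl) ω) (hb' y (Or.inr rfl) ω))
  have i3 : ∀ v, v = x ∨ v = y → Integrable (fun ω => (m v ω - m' v ω) ^ 2) (PP V) := by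
    intro v hv
    refine Integrable.of_bound (((hm v).sub (hm' v)).pow_const 2).aestronglyMeasurable (2 ^ 2)
      (Eventually.of_forall fun ω => ?_)
    rw [Real.norm_eq_abs, abs_pow]
    exact pow_le_pow_left₀ (abs_nonneg _)
      ((abs_sub _ _).trans (by linarith [hb v hv ω, hb' v hv ω])) 2
  rw [← integral_sub i1 i2]
  refine abs_integral_le_integral_abs.trans ?_
  have i0 : Integrable (fun _ : Om V => (1 : ℝ)) (PP V) := integrable_const 1
  have hlin := int_lin i0 (i3 x (Or.inl rfl)) (i3 y (Or.inr rfl)) ε K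
  calc ∫ ω, |Φ (m x ω) (m y ω) - Φ (m' x ω) (m' y ω)| ∂(PP V)
      ≤ ∫ ω, (ε * 1 + K * ((m x ω - m' x ω) ^ 2 + (m y ω - m' y ω) ^ 2)) ∂(PP V) := by
        refine integral_mono (i1.sub i2).abs
          ((i0.const_mul ε).add (((i3 x (Or.inl rfl)).add (i3 y (Or.inr rfl))).const_mul K))
          fun ω => ?_
        have := hK _ _ _ _ (hb x (Or.inl rfl) ω) (hb y (Or.inr rfl) ω) (hb' x (Or.inl rfl) ω)
          (hb' y (Or.inr rfl) ω)
        simpa using this
    _ = _ := hlin
    _ ≤ ε + K * (2 * D) := by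
        have h1 : ∫ _ω : Om V, (1 : ℝ) ∂(PP V) = 1 := by simp
        rw [h1, mul_one]
        have : K * (∫ ω, (m x ω - m' x ω) ^ 2 ∂(PP V) + ∫ ω, (m y ω - m' y ω) ^ 2 ∂(PP V)) ≤
          K * (2 * D) := mul_le_mul_of_nonneg_left (by linarith) hK0
        linarith

lemma vol_inf (hT : G.IsTree) {b : ℕ} (hb : 2 ≤ b) (hreg : G.IsRegularOfDegree (b + 1))
    (hΦ : Continuous (Function.uncurry Φ)) {θ I t : ℝ}
    (h0 : 0 ≤ θ) (hbθ : (b : ℝ) * θ ^ 2 < 1) (hI0 : 0 < I) (hI1 : I ≤ 1) (ht : 0 ≤ t)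
    (hown : ∀ v, I ≤ Static.qq (PP V) (Bridge.nfl t) G θ {v} v) {x y : V} (hxy : G.Adj x y)
    {ε K : ℝ} (hK0 : 0 ≤ K)
    (hK : ∀ a b a' b' : ℝ, |a| ≤ 1 → |b| ≤ 1 → |a'| ≤ 1 → |b'| ≤ 1 →
      |Φ a b - Φ a' b'| ≤ ε + K * ((a - a') ^ 2 + (b - b') ^ 2))
    {N : ℕ} (hN : 1 ≤ N) :
    |∫ ω, Φ (minf G θ t x ω) (minf G θ t y ω) ∂(PP V)
      - ∫ ω, Φ (mfin G θ (bal G x N) ω t x) (mfin G θ (bal G x N) ω t y) ∂(PP V)|
      ≤ ε + K * (2 * BN b I N) := by
  have hlt := theta_lt_one' hb h0 hbθ.le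
  have habs : |θ| < 1 := by rwa [abs_of_nonneg h0]
  obtain ⟨C, la, hC, hla, hL⟩ := vol_limit hT hb hreg h0 hbθ t
  set W : Finset V := {x, y} with hW
  have hxW : x ∈ W := by simp [hW]
  have hyW : y ∈ W := by simp [hW]
  have hH : Continuous fun f : W → ℝ => Φ (f ⟨x, hxW⟩) (f ⟨y, hyW⟩) := by
    have hc : Continuous fun f : W → ℝ => ((f ⟨x, hxW⟩, f ⟨y, hyW⟩) : ℝ × ℝ) := by fun_prop
    exact hΦ.comp hc
  have hlim := Bridge.tendsto_integral_minf (G := G) (θ := θ) (t := t) x W
    (fun n w _ ω => abs_mfin_le G habs _ ω t w)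
    (fun w _ ω => abs_minf_le h0 hlt t w ω)
    (fun n w _ => measurable_mfin G θ _ t w) (fun w _ => measurable_minf G θ t w)
    (fun w hw => by
      have hd : G.dist x w ≤ 1 := by
        rw [hW, Finset.mem_insert, Finset.mem_singleton] at hw
        rcases hw with rfl | rfl
        · rw [SimpleGraph.dist_self]; omega
        · rw [SimpleGraph.dist_eq_one_iff_adj.mpr hxy]
      have h1 : Tendsto (fun n : ℕ => C * Real.exp (-la * ((n - 1 : ℕ) : ℝ))) atTop (𝓝 0) := by
        have h2 : Tendsto (fun n : ℕ => -la * ((n - 1 : ℕ) : ℝ)) atTop atBot := by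
          have h3 : Tendsto (fun n : ℕ => ((n - 1 : ℕ) : ℝ)) atTop atTop :=
            tendsto_natCast_atTop_atTop.comp (tendsto_sub_atTop_nat 1)
          exact h3.const_mul_atTop_of_neg (by linarith)
        simpa using (Real.tendsto_exp_atBot.comp h2).const_mul C
      refine tendsto_of_tendsto_of_tendsto_of_le_of_le' tendsto_const_nhds h1
        (Eventually.of_forall fun n => integral_nonneg fun ω => sq_nonneg _) ?_
      filter_upwards [eventually_ge_atTop 1] with n hn
      refine hL t ht le_rfl w x n (n - 1) ?_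
      intro u hu
      rw [mem_bal hT] at hu ⊢
      have h4 : G.dist x u ≤ G.dist x w + G.dist w u := hT.connected.dist_triangle
      omega) hH
  have hlim2 := ((hlim.sub_const (∫ ω, Φ (mfin G θ (bal G x N) ω t x)
    (mfin G θ (bal G x N) ω t y) ∂(PP V)))).abs
  refine le_of_tendsto hlim2 ?_
  filter_upwards [eventually_ge_atTop N] with n hn
  exact vol_law hT hb hreg hΦ h0 hbθ.le hI0 hI1 hown hxy hK0 hK hN hn

theorem law_cont_aux (hT : G.IsTree) {b : ℕ} (hb : 2 ≤ b) (hreg : G.IsRegularOfDegree (b + 1))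
    (t0 I : ℝ) (ht0 : 0 < t0) (hI0 : 0 < I) (hI1 : I ≤ 1)
    (hown : ∀ θ, 0 ≤ θ → (b : ℝ) * θ ^ 2 ≤ 1 → ∀ t, t0 ≤ t → ∀ v,
      I ≤ Static.qq (PP V) (Bridge.nfl t) G θ {v} v)
    (Φ : ℝ → ℝ → ℝ) (hΦ : Continuous (Function.uncurry Φ)) (x y : V)
    (hxy : G.Adj x y) (ε : ℝ) (hε : 0 < ε) :
    ∃ δ, 0 < δ ∧ ∀ θ θ', thc b - δ < θ → θ < thc b → thc b - δ < θ' → θ' < thc b →
      ∀ t, t0 ≤ t →
      |∫ ω, Φ (minf G θ t x ω) (minf G θ t y ω) ∂(PP V)
        - ∫ ω, Φ (minf G θ' t x ω) (minf G θ' t y ω) ∂(PP V)| ≤ ε := by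
  set e := ε / 10 with he
  have he0 : 0 < e := by positivity
  obtain ⟨K, hK0, hK⟩ := exists_quad hΦ he0
  obtain ⟨C, c, hC, hc, hconc⟩ := H0.conc hT hb hreg
  -- the volume
  obtain ⟨N, hN1, hN⟩ : ∃ N : ℕ, 1 ≤ N ∧ K * (2 * BN b I N) ≤ e := by
    have h1 := ((tendsto_BN b hI0 hI1).const_mul 2).const_mul K
    simp only [mul_zero] at h1
    obtain ⟨N, hN⟩ := ((h1.eventually_le_const he0).and (eventually_ge_atTop 1)).exists
    exact ⟨N, hN.2, hN.1⟩
  -- the time
  obtain ⟨R, hR1, hR⟩ : ∃ R : ℕ, t0 ≤ R ∧ K * (2 * (C * Real.exp (-c * (R : ℝ)))) ≤ e := by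
    have h2 : Tendsto (fun n : ℕ => -c * (n : ℝ)) atTop atBot :=
      tendsto_natCast_atTop_atTop.const_mul_atTop_of_neg (by linarith)
    have h1 := ((((Real.tendsto_exp_atBot.comp h2).const_mul C).const_mul 2).const_mul K)
    simp only [mul_zero] at h1
    obtain ⟨R, hR⟩ := ((h1.eventually_le_const he0).and
      (tendsto_natCast_atTop_atTop.eventually_ge_atTop t0)).exists
    exact ⟨R, hR.2, hR.1⟩
  have hb0 : (0 : ℝ) < b := by exact_mod_cast (by omega : 0 < b)
  have hthc0 : 0 < thc b := by unfold thc; positivity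
  have hthc2 : (b : ℝ) * thc b ^ 2 = 1 := by
    unfold thc
    rw [div_pow, one_pow, Real.sq_sqrt hb0.le]
    field_simp
  have hthc1 : |thc b| < 1 := by
    rw [abs_of_pos hthc0]
    exact theta_lt_one' hb hthc0.le hthc2.le
  obtain ⟨δ, hδ, hfin⟩ := fin_cont (G := G) (bal G x N) hΦ x y hthc1 R he0
  refine ⟨min δ (thc b), lt_min hδ hthc0, ?_⟩
  have key : ∀ θ, thc b - min δ (thc b) < θ → θ < thc b → ∀ t, t0 ≤ t →
      |∫ ω, Φ (minf G θ t x ω) (minf G θ t y ω) ∂(PP V)
        - ∫ ω, Φ (mfin G (thc b) (bal G x N) ω (min t R) x)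
          (mfin G (thc b) (bal G x N) ω (min t R) y) ∂(PP V)| ≤ 5 * e := by
    intro θ h1 h2 t ht
    have h3 : min δ (thc b) ≤ δ := min_le_left _ _
    have h4 : min δ (thc b) ≤ thc b := min_le_right _ _
    have hθ0 : 0 ≤ θ := by linarith
    have hbθ : (b : ℝ) * θ ^ 2 < 1 := by
      rw [← hthc2]
      exact mul_lt_mul_of_pos_left (pow_lt_pow_left₀ h2 hθ0 (by norm_num)) hb0
    have hθ1 := theta_lt_one' hb hθ0 hbθ.le
    have habs : |θ| < 1 := by rwa [abs_of_nonneg hθ0]
    have a1 := vol_inf hT hb hreg hΦ hθ0 hbθ hI0 hI1 (by linarith)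
      (fun v => hown θ hθ0 hbθ.le t ht v) hxy hK0 hK hN1
    have a2 : |∫ ω, Φ (mfin G θ (bal G x N) ω t x) (mfin G θ (bal G x N) ω t y) ∂(PP V)
        - ∫ ω, Φ (mfin G θ (bal G x N) ω (min t R) x)
          (mfin G θ (bal G x N) ω (min t R) y) ∂(PP V)| ≤ 2 * e := by
      by_cases htR : t ≤ R
      · rw [min_eq_left htR, sub_self, abs_zero]; positivity
      · push Not at htR
        rw [min_eq_right htR.le]
        have hD : ∀ v ∈ bal G x N, ∫ ω, (mfin G θ (bal G x N) ω t v
            - mfin G θ (bal G x N) ω R v) ^ 2 ∂(PP V) ≤ C * Real.exp (-c * (R : ℝ)) := fun v hv =>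
          (time_incr_mfin G (bal G x N) habs htR.le v).trans
            (hconc θ hθ0 hbθ.le R (Nat.cast_nonneg R) x v N hv)
        have hxN : x ∈ bal G x N := by rw [mem_bal hT, SimpleGraph.dist_self]; omega
        have hyN : y ∈ bal G x N := by
          rw [mem_bal hT, SimpleGraph.dist_eq_one_iff_adj.mpr hxy]; omega
        have := fin_sub_le (m := fun v ω => mfin G θ (bal G x N) ω t v)
          (m' := fun v ω => mfin G θ (bal G x N) ω R v) hΦ
          (fun v => measurable_mfin G θ _ t v) (fun v => measurable_mfin G θ _ R v)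
          (x := x) (y := y)
          (fun v _ ω => abs_mfin_le G habs _ ω t v) (fun v _ ω => abs_mfin_le G habs _ ω R v)
          hK0 hK (hD x hxN) (hD y hyN)
        linarith
    have a3 := hfin θ (by rw [abs_lt]; constructor <;> linarith) (min t R) (min_le_right _ _)
    set A := ∫ ω, Φ (minf G θ t x ω) (minf G θ t y ω) ∂(PP V)
    set B := ∫ ω, Φ (mfin G θ (bal G x N) ω t x) (mfin G θ (bal G x N) ω t y) ∂(PP V)
    set B' := ∫ ω, Φ (mfin G θ (bal G x N) ω (min t R) x)
          (mfin G θ (bal G x N) ω (min t R) y) ∂(PP V)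
    set B'' := ∫ ω, Φ (mfin G (thc b) (bal G x N) ω (min t R) x)
          (mfin G (thc b) (bal G x N) ω (min t R) y) ∂(PP V)
    have e1 : A - B'' = (A - B) + (B - B') + (B' - B'') := by ring
    rw [e1]
    refine (abs_add_three _ _ _).trans ?_
    linarith
  intro θ θ' h1 h2 h1' h2' t ht
  have k1 := key θ h1 h2 t ht
  have k2 := key θ' h1' h2' t ht
  rw [abs_le] at k1 k2 ⊢
  constructor <;> linarith [k1.1, k1.2, k2.1, k2.2]

/-- continuity in law at `thc b` (two adjacent vertices), UNIFORM in `t ≥ t0` -/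
theorem law_cont (hT : G.IsTree) {b : ℕ} (hb : 2 ≤ b) (hreg : G.IsRegularOfDegree (b + 1))
    (t0 : ℝ) (ht0 : 0 < t0) (Φ : ℝ → ℝ → ℝ) (hΦ : Continuous (Function.uncurry Φ)) (x y : V)
    (hxy : G.Adj x y) (ε : ℝ) (hε : 0 < ε) :
    ∃ δ, 0 < δ ∧ ∀ θ θ', thc b - δ < θ → θ < thc b → thc b - δ < θ' → θ' < thc b →
      ∀ t, t0 ≤ t →
      |∫ ω, Φ (minf G θ t x ω) (minf G θ t y ω) ∂(PP V)
        - ∫ ω, Φ (minf G θ' t x ω) (minf G θ' t y ω) ∂(PP V)| ≤ ε := by
  have h1 : 0 < min t0 (1 / 2) := lt_min ht0 (by norm_num)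
  have h2 : min t0 (1 / 2) ≤ 1 / 2 := min_le_right _ _
  refine law_cont_aux hT hb hreg t0 ((min t0 (1 / 2)) ^ 3 / 36) ht0 (by positivity) ?_ ?_ Φ hΦ x y
    hxy ε hε
  · have : (min t0 (1 / 2)) ^ 3 ≤ (1 / 2 : ℝ) ^ 3 := pow_le_pow_left₀ h1.le h2 3
    linarith
  · intro θ _ _ t ht v
    refine le_trans ?_ (One.qq_one_lower (by linarith) v)
    have : (min t0 (1 / 2)) ^ 3 ≤ (min t (1 / 2)) ^ 3 :=
      pow_le_pow_left₀ h1.le (min_le_min_right _ ht) 3
    linarith

end Crest.Agent.R160.LawCont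
end

-- ▼ part R160/CauchyCrit
section

/-! # Row 160: the Cauchy property at `θ_c` from the two level estimates -/

set_option autoImplicit false

open MeasureTheory Finset Filter Topology
open scoped Classical

namespace Crest.Agent.R160.GC

open Crest.Agent.R160 Crest.Agent.R160.TreeAut Crest.Agent.R160.GA

variable {V : Type*} {G : SimpleGraph V} [G.LocallyFinite]


/-- exchanging the two parameters -/
lemma Slev_swap_le (hT : G.IsTree) {θ θ' : ℝ} (h0 : 0 ≤ θ) (h1 : θ < 1) (h0' : 0 ≤ θ')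
    (h1' : θ' < 1) (r : ℝ) (v : V) (n : ℕ) : Slev G θ θ' r v n ≤ 9 * Slev G θ' θ r v n := by
  unfold Slev
  rw [mul_sum]
  refine sum_le_sum fun w _ => ?_
  rw [← integral_const_mul]
  refine integral_mono ((integrable_MM_diff_sq hT h0 h1 h0' h1' r v w).add
    (integrable_MM_sq_mul hT h0 h1 h0' h1' r v w))
    (((integrable_MM_diff_sq hT h0' h1' h0 h1 r v w).add
    (integrable_MM_sq_mul hT h0' h1' h0 h1 r v w)).const_mul _) fun ω => ?_
  simp only
  have e1 := abs_le.1 (abs_minf_le (G := G) h0 h1 r w ω)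
  have e2 := abs_le.1 (abs_minf_le (G := G) h0' h1' r w ω)
  have e4 : (minf G θ r w ω - minf G θ' r w ω) ^ 2 ≤ 4 := by nlinarith
  set M := MM G θ (fun x => minf G θ r x ω) v w
  set M' := MM G θ' (fun x => minf G θ' r x ω) v w
  set f := minf G θ r w ω - minf G θ' r w ω with hf
  have e5 : minf G θ' r w ω - minf G θ r w ω = -f := by rw [hf]; ring
  simp only [e5, Pi.add_apply]
  have e6 : (M' - M) ^ 2 = (M - M') ^ 2 := by ring
  have e7 : (-f) ^ 2 = f ^ 2 := by ring
  simp only [e6, e7]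
  have e8 : M ^ 2 ≤ 2 * (M - M') ^ 2 + 2 * M' ^ 2 := by nlinarith [sq_nonneg (M - 2 * M')]
  have e9 : M ^ 2 * f ^ 2 ≤ (2 * (M - M') ^ 2 + 2 * M' ^ 2) * f ^ 2 :=
    mul_le_mul_of_nonneg_right e8 (sq_nonneg _)
  have e10 : (M - M') ^ 2 * f ^ 2 ≤ (M - M') ^ 2 * 4 := mul_le_mul_of_nonneg_left e4 (sq_nonneg _)
  have e11 : 0 ≤ M' ^ 2 * f ^ 2 := by positivity
  nlinarith

/-- (B) in the form used by `cauchy_crit_of` -/
theorem GB_form (hT : G.IsTree) {b : ℕ} (hb : 2 ≤ b) (hreg : G.IsRegularOfDegree (b + 1))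
    (hLT : ∃ C c : ℝ, 0 < C ∧ 0 < c ∧ ∀ s0, 0 < s0 → ∃ δ, 0 < δ ∧ ∀ θ, thc b - δ < θ → θ < thc b →
      ∀ t, s0 ≤ t → ∀ (o : V) (k : ℕ),
      (PP V).real {ω | C * Real.exp (-c * (min t 1) ^ (3 / 2 : ℝ) * k)
          < Alev G b θ (fun x => minf G θ t x ω) o k} ≤ C * Real.exp (-Real.exp (c * k))) :
    ∃ C c : ℝ, 0 < C ∧ 0 < c ∧ ∀ s0, 0 < s0 → ∀ (N : ℕ) (ε : ℝ), 0 < ε →
      ∃ δ, 0 < δ ∧ ∀ θ θ', thc b - δ < θ → θ < thc b → thc b - δ < θ' → θ' < thc b →
      ∀ r, s0 ≤ r → ∀ (v : V) (M : ℕ), ∑ n ∈ range M, Slev G θ θ' r v n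
        ≤ C * ((N : ℝ) ^ 2 + ((min r 1) ^ 3)⁻¹) * DD G θ θ' r v
          + C * ((min r 1) ^ 3)⁻¹ * Real.exp (-Real.exp (c * N)) + ε := by
  obtain ⟨C, c, hC, hc, h⟩ := GB hT hb hreg hLT
  refine ⟨9 * C, c, by positivity, hc, fun s0 hs0 N ε hε => ?_⟩
  obtain ⟨δ, K, hδ, hK, h⟩ := h s0 hs0 N
  have hthc := GA.thc_pos hb
  set δ' : ℝ := min (min δ (thc b / 2)) (min 1 (ε / (9 * (K + 1)))) with hδ'
  have hδ'0 : 0 < δ' := by positivity
  have d1 : δ' ≤ δ := (min_le_left _ _).trans (min_le_left _ _)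
  have d2 : δ' ≤ thc b / 2 := (min_le_left _ _).trans (min_le_right _ _)
  have d3 : δ' ≤ 1 := (min_le_right _ _).trans (min_le_left _ _)
  have d4 : δ' ≤ ε / (9 * (K + 1)) := (min_le_right _ _).trans (min_le_right _ _)
  refine ⟨δ', hδ'0, fun θ θ' a1 a2 a3 a4 r hr v M => ?_⟩
  have hr0 : 0 < r := by linarith
  have hm : 0 < min r 1 := lt_min hr0 one_pos
  obtain ⟨f0, f1, _, _, _⟩ := theta_facts hb (by linarith : thc b / 2 ≤ θ) a2
  obtain ⟨f0', f1', _, _, _⟩ := theta_facts hb (by linarith : thc b / 2 ≤ θ') a4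
  have hsq : K * (θ - θ') ^ 2 ≤ ε / 9 := by
    have e1 : |θ - θ'| ≤ δ' := by rw [abs_le]; constructor <;> linarith
    have e2 : (θ - θ') ^ 2 ≤ δ' := by
      rw [← sq_abs]
      nlinarith [abs_nonneg (θ - θ')]
    have e3 : K * (θ - θ') ^ 2 ≤ K * (ε / (9 * (K + 1))) :=
      mul_le_mul_of_nonneg_left (e2.trans d4) hK
    have e4 : K * (ε / (9 * (K + 1))) ≤ ε / 9 := by
      rw [← mul_div_assoc, div_le_div_iff₀ (by positivity) (by norm_num)]
      nlinarith
    linarith
  have hD0 := GA.DD_nonneg (G := G) θ θ' r v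
  have hE0 : 0 ≤ C * ((min r 1) ^ 3)⁻¹ * Real.exp (-Real.exp (c * N)) := by positivity
  have hDn : 0 ≤ C * ((N : ℝ) ^ 2 + ((min r 1) ^ 3)⁻¹) * DD G θ θ' r v := by positivity
  rcases le_total θ' θ with hle | hle
  · have h1 := h θ θ' (by linarith) hle a2 r hr v M
    have e5 : ∑ n ∈ range M, Slev G θ θ' r v n
        = ∑ n ∈ range M, Sn G (PP V) θ θ' (minf G θ r) (minf G θ' r) v n := rfl
    rw [e5]
    linarith
  · have h1 := h θ' θ (by linarith) hle a4 r hr v M
    have e5 : ∑ n ∈ range M, Slev G θ' θ r v n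
        = ∑ n ∈ range M, Sn G (PP V) θ' θ (minf G θ' r) (minf G θ r) v n := rfl
    have e6 : ∑ n ∈ range M, Slev G θ θ' r v n ≤ 9 * ∑ n ∈ range M, Slev G θ' θ r v n := by
      rw [mul_sum]
      exact sum_le_sum fun n _ => Slev_swap_le hT f0.le f1 f0'.le f1' r v n
    have e7 : DD G θ' θ r v = DD G θ θ' r v := by
      unfold DD
      refine integral_congr_ae (Eventually.of_forall fun ω => ?_)
      simp only
      ring
    have e8 : (θ' - θ) ^ 2 = (θ - θ') ^ 2 := by ring
    rw [← e5, e7, e8] at h1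
    linarith

/-- the Cauchy property at the critical parameter, from the level estimates -/
theorem cauchy_crit_of_level (hT : G.IsTree) {b : ℕ} (hb : 2 ≤ b)
    (hreg : G.IsRegularOfDegree (b + 1))
    (hlev : ∃ C c : ℝ, 0 < C ∧ 0 < c ∧ ∀ θ, thc b / 2 ≤ θ → θ < thc b → ∀ t, 0 < t → t ≤ 1 / 2 →
      ∀ (o : V) (k : ℕ),
      ((b : ℝ) * θ ^ 2) ^ k * ∫ ω, Alev G b θ (fun x => minf G θ t x ω) o k ∂(PP V)
        ≤ C * Real.exp (-c * t ^ (3 / 2 : ℝ) * k))
    (hLT : ∃ C c : ℝ, 0 < C ∧ 0 < c ∧ ∀ s0, 0 < s0 → ∃ δ, 0 < δ ∧ ∀ θ, thc b - δ < θ → θ < thc b →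
      ∀ t, s0 ≤ t → ∀ (o : V) (k : ℕ),
      (PP V).real {ω | C * Real.exp (-c * (min t 1) ^ (3 / 2 : ℝ) * k)
          < Alev G b θ (fun x => minf G θ t x ω) o k} ≤ C * Real.exp (-Real.exp (c * k)))
    (t : ℝ) (ht : 0 ≤ t) (v : V) (ε : ℝ) (hε : 0 < ε) :
    ∃ δ, 0 < δ ∧ ∀ θ θ', thc b - δ < θ → θ < thc b → thc b - δ < θ' → θ' < thc b →
      DD G θ θ' t v ≤ ε :=
  cauchy_crit_of hT hb hreg (Static.Tl.second_moment hT hb hreg) (Static.Tl.tail hT hb hreg) hlev
    (fun t0 ht0 Φ hΦ x y hxy ε hε => LawCont.law_cont hT hb hreg t0 ht0 Φ hΦ x y hxy ε hε)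
    (GB_form hT hb hreg hLT) t ht v ε hε

end Crest.Agent.R160.GC
end

-- ▼ part R160/StaticLevel
section

/-! Row 160, module E: level sums of slope products; mean decay and double exponential tail. -/

set_option autoImplicit false
set_option linter.unusedSectionVars false

open MeasureTheory ProbabilityTheory
open scoped Classical

namespace Crest.Agent.R160.Static

open Crest.Agent.R160

variable {V : Type*} {G : SimpleGraph V} [G.LocallyFinite] {θ : ℝ}
variable {Ω : Type*} [MeasurableSpace Ω] {P : Measure Ω} {X : V → Ω → ℝ × ℝ}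

/-- normalised level sum (level `k`) of the products of the slopes in the forward ball of depth
`n` at `x` (seen from `y`) -/
noncomputable def Bk (G : SimpleGraph V) [G.LocallyFinite] (b : ℕ) (θ : ℝ) :
    ℕ → ℕ → V → V → (V → ℝ × ℝ) → ℝ
  | 0, _, _, _, _ => 1
  | _ + 1, 0, _, _, _ => 1
  | k + 1, n + 1, y, x, f => (b : ℝ)⁻¹ * ∑ c ∈ (G.neighborFinset x).erase y,
      rhoh θ (magf G θ (BB G x c n) f c) * Bk G b θ k n x c f

variable {b : ℕ}

lemma Bk_zero (n : ℕ) (y x : V) (f : V → ℝ × ℝ) : Bk G b θ 0 n y x f = 1 := by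
  cases n <;> rfl

lemma Bk_succ (k n : ℕ) (y x : V) (f : V → ℝ × ℝ) : Bk G b θ (k + 1) (n + 1) y x f
    = (b : ℝ)⁻¹ * ∑ c ∈ (G.neighborFinset x).erase y,
      rhoh θ (magf G θ (BB G x c n) f c) * Bk G b θ k n x c f := rfl

lemma BB_subset_star {x c : V} {T : Finset V} (hc : c ∈ T) (n : ℕ) :
    BB G x c n ⊆ star G x T n := by
  intro v hv
  rw [star, Finset.mem_insert, Finset.mem_biUnion]
  exact Or.inr ⟨c, hc, hv⟩

lemma adj_of_mem_erase {x y c : V} (hc : c ∈ (G.neighborFinset x).erase y) : G.Adj x c := by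
  simpa using Finset.mem_of_mem_erase hc

lemma BB_subset_BB (hT : G.IsTree) {y x c : V} (hyx : G.Adj y x)
    (hc : c ∈ (G.neighborFinset x).erase y) (n : ℕ) : BB G x c n ⊆ BB G y x (n + 1) := by
  rw [BB_succ_eq hT hyx]
  exact BB_subset_star hc n

lemma measurable_rhoh (θ : ℝ) : Measurable (rhoh θ) := by
  unfold rhoh
  fun_prop

lemma measurable_Bk (k : ℕ) : ∀ (n : ℕ) (y x : V), Measurable (Bk G b θ k n y x) := by
  induction k with
  | zero =>
    intro n y x
    have : Bk G b θ 0 n y x = fun _ => 1 := funext fun f => Bk_zero n y x f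
    rw [this]
    exact measurable_const
  | succ k ih =>
    intro n y x
    cases n with
    | zero =>
      have : Bk G b θ (k + 1) 0 y x = fun _ => 1 := rfl
      rw [this]
      exact measurable_const
    | succ n =>
      have : Bk G b θ (k + 1) (n + 1) y x = fun f => (b : ℝ)⁻¹ *
        ∑ c ∈ (G.neighborFinset x).erase y,
          rhoh θ (magf G θ (BB G x c n) f c) * Bk G b θ k n x c f := rfl
      rw [this]
      refine Measurable.const_mul (Finset.measurable_fun_sum _ fun c _ => ?_) _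
      exact ((measurable_rhoh θ).comp (measurable_magf _ _)).mul (ih n x c)

lemma dependsOn_Bk (hT : G.IsTree) (k : ℕ) : ∀ (n : ℕ) {y x : V}, G.Adj y x →
    DependsOn (Bk G b θ k n y x) (BB G y x n : Set V) := by
  induction k with
  | zero =>
    intro n y x _ f g _
    rw [Bk_zero, Bk_zero]
  | succ k ih =>
    intro n y x hyx
    cases n with
    | zero => exact fun f g _ => rfl
    | succ n =>
      intro f g hfg
      rw [Bk_succ, Bk_succ]
      congr 1
      refine Finset.sum_congr rfl fun c hc => ?_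
      have hsub := BB_subset_BB hT hyx hc n
      have hfg' : ∀ v ∈ (BB G x c n : Set V), f v = g v := fun v hv => hfg v (by
        rw [Finset.mem_coe] at hv ⊢
        exact hsub hv)
      have a1 : magf G θ (BB G x c n) f c = magf G θ (BB G x c n) g c :=
        dependsOn_magf (G := G) (θ := θ) (BB G x c n) c hfg'
      rw [a1, ih n (adj_of_mem_erase hc) hfg']

lemma rhoh_neg (θ y : ℝ) : rhoh θ (-y) = rhoh θ y := by
  unfold rhoh
  rw [neg_sq]

lemma Bk_flip (hT : G.IsTree) (k : ℕ) : ∀ (n : ℕ) {y x : V}, G.Adj y x → ∀ {B : Set V},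
    (BB G y x n : Set V) ⊆ B → ∀ f, Bk G b θ k n y x (flipOn B f) = Bk G b θ k n y x f := by
  induction k with
  | zero =>
    intro n y x _ B _ f
    rw [Bk_zero, Bk_zero]
  | succ k ih =>
    intro n y x hyx B hB f
    cases n with
    | zero => rfl
    | succ n =>
      rw [Bk_succ, Bk_succ]
      congr 1
      refine Finset.sum_congr rfl fun c hc => ?_
      have hxc := adj_of_mem_erase hc
      have hsub : (BB G x c n : Set V) ⊆ B := fun v hv => hB (by
        rw [Finset.mem_coe] at hv ⊢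
        exact BB_subset_BB hT hyx hc n hv)
      rw [magf_flip hsub f (self_mem_BB hT hxc n), rhoh_neg, ih n hxc hsub]

lemma Bk_nonneg_le_one (_hT : G.IsTree) (hb : 1 ≤ b) (hreg : G.IsRegularOfDegree (b + 1))
    (h0 : 0 ≤ θ) (h1 : θ < 1) (h2 : θ ^ 2 ≤ 1 / 2) (k : ℕ) : ∀ (n : ℕ) {y x : V}, G.Adj y x →
    ∀ {f : V → ℝ × ℝ}, Pos f → 0 ≤ Bk G b θ k n y x f ∧ Bk G b θ k n y x f ≤ 1 := by
  have hb' : (0 : ℝ) < b := by exact_mod_cast (by omega : 0 < b)
  induction k with
  | zero =>
    intro n y x _ f _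
    rw [Bk_zero]
    exact ⟨zero_le_one, le_rfl⟩
  | succ k ih =>
    intro n y x hyx f hf
    cases n with
    | zero => exact ⟨zero_le_one, le_rfl⟩
    | succ n =>
      rw [Bk_succ]
      constructor
      · refine mul_nonneg (by positivity) (Finset.sum_nonneg fun c hc => ?_)
        exact mul_nonneg (rhoh_nonneg h2 (abs_magf_le' h0 h1 hf _ _))
          (ih n (adj_of_mem_erase hc) hf).1
      · have : ∑ c ∈ (G.neighborFinset x).erase y,
            rhoh θ (magf G θ (BB G x c n) f c) * Bk G b θ k n x c f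
            ≤ ∑ c ∈ (G.neighborFinset x).erase y, (1 : ℝ) := by
          refine Finset.sum_le_sum fun c hc => ?_
          have i1 := rhoh_le_one h2 (abs_magf_le' (G := G) h0 h1 hf (BB G x c n) c)
          have i2 := ih n (adj_of_mem_erase hc) hf
          have i3 := rhoh_nonneg h2 (abs_magf_le' (G := G) h0 h1 hf (BB G x c n) c)
          exact mul_le_one₀ i1 i2.1 i2.2
        rw [Finset.sum_const, card_neighbor_erase hreg hyx, nsmul_eq_mul, mul_one] at this
        calc (b : ℝ)⁻¹ * _ ≤ (b : ℝ)⁻¹ * b := mul_le_mul_of_nonneg_left this (by positivity)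
          _ = 1 := inv_mul_cancel₀ hb'.ne'

/-- planted expectation of products over the branches of a star -/
theorem FieldData.planted_prod (h : FieldData P X) (hT : G.IsTree) (h0 : 0 ≤ θ) (h1 : θ < 1)
    {x : V} {T : Finset V} (hTn : ∀ a ∈ T, G.Adj x a) (n : ℕ) {F : V → (V → ℝ × ℝ) → ℝ}
    (hF : ∀ c ∈ T, Measurable (F c)) (hFd : ∀ c ∈ T, DependsOn (F c) (BB G x c n : Set V))
    (hFb : ∀ c ∈ T, Bdd X (F c)) (heven : ∀ c ∈ T, ∀ f, F c (flipOn (BB G x c n : Set V) f) = F c f) :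
    ∫ ω, zf G θ (star G x T n) (fd X ω) * ∏ c ∈ T, F c (fd X ω) ∂P
      = ∏ c ∈ T, ∫ ω, zf G θ (BB G x c n) (fd X ω) * F c (fd X ω) ∂P := by
  induction T using Finset.induction_on with
  | empty =>
    simp only [Finset.prod_empty, mul_one]
    exact h.zz_star' hT h0 h1 hTn n
  | insert c T hcT ih =>
    have hTn' : ∀ a ∈ T, G.Adj x a := fun a ha => hTn a (Finset.mem_insert_of_mem ha)
    have hc := hTn c (Finset.mem_insert_self _ _)
    have e := (edge1_star hT hTn' hc hcT n).symm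
    have key := h.planted_mul (G := G) h0 h1 e (F := F c)
      (H := fun f => ∏ a ∈ T, F a f) (hF c (Finset.mem_insert_self _ _))
      (Finset.measurable_fun_prod _ fun a ha => hF a (Finset.mem_insert_of_mem ha))
      (hFd c (Finset.mem_insert_self _ _)) (by
        intro f g hfg
        refine Finset.prod_congr rfl fun a ha => ?_
        refine hFd a (Finset.mem_insert_of_mem ha) fun v hv => hfg v ?_
        rw [Finset.mem_coe] at hv ⊢
        exact BB_subset_star ha n hv)
      (hFb c (Finset.mem_insert_self _ _))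
      (Bdd.prod fun a ha => hFb a (Finset.mem_insert_of_mem ha))
      (heven c (Finset.mem_insert_self _ _))
    rw [Finset.prod_insert hcT, star_insert, Finset.union_comm]
    have e2 : ∀ ω, zf G θ (BB G x c n ∪ star G x T n) (fd X ω) * ∏ a ∈ insert c T, F a (fd X ω)
        = zf G θ (BB G x c n ∪ star G x T n) (fd X ω)
          * (F c (fd X ω) * ∏ a ∈ T, F a (fd X ω)) := by
      intro ω
      rw [Finset.prod_insert hcT]
    simp only [e2]
    rw [key, ih hTn' (fun a ha => hF a (Finset.mem_insert_of_mem ha))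
      (fun a ha => hFd a (Finset.mem_insert_of_mem ha))
      (fun a ha => hFb a (Finset.mem_insert_of_mem ha))
      (fun a ha => heven a (Finset.mem_insert_of_mem ha))]

/-- restriction from a star to one of its branches -/
theorem FieldData.planted_branch (h : FieldData P X) (hT : G.IsTree) (h0 : 0 ≤ θ) (h1 : θ < 1)
    {x : V} {T : Finset V} (hTn : ∀ a ∈ T, G.Adj x a) (n : ℕ) {c : V} (hc : c ∈ T)
    {F : (V → ℝ × ℝ) → ℝ} (hF : Measurable F) (hFd : DependsOn F (BB G x c n : Set V))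
    (hFb : Bdd X F) :
    ∫ ω, zf G θ (star G x T n) (fd X ω) * F (fd X ω) ∂P
      = ∫ ω, zf G θ (BB G x c n) (fd X ω) * F (fd X ω) ∂P := by
  have hTn' : ∀ a ∈ T.erase c, G.Adj x a := fun a ha => hTn a (Finset.mem_of_mem_erase ha)
  have e := (edge1_star hT hTn' (hTn c hc) (Finset.notMem_erase _ _) n).symm
  have key := h.planted_restrict (G := G) h0 h1 e hF hFd hFb (h.zz_star' hT h0 h1 hTn' n)
  rw [← Finset.insert_erase hc, star_insert, Finset.union_comm]
  exact key

/-- planted mean of the level sum -/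
noncomputable def EB (P : Measure Ω) (X : V → Ω → ℝ × ℝ) (G : SimpleGraph V) [G.LocallyFinite]
    (b : ℕ) (θ : ℝ) (k n : ℕ) (y x : V) : ℝ :=
  ∫ ω, zf G θ (BB G y x n) (fd X ω) * Bk G b θ k n y x (fd X ω) ∂P

lemma FieldData.bdd_Bk (h : FieldData P X) (hT : G.IsTree) (hb : 1 ≤ b)
    (hreg : G.IsRegularOfDegree (b + 1)) (h0 : 0 ≤ θ) (h1 : θ < 1) (h2 : θ ^ 2 ≤ 1 / 2) (k n : ℕ)
    {y x : V} (hyx : G.Adj y x) : Bdd X (Bk G b θ k n y x) :=
  ⟨1, fun ω => by
    have := Bk_nonneg_le_one hT hb hreg h0 h1 h2 k n hyx (h.posf ω)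
    rw [abs_of_nonneg this.1]
    exact this.2⟩

lemma FieldData.bdd_rhoh (h : FieldData P X) (h0 : 0 ≤ θ) (h1 : θ < 1) (h2 : θ ^ 2 ≤ 1 / 2)
    (S : Finset V) (x : V) : Bdd X (fun f => rhoh θ (magf G θ S f x)) :=
  ⟨1, fun ω => by
    have i1 := rhoh_nonneg h2 (abs_magf_le' (G := G) h0 h1 (h.posf ω) S x)
    have i2 := rhoh_le_one h2 (abs_magf_le' (G := G) h0 h1 (h.posf ω) S x)
    rw [abs_of_nonneg i1]
    exact i2⟩


/-- two steps, with gain -/
theorem FieldData.EB_two_le (h : FieldData P X) (hT : G.IsTree) (hb : 2 ≤ b)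
    (hreg : G.IsRegularOfDegree (b + 1)) (h0 : 0 ≤ θ) (h1 : θ < 1) (h2 : θ ^ 2 ≤ 1 / 2)
    {k n : ℕ} {q p : ℝ} (hq : ∀ {y x : V}, G.Adj y x → EB P X G b θ k n y x ≤ q)
    (hp1 : p ≤ 1) (hp : ∀ {y x : V}, G.Adj y x → p ≤ θ ^ 2 * qq P X G θ (BB G y x n) x) {y x : V}
    (hyx : G.Adj y x) : EB P X G b θ (k + 2) (n + 2) y x ≤ (1 - p / 96) * q := by
  have hb1 : 1 ≤ b := by omega
  have hb' : (0 : ℝ) < b := by exact_mod_cast (by omega : 0 < b)
  have hTn : ∀ a ∈ (G.neighborFinset x).erase y, G.Adj x a := fun a ha => adj_of_mem_erase ha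
  -- the functional at a child
  let Fc : V → (V → ℝ × ℝ) → ℝ := fun c f =>
    rhoh θ (magf G θ (BB G x c (n + 1)) f c) * Bk G b θ (k + 1) (n + 1) x c f
  have hm : ∀ c ∈ (G.neighborFinset x).erase y, Measurable (Fc c) := fun c _ =>
    ((measurable_rhoh θ).comp (measurable_magf _ _)).mul (measurable_Bk _ _ _ _)
  have hFb : ∀ c ∈ (G.neighborFinset x).erase y, Bdd X (Fc c) := fun c hc =>
    (h.bdd_rhoh h0 h1 h2 _ _).mul (h.bdd_Bk hT hb1 hreg h0 h1 h2 _ _ (hTn c hc))
  have hFd : ∀ c ∈ (G.neighborFinset x).erase y, DependsOn (Fc c) (BB G x c (n + 1) : Set V) := by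
    intro c hc f g hfg
    have a1 : magf G θ (BB G x c (n + 1)) f c = magf G θ (BB G x c (n + 1)) g c :=
      dependsOn_magf (G := G) (θ := θ) (BB G x c (n + 1)) c hfg
    simp only [Fc]
    rw [a1, dependsOn_Bk hT (k + 1) (n + 1) (hTn c hc) hfg]
  have hi : ∀ c ∈ (G.neighborFinset x).erase y, Integrable (fun ω =>
      zf G θ (BB G y x (n + 2)) (fd X ω) * Fc c (fd X ω)) P := fun c hc =>
    h.integrable ((measurable_zf _).mul (hm c hc)) ((h.bdd_zf _).mul (hFb c hc))
  have step : EB P X G b θ (k + 2) (n + 2) y x = (b : ℝ)⁻¹ *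
      ∑ c ∈ (G.neighborFinset x).erase y,
        ∫ ω, zf G θ (BB G y x (n + 2)) (fd X ω) * Fc c (fd X ω) ∂P := by
    unfold EB
    rw [← integral_finsetSum _ hi, ← integral_const_mul]
    refine integral_congr_ae (Filter.Eventually.of_forall fun ω => ?_)
    simp only
    rw [Bk_succ, ← mul_assoc, mul_comm (zf G θ (BB G y x (n + 1 + 1)) (fd X ω)), mul_assoc,
      Finset.mul_sum]
  rw [step]
  -- bound at a child
  have key : ∀ c ∈ (G.neighborFinset x).erase y,
      ∫ ω, zf G θ (BB G y x (n + 2)) (fd X ω) * Fc c (fd X ω) ∂P ≤ (1 - p / 96) * q := by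
    intro c hc
    have hxc := hTn c hc
    have hTc : ∀ a ∈ (G.neighborFinset c).erase x, G.Adj c a := fun a ha => adj_of_mem_erase ha
    rw [show n + 2 = (n + 1) + 1 from rfl, BB_succ_eq hT hyx,
      h.planted_branch hT h0 h1 hTn (n + 1) hc (hm c hc) (hFd c hc) (hFb c hc)]
    -- off-path biases
    let gam : V → (V → ℝ × ℝ) → ℝ := fun e f =>
      magf G θ (star G c (((G.neighborFinset c).erase x).erase e) n) f c
    have hTe : ∀ e, ∀ a ∈ ((G.neighborFinset c).erase x).erase e, G.Adj c a := fun e a ha =>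
      hTc a (Finset.mem_of_mem_erase ha)
    have hE : ∀ e ∈ (G.neighborFinset c).erase x,
        Edge1 G (star G c (((G.neighborFinset c).erase x).erase e) n) (BB G c e n) c e :=
      fun e he => edge1_star hT (hTe e) (hTc e he) (Finset.notMem_erase _ _) n
    have hS : ∀ e ∈ (G.neighborFinset c).erase x, BB G x c (n + 1)
        = star G c (((G.neighborFinset c).erase x).erase e) n ∪ BB G c e n := by
      intro e he
      rw [BB_succ_eq hT hxc, ← star_insert, Finset.insert_erase he]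
    have hgm : ∀ e, Measurable (fun f => 1 - gam e f ^ 2 / 96) := fun e =>
      (((measurable_magf (G := G) (θ := θ) _ _).pow_const 2).div_const 96).const_sub 1
    have hgb : ∀ e, Bdd X (fun f => 1 - gam e f ^ 2 / 96) := fun e => ⟨1, fun ω => by
      have := abs_magf_le' (G := G) h0 h1 (h.posf ω)
        (star G c (((G.neighborFinset c).erase x).erase e) n) c
      have h3 : gam e (fd X ω) ^ 2 ≤ 1 := by
        have := pow_le_one₀ (abs_nonneg _) this (n := 2)
        rwa [sq_abs] at this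
      have h4 := sq_nonneg (gam e (fd X ω))
      rw [abs_of_nonneg (by linarith)]
      linarith⟩
    have hgi : ∀ e ∈ (G.neighborFinset c).erase x, Integrable (fun ω =>
        zf G θ (BB G x c (n + 1)) (fd X ω) *
          ((1 - gam e (fd X ω) ^ 2 / 96) * Bk G b θ k n c e (fd X ω))) P := fun e he =>
      h.integrable ((measurable_zf _).mul ((hgm e).mul (measurable_Bk _ _ _ _)))
        ((h.bdd_zf _).mul ((hgb e).mul (h.bdd_Bk hT hb1 hreg h0 h1 h2 _ _ (hTc e he))))
    have s1 : ∫ ω, zf G θ (BB G x c (n + 1)) (fd X ω) * Fc c (fd X ω) ∂P ≤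
        ∫ ω, (b : ℝ)⁻¹ * ∑ e ∈ (G.neighborFinset c).erase x,
          zf G θ (BB G x c (n + 1)) (fd X ω) *
            ((1 - gam e (fd X ω) ^ 2 / 96) * Bk G b θ k n c e (fd X ω)) ∂P := by
      refine integral_mono (h.integrable ((measurable_zf _).mul (hm c hc))
        ((h.bdd_zf _).mul (hFb c hc))) ((integrable_finsetSum _ hgi).const_mul _) fun ω => ?_
      simp only [Fc]
      rw [Bk_succ]
      have e1 : zf G θ (BB G x c (n + 1)) (fd X ω) *
          (rhoh θ (magf G θ (BB G x c (n + 1)) (fd X ω) c) * ((b : ℝ)⁻¹ *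
            ∑ e ∈ (G.neighborFinset c).erase x,
              rhoh θ (magf G θ (BB G c e n) (fd X ω) e) * Bk G b θ k n c e (fd X ω)))
          = (b : ℝ)⁻¹ * ∑ e ∈ (G.neighborFinset c).erase x,
            zf G θ (BB G x c (n + 1)) (fd X ω) *
              ((rhoh θ (magf G θ (BB G x c (n + 1)) (fd X ω) c) *
                rhoh θ (magf G θ (BB G c e n) (fd X ω) e)) * Bk G b θ k n c e (fd X ω)) := by
        rw [Finset.mul_sum, Finset.mul_sum, Finset.mul_sum, Finset.mul_sum]
        refine Finset.sum_congr rfl fun e _ => ?_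
        ring
      rw [e1]
      refine mul_le_mul_of_nonneg_left (Finset.sum_le_sum fun e he => ?_) (by positivity)
      refine mul_le_mul_of_nonneg_left ?_ (zf_pos h0 h1 (h.posf ω) _).le
      refine mul_le_mul_of_nonneg_right ?_
        (Bk_nonneg_le_one hT hb1 hreg h0 h1 h2 k n (hTc e he) (h.posf ω)).1
      refine two_step_gain (g := gam e (fd X ω)) h0 h2 (abs_magf_le' h0 h1 (h.posf ω) _ _)
        (abs_magf_le' h0 h1 (h.posf ω) _ _) ?_
      have g1 := magf_glue (hE e he) h0 h1 (h.posf ω)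
      rw [← hS e he] at g1
      rw [g1]
      have g2 := (h.theta_bounds (G := G) h0 h1 ω
        (star G c (((G.neighborFinset c).erase x).erase e) n) (BB G c e n) c e).2.2
      have g3 := (abs_lt.mp g2).1
      unfold mg
      have g4 : 1 + θ * magf G θ (star G c (((G.neighborFinset c).erase x).erase e) n) (fd X ω) c *
          magf G θ (BB G c e n) (fd X ω) e ≠ 0 := by
        have : θ * magf G θ (star G c (((G.neighborFinset c).erase x).erase e) n) (fd X ω) c *
          magf G θ (BB G c e n) (fd X ω) e = magf G θ (star G c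
            (((G.neighborFinset c).erase x).erase e) n) (fd X ω) c *
              (θ * magf G θ (BB G c e n) (fd X ω) e) := by ring
        rw [this]
        linarith
      simp only [gam]
      have g5 : 1 + magf G θ (star G c (((G.neighborFinset c).erase x).erase e) n) (fd X ω) c *
          (θ * magf G θ (BB G c e n) (fd X ω) e)
          = 1 + θ * magf G θ (star G c (((G.neighborFinset c).erase x).erase e) n) (fd X ω) c *
          magf G θ (BB G c e n) (fd X ω) e := by ring
      rw [g5, div_mul_cancel₀ _ g4]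
    refine s1.trans ?_
    rw [integral_const_mul, integral_finsetSum _ hgi]
    have s2 : ∀ e ∈ (G.neighborFinset c).erase x,
        ∫ ω, zf G θ (BB G x c (n + 1)) (fd X ω) *
          ((1 - gam e (fd X ω) ^ 2 / 96) * Bk G b θ k n c e (fd X ω)) ∂P ≤ (1 - p / 96) * q := by
      intro e he
      rw [hS e he]
      have t1 := h.planted_mul (G := G) h0 h1 (hE e he) (F := fun f => 1 - gam e f ^ 2 / 96)
        (H := Bk G b θ k n c e) (hgm e) (measurable_Bk _ _ _ _) (by
          intro f g hfg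
          have a1 : gam e f = gam e g := dependsOn_magf (G := G) (θ := θ) _ c hfg
          simp only
          rw [a1]) (dependsOn_Bk hT k n (hTc e he)) (hgb e)
        (h.bdd_Bk hT hb1 hreg h0 h1 h2 _ _ (hTc e he)) (by
          intro f
          have a1 : gam e (flipOn ((star G c (((G.neighborFinset c).erase x).erase e) n :
              Finset V) : Set V) f) = - gam e f :=
            magf_flip (subset_refl _) f (mem_star_self _ _ _)
          rw [a1, neg_sq])
      rw [t1]
      have t2 : ∫ ω, zf G θ (star G c (((G.neighborFinset c).erase x).erase e) n) (fd X ω) *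
          (1 - gam e (fd X ω) ^ 2 / 96) ∂P
          = 1 - qq P X G θ (star G c (((G.neighborFinset c).erase x).erase e) n) c / 96 := by
        have e1 : ∀ ω, zf G θ (star G c (((G.neighborFinset c).erase x).erase e) n) (fd X ω) *
          (1 - gam e (fd X ω) ^ 2 / 96)
          = zf G θ (star G c (((G.neighborFinset c).erase x).erase e) n) (fd X ω)
            - (zf G θ (star G c (((G.neighborFinset c).erase x).erase e) n) (fd X ω) *
              gam e (fd X ω) ^ 2) / 96 := by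
          intro ω
          ring
        simp only [e1]
        rw [integral_sub, integral_div]
        · have z := h.zz_star' (G := G) hT h0 h1 (hTe e) n
          unfold zz at z
          rw [z]
          rfl
        · exact h.integrable (measurable_zf _) (h.bdd_zf _)
        · refine Integrable.div_const (h.integrable ((measurable_zf _).mul
            ((measurable_magf _ _).pow_const 2)) ((h.bdd_zf _).mul ⟨1, fun ω => ?_⟩)) _
          rw [abs_pow]
          exact pow_le_one₀ (abs_nonneg _) (abs_magf_le' h0 h1 (h.posf ω) _ _)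
      rw [t2]
      -- a remaining child gives the lower bound
      have hne : (((G.neighborFinset c).erase x).erase e).Nonempty := by
        rw [← Finset.card_pos, Finset.card_erase_of_mem he, card_neighbor_erase hreg hxc]
        omega
      obtain ⟨a, ha⟩ := hne
      have t3 := h.star_ge_child (G := G) hT h0 h1 (hTe e) n ha
      have t4 := hp (hTe e a ha)
      have t5 := hq (hTc e he)
      have t6 : 0 ≤ EB P X G b θ k n c e := integral_nonneg fun ω =>
        mul_nonneg (zf_pos h0 h1 (h.posf ω) _).le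
          (Bk_nonneg_le_one hT hb1 hreg h0 h1 h2 k n (hTc e he) (h.posf ω)).1
      unfold EB at t5 t6
      refine mul_le_mul ?_ t5 t6 (by linarith)
      linarith
    calc (b : ℝ)⁻¹ * ∑ e ∈ (G.neighborFinset c).erase x, ∫ ω, zf G θ (BB G x c (n + 1)) (fd X ω) *
          ((1 - gam e (fd X ω) ^ 2 / 96) * Bk G b θ k n c e (fd X ω)) ∂P
        ≤ (b : ℝ)⁻¹ * ∑ e ∈ (G.neighborFinset c).erase x, (1 - p / 96) * q :=
          mul_le_mul_of_nonneg_left (Finset.sum_le_sum s2) (by positivity)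
      _ = (1 - p / 96) * q := by
          rw [Finset.sum_const, card_neighbor_erase hreg hxc, nsmul_eq_mul, ← mul_assoc,
            inv_mul_cancel₀ hb'.ne', one_mul]
  calc (b : ℝ)⁻¹ * ∑ c ∈ (G.neighborFinset x).erase y,
        ∫ ω, zf G θ (BB G y x (n + 2)) (fd X ω) * Fc c (fd X ω) ∂P
      ≤ (b : ℝ)⁻¹ * ∑ c ∈ (G.neighborFinset x).erase y, (1 - p / 96) * q :=
        mul_le_mul_of_nonneg_left (Finset.sum_le_sum key) (by positivity)
    _ = (1 - p / 96) * q := by
        rw [Finset.sum_const, card_neighbor_erase hreg hyx, nsmul_eq_mul, ← mul_assoc,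
          inv_mul_cancel₀ hb'.ne', one_mul]

end Crest.Agent.R160.Static
end

-- ▼ part R160/StaticExp
section

/-! Row 160, module E: iterated mean bound and exponential moments of the level sums. -/

set_option autoImplicit false
set_option linter.unusedSectionVars false

open MeasureTheory ProbabilityTheory
open scoped Classical

namespace Crest.Agent.R160.Static

open Crest.Agent.R160

variable {V : Type*} {G : SimpleGraph V} [G.LocallyFinite] {θ : ℝ}
variable {Ω : Type*} [MeasurableSpace Ω] {P : Measure Ω} {X : V → Ω → ℝ × ℝ} {b : ℕ}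

/-- level sum at the centre of a star -/
noncomputable def AV (G : SimpleGraph V) [G.LocallyFinite] (b : ℕ) (θ : ℝ) (k n : ℕ) (x : V)
    (T : Finset V) (f : V → ℝ × ℝ) : ℝ :=
  (b : ℝ)⁻¹ * ∑ c ∈ T, rhoh θ (magf G θ (BB G x c n) f c) * Bk G b θ k n x c f

lemma measurable_AV (k n : ℕ) (x : V) (T : Finset V) : Measurable (AV G b θ k n x T) := by
  unfold AV
  refine Measurable.const_mul (Finset.measurable_fun_sum _ fun c _ => ?_) _
  exact ((measurable_rhoh θ).comp (measurable_magf _ _)).mul (measurable_Bk _ _ _ _)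

/-- exponential moment of the level sum -/
noncomputable def GB (P : Measure Ω) (X : V → Ω → ℝ × ℝ) (G : SimpleGraph V) [G.LocallyFinite]
    (b : ℕ) (θ : ℝ) (k n : ℕ) (y x : V) (l : ℝ) : ℝ :=
  ∫ ω, zf G θ (BB G y x n) (fd X ω) * Real.exp (l * Bk G b θ k n y x (fd X ω)) ∂P

section

variable (h : FieldData P X) (hT : G.IsTree) (hb : 2 ≤ b) (hreg : G.IsRegularOfDegree (b + 1))
  (h0 : 0 ≤ θ) (h1 : θ < 1) (h2 : θ ^ 2 ≤ 1 / 2)

include h hT hb hreg h0 h1 h2

lemma bdd_AV (k n : ℕ) {x : V} {T : Finset V} (hTn : ∀ a ∈ T, G.Adj x a) :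
    Bdd X (AV G b θ k n x T) := by
  have hb1 : 1 ≤ b := by omega
  unfold AV
  exact (Bdd.const _).mul (Bdd.sum fun c hc => (h.bdd_rhoh h0 h1 h2 _ _).mul
    (h.bdd_Bk hT hb1 hreg h0 h1 h2 _ _ (hTn c hc)))


/-- star mean bound -/
theorem AV_mean_le {k n : ℕ} {q : ℝ} (hq : ∀ {y x : V}, G.Adj y x → EB P X G b θ k n y x ≤ q)
    {x : V} {T : Finset V} (hTn : ∀ a ∈ T, G.Adj x a) :
    ∫ ω, zf G θ (star G x T n) (fd X ω) * AV G b θ k n x T (fd X ω) ∂P
      ≤ (b : ℝ)⁻¹ * (T.card * q) := by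
  have hb1 : 1 ≤ b := by omega
  have hm : ∀ c ∈ T, Measurable (Bk G b θ k n x c) := fun c _ => measurable_Bk k n x c
  have hi : ∀ c ∈ T, Integrable (fun ω =>
      zf G θ (star G x T n) (fd X ω) * Bk G b θ k n x c (fd X ω)) P := fun c hc =>
    h.integrable ((measurable_zf _).mul (hm c hc))
      ((h.bdd_zf _).mul (h.bdd_Bk hT hb1 hreg h0 h1 h2 k n (hTn c hc)))
  have step : ∫ ω, zf G θ (star G x T n) (fd X ω) * AV G b θ k n x T (fd X ω) ∂P ≤
      ∫ ω, (b : ℝ)⁻¹ * ∑ c ∈ T,
        zf G θ (star G x T n) (fd X ω) * Bk G b θ k n x c (fd X ω) ∂P := by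
    refine integral_mono (h.integrable ((measurable_zf _).mul (measurable_AV _ _ _ _))
      ((h.bdd_zf _).mul (bdd_AV h hT hb hreg h0 h1 h2 k n hTn)))
      ((integrable_finsetSum _ hi).const_mul _) fun ω => ?_
    simp only [AV]
    rw [← mul_assoc, mul_comm (zf G θ (star G x T n) (fd X ω)), mul_assoc, Finset.mul_sum]
    refine mul_le_mul_of_nonneg_left (Finset.sum_le_sum fun c hc => ?_) (by positivity)
    refine mul_le_mul_of_nonneg_left ?_ (zf_pos h0 h1 (h.posf ω) _).le
    exact mul_le_of_le_one_left (Bk_nonneg_le_one hT hb1 hreg h0 h1 h2 k n (hTn c hc) (h.posf ω)).1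
      (rhoh_le_one h2 (abs_magf_le' h0 h1 (h.posf ω) _ _))
  refine step.trans ?_
  rw [integral_const_mul, integral_finsetSum _ hi]
  refine mul_le_mul_of_nonneg_left ?_ (by positivity)
  rw [← nsmul_eq_mul, ← Finset.sum_const]
  refine Finset.sum_le_sum fun c hc => ?_
  rw [h.planted_branch hT h0 h1 hTn n hc (hm c hc)
      (dependsOn_Bk hT k n (hTn c hc)) (h.bdd_Bk hT hb1 hreg h0 h1 h2 k n (hTn c hc))]
  exact hq (hTn c hc)

/-- exponential moment of a star -/
theorem AV_exp_le {k n : ℕ} {l : ℝ} (hl : 0 ≤ l) {x : V} {T : Finset V}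
    (hTn : ∀ a ∈ T, G.Adj x a) :
    ∫ ω, zf G θ (star G x T n) (fd X ω) * Real.exp (l * AV G b θ k n x T (fd X ω)) ∂P
      ≤ ∏ c ∈ T, GB P X G b θ k n x c (l / b) := by
  have hb1 : 1 ≤ b := by omega
  have hb' : (0 : ℝ) < b := by exact_mod_cast (by omega : 0 < b)
  let F : V → (V → ℝ × ℝ) → ℝ := fun c f => Real.exp (l / b * Bk G b θ k n x c f)
  have hF : ∀ c ∈ T, Measurable (F c) := fun c _ =>
    Real.measurable_exp.comp ((measurable_Bk k n x c).const_mul _)
  have hFd : ∀ c ∈ T, DependsOn (F c) (BB G x c n : Set V) := by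
    intro c hc f g hfg
    simp only [F]
    rw [dependsOn_Bk hT k n (hTn c hc) hfg]
  have hFb : ∀ c ∈ T, Bdd X (F c) := fun c hc => ⟨Real.exp (l / b), fun ω => by
    have := Bk_nonneg_le_one hT hb1 hreg h0 h1 h2 k n (hTn c hc) (h.posf ω)
    simp only [F]
    rw [abs_of_pos (Real.exp_pos _)]
    apply Real.exp_le_exp.mpr
    exact mul_le_of_le_one_right (by positivity) this.2⟩
  have heven : ∀ c ∈ T, ∀ f, F c (flipOn (BB G x c n : Set V) f) = F c f := by
    intro c hc f
    simp only [F]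
    rw [Bk_flip hT k n (hTn c hc) (subset_refl _)]
  have key := h.planted_prod hT h0 h1 hTn n hF hFd hFb heven
  have e : ∏ c ∈ T, GB P X G b θ k n x c (l / b)
      = ∏ c ∈ T, ∫ ω, zf G θ (BB G x c n) (fd X ω) * F c (fd X ω) ∂P := rfl
  rw [e, ← key]
  obtain ⟨K, hK⟩ := bdd_AV (P := P) h hT hb hreg h0 h1 h2 k n hTn
  refine integral_mono (h.integrable ((measurable_zf _).mul
    (Real.measurable_exp.comp ((measurable_AV _ _ _ _).const_mul l)))
    ((h.bdd_zf _).mul ⟨Real.exp (l * K), fun ω => ?_⟩))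
    (h.integrable ((measurable_zf _).mul (Finset.measurable_fun_prod _ hF))
      ((h.bdd_zf _).mul (Bdd.prod hFb))) fun ω => ?_
  · change |Real.exp (l * AV G b θ k n x T (fd X ω))| ≤ Real.exp (l * K)
    rw [abs_of_pos (Real.exp_pos _)]
    exact Real.exp_le_exp.mpr (mul_le_mul_of_nonneg_left ((le_abs_self _).trans (hK ω)) hl)
  · simp only [F]
    refine mul_le_mul_of_nonneg_left ?_ (zf_pos h0 h1 (h.posf ω) _).le
    rw [← Real.exp_sum]
    apply Real.exp_le_exp.mpr
    unfold AV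
    rw [← Finset.mul_sum, ← mul_assoc, ← div_eq_mul_inv]
    refine mul_le_mul_of_nonneg_left (Finset.sum_le_sum fun c hc => ?_) (by positivity)
    exact mul_le_of_le_one_left (Bk_nonneg_le_one hT hb1 hreg h0 h1 h2 k n (hTn c hc) (h.posf ω)).1
      (rhoh_le_one h2 (abs_magf_le' h0 h1 (h.posf ω) _ _))

theorem GB_nonneg (k n : ℕ) {y x : V} (l : ℝ) : 0 ≤ GB P X G b θ k n y x l :=
  integral_nonneg fun ω => mul_nonneg (zf_pos h0 h1 (h.posf ω) _).le (Real.exp_pos _).le

theorem GB_base {k n : ℕ} {q : ℝ} (hq : ∀ {y x : V}, G.Adj y x → EB P X G b θ k n y x ≤ q)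
    {y x : V} (hyx : G.Adj y x) {l : ℝ} (hl : 0 ≤ l) (hl1 : l ≤ 1) :
    GB P X G b θ k n y x l ≤ Real.exp (2 * (l * q)) := by
  have hb1 : 1 ≤ b := by omega
  have s1 : GB P X G b θ k n y x l ≤ 1 + 2 * (l * EB P X G b θ k n y x) := by
    have z := h.zz_BB (G := G) hT h0 h1 n hyx
    unfold zz at z
    have i1 : Integrable (fun ω => zf G θ (BB G y x n) (fd X ω)) P :=
      h.integrable (measurable_zf _) (h.bdd_zf _)
    have i2 : Integrable (fun ω => zf G θ (BB G y x n) (fd X ω)
        * Bk G b θ k n y x (fd X ω)) P :=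
      h.integrable ((measurable_zf _).mul (measurable_Bk _ _ _ _))
        ((h.bdd_zf _).mul (h.bdd_Bk hT hb1 hreg h0 h1 h2 _ _ hyx))
    have e : 1 + 2 * (l * EB P X G b θ k n y x) = ∫ ω, (zf G θ (BB G y x n) (fd X ω)
        + 2 * l * (zf G θ (BB G y x n) (fd X ω) * Bk G b θ k n y x (fd X ω))) ∂P := by
      rw [integral_add i1 (i2.const_mul _), integral_const_mul, z]
      unfold EB
      ring
    rw [e]
    refine integral_mono (h.integrable ((measurable_zf _).mul
      (Real.measurable_exp.comp ((measurable_Bk _ _ _ _).const_mul l)))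
      ((h.bdd_zf _).mul ⟨Real.exp l, fun ω => ?_⟩)) (i1.add (i2.const_mul _)) fun ω => ?_
    · change |Real.exp (l * Bk G b θ k n y x (fd X ω))| ≤ Real.exp l
      rw [abs_of_pos (Real.exp_pos _)]
      apply Real.exp_le_exp.mpr
      exact mul_le_of_le_one_right hl
        (Bk_nonneg_le_one hT hb1 hreg h0 h1 h2 k n hyx (h.posf ω)).2
    · have j1 := Bk_nonneg_le_one hT hb1 hreg h0 h1 h2 k n hyx (h.posf ω)
      have j2 := exp_le_one_add_two_mul (x := l * Bk G b θ k n y x (fd X ω))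
        (mul_nonneg hl j1.1) (mul_le_one₀ hl1 j1.1 j1.2)
      have j3 := (zf_pos (G := G) h0 h1 (h.posf ω) (BB G y x n)).le
      simp only
      calc zf G θ (BB G y x n) (fd X ω) * Real.exp (l * Bk G b θ k n y x (fd X ω))
          ≤ zf G θ (BB G y x n) (fd X ω) * (1 + 2 * (l * Bk G b θ k n y x (fd X ω))) :=
            mul_le_mul_of_nonneg_left j2 j3
        _ = _ := by ring
  refine s1.trans ?_
  have s2 := Real.add_one_le_exp (2 * (l * q))
  have s3 : l * EB P X G b θ k n y x ≤ l * q := mul_le_mul_of_nonneg_left (hq hyx) hl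
  linarith

theorem GB_iter {k n : ℕ} {q : ℝ} (hq : ∀ {y x : V}, G.Adj y x → EB P X G b θ k n y x ≤ q)
    (j : ℕ) : ∀ {y x : V}, G.Adj y x → ∀ {l : ℝ}, 0 ≤ l → l ≤ (b : ℝ) ^ j →
    GB P X G b θ (k + j) (n + j) y x l ≤ Real.exp (2 * (l * q)) := by
  have hb' : (0 : ℝ) < b := by exact_mod_cast (by omega : 0 < b)
  induction j with
  | zero =>
    intro y x hyx l hl hl1
    exact GB_base h hT hb hreg h0 h1 h2 hq hyx hl (by simpa using hl1)
  | succ j ih =>
    intro y x hyx l hl hl1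
    have hTn : ∀ a ∈ (G.neighborFinset x).erase y, G.Adj x a := fun a ha => adj_of_mem_erase ha
    have s1 := AV_exp_le h hT hb hreg h0 h1 h2 (k := k + j) (n := n + j) hl hTn
    rw [← BB_succ_eq hT hyx] at s1
    have s2 : GB P X G b θ (k + (j + 1)) (n + (j + 1)) y x l ≤
        ∏ c ∈ (G.neighborFinset x).erase y, GB P X G b θ (k + j) (n + j) x c (l / b) := s1
    refine s2.trans ?_
    have s3 : ∏ c ∈ (G.neighborFinset x).erase y, GB P X G b θ (k + j) (n + j) x c (l / b)
        ≤ ∏ _c ∈ (G.neighborFinset x).erase y, Real.exp (2 * (l / b * q)) := by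
      refine Finset.prod_le_prod (fun c hc => GB_nonneg h hT hb hreg h0 h1 h2 _ _ _)
        (fun c hc => ih (hTn c hc) (by positivity) ?_)
      rw [div_le_iff₀ hb']
      rw [pow_succ] at hl1
      exact hl1
    refine s3.trans (le_of_eq ?_)
    rw [Finset.prod_const, card_neighbor_erase hreg hyx, ← Real.exp_nat_mul]
    congr 1
    field_simp

/-- iterated mean bound: even levels -/
theorem EB_iter {N k0 : ℕ} {p : ℝ} (hp1 : p ≤ 1)
    (hp : ∀ n, N ≤ n → ∀ {y x : V}, G.Adj y x → p ≤ θ ^ 2 * qq P X G θ (BB G y x n) x) (j : ℕ) :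
    ∀ n, N ≤ n → ∀ {y x : V}, G.Adj y x →
      EB P X G b θ (k0 + 2 * j) (n + k0 + 2 * j) y x ≤ (1 - p / 96) ^ j := by
  have hb1 : 1 ≤ b := by omega
  have hbase : ∀ k n, ∀ {y x : V}, G.Adj y x → EB P X G b θ k n y x ≤ 1 := by
    intro k n y x hyx
    have z := h.zz_BB (G := G) hT h0 h1 n hyx
    unfold zz at z
    rw [← z]
    refine integral_mono (h.integrable ((measurable_zf _).mul (measurable_Bk _ _ _ _))
        ((h.bdd_zf _).mul (h.bdd_Bk hT hb1 hreg h0 h1 h2 _ _ hyx)))
        (h.integrable (measurable_zf _) (h.bdd_zf _)) fun ω => ?_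
    exact mul_le_of_le_one_right (zf_pos h0 h1 (h.posf ω) _).le
      (Bk_nonneg_le_one hT hb1 hreg h0 h1 h2 k n hyx (h.posf ω)).2
  induction j with
  | zero =>
    intro n _ y x hyx
    simpa using hbase _ _ hyx
  | succ j ih =>
    intro n hn y x hyx
    have s1 := h.EB_two_le hT hb hreg h0 h1 h2 (k := k0 + 2 * j) (n := n + k0 + 2 * j)
      (q := (1 - p / 96) ^ j) (p := p) (fun hyx => ih n hn hyx) hp1
      (fun hyx => hp (n + k0 + 2 * j) (by omega) hyx) hyx
    rw [pow_succ, mul_comm ((1 - p / 96) ^ j)]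
    exact s1

end

end Crest.Agent.R160.Static
end

-- ▼ part R160/StaticLim
section

/-! Row 160, module E: level sums of the infinite-volume magnetizations as limits. -/

set_option autoImplicit false
set_option linter.unusedSectionVars false

open MeasureTheory ProbabilityTheory Filter
open scoped Classical Topology

namespace Crest.Agent.R160.Static

open Crest.Agent.R160 Crest.Agent.R160.Bridge Crest.Agent.R160.TreeAut

variable {V : Type*} {G : SimpleGraph V} [G.LocallyFinite] {θ : ℝ} {b : ℕ}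

lemma continuous_clp : Continuous clp := by
  unfold clp
  fun_prop

lemma continuous_rho_clp (h0 : 0 ≤ θ) (h1 : θ < 1) :
    Continuous (fun p : ℝ × ℝ => rho θ (clp p.1) (clp p.2)) := by
  have e : (fun p : ℝ × ℝ => rho θ (clp p.1) (clp p.2)) = fun p =>
      2 * (1 - clp p.2 ^ 2) / (Bq θ (clp p.1) (clp p.2) + Rq θ (clp p.1) (clp p.2)) :=
    funext fun p => rho_eq θ _ _
  rw [e]
  have c1 : Continuous fun p : ℝ × ℝ => clp p.1 := continuous_clp.comp continuous_fst
  have c2 : Continuous fun p : ℝ × ℝ => clp p.2 := continuous_clp.comp continuous_snd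
  refine Continuous.div (by fun_prop) ?_ fun p =>
    (den_pos h0 h1 (abs_clp_le p.1) (abs_clp_le p.2)).ne'
  unfold Rq Dq Bq
  fun_prop

lemma continuous_rprodN_clp (h0 : 0 ≤ θ) (h1 : θ < 1) (r : V) (n : ℕ) : ∀ v : V,
    Continuous (fun m : V → ℝ => rprodN G θ (fun x => clp (m x)) r n v) := by
  induction n with
  | zero => intro v; exact continuous_const
  | succ n ih =>
    intro v
    have : (fun m : V → ℝ => rprodN G θ (fun x => clp (m x)) r (n + 1) v) = fun m =>
        rprodN G θ (fun x => clp (m x)) r n (par G r v)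
          * rho θ (clp (m (par G r v))) (clp (m v)) := rfl
    rw [this]
    refine (ih _).mul ?_
    have c2 : Continuous (fun m : V → ℝ => (m (par G r v), m v)) :=
      (continuous_apply (par G r v)).prodMk (continuous_apply v)
    exact (continuous_rho_clp h0 h1).comp c2

lemma continuous_Alev_clp (h0 : 0 ≤ θ) (h1 : θ < 1) (o : V) (k : ℕ) :
    Continuous (fun m : V → ℝ => Alev G b θ (fun x => clp (m x)) o k) := by
  unfold Alev
  refine continuous_const.mul (continuous_finsetSum _ fun w _ => ?_)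
  exact continuous_rprodN_clp h0 h1 o _ w

lemma rprodN_congr (hT : G.IsTree) {m m' : V → ℝ} {r : V} (n : ℕ) : ∀ v : V, G.dist r v = n →
    (∀ x, G.dist r x ≤ n → m x = m' x) → rprodN G θ m r n v = rprodN G θ m' r n v := by
  induction n with
  | zero => intro v _ _; rfl
  | succ n ih =>
    intro v hv hm
    have hne : v ≠ r := by
      rintro rfl
      rw [SimpleGraph.dist_self] at hv
      omega
    have hp := par_dist hT hne
    have e1 : rprodN G θ m r (n + 1) v
        = rprodN G θ m r n (par G r v) * rho θ (m (par G r v)) (m v) := rfl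
    have e2 : rprodN G θ m' r (n + 1) v
        = rprodN G θ m' r n (par G r v) * rho θ (m' (par G r v)) (m' v) := rfl
    rw [e1, e2, ih (par G r v) (by omega) (fun x hx => hm x (by omega)), hm _ (by omega),
      hm v (by omega)]

lemma Alev_congr (hT : G.IsTree) {m m' : V → ℝ} {o : V} {k : ℕ}
    (hm : ∀ x ∈ bal G o k, m x = m' x) : Alev G b θ m o k = Alev G b θ m' o k := by
  unfold Alev
  congr 1
  refine Finset.sum_congr rfl fun w hw => ?_
  have hd := (mem_sph hT o w k).1 hw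
  unfold rprod
  rw [hd]
  exact rprodN_congr hT k w hd fun x hx => hm x ((mem_bal hT o x k).2 hx)

/-- extension by zero -/
noncomputable def ext0 (W : Finset V) (u : W → ℝ) : V → ℝ :=
  fun x => if h : x ∈ W then u ⟨x, h⟩ else 0

lemma continuous_ext0 (W : Finset V) : Continuous (ext0 W) := by
  unfold ext0
  refine continuous_pi fun x => ?_
  by_cases h : x ∈ W
  · simp only [h, dite_true]
    exact continuous_apply _
  · simp only [h, dite_false]
    exact continuous_const

/-- the level sum as a continuous function of the magnetizations in the ball -/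
noncomputable def AH (G : SimpleGraph V) [G.LocallyFinite] (b : ℕ) (θ : ℝ) (o : V) (k : ℕ)
    (u : bal G o k → ℝ) : ℝ := Alev G b θ (fun x => clp (ext0 (bal G o k) u x)) o k

lemma continuous_AH (h0 : 0 ≤ θ) (h1 : θ < 1) (o : V) (k : ℕ) : Continuous (AH G b θ o k) :=
  (continuous_Alev_clp h0 h1 o k).comp (continuous_ext0 _)

lemma AH_eq (hT : G.IsTree) {m : V → ℝ} (hm : ∀ x, |m x| ≤ 1) (o : V) (k : ℕ) :
    AH G b θ o k (fun w => m w) = Alev G b θ m o k := by
  unfold AH
  refine Alev_congr hT fun x hx => ?_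
  simp only [ext0, hx, dite_true]
  exact clp_eq (hm x)

section

variable (hT : G.IsTree) (hb : 2 ≤ b) (hreg : G.IsRegularOfDegree (b + 1))
  (h0 : 0 ≤ θ) (hθ : (b : ℝ) * θ ^ 2 < 1)

include hT hb hreg h0 hθ

/-- `L²` convergence of the magnetizations computed in balls around `o` -/
theorem tendsto_sq_mfin {t : ℝ} (ht : 0 ≤ t) (o w : V) :
    Tendsto (fun n => ∫ ω, (mfin G θ (bal G o n) ω t w - minf G θ t w ω) ^ 2 ∂(PP V)) atTop
      (𝓝 0) := by
  obtain ⟨c, γ, hc, hγ, hγ1, H⟩ := Vol.exists_vol_le (G := G) hT hb hreg h0 hθ t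
  have h2 : Tendsto (fun n : ℕ => c * γ ^ (n - G.dist o w)) atTop (𝓝 0) := by
    have h3 : Tendsto (fun n : ℕ => γ ^ (n - G.dist o w)) atTop (𝓝 0) :=
      (tendsto_pow_atTop_nhds_zero_of_lt_one hγ.le hγ1).comp (tendsto_sub_atTop_nat _)
    simpa using h3.const_mul c
  refine squeeze_zero' (Eventually.of_forall fun n => integral_nonneg fun ω => sq_nonneg _) ?_ h2
  filter_upwards [eventually_ge_atTop (G.dist o w)] with n hn
  refine H t ht le_rfl w o n (n - G.dist o w) ?_
  intro x hx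
  rw [mem_bal hT] at hx ⊢
  have := hT.connected.dist_triangle (u := o) (v := w) (w := x)
  omega

theorem tendsto_Alev {t : ℝ} (ht : 0 ≤ t) (o : V) (k : ℕ) {ψ : ℝ → ℝ} (hψ : Continuous ψ) :
    Tendsto (fun n => ∫ ω, ψ (Alev G b θ (fun x => mfin G θ (bal G o (n + 1)) ω t x) o k) ∂(PP V))
      atTop (𝓝 (∫ ω, ψ (Alev G b θ (fun x => minf G θ t x ω) o k) ∂(PP V))) := by
  have h1 : θ < 1 := theta_lt_one' hb h0 hθ.le
  have hθ' : |θ| < 1 := by rwa [abs_of_nonneg h0]
  have key := tendsto_integral_minf (G := G) (θ := θ) (t := t) o (bal G o k)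
    (fun n w _ ω => abs_mfin_le G hθ' _ ω t w) (fun w _ ω => abs_minf_le h0 h1 t w ω)
    (fun n w _ => measurable_mfin G θ _ t w) (fun w _ => measurable_minf G θ t w)
    (fun w _ => tendsto_sq_mfin hT hb hreg h0 hθ ht o w)
    (H := fun u => ψ (AH G b θ o k u)) (hψ.comp (continuous_AH h0 h1 o k))
  have key2 := key.comp (tendsto_add_atTop_nat 1)
  have e1 : ∀ ω, AH G b θ o k (fun w => minf G θ t w ω)
      = Alev G b θ (fun x => minf G θ t x ω) o k := fun ω =>
    AH_eq hT (m := fun x => minf G θ t x ω) (fun x => abs_minf_le h0 h1 t x ω) o k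
  have e2 : ∀ n ω, AH G b θ o k (fun w => mfin G θ (bal G o n) ω t w)
      = Alev G b θ (fun x => mfin G θ (bal G o n) ω t x) o k := fun n ω =>
    AH_eq hT (m := fun x => mfin G θ (bal G o n) ω t x) (fun x => abs_mfin_le G hθ' _ ω t x) o k
  simp only [e1] at key2
  refine key2.congr fun n => ?_
  simp only [Function.comp_apply, e2]

omit hb hreg in
lemma measurable_Alev_minf (hb : 2 ≤ b) (t : ℝ) (o : V) (k : ℕ) :
    Measurable fun ω => Alev G b θ (fun x => minf G θ t x ω) o k := by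
  have h1 : θ < 1 := theta_lt_one' hb h0 hθ.le
  have e1 : (fun ω => Alev G b θ (fun x => minf G θ t x ω) o k)
      = fun ω => AH G b θ o k (fun w => minf G θ t w ω) := funext fun ω =>
    (AH_eq hT (m := fun x => minf G θ t x ω) (fun x => abs_minf_le h0 h1 t x ω) o k).symm
  rw [e1]
  refine (continuous_AH h0 h1 o k).measurable.comp ?_
  exact measurable_pi_iff.mpr fun w => measurable_minf G θ t w


end

end Crest.Agent.R160.Static
end

-- ▼ part R160/StaticAlev
section

/-! # Row 160, module E: the level sums `Alev` of a finite ball as branch level sums `AV` -/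

set_option autoImplicit false
set_option linter.unusedSectionVars false

open MeasureTheory ProbabilityTheory Finset
open scoped Classical

namespace Crest.Agent.R160.Static

open Crest.Agent.R160 Crest.Agent.R160.TreeAut

variable {V : Type*} {G : SimpleGraph V} [G.LocallyFinite] {θ : ℝ} {b : ℕ}

/-- the side of a child `c` of `u` in the ball around `o` is a forward ball -/
lemma side_bal (hT : G.IsTree) {o u c : V} {n k : ℕ} (hu : G.dist o u = k) (hk : k ≤ n)
    (hc : c ≠ o) (hpar : par G o c = u) :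
    side G (bal G o (n + 1)) c u = BB G u c (n - k) := by
  have hadj : G.Adj c u := hpar ▸ par_adj hT hc
  have hd : G.dist o u + 1 = G.dist o c := by
    have := par_dist hT hc
    rwa [hpar] at this
  ext v
  rw [mem_side, mem_bal hT, mem_BB hT]
  constructor
  · rintro ⟨h1, h2⟩
    -- `v` is behind `c`: the distance to `o` is additive
    have a1 := hT.dist_eq_dist_add_one_of_adj v hadj
    have c1 := SimpleGraph.dist_comm (G := G) (u := v) (v := c)
    have c2 := SimpleGraph.dist_comm (G := G) (u := v) (v := u)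
    have huv : G.dist u v = G.dist c v + 1 := by omega
    -- distance from `o` to `v`
    have key : G.dist o v = G.dist o c + G.dist c v := by
      -- induct along the path from `c` to `v`
      have hgen : ∀ m : ℕ, ∀ w : V, G.dist c w = m → G.dist u w = G.dist c w + 1 →
          G.dist o w = G.dist o c + G.dist c w := by
        intro m
        induction m with
        | zero =>
          intro w hw _
          have : c = w := hT.connected.dist_eq_zero_iff.mp hw
          subst this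
          simp
        | succ m ih =>
          intro w hw hw'
          have hne : w ≠ c := by
            rintro rfl
            rw [SimpleGraph.dist_self] at hw; omega
          have p1 := par_adj hT (r := c) hne
          have p2 := par_dist hT (r := c) hne
          set w' := par G c w with hw'def
          have hw'c : G.dist c w' = m := by omega
          -- `w'` is also on the side of `c`
          have hside : G.dist u w' = G.dist c w' + 1 := by
            have b1 : G.dist u w ≤ G.dist u w' + G.dist w' w := hT.connected.dist_triangle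
            have b2 : G.dist w' w = 1 := SimpleGraph.dist_eq_one_iff_adj.mpr p1.symm
            have b3 : G.dist u w' ≤ G.dist u c + G.dist c w' := hT.connected.dist_triangle
            have b4 : G.dist u c = 1 := SimpleGraph.dist_eq_one_iff_adj.mpr hadj.symm
            omega
          have ih' := ih w' hw'c hside
          -- compare `dist o w` and `dist o w'`
          rcases hT.dist_eq_dist_add_one_of_adj o p1 with h | h
          · omega
          · exfalso
            -- `w'` has the parent (towards `o`) `w`; but also its parent towards `o` is closer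
            -- to `c` (or is `u` if `w' = c`)
            by_cases hw'eq : w' = c
            · have h3 : w = u := by
                refine unique_closer hT (r := o) (v := c) ?_ hadj ?_ hd
                · rw [hw'eq] at p1; exact p1.symm
                · rw [hw'eq] at h; exact h.symm
              rw [h3, SimpleGraph.dist_self] at hw'
              omega
            · have q1 := par_adj hT (r := c) hw'eq
              have q2 := par_dist hT (r := c) hw'eq
              set w'' := par G c w' with hw''def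
              have q3 : G.dist u w'' = G.dist c w'' + 1 := by
                have b1 : G.dist u w' ≤ G.dist u w'' + G.dist w'' w' := hT.connected.dist_triangle
                have b2 : G.dist w'' w' = 1 := SimpleGraph.dist_eq_one_iff_adj.mpr q1.symm
                have b3 : G.dist u w'' ≤ G.dist u c + G.dist c w'' := hT.connected.dist_triangle
                have b4 : G.dist u c = 1 := SimpleGraph.dist_eq_one_iff_adj.mpr hadj.symm
                omega
              have q4 : G.dist o w'' ≤ G.dist o c + G.dist c w'' := hT.connected.dist_triangle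
              have q5 : G.dist o w'' + 1 = G.dist o w' := by
                rcases hT.dist_eq_dist_add_one_of_adj o q1 with h5 | h5
                · omega
                · omega
              have q6 : w = w'' := unique_closer hT p1.symm q1 h.symm q5
              rw [← q6] at q2
              omega
      exact hgen _ v rfl huv
    refine ⟨by omega, huv⟩
  · rintro ⟨h1, h2⟩
    have c1 := SimpleGraph.dist_comm (G := G) (u := v) (v := c)
    have c2 := SimpleGraph.dist_comm (G := G) (u := v) (v := u)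
    have t1 : G.dist o v ≤ G.dist o c + G.dist c v := hT.connected.dist_triangle
    constructor <;> omega

/-- slope over an edge of the ball in terms of the cavity bias behind it -/
lemma rho_bal (hT : G.IsTree) (h0 : 0 ≤ θ) (h1 : θ < 1) {f : V → ℝ × ℝ} (hf : Pos f)
    {o u c : V} {n k : ℕ} (hu : G.dist o u = k) (hk : k ≤ n) (hc : c ≠ o)
    (hpar : par G o c = u) :
    rho θ (magf G θ (bal G o (n + 1)) f u) (magf G θ (bal G o (n + 1)) f c)
      = rhoh θ (magf G θ (BB G u c (n - k)) f c) := by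
  have hadj : G.Adj u c := (hpar ▸ par_adj hT hc : G.Adj c u).symm
  have hd : G.dist o u + 1 = G.dist o c := by
    have := par_dist hT hc
    rwa [hpar] at this
  have hx : u ∈ bal G o (n + 1) := by rw [mem_bal hT]; omega
  have hcm : c ∈ bal G o (n + 1) := by rw [mem_bal hT]; omega
  have h := (mag_edge hT h0 h1 (fun v _ => hf v) hx hcm hadj).2.2
  rw [h, side_bal hT hu hk hc hpar]
  rfl

/-- children of `u ≠ o` as a punctured neighbourhood -/
lemma chl_eq_erase (hT : G.IsTree) {o u : V} (hu : u ≠ o) :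
    chl hT o u = (G.neighborFinset u).erase (par G o u) := by
  ext v
  rw [mem_chl, Finset.mem_erase, SimpleGraph.mem_neighborFinset]
  have h := mem_children_iff hT (r := o) (u := u) (v := v)
  constructor
  · intro hv
    have h2 := h.mp hv
    exact ⟨h2.2.resolve_left hu, h2.1⟩
  · rintro ⟨h1, h2⟩
    exact h.mpr ⟨h2, Or.inr h1⟩

lemma chl_root (hT : G.IsTree) (o : V) : chl hT o o = G.neighborFinset o := by
  ext v
  rw [mem_chl, SimpleGraph.mem_neighborFinset]
  have h := mem_children_iff hT (r := o) (u := o) (v := v)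
  constructor
  · intro hv; exact (h.mp hv).1
  · intro hv; exact h.mpr ⟨hv, Or.inl rfl⟩

/-- backward recursion for the level sums in the ball -/
lemma level_back (hT : G.IsTree) (hb : 1 ≤ b) (h0 : 0 ≤ θ) (h1 : θ < 1) {f : V → ℝ × ℝ}
    (hf : Pos f) (o : V) (n K : ℕ) (hK : K ≤ n + 1) :
    ∀ j, j + 1 ≤ K → ∑ w ∈ sph G o K, rprodN G θ (fun x => magf G θ (bal G o (n + 1)) f x) o K w
      = ∑ u ∈ sph G o (K - j), rprodN G θ (fun x => magf G θ (bal G o (n + 1)) f x) o (K - j) u
        * ((b : ℝ) ^ j * Bk G b θ j (n + 1 - (K - j)) (par G o u) u f) := by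
  intro j
  induction j with
  | zero =>
    intro _
    simp [Bk_zero]
  | succ j ih =>
    intro hj
    rw [ih (by omega)]
    obtain ⟨k, hk⟩ : ∃ k, K - j = k + 1 := ⟨K - j - 1, by omega⟩
    have hk' : K - (j + 1) = k := by omega
    have hk1 : 1 ≤ k := by omega
    rw [hk, hk', sum_sph_succ hT]
    apply Finset.sum_congr rfl
    intro u hu
    rw [mem_sph hT] at hu
    have hune : u ≠ o := by
      rintro rfl
      rw [SimpleGraph.dist_self] at hu; omega
    obtain ⟨n', hn'⟩ : ∃ n', n + 1 - k = n' + 1 := ⟨n - k, by omega⟩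
    have hn2 : n + 1 - (k + 1) = n' := by omega
    have hn3 : n - k = n' := by omega
    rw [hn', Bk_succ, hn2, chl_eq_erase hT hune, Finset.mul_sum, Finset.mul_sum, Finset.mul_sum]
    apply Finset.sum_congr rfl
    intro c hc
    have hc2 : c ∈ chl hT o u := by rw [chl_eq_erase hT hune]; exact hc
    rw [mem_chl] at hc2
    obtain ⟨hco, hpar⟩ := hc2
    simp only [rprodN]
    rw [hpar, rho_bal hT h0 h1 hf hu (by omega) hco hpar, hn3]
    have hb0 : (b : ℝ) ≠ 0 := by positivity
    field_simp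
    ring

/-- **level sums of a ball** -/
theorem Alev_bal (hT : G.IsTree) (hb : 1 ≤ b) (h0 : 0 ≤ θ) (h1 : θ < 1) {f : V → ℝ × ℝ}
    (hf : Pos f) (o : V) {n k : ℕ} (hk : k ≤ n) :
    Alev G b θ (fun x => magf G θ (bal G o (n + 1)) f x) o (k + 1)
      = AV G b θ k n o (G.neighborFinset o) f := by
  unfold Alev AV
  have hb0 : (b : ℝ) ≠ 0 := by positivity
  have e1 : ∑ w ∈ sph G o (k + 1),
      rprod G θ (fun x => magf G θ (bal G o (n + 1)) f x) o w
      = ∑ w ∈ sph G o (k + 1),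
        rprodN G θ (fun x => magf G θ (bal G o (n + 1)) f x) o (k + 1) w := by
    apply Finset.sum_congr rfl
    intro w hw
    rw [mem_sph hT] at hw
    unfold rprod
    rw [hw]
  rw [e1, level_back hT hb h0 h1 hf o n (k + 1) (by omega) k le_rfl]
  have hk2 : k + 1 - k = 1 := by omega
  rw [hk2, show (1:ℕ) = 0 + 1 from rfl, sum_sph_succ hT, sph_zero hT, Finset.sum_singleton,
    chl_root hT, Finset.mul_sum, Finset.mul_sum]
  apply Finset.sum_congr rfl
  intro c hc
  have hco : c ≠ o := by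
    rintro rfl
    rw [SimpleGraph.mem_neighborFinset] at hc
    exact SimpleGraph.irrefl G hc
  have hc2 : c ∈ chl hT o o := by rw [chl_root hT]; exact hc
  rw [mem_chl] at hc2
  simp only [rprodN, zero_add]
  rw [hc2.2, rho_bal hT h0 h1 hf (SimpleGraph.dist_self) (by omega) hco hc2.2]
  have hn : n + 1 - 1 = n := by omega
  have hn0 : n - 0 = n := by omega
  rw [hn, hn0, inv_pow]
  field_simp
  ring

end Crest.Agent.R160.Static
end

-- ▼ part R160/StaticFinal
section

/-! Row 160, module E: `second_moment`, `level_mean`, `level_tail`. -/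

set_option autoImplicit false
set_option linter.unusedSectionVars false

open MeasureTheory ProbabilityTheory Filter
open scoped Classical Topology

namespace Crest.Agent.R160.Static

open Crest.Agent.R160 Crest.Agent.R160.Bridge Crest.Agent.R160.TreeAut

variable {V : Type*} {G : SimpleGraph V} [G.LocallyFinite] {b : ℕ}


theorem one_lower (θ : ℝ) {t : ℝ} (ht : 0 < t) (v : V) :
    (min t (1 / 2)) ^ 3 / 36 ≤ qq (PP V) (nfl t) G θ {v} v := One.qq_one_lower ht v

lemma dependsOn_AV (hT : G.IsTree) {θ : ℝ} (k n : ℕ) (o : V) :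
    DependsOn (AV G b θ k n o (G.neighborFinset o)) (bal G o (n + 1) : Set V) := by
  intro f g hfg
  unfold AV
  congr 1
  refine Finset.sum_congr rfl fun c hc => ?_
  have hoc : G.Adj o c := by simpa using hc
  have hsub : ∀ v ∈ (BB G o c n : Set V), f v = g v := fun v hv => hfg v (by
    rw [bal_succ_eq hT]
    rw [Finset.mem_coe] at hv ⊢
    exact BB_subset_star hc n hv)
  have a1 : magf G θ (BB G o c n) f c = magf G θ (BB G o c n) g c :=
    dependsOn_magf (G := G) (θ := θ) (BB G o c n) c hsub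
  rw [a1, dependsOn_Bk hT k n hoc hsub]

lemma AV_mem (hT : G.IsTree) {θ : ℝ} (hb : 2 ≤ b) (hreg : G.IsRegularOfDegree (b + 1))
    (h0 : 0 ≤ θ) (h1 : θ < 1) (h2 : θ ^ 2 ≤ 1 / 2) (k n : ℕ) (o : V) {f : V → ℝ × ℝ}
    (hf : Pos f) : 0 ≤ AV G b θ k n o (G.neighborFinset o) f ∧
      AV G b θ k n o (G.neighborFinset o) f ≤ 2 := by
  have hb1 : 1 ≤ b := by omega
  have hb' : (2 : ℝ) ≤ b := by exact_mod_cast hb
  unfold AV
  constructor
  · refine mul_nonneg (by positivity) (Finset.sum_nonneg fun c hc => ?_)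
    have hoc : G.Adj o c := by simpa using hc
    exact mul_nonneg (rhoh_nonneg h2 (abs_magf_le' h0 h1 hf _ _))
      (Bk_nonneg_le_one hT hb1 hreg h0 h1 h2 k n hoc hf).1
  · have : ∑ c ∈ G.neighborFinset o, rhoh θ (magf G θ (BB G o c n) f c) * Bk G b θ k n o c f
        ≤ ∑ _c ∈ G.neighborFinset o, (1 : ℝ) := by
      refine Finset.sum_le_sum fun c hc => ?_
      have hoc : G.Adj o c := by simpa using hc
      have i1 := rhoh_le_one h2 (abs_magf_le' (G := G) h0 h1 hf (BB G o c n) c)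
      have i2 := Bk_nonneg_le_one hT hb1 hreg h0 h1 h2 k n hoc hf
      exact mul_le_one₀ i1 i2.1 i2.2
    rw [Finset.sum_const, card_neighbor hreg, nsmul_eq_mul, mul_one] at this
    push_cast at this
    calc (b : ℝ)⁻¹ * _ ≤ (b : ℝ)⁻¹ * (b + 1) := mul_le_mul_of_nonneg_left this (by positivity)
      _ ≤ 2 := by
          rw [inv_mul_le_iff₀ (by linarith)]
          linarith

/-- finite-volume expectation of a function of the level sum -/
theorem planted_Alev (hT : G.IsTree) {θ : ℝ} (hb : 2 ≤ b) (hreg : G.IsRegularOfDegree (b + 1))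
    (h0 : 0 ≤ θ) (h1 : θ < 1) (h2 : θ ^ 2 ≤ 1 / 2) (t : ℝ) (o : V) {k n : ℕ} (hkn : k ≤ n)
    {ψ : ℝ → ℝ} (hψ : Continuous ψ) :
    ∫ ω, ψ (Alev G b θ (fun x => mfin G θ (bal G o (n + 1)) ω t x) o (k + 1)) ∂(PP V)
      = ∫ ω, zf G θ (bal G o (n + 1)) (fd (nfl t) ω)
          * ψ (AV G b θ k n o (G.neighborFinset o) (fd (nfl t) ω)) ∂(PP V) := by
  have hθ' : |θ| < 1 := by rwa [abs_of_nonneg h0]
  have e1 : ∀ ω, Alev G b θ (fun x => mfin G θ (bal G o (n + 1)) ω t x) o (k + 1)
      = AV G b θ k n o (G.neighborFinset o) (ofl G θ (bal G o (n + 1)) t ω) := by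
    intro ω
    rw [← Alev_bal hT (by omega) h0 h1 (adm_ofl hθ' (bal G o (n + 1)) t ω).pos o hkn]
    congr 1
    funext x
    exact mfin_eq _ t ω x
  simp only [e1]
  obtain ⟨C, hC⟩ := (isCompact_Icc (a := (0 : ℝ)) (b := 2)).exists_bound_of_continuousOn
    hψ.continuousOn
  refine planted_formula' hT hθ' (bal G o (n + 1)) t
    (F := fun f => ψ (AV G b θ k n o (G.neighborFinset o) f))
    (hψ.measurable.comp (measurable_AV _ _ _ _)) ?_ ⟨C, fun f hf => ?_⟩
  · intro f g hfg
    simp only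
    rw [dependsOn_AV hT k n o hfg]
  · have := hC _ (AV_mem hT hb hreg h0 h1 h2 k n o hf.pos)
    rwa [Real.norm_eq_abs] at this


/-- mean of the level sum, from a lower bound on the information -/
theorem mean_core (hT : G.IsTree) {b : ℕ} (hb : 2 ≤ b) (hreg : G.IsRegularOfDegree (b + 1))
    {θ : ℝ} (h0 : 0 < θ) (hθ : (b : ℝ) * θ ^ 2 < 1) {t : ℝ} {I : ℝ} (hI0 : 0 < I)
    (hI1 : I ≤ 1 / 16) (hI : ∀ v : V, I ≤ qq (PP V) (nfl t) G θ {v} v)
    (hδ : 1 - Real.sqrt I ≤ b * θ ^ 2) :
    ∃ N : ℕ, ∀ (k0 j n : ℕ), N ≤ n → ∀ {y x : V}, G.Adj y x →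
      EB (PP V) (nfl t) G b θ (k0 + 2 * j) (n + k0 + 2 * j) y x
        ≤ (1 - θ ^ 2 * (Real.sqrt I / 4) / 96) ^ j := by
  have h1 : θ < 1 := theta_lt_one' hb h0.le hθ.le
  have h2 : θ ^ 2 ≤ 1 / 2 := theta_sq_le_half hb hθ.le
  have h := fieldData (V := V) t
  obtain ⟨N, hN⟩ := exists_nat_ge (Real.sqrt I / 4 / (I / 2))
  refine ⟨N, fun k0 j n hn y x hyx => ?_⟩
  have hs1 : Real.sqrt I ≤ 1 := by
    rw [Real.sqrt_le_one]
    linarith
  refine EB_iter h hT hb hreg h0.le h1 h2 (N := N) (k0 := k0)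
    (p := θ ^ 2 * (Real.sqrt I / 4)) ?_ (fun m hm y' x' hyx' => ?_) j n hn hyx
  · have := Real.sqrt_nonneg I
    nlinarith
  · have l1 := h.BB_lower hT hb hreg h0.le hθ.le hI0.le hI1 hI hδ m hyx'
    have l2 : Real.sqrt I / 4 ≤ m * (I / 2) := by
      rw [div_le_iff₀ (by positivity)] at hN
      refine hN.trans ?_
      have : (N : ℝ) ≤ m := by exact_mod_cast hm
      exact mul_le_mul_of_nonneg_right this (by positivity)
    rw [min_eq_right l2] at l1
    exact mul_le_mul_of_nonneg_left l1 (sq_nonneg _)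

lemma sqrt_pow_three {t : ℝ} (ht : 0 < t) : Real.sqrt (t ^ 3 / 36) = t ^ (3 / 2 : ℝ) / 6 := by
  rw [Real.sqrt_div (by positivity)]
  congr 1
  · rw [Real.sqrt_eq_rpow, ← Real.rpow_natCast t 3, ← Real.rpow_mul ht.le]
    norm_num
  · rw [show (36 : ℝ) = 6 ^ 2 by norm_num, Real.sqrt_sq (by norm_num)]

lemma thc_pos (hb : 2 ≤ b) : 0 < thc b := by
  unfold thc
  have : (0 : ℝ) < b := by exact_mod_cast (by omega : 0 < b)
  positivity

lemma thc_sq (hb : 2 ≤ b) : (b : ℝ) * thc b ^ 2 = 1 := by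
  unfold thc
  have : (0 : ℝ) < b := by exact_mod_cast (by omega : 0 < b)
  rw [div_pow, Real.sq_sqrt this.le, one_pow, mul_one_div, div_self this.ne']

lemma sq_lt_of_lt_thc (hb : 2 ≤ b) {θ : ℝ} (h0 : 0 ≤ θ) (h : θ < thc b) :
    (b : ℝ) * θ ^ 2 < 1 := by
  have hb' : (0 : ℝ) < b := by exact_mod_cast (by omega : 0 < b)
  rw [← thc_sq hb]
  exact mul_lt_mul_of_pos_left (pow_lt_pow_left₀ h h0 (by norm_num)) hb'

lemma Alev_zero (hT : G.IsTree) {θ : ℝ} (m : V → ℝ) (o : V) : Alev G b θ m o 0 = 1 := by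
  unfold Alev
  rw [sph_zero hT]
  simp [rprod, rprodN]

lemma Alev_nonneg {θ : ℝ} (h0 : 0 ≤ θ) (h1 : θ < 1) {m : V → ℝ} (hm : ∀ x, |m x| ≤ 1) (o : V)
    (k : ℕ) : 0 ≤ Alev G b θ m o k := by
  unfold Alev
  exact mul_nonneg (by positivity) (Finset.sum_nonneg fun w _ => rprod_nonneg h0 h1 hm o w)

/-- mean of the infinite-volume level sum -/
theorem mean_limit (hT : G.IsTree) {b : ℕ} (hb : 2 ≤ b) (hreg : G.IsRegularOfDegree (b + 1))
    {θ : ℝ} (h0 : 0 < θ) (hθ : (b : ℝ) * θ ^ 2 < 1) {t : ℝ} (ht : 0 < t) {q : ℝ} {k N : ℕ}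
    (hq : ∀ n, N ≤ n → ∀ {y x : V}, G.Adj y x → EB (PP V) (nfl t) G b θ k (n + k) y x ≤ q)
    (hq0 : 0 ≤ q) (o : V) :
    ∫ ω, Alev G b θ (fun x => minf G θ t x ω) o (k + 1) ∂(PP V) ≤ 2 * q := by
  have h1 : θ < 1 := theta_lt_one' hb h0.le hθ.le
  have h2 : θ ^ 2 ≤ 1 / 2 := theta_sq_le_half hb hθ.le
  have hb' : (2 : ℝ) ≤ b := by exact_mod_cast hb
  have h := fieldData (V := V) t
  refine le_of_tendsto (tendsto_Alev (b := b) hT hb hreg h0.le hθ ht.le o (k + 1)
    (ψ := fun x => x) continuous_id) ?_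
  filter_upwards [eventually_ge_atTop (N + k)] with n hn
  obtain ⟨m, rfl⟩ : ∃ m, n = m + k := ⟨n - k, by omega⟩
  have hTn : ∀ a ∈ G.neighborFinset o, G.Adj o a := fun a ha => by simpa using ha
  have e1 := planted_Alev hT hb hreg h0.le h1 h2 t o (k := k) (n := m + k) (by omega)
    (ψ := fun x => x) continuous_id
  rw [e1, bal_succ_eq hT]
  have s1 := AV_mean_le h hT hb hreg h0.le h1 h2 (k := k) (n := m + k)
    (fun hyx => hq m (by omega) hyx) hTn
  refine s1.trans ?_
  rw [card_neighbor hreg]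
  push_cast
  rw [inv_mul_le_iff₀ (by linarith)]
  nlinarith

/-- exponential moment of the infinite-volume level sum -/
theorem exp_limit (hT : G.IsTree) {b : ℕ} (hb : 2 ≤ b) (hreg : G.IsRegularOfDegree (b + 1))
    {θ : ℝ} (h0 : 0 < θ) (hθ : (b : ℝ) * θ ^ 2 < 1) {t : ℝ} (ht : 0 < t) {q : ℝ} {k N : ℕ}
    (hq : ∀ n, N ≤ n → ∀ {y x : V}, G.Adj y x → EB (PP V) (nfl t) G b θ k (n + k) y x ≤ q)
    (hq0 : 0 ≤ q) (j : ℕ) (o : V) :
    ∫ ω, Real.exp ((b : ℝ) ^ j * Alev G b θ (fun x => minf G θ t x ω) o (k + j + 1)) ∂(PP V)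
      ≤ Real.exp (3 * ((b : ℝ) ^ j * q)) := by
  have h1 : θ < 1 := theta_lt_one' hb h0.le hθ.le
  have h2 : θ ^ 2 ≤ 1 / 2 := theta_sq_le_half hb hθ.le
  have hb' : (2 : ℝ) ≤ b := by exact_mod_cast hb
  have h := fieldData (V := V) t
  have hψ : Continuous (fun x : ℝ => Real.exp ((b : ℝ) ^ j * x)) := by fun_prop
  refine le_of_tendsto (tendsto_Alev (b := b) hT hb hreg h0.le hθ ht.le o (k + j + 1) hψ) ?_
  filter_upwards [eventually_ge_atTop (N + k + j)] with n hn
  obtain ⟨m, rfl⟩ : ∃ m, n = m + k + j := ⟨n - (k + j), by omega⟩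
  have hTn : ∀ a ∈ G.neighborFinset o, G.Adj o a := fun a ha => by simpa using ha
  have e1 := planted_Alev hT hb hreg h0.le h1 h2 t o (k := k + j) (n := m + k + j) (by omega) hψ
  rw [e1, bal_succ_eq hT]
  have hl : (0 : ℝ) ≤ (b : ℝ) ^ j := by positivity
  have s1 := AV_exp_le h hT hb hreg h0.le h1 h2 (k := k + j) (n := m + k + j) hl hTn
  refine s1.trans ?_
  have s2 : ∏ c ∈ G.neighborFinset o, GB (PP V) (nfl t) G b θ (k + j) (m + k + j) o c
      ((b : ℝ) ^ j / b) ≤ ∏ _c ∈ G.neighborFinset o, Real.exp (2 * ((b : ℝ) ^ j / b * q)) := by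
    refine Finset.prod_le_prod (fun c _ => GB_nonneg h hT hb hreg h0.le h1 h2 _ _ _)
      fun c hc => ?_
    refine GB_iter h hT hb hreg h0.le h1 h2 (k := k) (n := m + k)
      (fun hyx => hq m (by omega) hyx) j (hTn c hc) (by positivity) ?_
    exact div_le_self hl (by linarith)
  refine s2.trans ?_
  rw [Finset.prod_const, card_neighbor hreg, ← Real.exp_nat_mul]
  apply Real.exp_le_exp.mpr
  push_cast
  have hb0 : (b : ℝ) ≠ 0 := by positivity
  have e2 : ((b : ℝ) + 1) * (2 * ((b : ℝ) ^ j / b * q)) = (2 + 2 / b) * ((b : ℝ) ^ j * q) := by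
    field_simp
  rw [e2]
  refine mul_le_mul_of_nonneg_right ?_ (by positivity)
  have : 2 / (b : ℝ) ≤ 1 := by
    rw [div_le_one (by linarith)]
    exact hb'
  linarith

lemma Alev_minf_le (hT : G.IsTree) {b : ℕ} (hb : 2 ≤ b) (hreg : G.IsRegularOfDegree (b + 1))
    {θ : ℝ} (h0 : 0 ≤ θ) (hθ : (b : ℝ) * θ ^ 2 < 1) {t : ℝ} (ht : 0 < t) (o : V) (k : ℕ) :
    ∫ ω, Alev G b θ (fun x => minf G θ t x ω) o k ∂(PP V) ≤ 2 := by
  have h1 : θ < 1 := theta_lt_one' hb h0 hθ.le
  have h2 : θ ^ 2 ≤ 1 / 2 := theta_sq_le_half hb hθ.le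
  cases k with
  | zero =>
    simp only [Alev_zero hT]
    simp
  | succ k =>
    have h := fieldData (V := V) t
    refine le_of_tendsto (tendsto_Alev (b := b) hT hb hreg h0 hθ ht.le o (k + 1)
      (ψ := fun x => x) continuous_id) ?_
    filter_upwards [eventually_ge_atTop k] with n hn
    have e1 := planted_Alev hT hb hreg h0 h1 h2 t o (k := k) (n := n) hn
      (ψ := fun x => x) continuous_id
    rw [e1]
    have z := h.zz_bal (G := G) hT h0 h1 o (n + 1)
    unfold zz at z
    calc ∫ ω, zf G θ (bal G o (n + 1)) (fd (nfl t) ω)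
          * AV G b θ k n o (G.neighborFinset o) (fd (nfl t) ω) ∂(PP V)
        ≤ ∫ ω, zf G θ (bal G o (n + 1)) (fd (nfl t) ω) * 2 ∂(PP V) := by
          refine integral_mono (h.integrable ((measurable_zf _).mul (measurable_AV _ _ _ _))
            ((h.bdd_zf _).mul (bdd_AV h hT hb hreg h0 h1 h2 k n
              (fun a ha => by simpa using ha)))) ((h.integrable (measurable_zf _)
              (h.bdd_zf _)).mul_const 2) fun ω => ?_
          exact mul_le_mul_of_nonneg_left (AV_mem hT hb hreg h0 h1 h2 k n o (h.posf ω)).2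
            (zf_pos h0 h1 (h.posf ω) _).le
      _ = 2 := by
          rw [integral_mul_const, z, one_mul]

/-- **decay of the level sums**, all small times, including the deterministic factor -/
theorem level_mean (hT : G.IsTree) {b : ℕ} (hb : 2 ≤ b) (hreg : G.IsRegularOfDegree (b + 1)) :
    ∃ C c : ℝ, 0 < C ∧ 0 < c ∧ ∀ θ, thc b / 2 ≤ θ → θ < thc b → ∀ t, 0 < t → t ≤ 1 / 2 →
      ∀ (o : V) (k : ℕ),
      ((b : ℝ) * θ ^ 2) ^ k * ∫ ω, Alev G b θ (fun x => minf G θ t x ω) o k ∂(PP V)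
        ≤ C * Real.exp (-c * t ^ (3 / 2 : ℝ) * k) := by
  have hb' : (2 : ℝ) ≤ b := by exact_mod_cast hb
  have hb0 : (0 : ℝ) < b := by linarith
  refine ⟨6, 1 / (18432 * b), by norm_num, by positivity, fun θ hθ1 hθ2 t ht ht' o k => ?_⟩
  have htc := thc_pos hb
  have h0 : 0 < θ := by linarith
  have hθ := sq_lt_of_lt_thc hb h0.le hθ2
  have h1 : θ < 1 := theta_lt_one' hb h0.le hθ.le
  have h2 : θ ^ 2 ≤ 1 / 2 := theta_sq_le_half hb hθ.le
  have hbθ : (0 : ℝ) ≤ b * θ ^ 2 := by positivity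
  set τ := t ^ (3 / 2 : ℝ) with hτ
  have hτ0 : 0 < τ := Real.rpow_pos_of_pos ht _
  have hτ1 : τ ≤ 1 := Real.rpow_le_one ht.le (by linarith) (by norm_num)
  have hsq : Real.sqrt (t ^ 3 / 36) = τ / 6 := sqrt_pow_three ht
  have hA2 := Alev_minf_le hT hb hreg h0.le hθ ht o k
  rcases le_or_gt (b * θ ^ 2) (1 - τ / 6) with hcase | hcase
  · -- the deterministic factor decays
    have s1 : (b * θ ^ 2) ^ k ≤ Real.exp (-(τ / 6) * k) := by
      calc (b * θ ^ 2) ^ k ≤ (Real.exp (-(τ / 6))) ^ k := by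
            refine pow_le_pow_left₀ hbθ ?_ k
            have := Real.add_one_le_exp (-(τ / 6))
            linarith
        _ = Real.exp (-(τ / 6) * k) := by
            rw [← Real.exp_nat_mul]
            ring_nf
    have s2 : Real.exp (-(τ / 6) * k) ≤ Real.exp (-(1 / (18432 * b)) * τ * k) := by
      apply Real.exp_le_exp.mpr
      refine mul_le_mul_of_nonneg_right ?_ (Nat.cast_nonneg k)
      have : 1 / (18432 * (b : ℝ)) ≤ 1 / 6 := by
        apply one_div_le_one_div_of_le (by norm_num)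
        linarith
      nlinarith
    calc (b * θ ^ 2) ^ k * ∫ ω, Alev G b θ (fun x => minf G θ t x ω) o k ∂(PP V)
        ≤ (b * θ ^ 2) ^ k * 2 := mul_le_mul_of_nonneg_left hA2 (by positivity)
      _ ≤ Real.exp (-(1 / (18432 * b)) * τ * k) * 2 :=
          mul_le_mul_of_nonneg_right (s1.trans s2) (by norm_num)
      _ ≤ 6 * Real.exp (-(1 / (18432 * b)) * τ * k) := by
          have := Real.exp_pos (-(1 / (18432 * b)) * τ * k)
          linarith
  · -- gain
    have hδ : 1 - Real.sqrt (t ^ 3 / 36) ≤ b * θ ^ 2 := by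
      rw [hsq]
      linarith
    have hI : ∀ v : V, t ^ 3 / 36 ≤ qq (PP V) (nfl t) G θ {v} v := by
      intro v
      have := one_lower (G := G) θ ht v
      rwa [min_eq_left ht'] at this
    have hI1 : t ^ 3 / 36 ≤ 1 / 16 := by
      have : t ^ 3 ≤ 1 := pow_le_one₀ ht.le (by linarith)
      linarith
    obtain ⟨N, hN⟩ := mean_core hT hb hreg h0 hθ (t := t) (by positivity) hI1 hI hδ
    rw [hsq] at hN
    have hfac : (b * θ ^ 2) ^ k ≤ 1 := pow_le_one₀ hbθ hθ.le
    have hApos : 0 ≤ ∫ ω, Alev G b θ (fun x => minf G θ t x ω) o k ∂(PP V) :=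
      integral_nonneg fun ω => Alev_nonneg h0.le h1 (fun x => abs_minf_le h0.le h1 t x ω) o k
    have hle : (b * θ ^ 2) ^ k * ∫ ω, Alev G b θ (fun x => minf G θ t x ω) o k ∂(PP V)
        ≤ ∫ ω, Alev G b θ (fun x => minf G θ t x ω) o k ∂(PP V) :=
      mul_le_of_le_one_left hApos hfac
    refine hle.trans ?_
    cases k with
    | zero =>
      simp only [Nat.cast_zero, mul_zero, Real.exp_zero, mul_one]
      linarith
    | succ k =>
      -- level `k = k0 + 2 j`
      set j := k / 2 with hj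
      set k0 := k % 2 with hk0
      have hk : k = k0 + 2 * j := by omega
      have hk1 : k ≤ 2 * j + 1 := by omega
      set p := θ ^ 2 * (τ / 6 / 4) with hp
      have hp0 : 0 ≤ p := by positivity
      have hp1 : p ≤ 1 := by
        rw [hp]
        nlinarith
      have hθ3 : 1 / (4 * b) ≤ θ ^ 2 := by
        have e1 := thc_sq hb
        have e2 : (thc b / 2) ^ 2 ≤ θ ^ 2 := pow_le_pow_left₀ (by positivity) hθ1 2
        rw [div_le_iff₀ (by positivity)]
        nlinarith
      have hplow : τ / (96 * b) ≤ p := by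
        have e1 : τ / (96 * b) = 1 / (4 * b) * (τ / 6 / 4) := by
          field_simp
          norm_num
        rw [e1, hp]
        exact mul_le_mul_of_nonneg_right hθ3 (by positivity)
      have hq : ∀ n, N ≤ n → ∀ {y x : V}, G.Adj y x →
          EB (PP V) (nfl t) G b θ k (n + k) y x ≤ (1 - p / 96) ^ j := by
        intro n hn y x hyx
        have := hN k0 j n hn hyx
        rw [add_assoc n k0, ← hk] at this
        exact this
      have hq0 : 0 ≤ (1 - p / 96) ^ j := pow_nonneg (by linarith) _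
      have s1 := mean_limit hT hb hreg h0 hθ ht hq hq0 o
      refine s1.trans ?_
      have s2 : (1 - p / 96) ^ j ≤ Real.exp (-(p / 96) * j) := by
        calc (1 - p / 96) ^ j ≤ (Real.exp (-(p / 96))) ^ j := by
              refine pow_le_pow_left₀ (by linarith) ?_ j
              have := Real.add_one_le_exp (-(p / 96))
              linarith
          _ = Real.exp (-(p / 96) * j) := by
              rw [← Real.exp_nat_mul]
              ring_nf
      have hj' : ((k : ℝ) + 1) / 2 - 1 ≤ j := by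
        have : (k : ℝ) ≤ 2 * j + 1 := by exact_mod_cast hk1
        linarith
      have s3 : -(p / 96) * j ≤ 1 + -(1 / (18432 * b)) * τ * ((k + 1 : ℕ) : ℝ) := by
        push_cast
        have e1 : (p / 96) * (((k : ℝ) + 1) / 2 - 1) ≤ (p / 96) * j :=
          mul_le_mul_of_nonneg_left hj' (by positivity)
        have e2 : τ / (96 * b) / 96 * (((k : ℝ) + 1) / 2) ≤ p / 96 * (((k : ℝ) + 1) / 2) := by
          refine mul_le_mul_of_nonneg_right ?_ (by positivity)
          linarith
        have e3 : τ / (96 * b) / 96 * (((k : ℝ) + 1) / 2)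
            = (1 / (18432 * b)) * τ * ((k : ℝ) + 1) := by
          field_simp
          norm_num
        nlinarith
      have s4 : Real.exp (-(p / 96) * j)
          ≤ Real.exp 1 * Real.exp (-(1 / (18432 * b)) * τ * ((k + 1 : ℕ) : ℝ)) := by
        rw [← Real.exp_add]
        exact Real.exp_le_exp.mpr s3
      have s5 : Real.exp 1 ≤ 3 := by
        have := Real.exp_one_lt_d9
        linarith
      have s6 := Real.exp_pos (-(1 / (18432 * b)) * τ * ((k + 1 : ℕ) : ℝ))
      nlinarith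

set_option maxHeartbeats 2000000 in
/-- **double exponential tail** of the level sums -/
theorem level_tail (hT : G.IsTree) {b : ℕ} (hb : 2 ≤ b) (hreg : G.IsRegularOfDegree (b + 1)) :
    ∃ C c : ℝ, 0 < C ∧ 0 < c ∧ ∀ s0, 0 < s0 → ∃ δ, 0 < δ ∧ ∀ θ, thc b - δ < θ → θ < thc b →
      ∀ t, s0 ≤ t → ∀ (o : V) (k : ℕ),
      (PP V).real {ω | C * Real.exp (-c * (min t 1) ^ (3 / 2 : ℝ) * k)
          < Alev G b θ (fun x => minf G θ t x ω) o k} ≤ C * Real.exp (-Real.exp (c * k)) := by
  have hb' : (2 : ℝ) ≤ b := by exact_mod_cast hb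
  have hb0 : (0 : ℝ) < b := by linarith
  have htc := thc_pos hb
  refine ⟨8, 1 / (110592 * b), by norm_num, by positivity, fun s0 hs0 => ?_⟩
  set m0 := min s0 (1 / 2) with hm0
  have hm0pos : 0 < m0 := lt_min hs0 (by norm_num)
  set r0 := m0 ^ (3 / 2 : ℝ) / 6 with hr0
  have hr0pos : 0 < r0 := by positivity
  refine ⟨min (thc b / 2) (r0 / (2 * b * thc b)), lt_min (by positivity) (by positivity),
    fun θ hθ1 hθ2 t ht o k => ?_⟩
  have hθ3 : thc b / 2 ≤ θ := by
    have := min_le_left (thc b / 2) (r0 / (2 * b * thc b))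
    linarith
  have h0 : 0 < θ := by linarith
  have hθ := sq_lt_of_lt_thc hb h0.le hθ2
  have h1 : θ < 1 := theta_lt_one' hb h0.le hθ.le
  have h2 : θ ^ 2 ≤ 1 / 2 := theta_sq_le_half hb hθ.le
  have ht0 : 0 < t := lt_of_lt_of_le hs0 ht
  set c := 1 / (110592 * (b : ℝ)) with hc
  have hc0 : 0 < c := by positivity
  have hc1 : c ≤ 1 / 8 := by
    rw [hc]
    apply one_div_le_one_div_of_le (by norm_num)
    linarith
  set τ := (min t 1) ^ (3 / 2 : ℝ) with hτ
  have hmt : 0 < min t 1 := lt_min ht0 one_pos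
  have hτ0 : 0 < τ := Real.rpow_pos_of_pos hmt _
  have hτ1 : τ ≤ 1 := Real.rpow_le_one hmt.le (min_le_right _ _) (by norm_num)
  cases k with
  | zero =>
    have : {ω : Om V | 8 * Real.exp (-c * τ * ((0 : ℕ) : ℝ))
        < Alev G b θ (fun x => minf G θ t x ω) o 0} = ∅ := by
      ext ω
      simp only [Set.mem_ofPred_eq, Set.mem_empty_iff_false, iff_false, not_lt, Alev_zero hT]
      simp
    rw [this]
    simp only [measureReal_empty]
    positivity
  | succ k =>
    -- the information lower bound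
    set m := min t (1 / 2) with hm
    have hmpos : 0 < m := lt_min ht0 (by norm_num)
    have hsq : Real.sqrt (m ^ 3 / 36) = m ^ (3 / 2 : ℝ) / 6 := sqrt_pow_three hmpos
    have hm0m : m0 ≤ m := min_le_min ht le_rfl
    have hr : r0 ≤ m ^ (3 / 2 : ℝ) / 6 := by
      rw [hr0]
      have := Real.rpow_le_rpow hm0pos.le hm0m (z := 3 / 2) (by norm_num)
      linarith
    have hδ : 1 - Real.sqrt (m ^ 3 / 36) ≤ b * θ ^ 2 := by
      rw [hsq]
      have e1 : θ > thc b - r0 / (2 * b * thc b) := by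
        have := min_le_right (thc b / 2) (r0 / (2 * b * thc b))
        linarith
      set d := r0 / (2 * b * thc b) with hd
      have hdpos : 0 < d := by positivity
      have e2 : 2 * b * thc b * d = r0 := by
        rw [hd]
        field_simp
      have e3 : thc b - θ < d := by linarith
      have e4 := thc_sq hb
      have e5 : (thc b + θ) * (thc b - θ) ≤ 2 * thc b * d := by
        have : (thc b + θ) * (thc b - θ) ≤ (2 * thc b) * (thc b - θ) :=
          mul_le_mul_of_nonneg_right (by linarith) (by linarith)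
        have : (2 * thc b) * (thc b - θ) ≤ 2 * thc b * d :=
          mul_le_mul_of_nonneg_left e3.le (by positivity)
        linarith
      have e6 : b * ((thc b + θ) * (thc b - θ)) ≤ b * (2 * thc b * d) :=
        mul_le_mul_of_nonneg_left e5 hb0.le
      nlinarith
    have hI : ∀ v : V, m ^ 3 / 36 ≤ qq (PP V) (nfl t) G θ {v} v := fun v => one_lower θ ht0 v
    have hI1 : m ^ 3 / 36 ≤ 1 / 16 := by
      have h3 : m ≤ 1 / 2 := min_le_right _ _
      have : m ^ 3 ≤ 1 := pow_le_one₀ hmpos.le (by linarith)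
      linarith
    obtain ⟨N, hN⟩ := mean_core hT hb hreg h0 hθ (t := t) (by positivity) hI1 hI hδ
    rw [hsq] at hN
    -- levels
    obtain ⟨j, j2, k0, hk, hj, hj2⟩ : ∃ j j2 k0 : ℕ, k = k0 + 2 * j2 + j ∧ k ≤ 2 * j + 1 ∧
        k ≤ 4 * j2 + 2 := by
      refine ⟨k / 2, (k - k / 2) / 2, (k - k / 2) % 2, ?_, ?_, ?_⟩ <;> omega
    set p := θ ^ 2 * (m ^ (3 / 2 : ℝ) / 6 / 4) with hp
    have hmle : m ^ (3 / 2 : ℝ) ≤ 1 :=
      Real.rpow_le_one hmpos.le ((min_le_right _ _).trans (by norm_num)) (by norm_num)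
    have hmr0 : 0 < m ^ (3 / 2 : ℝ) := Real.rpow_pos_of_pos hmpos _
    have hp0 : 0 ≤ p := by positivity
    have hp1 : p ≤ 1 := by
      rw [hp]
      nlinarith
    have hθ4 : 1 / (4 * b) ≤ θ ^ 2 := by
      have e1 := thc_sq hb
      have e2 : (thc b / 2) ^ 2 ≤ θ ^ 2 := pow_le_pow_left₀ (by positivity) hθ3 2
      rw [div_le_iff₀ (by positivity)]
      nlinarith
    have hmτ : τ / 3 ≤ m ^ (3 / 2 : ℝ) := by
      have e1 : min t 1 / 2 ≤ m := by
        refine le_min ?_ ?_
        · have := min_le_left t 1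
          linarith
        · have := min_le_right t 1
          linarith
      have e2 : (min t 1 / 2) ^ (3 / 2 : ℝ) ≤ m ^ (3 / 2 : ℝ) :=
        Real.rpow_le_rpow (by positivity) e1 (by norm_num)
      have e3 : (min t 1 / 2) ^ (3 / 2 : ℝ) = τ / 2 ^ (3 / 2 : ℝ) := by
        rw [Real.div_rpow hmt.le (by norm_num)]
      have e4 : (2 : ℝ) ^ (3 / 2 : ℝ) ≤ 3 := by
        have : ((2 : ℝ) ^ (3 / 2 : ℝ)) ^ 2 ≤ 3 ^ 2 := by
          rw [← Real.rpow_natCast ((2 : ℝ) ^ (3 / 2 : ℝ)) 2, ← Real.rpow_mul (by norm_num)]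
          norm_num
        exact (pow_le_pow_iff_left₀ (by positivity) (by norm_num) (by norm_num)).mp this
      have e5 : τ / 3 ≤ τ / 2 ^ (3 / 2 : ℝ) :=
        div_le_div_of_nonneg_left hτ0.le (by positivity) e4
      linarith
    have hplow : τ / (288 * b) ≤ p := by
      have e1 : τ / (288 * b) = 1 / (4 * b) * (τ / 3 / 6 / 4) := by
        field_simp
        norm_num
      rw [e1, hp]
      refine mul_le_mul hθ4 (by linarith) (by positivity) (by positivity)
    have hcp : c * τ ≤ p / 384 := by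
      have : c * τ = τ / (288 * b) / 384 := by
        rw [hc]
        field_simp
        norm_num
      rw [this]
      linarith
    set q := (1 - p / 96) ^ j2 with hq
    have hq0 : 0 ≤ q := pow_nonneg (by linarith) _
    have hqb : ∀ n, N ≤ n → ∀ {y x : V}, G.Adj y x →
        EB (PP V) (nfl t) G b θ (k0 + 2 * j2) (n + (k0 + 2 * j2)) y x ≤ q := by
      intro n hn y x hyx
      have := hN k0 j2 n hn hyx
      rw [add_assoc n k0] at this
      exact this
    have hexp := exp_limit hT hb hreg h0 hθ ht0 hqb hq0 j o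
    rw [← hk] at hexp
    -- bound of `q`
    have hq1 : q ≤ 4 / 3 * Real.exp (-c * τ * ((k + 1 : ℕ) : ℝ)) := by
      have s2 : q ≤ Real.exp (-(p / 96) * j2) := by
        calc (1 - p / 96) ^ j2 ≤ (Real.exp (-(p / 96))) ^ j2 := by
              refine pow_le_pow_left₀ (by linarith) ?_ j2
              have := Real.add_one_le_exp (-(p / 96))
              linarith
          _ = Real.exp (-(p / 96) * j2) := by
              rw [← Real.exp_nat_mul]
              ring_nf
      have hj2' : ((k : ℝ) + 1) / 4 - 3 / 4 ≤ j2 := by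
        have : (k : ℝ) ≤ 4 * j2 + 2 := by exact_mod_cast hj2
        linarith
      have s3 : -(p / 96) * j2 ≤ 1 / 128 + -c * τ * ((k + 1 : ℕ) : ℝ) := by
        push_cast
        have e1 : (p / 96) * (((k : ℝ) + 1) / 4 - 3 / 4) ≤ (p / 96) * j2 :=
          mul_le_mul_of_nonneg_left hj2' (by positivity)
        have e2 : c * τ * ((k : ℝ) + 1) ≤ p / 384 * ((k : ℝ) + 1) :=
          mul_le_mul_of_nonneg_right hcp (by positivity)
        nlinarith
      have s4 : Real.exp (-(p / 96) * j2)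
          ≤ Real.exp (1 / 128) * Real.exp (-c * τ * ((k + 1 : ℕ) : ℝ)) := by
        rw [← Real.exp_add]
        exact Real.exp_le_exp.mpr s3
      have s5 : Real.exp (1 / 128) ≤ 4 / 3 := by
        have := exp_le_one_add_two_mul (x := 1 / 128) (by norm_num) (by norm_num)
        linarith
      exact s2.trans (s4.trans (mul_le_mul_of_nonneg_right s5 (Real.exp_pos _).le))
    -- Markov
    set l := (b : ℝ) ^ j with hl
    have hl0 : 0 < l := by positivity
    set a := 8 * Real.exp (-c * τ * ((k + 1 : ℕ) : ℝ)) with ha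
    set A := fun ω : Om V => Alev G b θ (fun x => minf G θ t x ω) o (k + 1) with hA
    have hAm : Measurable A := measurable_Alev_minf hT h0.le hθ hb t o (k + 1)
    have hexpm : Measurable fun ω => Real.exp (l * A ω) :=
      Real.measurable_exp.comp (hAm.const_mul l)
    have hexpi : Integrable (fun ω => Real.exp (l * A ω)) (PP V) := by
      by_contra hni
      -- `A` is bounded
      obtain ⟨K, hK⟩ : ∃ K, ∀ ω, A ω ≤ K := by
        refine ⟨(b : ℝ)⁻¹ ^ (k + 1) * (sph G o (k + 1)).card, fun ω => ?_⟩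
        simp only [hA]
        unfold Alev
        refine mul_le_mul_of_nonneg_left ?_ (by positivity)
        rw [← nsmul_one, ← Finset.sum_const]
        exact Finset.sum_le_sum fun w _ => rprod_le_one h0.le h2
          (fun x => abs_minf_le h0.le h1 t x ω) o w
      apply hni
      refine Integrable.of_bound hexpm.aestronglyMeasurable (Real.exp (l * K)) ?_
      refine Eventually.of_forall fun ω => ?_
      rw [Real.norm_eq_abs, abs_of_pos (Real.exp_pos _)]
      exact Real.exp_le_exp.mpr (mul_le_mul_of_nonneg_left (hK ω) hl0.le)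
    have hmarkov : Real.exp (l * a) * (PP V).real {ω | a < A ω}
        ≤ ∫ ω, Real.exp (l * A ω) ∂(PP V) := by
      have m1 := mul_meas_ge_le_integral_of_nonneg (μ := PP V)
        (f := fun ω => Real.exp (l * A ω)) (Eventually.of_forall fun ω => (Real.exp_pos _).le)
        hexpi (Real.exp (l * a))
      refine le_trans (mul_le_mul_of_nonneg_left ?_ (Real.exp_pos _).le) m1
      refine measureReal_mono (fun ω hω => ?_)
      simp only [Set.mem_ofPred_eq] at hω ⊢
      exact Real.exp_le_exp.mpr (mul_le_mul_of_nonneg_left hω.le hl0.le)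
    have hP : (PP V).real {ω | a < A ω} ≤ Real.exp (3 * (l * q) - l * a) := by
      have m2 := hmarkov.trans hexp
      rw [Real.exp_sub, le_div_iff₀ (Real.exp_pos _), mul_comm]
      exact m2
    have hE0 := Real.exp_pos (-c * τ * ((k + 1 : ℕ) : ℝ))
    have hfin : Real.exp (c * ((k + 1 : ℕ) : ℝ)) ≤ l * a - 3 * (l * q) := by
      have f1 : 4 * Real.exp (-c * τ * ((k + 1 : ℕ) : ℝ)) ≤ a - 3 * q := by
        rw [ha]
        linarith
      have f2 : l * (4 * Real.exp (-c * τ * ((k + 1 : ℕ) : ℝ))) ≤ l * a - 3 * (l * q) := by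
        have := mul_le_mul_of_nonneg_left f1 hl0.le
        linarith
      refine le_trans ?_ f2
      have f3 : Real.exp (1 / 2) ≤ 2 := by
        have := exp_le_one_add_two_mul (x := 1 / 2) (by norm_num) (by norm_num)
        linarith
      have f4 : Real.exp ((j : ℝ) / 2) ≤ l := by
        have : Real.exp ((j : ℝ) / 2) = (Real.exp (1 / 2)) ^ j := by
          rw [← Real.exp_nat_mul]
          ring_nf
        rw [this, hl]
        exact pow_le_pow_left₀ (Real.exp_pos _).le (f3.trans hb') j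
      have f5 : Real.exp (((k : ℝ) + 1) / 4 - 1 / 2) ≤ l := by
        refine le_trans (Real.exp_le_exp.mpr ?_) f4
        have : (k : ℝ) ≤ 2 * j + 1 := by exact_mod_cast hj
        linarith
      have f6 : Real.exp (c * ((k + 1 : ℕ) : ℝ)) ≤ 4 * (Real.exp (((k : ℝ) + 1) / 4 - 1 / 2)
          * Real.exp (-c * τ * ((k + 1 : ℕ) : ℝ))) := by
        rw [← Real.exp_add]
        have g1 : Real.exp (c * ((k + 1 : ℕ) : ℝ)) ≤ Real.exp (1 / 2 +
            (((k : ℝ) + 1) / 4 - 1 / 2 + -c * τ * ((k + 1 : ℕ) : ℝ))) := by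
          apply Real.exp_le_exp.mpr
          push_cast
          have : c * τ ≤ c := mul_le_of_le_one_right hc0.le hτ1
          nlinarith
        rw [Real.exp_add] at g1
        have g2 := Real.exp_pos (((k : ℝ) + 1) / 4 - 1 / 2 + -c * τ * ((k + 1 : ℕ) : ℝ))
        nlinarith
      calc Real.exp (c * ((k + 1 : ℕ) : ℝ))
          ≤ 4 * (Real.exp (((k : ℝ) + 1) / 4 - 1 / 2)
            * Real.exp (-c * τ * ((k + 1 : ℕ) : ℝ))) := f6
        _ ≤ 4 * (l * Real.exp (-c * τ * ((k + 1 : ℕ) : ℝ))) := by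
            have := mul_le_mul_of_nonneg_right f5 hE0.le
            linarith
        _ = l * (4 * Real.exp (-c * τ * ((k + 1 : ℕ) : ℝ))) := by ring
    calc (PP V).real {ω | a < A ω} ≤ Real.exp (3 * (l * q) - l * a) := hP
      _ ≤ Real.exp (-Real.exp (c * ((k + 1 : ℕ) : ℝ))) := Real.exp_le_exp.mpr (by linarith)
      _ ≤ 8 * Real.exp (-Real.exp (c * ((k + 1 : ℕ) : ℝ))) := by
          have := Real.exp_pos (-Real.exp (c * ((k + 1 : ℕ) : ℝ)))
          linarith

end Crest.Agent.R160.Static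
end

-- ▼ part R160/CauchyFinal

/-! # Row 160: the Cauchy property at `θ_c`, no hypotheses left -/

set_option autoImplicit false

open scoped Classical

namespace Crest.Agent.R160.GC

open Crest.Agent.R160

variable {V : Type*} {G : SimpleGraph V} [G.LocallyFinite]

/-- `cauchy_crit_skel` -/
theorem cauchy_crit (hT : G.IsTree) {b : ℕ} (hb : 2 ≤ b) (hreg : G.IsRegularOfDegree (b + 1))
    (t : ℝ) (ht : 0 ≤ t) (v : V) (ε : ℝ) (hε : 0 < ε) :
    ∃ δ, 0 < δ ∧ ∀ θ θ', thc b - δ < θ → θ < thc b → thc b - δ < θ' → θ' < thc b →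
      DD G θ θ' t v ≤ ε :=
  cauchy_crit_of_level hT hb hreg (Static.level_mean hT hb hreg) (Static.level_tail hT hb hreg)
    t ht v ε hε

theorem cauchyCrit (hT : G.IsTree) {b : ℕ} (hb : 2 ≤ b) (hreg : G.IsRegularOfDegree (b + 1)) :
    Fin.CauchyCrit G b :=
  fun t ht v ε hε => cauchy_crit hT hb hreg t ht v ε hε

end Crest.Agent.R160.GC
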