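import Crest.Agent.R160.FinalSel
import Crest.Agent.R160.Balls
import Crest.Agent.R160.Causal
import Crest.Agent.R160.Equiv
import Crest.Agent.R160.H0
import Crest.Agent.R160.VolLim
import Crest.Agent.R160.MinfBasic

/-! Row 160, module H: the conclusion. -/

set_option autoImplicit false

open MeasureTheory Filter Topology
open scoped Classical

namespace Crest.Agent.R160.Fin

open Crest.Agent.R160 Crest.Agent.R160.TreeAut
open Crest.ProbabilityR.TreeIsing Crest.ProbabilityR.Labels

universe u

variable {V : Type u} {G : SimpleGraph V} [G.LocallyFinite]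

/-! ### temporary interface -/

omit [G.LocallyFinite] in
theorem abs_mfin_le {θ : ℝ} (h0 : 0 ≤ θ) (h1 : θ < 1) (S : Finset V) (ω : Om V) (t : ℝ)
    (v : V) : |mfin G θ S ω t v| ≤ 1 :=
  abs_mt_le G S (abs_lt.2 ⟨by linarith, h1⟩) _ ω t v

/-! ### labels per vertex -/

/-- the label of a vertex: clocks and noises of all rounds -/
abbrev Lab := ℕ → unitInterval × unitInterval

/-- law of the label of a vertex -/
noncomputable def labLaw : Measure Lab :=
  Measure.infinitePi fun _ : ℕ => (volume : Measure (unitInterval × unitInterval))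

instance : IsProbabilityMeasure labLaw := by unfold labLaw; infer_instance

instance : IsProbabilityMeasure (PP V) := by unfold PP; infer_instance

/-- uncurrying -/
def unc (x : V → Lab) : Om V := fun e => x e.1 e.2

omit [G.LocallyFinite] in
theorem measurable_unc : Measurable (unc : (V → Lab) → Om V) := by
  unfold unc; fun_prop

theorem map_unc : (Measure.infinitePi fun _ : V => labLaw).map unc = PP V :=
  Measure.infinitePi_map_curry_symm (ι := V) (κ := ℕ)
    (μ := fun _ _ => (volume : Measure (unitInterval × unitInterval)))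

theorem integral_unc {f : Om V → ℝ} (hf : Measurable f) :
    ∫ x, f (unc x) ∂(Measure.infinitePi fun _ : V => labLaw) = ∫ ω, f ω ∂(PP V) := by
  rw [← map_unc, integral_map measurable_unc.aemeasurable hf.aestronglyMeasurable]

/-- `L¹ ≤ L²` for bounded functions on a probability space -/
theorem l1_le_l2 {Ω : Type*} [MeasurableSpace Ω] {P : Measure Ω} [IsProbabilityMeasure P]
    {f : Ω → ℝ} (hf : Measurable f) {B : ℝ} (hB : ∀ x, |f x| ≤ B) :
    ∫ x, |f x| ∂P ≤ √(∫ x, (f x) ^ 2 ∂P) := by
  have i1 : Integrable (fun x => |f x|) P :=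
    Integrable.of_bound hf.abs.aestronglyMeasurable B
      (Eventually.of_forall fun x => by rw [Real.norm_eq_abs, abs_abs]; exact hB x)
  have i2 : Integrable (fun x => (f x) ^ 2) P :=
    Integrable.of_bound (hf.pow_const 2).aestronglyMeasurable (B ^ 2)
      (Eventually.of_forall fun x => by
        rw [Real.norm_eq_abs, abs_pow]
        exact pow_le_pow_left₀ (abs_nonneg _) (hB x) 2)
  apply Real.le_sqrt_of_sq_le
  set a := ∫ x, |f x| ∂P with ha
  have h1 : 0 ≤ ∫ x, (|f x| - a) ^ 2 ∂P := integral_nonneg fun x => sq_nonneg _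
  have h2 : ∫ x, (|f x| - a) ^ 2 ∂P = ∫ x, (f x) ^ 2 ∂P - a ^ 2 := by
    have h3 : ∀ x, (|f x| - a) ^ 2 = (f x) ^ 2 - 2 * a * |f x| + a ^ 2 := by
      intro x
      rw [sub_sq, sq_abs]
      ring
    simp_rw [h3]
    have i3 : Integrable (fun x => 2 * a * |f x|) P := i1.const_mul _
    have i4 : Integrable (fun x => (f x) ^ 2 - 2 * a * |f x|) P := i2.sub i3
    rw [integral_add i4 (integrable_const _),
      integral_sub i2 i3, integral_const_mul, integral_const, ← ha]
    simp
    ring
  rw [h2] at h1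
  linarith

section assembly

variable {b : ℕ}


theorem theta_lt_one (hb : 2 ≤ b) {θ : ℝ} (h1 : (b : ℝ) * θ ^ 2 ≤ 1) : θ < 1 := by
  have hb' : (2 : ℝ) ≤ b := by exact_mod_cast hb
  by_contra h
  push Not at h
  nlinarith [sq_nonneg θ]

/-- distance in `L¹` of the finite volume magnetization from the infinite volume one -/
theorem exists_rate (hT : G.IsTree) (hb : 2 ≤ b) (hreg : G.IsRegularOfDegree (b + 1))
    {θ : ℝ} (h0 : 0 ≤ θ) (h1 : (b : ℝ) * θ ^ 2 < 1) (t : ℝ) (ht : 0 ≤ t) (ε : ℝ) (hε : 0 < ε) :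
    ∃ r₀ : ℕ, ∀ (v x : V) (n : ℕ), bal G v r₀ ⊆ bal G x n →
      ∫ ω, |mfin G θ (bal G x n) ω t v - minf G θ t v ω| ∂(PP V) ≤ ε := by
  obtain ⟨C, la, hC, hla, h⟩ := vol_limit hT hb hreg h0 h1 t
  have hθ1 := theta_lt_one hb h1.le
  have htend : Tendsto (fun r : ℕ => √(C * Real.exp (-la * r))) atTop (𝓝 0) := by
    have h2 : Tendsto (fun r : ℕ => -la * (r : ℝ)) atTop atBot :=
      (tendsto_natCast_atTop_atTop).const_mul_atTop_of_neg (by linarith)
    have h3 := (Real.tendsto_exp_atBot.comp h2).const_mul C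
    rw [mul_zero] at h3
    have h4 := (Real.continuous_sqrt.tendsto 0).comp h3
    rw [Real.sqrt_zero] at h4
    exact h4
  obtain ⟨r₀, hr₀⟩ := eventually_atTop.1 (htend.eventually_le_const hε)
  refine ⟨r₀, fun v x n hvx => ?_⟩
  refine (l1_le_l2 (f := fun ω => mfin G θ (bal G x n) ω t v - minf G θ t v ω) (B := 2)
    ((measurable_mfin G θ _ t v).sub (measurable_minf G θ t v)) fun ω => ?_).trans ?_
  · have e1 := abs_le.1 (abs_mfin_le (G := G) h0 hθ1 (bal G x n) ω t v)
    have e2 := abs_le.1 (Crest.Agent.R160.abs_minf_le (G := G) h0 hθ1 t v ω)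
    exact abs_le.2 ⟨by linarith, by linarith⟩
  · exact (Real.sqrt_le_sqrt (h t ht le_rfl v x n r₀ hvx)).trans (hr₀ r₀ le_rfl)

theorem bal_subset (hT : G.IsTree) {v x : V} {r n : ℕ} (h : G.dist x v + r ≤ n) :
    bal G v r ⊆ bal G x n := by
  intro w hw
  rw [mem_bal hT] at hw ⊢
  have : G.dist x w ≤ G.dist x v + G.dist v w := hT.connected.dist_triangle
  omega

/-- the Cauchy criterion (conclusion of the dynamic part) -/
def CauchyCrit (G : SimpleGraph V) [G.LocallyFinite] (b : ℕ) : Prop :=
  ∀ (t : ℝ), 0 ≤ t → ∀ (v : V) (ε : ℝ), 0 < ε →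
    ∃ δ, 0 < δ ∧ ∀ θ θ', thc b - δ < θ → θ < thc b → thc b - δ < θ' → θ' < thc b →
      DD G θ θ' t v ≤ ε

/-- the sequence of subcritical parameters -/
theorem exists_thetas (hT : G.IsTree) (hb : 2 ≤ b) (hreg : G.IsRegularOfDegree (b + 1))
    (hcc : CauchyCrit G b) {θ : ℝ} (h0 : 0 ≤ θ) (h1 : θ ≤ thc b) (o : V) :
    ∃ θs : ℕ → ℝ, (∀ k, 0 ≤ θs k) ∧ (∀ k, (b : ℝ) * (θs k) ^ 2 < 1) ∧
      Tendsto θs atTop (𝓝 θ) ∧ ∀ t, 0 ≤ t → ∀ ε > 0, ∃ K, ∀ k ≥ K, ∀ k' ≥ K,
        DD G (θs k) (θs k') t o ≤ ε := by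
  have hb' : (2 : ℝ) ≤ b := by exact_mod_cast hb
  have hsq : √(b : ℝ) ^ 2 = b := Real.sq_sqrt (by linarith)
  have hspos : 0 < √(b : ℝ) := Real.sqrt_pos.2 (by linarith)
  have hthc : 0 < thc b := by unfold thc; positivity
  have hthcsq : (b : ℝ) * (thc b) ^ 2 = 1 := by
    unfold thc
    rw [div_pow, hsq, one_pow]
    field_simp
  rcases h1.lt_or_eq with h | h
  · refine ⟨fun _ => θ, fun _ => h0, fun _ => ?_, tendsto_const_nhds, fun t _ ε hε =>
      ⟨0, fun k _ k' _ => ?_⟩⟩
    · rw [← hthcsq]
      have : θ ^ 2 < (thc b) ^ 2 := by nlinarith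
      nlinarith
    · unfold DD
      simp only [sub_self]
      simpa using hε.le
  · subst h
    have hlim : Tendsto (fun k : ℕ => thc b * (1 - 1 / ((k : ℝ) + 1 + 1))) atTop
        (𝓝 (thc b)) := by
      have h2 : Tendsto (fun k : ℕ => 1 / ((k : ℝ) + 1)) atTop (𝓝 0) :=
        tendsto_one_div_add_atTop_nhds_zero_nat
      have h3 := (tendsto_add_atTop_iff_nat 1).2 h2
      have h4 := (tendsto_const_nhds (x := (1 : ℝ))).sub h3
      have h5 := h4.const_mul (thc b)
      simp only [sub_zero, mul_one, Nat.cast_add, Nat.cast_one] at h5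
      exact h5
    have hk : ∀ k : ℕ, 0 ≤ 1 - 1 / ((k : ℝ) + 1 + 1) ∧ 1 - 1 / ((k : ℝ) + 1 + 1) < 1 := by
      intro k
      have hk0 : (0 : ℝ) ≤ k := Nat.cast_nonneg k
      have : 0 < 1 / ((k : ℝ) + 1 + 1) := by positivity
      have h6 : 1 / ((k : ℝ) + 1 + 1) ≤ 1 := by
        rw [div_le_one (by positivity)]
        linarith
      constructor <;> linarith
    refine ⟨fun k => thc b * (1 - 1 / ((k : ℝ) + 1 + 1)), fun k => ?_, fun k => ?_, hlim,
      fun t ht ε hε => ?_⟩
    · exact mul_nonneg hthc.le (hk k).1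
    · rw [mul_pow, ← mul_assoc, hthcsq, one_mul]
      have := hk k
      nlinarith
    · obtain ⟨δ, hδ, h⟩ := hcc t ht o ε hε
      have h7 := hlim.eventually (lt_mem_nhds (show thc b - δ < thc b by linarith))
      obtain ⟨K, hK⟩ := eventually_atTop.1 h7
      refine ⟨K, fun k hk1 k' hk2 => h _ _ (hK k hk1) ?_ (hK k' hk2) ?_⟩
      · have := (hk k).2
        nlinarith
      · have := (hk k').2
        nlinarith

omit [G.LocallyFinite] in
theorem act_unc (g : G ≃g G) (x : V → Lab) : unc (x ∘ g) = act g (unc x) := rfl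

theorem bal_image (hT : G.IsTree) (g : G ≃g G) (v : V) (n : ℕ) :
    (bal G v n).image g = bal G (g v) n := by
  rw [bal_map hT, Finset.map_eq_image]
  rfl

/-- **Module H**: the conclusion for `0 ≤ θ ≤ 1/√b`. -/
theorem final_thm (hT : G.IsTree) (hb : 2 ≤ b) (hreg : G.IsRegularOfDegree (b + 1))
    (hcc : CauchyCrit G b) {θ : ℝ} (h0 : 0 ≤ θ) (h1 : θ ≤ thc b) :
    ∃ Φ : (V → unitInterval) → (V → Bool), Measurable Φ ∧
      (∀ (g : G ≃g G) (x : V → unitInterval), Φ (x ∘ ⇑g) = Φ x ∘ ⇑g) ∧
      ∀ (S : Finset V) (η : V → Bool), (G.induce (S : Set V)).Connected →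
        (labelMeasure V).map Φ {σ | ∀ v ∈ S, σ v = η v} =
          ENNReal.ofReal (isingWeight G θ S η) := by
  obtain ⟨o⟩ := hT.connected.nonempty
  obtain ⟨θs, hs0, hs1, hslim, hsc⟩ := exists_thetas hT hb hreg hcc h0 h1 o
  have hsl : ∀ k, θs k < 1 := fun k => theta_lt_one hb (hs1 k).le
  obtain ⟨C, c, hC, hc, hconc⟩ := H0.conc hT hb hreg
  have hexp : ∀ {C c : ℝ}, 0 < c → Tendsto (fun t : ℕ => C * Real.exp (-c * t)) atTop (𝓝 0) := by
    intro C c hc
    have h2 : Tendsto (fun r : ℕ => -c * (r : ℝ)) atTop atBot :=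
      (tendsto_natCast_atTop_atTop).const_mul_atTop_of_neg (by linarith)
    have h3 := (Real.tendsto_exp_atBot.comp h2).const_mul C
    rw [mul_zero] at h3
    exact h3
  let ρ : ℕ → ℝ := fun t => C * Real.exp (-c * t) + √(C * Real.exp (-c * t))
  have hρ : Tendsto ρ atTop (𝓝 0) := by
    have h4 := (Real.continuous_sqrt.tendsto 0).comp (hexp (C := C) hc)
    rw [Real.sqrt_zero] at h4
    have h5 := (hexp (C := C) hc).add h4
    rw [add_zero] at h5
    exact h5
  have hCpos : ∀ t : ℕ, 0 < C * Real.exp (-c * t) := fun t => by positivity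
  -- integrability of differences
  have hbd2 : ∀ (k k' : ℕ) (S S' : Finset V) (t t' : ℝ) (v : V) (ω : Om V),
      |mfin G (θs k) S ω t v - mfin G (θs k') S' ω t' v| ≤ 2 := by
    intro k k' S S' t t' v ω
    have e1 := abs_le.1 (abs_mfin_le (G := G) (hs0 k) (hsl k) S ω t v)
    have e2 := abs_le.1 (abs_mfin_le (G := G) (hs0 k') (hsl k') S' ω t' v)
    exact abs_le.2 ⟨by linarith, by linarith⟩
  have hms : ∀ (k k' : ℕ) (S S' : Finset V) (t t' : ℝ) (v : V),
      Measurable fun ω : Om V => mfin G (θs k) S ω t v - mfin G (θs k') S' ω t' v :=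
    fun k k' S S' t t' v => (measurable_mfin G _ S t v).sub (measurable_mfin G _ S' t' v)
  have hint2 : ∀ (k k' : ℕ) (S S' : Finset V) (t t' : ℝ) (v : V),
      Integrable (fun ω : Om V => |mfin G (θs k) S ω t v - mfin G (θs k') S' ω t' v|) (PP V) :=
    fun k k' S S' t t' v => Integrable.of_bound (hms k k' S S' t t' v).abs.aestronglyMeasurable 2
      (Eventually.of_forall fun ω => by
        rw [Real.norm_eq_abs, abs_abs]; exact hbd2 k k' S S' t t' v ω)
  have hbm : ∀ (k : ℕ) (S : Finset V) (t : ℝ) (v : V) (ω : Om V),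
      |mfin G (θs k) S ω t v - minf G (θs k) t v ω| ≤ 2 := by
    intro k S t v ω
    have e1 := abs_le.1 (abs_mfin_le (G := G) (hs0 k) (hsl k) S ω t v)
    have e2 := abs_le.1 (Crest.Agent.R160.abs_minf_le (G := G) (hs0 k) (hsl k) t v ω)
    exact abs_le.2 ⟨by linarith, by linarith⟩
  have hintm : ∀ (k : ℕ) (S : Finset V) (t : ℝ) (v : V),
      Integrable (fun ω : Om V => |mfin G (θs k) S ω t v - minf G (θs k) t v ω|) (PP V) :=
    fun k S t v => Integrable.of_bound
      ((measurable_mfin G _ S t v).sub (measurable_minf G _ t v)).abs.aestronglyMeasurable 2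
      (Eventually.of_forall fun ω => by
        rw [Real.norm_eq_abs, abs_abs]; exact hbm k S t v ω)
  have hbmm : ∀ (k k' : ℕ) (t : ℝ) (v : V) (ω : Om V),
      |minf G (θs k) t v ω - minf G (θs k') t v ω| ≤ 2 := by
    intro k k' t v ω
    have e1 := abs_le.1 (Crest.Agent.R160.abs_minf_le (G := G) (hs0 k) (hsl k) t v ω)
    have e2 := abs_le.1 (Crest.Agent.R160.abs_minf_le (G := G) (hs0 k') (hsl k') t v ω)
    exact abs_le.2 ⟨by linarith, by linarith⟩
  have hintmm : ∀ (k k' : ℕ) (t : ℝ) (v : V),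
      Integrable (fun ω : Om V => |minf G (θs k) t v ω - minf G (θs k') t v ω|) (PP V) :=
    fun k k' t v => Integrable.of_bound
      ((measurable_minf G _ t v).sub (measurable_minf G _ t v)).abs.aestronglyMeasurable 2
      (Eventually.of_forall fun ω => by
        rw [Real.norm_eq_abs, abs_abs]; exact hbmm k k' t v ω)
  -- two volumes
  have hvol : ∀ (k : ℕ) (t : ℝ), 0 ≤ t → ∀ ε > 0, ∃ r₀ : ℕ, ∀ (v x y : V) (n n' : ℕ),
      bal G v r₀ ⊆ bal G x n → bal G v r₀ ⊆ bal G y n' →
      ∫ ω, |mfin G (θs k) (bal G x n) ω t v - mfin G (θs k) (bal G y n') ω t v| ∂(PP V) ≤ ε := by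
    intro k t ht ε hε
    obtain ⟨r₀, hr⟩ := exists_rate hT hb hreg (hs0 k) (hs1 k) t ht (ε / 2) (by linarith)
    refine ⟨r₀, fun v x y n n' h1 h2 => ?_⟩
    have e1 := hr v x n h1
    have e2 := hr v y n' h2
    calc ∫ ω, |mfin G (θs k) (bal G x n) ω t v - mfin G (θs k) (bal G y n') ω t v| ∂(PP V)
        ≤ ∫ ω, (|mfin G (θs k) (bal G x n) ω t v - minf G (θs k) t v ω| +
            |mfin G (θs k) (bal G y n') ω t v - minf G (θs k) t v ω|) ∂(PP V) := by
          refine integral_mono (hint2 _ _ _ _ _ _ _) ((hintm _ _ _ _).add (hintm _ _ _ _))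
            fun ω => ?_
          have := abs_sub_le (mfin G (θs k) (bal G x n) ω t v) (minf G (θs k) t v ω)
            (mfin G (θs k) (bal G y n') ω t v)
          rwa [abs_sub_comm (minf G (θs k) t v ω)] at this
      _ = _ := integral_add (hintm _ _ _ _) (hintm _ _ _ _)
      _ ≤ ε := by linarith
  refine final_select G hT hreg θ θs hslim labLaw
    (fun k t N v x => mfin G (θs k) (bal G v N) (unc x) t v) ρ hρ
    (fun k t N v => (measurable_mfin G _ _ _ _).comp measurable_unc)
    (fun k t N v x => abs_mfin_le (hs0 k) (hsl k) _ _ _ _)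
    (fun k t N v g x => by rw [act_unc, mfin_act, bal_image hT]) o ?_ ?_ ?_ ?_ ?_
  · -- volume
    intro k t ε hε
    obtain ⟨r₀, hr⟩ := hvol k t (Nat.cast_nonneg t) ε hε
    refine ⟨r₀, fun N hN N' hN' => ?_⟩
    rw [integral_unc (f := fun ω => |mfin G (θs k) (bal G o N) ω t o -
      mfin G (θs k) (bal G o N') ω t o|) (hms _ _ _ _ _ _ _).abs]
    refine hr o o o N N' (bal_subset hT ?_) (bal_subset hT ?_)
    · rw [SimpleGraph.dist_self]; omega
    · rw [SimpleGraph.dist_self]; omega
  · -- parameter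
    intro t ε hε
    obtain ⟨K, hK⟩ := hsc t (Nat.cast_nonneg t) ((ε / 3) ^ 2) (by positivity)
    refine ⟨K, fun k hk k' hk' => ?_⟩
    obtain ⟨r₀, hr⟩ := exists_rate hT hb hreg (hs0 k) (hs1 k) t (Nat.cast_nonneg t) (ε / 3)
      (by linarith)
    obtain ⟨r₁, hr'⟩ := exists_rate hT hb hreg (hs0 k') (hs1 k') t (Nat.cast_nonneg t) (ε / 3)
      (by linarith)
    refine ⟨r₀ + r₁, fun N hN => ?_⟩
    rw [integral_unc (f := fun ω => |mfin G (θs k) (bal G o N) ω t o -
      mfin G (θs k') (bal G o N) ω t o|) (hms _ _ _ _ _ _ _).abs]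
    have e1 := hr o o N (bal_subset hT (by rw [SimpleGraph.dist_self]; omega))
    have e2 := hr' o o N (bal_subset hT (by rw [SimpleGraph.dist_self]; omega))
    have e3 : ∫ ω, |minf G (θs k) t o ω - minf G (θs k') t o ω| ∂(PP V) ≤ ε / 3 := by
      refine (l1_le_l2 (f := fun ω => minf G (θs k) t o ω - minf G (θs k') t o ω) (B := 2)
        ((measurable_minf G _ t o).sub (measurable_minf G _ t o)) (hbmm k k' t o)).trans ?_
      have := hK k hk k' hk'
      unfold DD at this
      exact (Real.sqrt_le_sqrt this).trans (by rw [Real.sqrt_sq (by linarith)])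
    calc ∫ ω, |mfin G (θs k) (bal G o N) ω t o - mfin G (θs k') (bal G o N) ω t o| ∂(PP V)
        ≤ ∫ ω, ((|mfin G (θs k) (bal G o N) ω t o - minf G (θs k) t o ω| +
            |mfin G (θs k') (bal G o N) ω t o - minf G (θs k') t o ω|) +
            |minf G (θs k) t o ω - minf G (θs k') t o ω|) ∂(PP V) := by
          refine integral_mono (hint2 _ _ _ _ _ _ _)
            (((hintm _ _ _ _).add (hintm _ _ _ _)).add (hintmm _ _ _ _)) fun ω => ?_
          have e4 := abs_sub_le (mfin G (θs k) (bal G o N) ω t o) (minf G (θs k) t o ω)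
            (mfin G (θs k') (bal G o N) ω t o)
          have e5 := abs_sub_le (minf G (θs k) t o ω) (minf G (θs k') t o ω)
            (mfin G (θs k') (bal G o N) ω t o)
          rw [abs_sub_comm (minf G (θs k') t o ω) (mfin G (θs k') (bal G o N) ω t o)] at e5
          simp only
          linarith
      _ = _ := integral_add ((hintm _ _ _ _).add (hintm _ _ _ _)) (hintmm _ _ _ _)
      _ = _ := by rw [integral_add (hintm _ _ _ _) (hintm _ _ _ _)]
      _ ≤ ε := by linarith
  · -- time
    intro k t t' N htt'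
    rw [integral_unc (f := fun ω => |mfin G (θs k) (bal G o N) ω t o -
      mfin G (θs k) (bal G o N) ω t' o|) (hms _ _ _ _ _ _ _).abs]
    have ho : o ∈ bal G o N := by
      rw [mem_bal hT, SimpleGraph.dist_self]; exact Nat.zero_le _
    have e1 := time_incr_mfin G (bal G o N) (θ := θs k)
      (by rw [abs_of_nonneg (hs0 k)]; exact hsl k)
      (by exact_mod_cast htt' : (t : ℝ) ≤ t') o
    have e2 := hconc (θs k) (hs0 k) (hs1 k).le t (Nat.cast_nonneg t) o o N ho
    refine (l1_le_l2 (f := fun ω => mfin G (θs k) (bal G o N) ω t o -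
      mfin G (θs k) (bal G o N) ω t' o) (B := 2) (hms _ _ _ _ _ _ _) (hbd2 _ _ _ _ _ _ _)).trans ?_
    have e3 : ∫ ω, (mfin G (θs k) (bal G o N) ω t o - mfin G (θs k) (bal G o N) ω t' o) ^ 2
        ∂(PP V) ≤ C * Real.exp (-c * t) := by
      refine le_trans (le_of_eq ?_) (e1.trans e2)
      exact integral_congr_ae (Eventually.of_forall fun ω => by simp only; ring)
    refine (Real.sqrt_le_sqrt e3).trans ?_
    have := hCpos t
    simp only [ρ]
    linarith
  · -- concentration
    intro k t N
    rw [integral_unc (f := fun ω => 1 - (mfin G (θs k) (bal G o N) ω t o) ^ 2)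
      (measurable_const.sub ((measurable_mfin G _ _ _ _).pow_const 2))]
    have ho : o ∈ bal G o N := by
      rw [mem_bal hT, SimpleGraph.dist_self]; exact Nat.zero_le _
    have e2 := hconc (θs k) (hs0 k) (hs1 k).le t (Nat.cast_nonneg t) o o N ho
    have := Real.sqrt_nonneg (C * Real.exp (-c * t))
    simp only [ρ]
    linarith
  · -- laws
    intro S hS
    obtain ⟨C2, c2, hC2, hc2, hsign⟩ := H0.sign_law hT hb hreg S hS
    obtain ⟨⟨x, hxS⟩⟩ := hS.nonempty
    have hxS' : x ∈ S := by simpa using hxS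
    refine ⟨fun t => C2 * Real.exp (-c2 * t) + S.card * (C * Real.exp (-c * t)), ?_, ?_⟩
    · have h5 := (hexp (C := C2) hc2).add ((hexp (C := C) hc).const_mul (S.card : ℝ))
      rw [mul_zero, add_zero] at h5
      exact h5
    intro k t ε hε
    have hε' : 0 < ε / (S.card + 1) := by positivity
    obtain ⟨r₀, hr⟩ := hvol k t (Nat.cast_nonneg t) _ hε'
    refine ⟨r₀, fun N hN η => ?_⟩
    set n : ℕ := N + ∑ v ∈ S, G.dist x v with hn
    have hdist : ∀ v ∈ S, G.dist x v + N ≤ n := by
      intro v hv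
      have := Finset.single_le_sum (f := fun v => G.dist x v) (fun i _ => Nat.zero_le _) hv
      omega
    have hSn : S ⊆ bal G x n := by
      intro v hv
      rw [mem_bal hT]
      have := hdist v hv
      omega
    -- sets
    let a : V → Om V → ℝ := fun v ω => mfin G (θs k) (bal G x n) ω t v
    let b' : V → Om V → ℝ := fun v ω => mfin G (θs k) (bal G v N) ω t v
    have ha : ∀ v, Measurable (a v) := fun v => measurable_mfin G _ _ _ _
    have hb2 : ∀ v, Measurable (b' v) := fun v => measurable_mfin G _ _ _ _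
    let A : Set (Om V) := {ω | ∀ v ∈ S, (0 < b' v ω ↔ η v = true)}
    let B : Set (Om V) := {ω | ∀ v ∈ S, decide (0 < a v ω) = η v}
    let D : V → Set (Om V) := fun v => {ω | ¬ (0 < a v ω ↔ 0 < b' v ω)}
    have hDm : ∀ v, MeasurableSet (D v) := by
      intro v
      have h1 : MeasurableSet {ω | 0 < a v ω} := measurableSet_lt measurable_const (ha v)
      have h2 : MeasurableSet {ω | 0 < b' v ω} := measurableSet_lt measurable_const (hb2 v)
      have h3 : D v = ({ω | 0 < a v ω} \ {ω | 0 < b' v ω}) ∪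
          ({ω | 0 < b' v ω} \ {ω | 0 < a v ω}) := by
        ext ω
        simp only [D, Set.mem_union, Set.mem_sdiff, Set.mem_ofPred_eq]
        tauto
      rw [h3]
      exact (h1.diff h2).union (h2.diff h1)
    have hAm : MeasurableSet A := by
      have : A = ⋂ v ∈ S, {ω | (0 < b' v ω ↔ η v = true)} := by
        ext ω; simp [A]
      rw [this]
      refine Finset.measurableSet_biInter S fun v _ => ?_
      by_cases hη : η v = true
      · simp only [hη, iff_true]
        exact measurableSet_lt measurable_const (hb2 v)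
      · have : {ω | 0 < b' v ω ↔ η v = true} = {ω | b' v ω ≤ 0} := by
          ext ω
          simp [hη]
        rw [this]
        exact measurableSet_le (hb2 v) measurable_const
    have hPA : ((Measure.infinitePi fun _ : V => labLaw)
        {x | ∀ v ∈ S, (0 < mfin G (θs k) (bal G v N) (unc x) t v ↔ η v = true)}).toReal =
        (PP V).real A := by
      rw [← map_unc, map_measureReal_apply measurable_unc hAm]
      rfl
    rw [hPA]
    -- disagreement probabilities
    have hD : ∀ v ∈ S, (PP V).real (D v) ≤ ε / (S.card + 1) + C * Real.exp (-c * t) := by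
      intro v hv
      have i1 : Integrable (fun ω => |a v ω - b' v ω|) (PP V) := hint2 k k _ _ t t v
      have i2 : Integrable (fun ω => 1 - (a v ω) ^ 2) (PP V) := by
        refine Integrable.of_bound
          (measurable_const.sub ((ha v).pow_const 2)).aestronglyMeasurable 1
          (Eventually.of_forall fun ω => ?_)
        have e1 := abs_mfin_le (G := G) (hs0 k) (hsl k) (bal G x n) ω t v
        have e2 : (a v ω) ^ 2 ≤ 1 := by
          rw [← sq_abs]
          simp only [a]
          nlinarith [abs_nonneg (mfin G (θs k) (bal G x n) ω t v)]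
        rw [Real.norm_eq_abs]
        exact abs_le.2 ⟨by nlinarith [sq_nonneg (a v ω)], by nlinarith [sq_nonneg (a v ω)]⟩
      have e1 : (PP V).real (D v) ≤ ∫ ω, (|a v ω - b' v ω| + (1 - (a v ω) ^ 2)) ∂(PP V) := by
        have e0 : (PP V).real (D v) = ∫ ω, (D v).indicator (fun _ => (1 : ℝ)) ω ∂(PP V) := by
          rw [integral_indicator_const _ (hDm v)]
          simp
        rw [e0]
        refine integral_mono ((integrable_const _).indicator (hDm v)) (i1.add i2) fun ω => ?_
        have e3 := abs_mfin_le (G := G) (hs0 k) (hsl k) (bal G x n) ω t v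
        have e4 : (a v ω) ^ 2 ≤ |a v ω| := by
          rw [← sq_abs]
          have : |a v ω| ≤ 1 := e3
          nlinarith [abs_nonneg (a v ω)]
        by_cases h : ω ∈ D v
        · rw [Set.indicator_of_mem h]
          have h5 : |a v ω| ≤ |a v ω - b' v ω| := by
            simp only [D, Set.mem_ofPred_eq] at h
            rcases lt_or_ge 0 (a v ω) with h6 | h6
            · have h7 : b' v ω ≤ 0 := by
                by_contra h8
                push Not at h8
                exact h ⟨fun _ => h8, fun _ => h6⟩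
              rw [abs_of_pos h6]
              exact le_trans (by linarith) (le_abs_self _)
            · have h7 : 0 < b' v ω := by
                by_contra h8
                exact h ⟨fun h9 => absurd h9 (not_lt.2 h6), fun h9 => absurd h9 h8⟩
              rw [abs_of_nonpos h6]
              exact le_trans (by linarith) (neg_le_abs _)
          simp only
          linarith
        · rw [Set.indicator_of_notMem h]
          have h5 := abs_nonneg (a v ω - b' v ω)
          have : |a v ω| ≤ 1 := e3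
          simp only
          linarith
      rw [integral_add i1 i2] at e1
      have e2 := hconc (θs k) (hs0 k) (hs1 k).le t (Nat.cast_nonneg t) x v n (hSn hv)
      have e3 := hr v x v n N (bal_subset hT (by have := hdist v hv; omega))
        (bal_subset hT (by rw [SimpleGraph.dist_self]; omega))
      simp only [a, b'] at e1
      linarith
    have hsum : ∑ v ∈ S, (PP V).real (D v) ≤ ε + S.card * (C * Real.exp (-c * t)) := by
      refine (Finset.sum_le_sum hD).trans ?_
      rw [Finset.sum_const, nsmul_eq_mul, mul_add]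
      have : (S.card : ℝ) * (ε / (S.card + 1)) ≤ ε := by
        rw [mul_div_assoc', div_le_iff₀ (by positivity)]
        nlinarith [(Nat.cast_nonneg S.card : (0 : ℝ) ≤ S.card)]
      linarith
    have hU : (PP V).real (⋃ v ∈ S, D v) ≤ ∑ v ∈ S, (PP V).real (D v) :=
      measureReal_biUnion_finset_le _ _
    have hAB : (PP V).real A ≤ (PP V).real B + (PP V).real (⋃ v ∈ S, D v) := by
      refine (measureReal_mono (?_ : A ⊆ B ∪ ⋃ v ∈ S, D v)).trans (measureReal_union_le _ _)
      intro ω hω
      by_cases h : ω ∈ ⋃ v ∈ S, D v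
      · exact Or.inr h
      · left
        simp only [Set.mem_iUnion, not_exists, D, Set.mem_ofPred_eq, not_not] at h
        intro v hv
        have h1 := h v hv
        have h2 := hω v hv
        rw [Bool.eq_iff_iff, decide_eq_true_iff, h1]
        exact h2
    have hBA : (PP V).real B ≤ (PP V).real A + (PP V).real (⋃ v ∈ S, D v) := by
      refine (measureReal_mono (?_ : B ⊆ A ∪ ⋃ v ∈ S, D v)).trans (measureReal_union_le _ _)
      intro ω hω
      by_cases h : ω ∈ ⋃ v ∈ S, D v
      · exact Or.inr h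
      · left
        simp only [Set.mem_iUnion, not_exists, D, Set.mem_ofPred_eq, not_not] at h
        intro v hv
        have h1 := h v hv
        have h2 := hω v hv
        rw [Bool.eq_iff_iff, decide_eq_true_iff] at h2
        rw [← h1]
        exact h2
    have hfin := hsign η (θs k) (hs0 k) (hs1 k).le t (Nat.cast_nonneg t) x n hSn
    have hBeq : (PP V).real {ω | ∀ v ∈ S, decide (0 < mfin G (θs k) (bal G x n) ω t v) = η v} =
        (PP V).real B := rfl
    rw [hBeq] at hfin
    have h8 := abs_le.1 hfin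
    rw [abs_le]
    constructor
    · linarith
    · linarith

end assembly

end Crest.Agent.R160.Fin
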