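import Mathlib
import Crest.Agent.R160.StaticRec

-- ▼ part R160/StaticConv
section

/-! Row 160, module E: convex order for the addition of biases, scalar part. -/

set_option autoImplicit false

namespace Crest.Agent.R160.StaticConv

/-- key inequality for ordered atoms -/
lemma conv_order_aux {f : ℝ → ℝ} (hf : ConvexOn ℝ Set.univ f) {a b : ℝ} (hb : 0 ≤ b)
    (hab : b ≤ a) (ha : a ≤ 1) (h : a * b < 1) :
    (1 + a * b) * f ((a + b) / (1 + a * b)) + (1 - a * b) * f ((a - b) / (1 - a * b)) ≤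
      f (a + b) + f (a - b) := by
  rcases hb.eq_or_lt with hb0 | hb0
  · subst hb0
    simp
  have hab0 : 0 ≤ a * b := mul_nonneg (hb.trans hab) hb
  have h1 : 0 < 1 + a * b := by linarith
  have h2 : 0 < 1 - a * b := by linarith
  have hb2 : 0 < 2 * b := by linarith
  have ha0 : 0 ≤ a := hb.trans hab
  have hb1 : b ≤ 1 := hab.trans ha
  -- weights
  set p : ℝ := ((a + b) / (1 + a * b) - (a - b)) / (2 * b) with hp
  set p' : ℝ := ((a - b) / (1 - a * b) - (a - b)) / (2 * b) with hp'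
  have e1 : (a + b) / (1 + a * b) = p * (a + b) + (1 - p) * (a - b) := by
    rw [hp]; field_simp; ring
  have e2 : (a - b) / (1 - a * b) = p' * (a + b) + (1 - p') * (a - b) := by
    rw [hp']; field_simp; ring
  have p0 : 0 ≤ p := by
    rw [hp]
    apply div_nonneg _ hb2.le
    rw [sub_nonneg, le_div_iff₀ h1]
    nlinarith [mul_nonneg hab0 hb, mul_nonneg ha0 hb]
  have p1 : p ≤ 1 := by
    rw [hp, div_le_one hb2, sub_le_iff_le_add, div_le_iff₀ h1]
    nlinarith [mul_nonneg hab0 ha0, mul_nonneg hab0 hb]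
  have p0' : 0 ≤ p' := by
    rw [hp']
    apply div_nonneg _ hb2.le
    rw [sub_nonneg, le_div_iff₀ h2]
    nlinarith [mul_nonneg hab0 (sub_nonneg.2 hab)]
  have p1' : p' ≤ 1 := by
    rw [hp', div_le_one hb2, sub_le_iff_le_add, div_le_iff₀ h2]
    have : a * (a * b) + b * (a * b) ≤ 2 * b := by
      have h3 : a * a ≤ 1 := by nlinarith
      have h4 : a * b ≤ 1 := h.le
      nlinarith
    nlinarith
  have c1 := hf.2 (Set.mem_univ (a + b)) (Set.mem_univ (a - b)) p0 (sub_nonneg.2 p1) (by ring)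
  have c2 := hf.2 (Set.mem_univ (a + b)) (Set.mem_univ (a - b)) p0' (sub_nonneg.2 p1') (by ring)
  simp only [smul_eq_mul] at c1 c2
  rw [← e1] at c1
  rw [← e2] at c2
  have hsum : (1 + a * b) * p + (1 - a * b) * p' = 1 := by
    rw [hp, hp']; field_simp; ring
  have d1 := mul_le_mul_of_nonneg_left c1 h1.le
  have d2 := mul_le_mul_of_nonneg_left c2 h2.le
  have : (1 + a * b) * (p * f (a + b) + (1 - p) * f (a - b)) +
      (1 - a * b) * (p' * f (a + b) + (1 - p') * f (a - b)) =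
      ((1 + a * b) * p + (1 - a * b) * p') * f (a + b) +
      (2 - ((1 + a * b) * p + (1 - a * b) * p')) * f (a - b) := by ring
  rw [hsum] at this
  linarith

/-- **convex order** for the combination of two symmetric biases: even convex functions -/
theorem conv_order {f : ℝ → ℝ} (hf : ConvexOn ℝ Set.univ f) (heven : ∀ x, f (-x) = f x)
    {a b : ℝ} (ha : |a| ≤ 1) (hb : |b| ≤ 1) (h : |a * b| < 1) :
    (1 + a * b) * f ((a + b) / (1 + a * b)) + (1 - a * b) * f ((a - b) / (1 - a * b)) ≤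
      f (a + b) + f (a - b) := by
  -- reduce to `0 ≤ b ≤ a`
  have key : ∀ {a b : ℝ}, 0 ≤ a → 0 ≤ b → a ≤ 1 → b ≤ 1 → a * b < 1 →
      (1 + a * b) * f ((a + b) / (1 + a * b)) + (1 - a * b) * f ((a - b) / (1 - a * b)) ≤
      f (a + b) + f (a - b) := by
    intro a b ha hb ha1 hb1 hab
    rcases le_total b a with hba | hba
    · exact conv_order_aux hf hb hba ha1 hab
    · have := conv_order_aux hf ha hba hb1 (by rwa [mul_comm])
      have e1 : (b - a) / (1 - b * a) = -((a - b) / (1 - a * b)) := by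
        rw [mul_comm b a, ← neg_div]; congr 1; ring
      have e2 : b - a = -(a - b) := by ring
      rw [e1, heven, e2, heven, mul_comm b a, add_comm b a] at this
      exact this
  have h' := abs_lt.1 h
  rcases le_total 0 a with ha0 | ha0 <;> rcases le_total 0 b with hb0 | hb0
  · exact key ha0 hb0 (by rwa [abs_of_nonneg ha0] at ha) (by rwa [abs_of_nonneg hb0] at hb) h'.2
  · have := key (a := a) (b := -b) ha0 (by linarith) (by rwa [abs_of_nonneg ha0] at ha)
      (by rwa [abs_of_nonpos hb0] at hb) (by linarith [mul_neg a b])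
    rw [show 1 + a * -b = 1 - a * b by ring, show 1 - a * -b = 1 + a * b by ring,
      show a + -b = a - b by ring, show a - -b = a + b by ring] at this
    linarith
  · have := key (a := -a) (b := b) (by linarith) hb0 (by rwa [abs_of_nonpos ha0] at ha)
      (by rwa [abs_of_nonneg hb0] at hb) (by linarith [neg_mul a b])
    rw [show 1 + -a * b = 1 - a * b by ring, show 1 - -a * b = 1 + a * b by ring,
      show -a + b = -(a - b) by ring, show -a - b = -(a + b) by ring, neg_div, heven, neg_div,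
      heven, heven, heven] at this
    linarith
  · have := key (a := -a) (b := -b) (by linarith) (by linarith) (by rwa [abs_of_nonpos ha0] at ha)
      (by rwa [abs_of_nonpos hb0] at hb) (by linarith [neg_mul_neg a b])
    rw [show 1 + -a * -b = 1 + a * b by ring, show 1 - -a * -b = 1 - a * b by ring,
      show -a + -b = -(a + b) by ring, show -a - -b = -(a - b) by ring, neg_div, heven, neg_div,
      heven, heven, heven] at this
    linarith

/-- the remainder function -/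
noncomputable def rem (l x : ℝ) : ℝ := Real.cosh (l * x) - 1 - (l * x) ^ 2 / 2

lemma rem_even (l x : ℝ) : rem l (-x) = rem l x := by
  unfold rem
  rw [mul_neg, Real.cosh_neg, neg_sq]

/-- derivative of `rem` -/
lemma hasDerivAt_rem (l x : ℝ) :
    HasDerivAt (rem l) (l * Real.sinh (l * x) - l * (l * x)) x := by
  unfold rem
  have h1 : HasDerivAt (fun x : ℝ => l * x) l x := by
    simpa using (hasDerivAt_id x).const_mul l
  have h2 := h1.cosh
  have h3 := (h1.pow 2).div_const 2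
  have h4 := (h2.sub_const 1).sub h3
  refine h4.congr_deriv ?_
  ring

lemma hasDerivAt_rem' (l x : ℝ) :
    HasDerivAt (fun x => l * Real.sinh (l * x) - l * (l * x)) (l ^ 2 * (Real.cosh (l * x) - 1))
      x := by
  have h1 : HasDerivAt (fun x : ℝ => l * x) l x := by
    simpa using (hasDerivAt_id x).const_mul l
  have h2 := (h1.sinh.const_mul l).sub (h1.const_mul l)
  refine h2.congr_deriv ?_
  ring

lemma rem_convex (l : ℝ) : ConvexOn ℝ Set.univ (rem l) := by
  have hd : deriv (rem l) = fun x => l * Real.sinh (l * x) - l * (l * x) :=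
    funext fun x => (hasDerivAt_rem l x).deriv
  have hd2 : ∀ x, deriv^[2] (rem l) x = l ^ 2 * (Real.cosh (l * x) - 1) := by
    intro x
    rw [Function.iterate_succ_apply, Function.iterate_one, hd]
    exact (hasDerivAt_rem' l x).deriv
  apply convexOn_univ_of_deriv2_nonneg
  · exact fun x => (hasDerivAt_rem l x).differentiableAt
  · rw [hd]
    exact fun x => (hasDerivAt_rem' l x).differentiableAt
  · intro x
    rw [hd2]
    exact mul_nonneg (sq_nonneg l) (sub_nonneg.2 (Real.one_le_cosh _))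

lemma rem_zero (l : ℝ) : rem l 0 = 0 := by simp [rem]

lemma rem_nonneg (l x : ℝ) : 0 ≤ rem l x := by
  have h := (rem_convex l).2 (Set.mem_univ x) (Set.mem_univ (-x))
    (by norm_num : (0 : ℝ) ≤ 1 / 2) (by norm_num : (0 : ℝ) ≤ 1 / 2) (by norm_num)
  simp only [smul_eq_mul] at h
  rw [rem_even, show 1 / 2 * x + 1 / 2 * -x = 0 by ring, rem_zero] at h
  linarith

lemma rem_le {l x : ℝ} (h : (l * x) ^ 2 ≤ 2) : rem l x ≤ (l * x) ^ 4 / 4 := by
  unfold rem
  have h1 := Real.cosh_le_exp_half_sq (l * x)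
  have h2 := Real.abs_exp_sub_one_sub_id_le (x := (l * x) ^ 2 / 2)
    (by rw [abs_of_nonneg (by positivity)]; linarith)
  have h3 := (abs_le.1 h2).2
  have h4 : ((l * x) ^ 2 / 2) ^ 2 = (l * x) ^ 4 / 4 := by ring
  rw [h4] at h3
  linarith

lemma rem_scale (l t x : ℝ) : rem l (t * x) = rem (t * l) x := by
  unfold rem
  rw [show l * (t * x) = t * l * x by ring]

/-- the symmetrised remainder of a sum factorises -/
lemma rem_avg (l a b : ℝ) :
    (rem l (a + b) + rem l (a - b)) / 2 =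
      Real.cosh (l * a) * Real.cosh (l * b) - 1 - (l * a) ^ 2 / 2 - (l * b) ^ 2 / 2 := by
  unfold rem
  rw [mul_add, mul_sub, Real.cosh_add, Real.cosh_sub]
  ring

lemma cosh_eq_rem (l a : ℝ) : Real.cosh (l * a) = 1 + (l * a) ^ 2 / 2 + rem l a := by
  unfold rem; ring

/-- one gluing step, as an inequality for atoms -/
lemma glue_rem {l a b : ℝ} (ha : |a| ≤ 1) (hb : |b| ≤ 1) (h : |a * b| < 1) :
    ((1 + a * b) * rem l ((a + b) / (1 + a * b)) + (1 - a * b) * rem l ((a - b) / (1 - a * b))) / 2 ≤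
      rem l a + rem l b + ((l * a) ^ 2 / 2 + rem l a) * ((l * b) ^ 2 / 2 + rem l b) := by
  have h1 := conv_order (rem_convex l) (rem_even l) ha hb h
  have h2 := rem_avg l a b
  rw [cosh_eq_rem l a, cosh_eq_rem l b] at h2
  nlinarith

/-- arithmetic of the recursion over the children -/
lemma step_arith {b : ℕ} (hb : 2 ≤ b) {L th2 z xs xc zc : ℝ} {j : ℕ} (hj : j ≤ b)
    (hL0 : 0 ≤ L) (hL : L ≤ 1 / 16) (ht0 : 0 ≤ th2) (ht : (b : ℝ) * th2 ≤ 1)
    (_hxs0 : 0 ≤ xs) (hxs : xs ≤ L / 2) (hxc0 : 0 ≤ xc) (hxc : xc ≤ th2 * L / 2)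
    (_hz0 : 0 ≤ z) (hz : z ≤ L ^ 2 * (1 / 16 + j * (1 / (b : ℝ) ^ 2 + 34 / (100 * b))))
    (hzc0 : 0 ≤ zc) (hzc : zc ≤ (th2 * L) ^ 2) :
    z + zc + (xs + z) * (xc + zc) ≤
      L ^ 2 * (1 / 16 + (j + 1) * (1 / (b : ℝ) ^ 2 + 34 / (100 * b))) := by
  have hb' : (2 : ℝ) ≤ b := by exact_mod_cast hb
  have hbpos : (0 : ℝ) < b := by linarith
  have hj' : (j : ℝ) ≤ b := by exact_mod_cast hj
  have ht' : th2 ≤ 1 / b := by rw [le_div_iff₀ hbpos]; linarith
  have hb1 : 1 / (b : ℝ) ≤ 1 / 2 := by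
    apply one_div_le_one_div_of_le <;> linarith
  have hbp : 0 < 1 / (b : ℝ) := by positivity
  -- z ≤ 2 L^2
  have hz2 : z ≤ 2 * L ^ 2 := by
    refine hz.trans ?_
    have h1 : (j : ℝ) * (1 / (b : ℝ) ^ 2 + 34 / (100 * b)) ≤ 1 / b + 34 / 100 := by
      have h2 : (j : ℝ) * (1 / (b : ℝ) ^ 2 + 34 / (100 * b)) ≤
          b * (1 / (b : ℝ) ^ 2 + 34 / (100 * b)) := by
        apply mul_le_mul_of_nonneg_right hj'
        positivity
      refine h2.trans (le_of_eq ?_)
      field_simp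
    nlinarith [sq_nonneg L]
  have hzc2 : zc ≤ L ^ 2 / (b : ℝ) ^ 2 := by
    refine hzc.trans ?_
    rw [mul_pow, div_eq_mul_one_div, mul_comm]
    apply mul_le_mul_of_nonneg_left _ (sq_nonneg L)
    rw [← one_div_pow]
    exact pow_le_pow_left₀ ht0 ht' 2
  have hxc2 : xc ≤ L / (2 * b) := by
    refine hxc.trans ?_
    rw [le_div_iff₀ (by positivity)]
    nlinarith
  have h1 : (xs + z) ≤ L / 2 * (5 / 4) := by nlinarith
  have h2 : xc + zc ≤ L / (2 * b) * (17 / 16) := by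
    have h3 : L ^ 2 / (b : ℝ) ^ 2 ≤ L / (2 * b) * (1 / 16) := by
      rw [div_le_iff₀ (by positivity)]
      have : L / (2 * b) * (1 / 16) * (b : ℝ) ^ 2 = L * b / 32 := by field_simp; ring
      rw [this]
      nlinarith
    linarith
  have h3 : (xs + z) * (xc + zc) ≤ L / 2 * (5 / 4) * (L / (2 * b) * (17 / 16)) := by
    apply mul_le_mul h1 h2 (by linarith) (by positivity)
  have h4 : L / 2 * (5 / 4) * (L / (2 * b) * (17 / 16)) ≤ L ^ 2 * (34 / (100 * b)) := by
    have h5 : L / 2 * (5 / 4) * (L / (2 * b) * (17 / 16)) = L ^ 2 * (85 / 256) * (1 / b) := by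
      field_simp; ring
    have h6 : L ^ 2 * (34 / (100 * (b : ℝ))) = L ^ 2 * (34 / 100) * (1 / b) := by
      field_simp
    rw [h5, h6]
    apply mul_le_mul_of_nonneg_right _ hbp.le
    nlinarith [sq_nonneg L]
  have h7 : L ^ 2 * (1 / 16 + (j + 1) * (1 / (b : ℝ) ^ 2 + 34 / (100 * b))) =
      L ^ 2 * (1 / 16 + j * (1 / (b : ℝ) ^ 2 + 34 / (100 * b))) + L ^ 2 / (b : ℝ) ^ 2 +
      L ^ 2 * (34 / (100 * b)) := by ring
  rw [h7]
  linarith

lemma final_arith {b : ℕ} (hb : 2 ≤ b) {L z : ℝ}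
    (hz : z ≤ L ^ 2 * (1 / 16 + b * (1 / (b : ℝ) ^ 2 + 34 / (100 * b)))) : z ≤ L ^ 2 := by
  have hb' : (2 : ℝ) ≤ b := by exact_mod_cast hb
  have hbpos : (0 : ℝ) < b := by linarith
  have hb1 : 1 / (b : ℝ) ≤ 1 / 2 := by
    apply one_div_le_one_div_of_le <;> linarith
  refine hz.trans ?_
  have h2 : (b : ℝ) * (1 / (b : ℝ) ^ 2 + 34 / (100 * b)) = 1 / b + 34 / 100 := by
    field_simp
  rw [h2]
  nlinarith [sq_nonneg L]

lemma final_arith' {b : ℕ} (hb : 2 ≤ b) {L z : ℝ}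
    (hz : z ≤ L ^ 2 * (1 / 16 + (b + 1) * (1 / (b : ℝ) ^ 2 + 34 / (100 * b)))) :
    z ≤ 2 * L ^ 2 := by
  have hb' : (2 : ℝ) ≤ b := by exact_mod_cast hb
  have hbpos : (0 : ℝ) < b := by linarith
  have hb1 : 1 / (b : ℝ) ≤ 1 / 2 := by
    apply one_div_le_one_div_of_le <;> linarith
  have hb0 : 0 < 1 / (b : ℝ) := by positivity
  refine hz.trans ?_
  have h2 : ((b : ℝ) + 1) * (1 / (b : ℝ) ^ 2 + 34 / (100 * b)) =
      1 / b + (1 / b) ^ 2 + 34 / 100 + 34 / 100 * (1 / b) := by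
    field_simp
    ring
  rw [h2]
  nlinarith [sq_nonneg L, mul_nonneg (sq_nonneg L) hb0.le]

end Crest.Agent.R160.StaticConv
end

-- ▼ part R160/StaticTail

/-! Row 160, module E: exponential moments of the planted magnetization (all depths). -/

set_option autoImplicit false
set_option linter.unusedSectionVars false

open MeasureTheory ProbabilityTheory
open scoped Classical

namespace Crest.Agent.R160.StaticConv

open Crest.Agent.R160 Crest.Agent.R160.Static

variable {V : Type*} {G : SimpleGraph V} {θ : ℝ}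
variable {Ω : Type*} [MeasurableSpace Ω] {P : Measure Ω} {X : V → Ω → ℝ × ℝ}

/-- planted mean of the remainder -/
noncomputable def ze (P : Measure Ω) (X : V → Ω → ℝ × ℝ) (G : SimpleGraph V) (θ l : ℝ)
    (S : Finset V) (x : V) : ℝ :=
  ∫ ω, zf G θ S (fd X ω) * rem l (magf G θ S (fd X ω) x) ∂P

lemma continuous_rem (l : ℝ) : Continuous (rem l) := by
  unfold rem
  fun_prop

lemma exists_bound_rem (l : ℝ) : ∃ K, ∀ u, |u| ≤ 1 → |rem l u| ≤ K := by
  obtain ⟨K, hK⟩ := isCompact_Icc.exists_bound_of_continuousOn (s := Set.Icc (-1 : ℝ) 1)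
    (continuous_rem l).continuousOn
  exact ⟨K, fun u hu => by simpa using hK u (abs_le.1 hu)⟩

lemma dependsOn_zf_comp (S : Finset V) (x : V) (φ : ℝ → ℝ) :
    DependsOn (fun f => zf G θ S f * φ (magf G θ S f x)) (S : Set V) := by
  intro f g hfg
  have a1 := dependsOn_zf (G := G) (θ := θ) S hfg
  have a3 := dependsOn_magf (G := G) (θ := θ) S x hfg
  simp only at a1 a3 ⊢
  rw [a1, a3]

lemma measurable_zf_comp (S : Finset V) (x : V) {φ : ℝ → ℝ} (hφ : Measurable φ) :
    Measurable (fun f : V → ℝ × ℝ => zf G θ S f * φ (magf G θ S f x)) :=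
  (measurable_zf S).mul (hφ.comp (measurable_magf S x))

lemma bdd_zf_comp (h : FieldData P X) (h0 : 0 ≤ θ) (h1 : θ < 1) (S : Finset V) (x : V)
    {φ : ℝ → ℝ} {K : ℝ} (hK : ∀ u, |u| ≤ 1 → |φ u| ≤ K) :
    Bdd X (fun f => zf G θ S f * φ (magf G θ S f x)) :=
  (h.bdd_zf (G := G) (θ := θ) S).mul ⟨K, fun ω => hK _ (abs_magf_le' h0 h1 (h.posf ω) S x)⟩

lemma integrable_zf_comp (h : FieldData P X) (h0 : 0 ≤ θ) (h1 : θ < 1) (S : Finset V) (x : V)
    {φ : ℝ → ℝ} (hφ : Measurable φ) {K : ℝ} (hK : ∀ u, |u| ≤ 1 → |φ u| ≤ K) :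
    Integrable (fun ω => zf G θ S (fd X ω) * φ (magf G θ S (fd X ω) x)) P :=
  h.integrable (measurable_zf_comp S x hφ) (bdd_zf_comp h h0 h1 S x hK)

/-- product form -/
lemma integral_zf_zf (h : FieldData P X) {S1 S2 : Finset V}
    (hd : Disjoint S1 S2) (x c : V) {φ ψ : ℝ → ℝ} (hφ : Measurable φ) (hψ : Measurable ψ) :
    ∫ ω, (zf G θ S1 (fd X ω) * φ (magf G θ S1 (fd X ω) x)) *
        (zf G θ S2 (fd X ω) * ψ (magf G θ S2 (fd X ω) c)) ∂P =
      (∫ ω, zf G θ S1 (fd X ω) * φ (magf G θ S1 (fd X ω) x) ∂P) *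
        ∫ ω, zf G θ S2 (fd X ω) * ψ (magf G θ S2 (fd X ω) c) ∂P :=
  h.integral_mul (measurable_zf_comp S1 x hφ) (measurable_zf_comp S2 c hψ)
    (dependsOn_zf_comp S1 x φ) (dependsOn_zf_comp S2 c ψ) hd

lemma integral_cosh_sub_one (h : FieldData P X) (h0 : 0 ≤ θ) (h1 : θ < 1) (l : ℝ)
    (S : Finset V) (x : V) :
    ∫ ω, zf G θ S (fd X ω) * (Real.cosh (l * magf G θ S (fd X ω) x) - 1) ∂P =
      l ^ 2 * qq P X G θ S x / 2 + ze P X G θ l S x := by
  have e : ∀ ω, zf G θ S (fd X ω) * (Real.cosh (l * magf G θ S (fd X ω) x) - 1) =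
      l ^ 2 / 2 * (zf G θ S (fd X ω) * (magf G θ S (fd X ω) x) ^ 2) +
        zf G θ S (fd X ω) * rem l (magf G θ S (fd X ω) x) := by
    intro ω
    rw [cosh_eq_rem]
    ring
  simp_rw [e]
  obtain ⟨K, hK⟩ := exists_bound_rem l
  have i1 : Integrable (fun ω => zf G θ S (fd X ω) * (magf G θ S (fd X ω) x) ^ 2) P :=
    integrable_zf_comp h h0 h1 S x (φ := fun u => u ^ 2) (by fun_prop) (K := 1) (fun u hu => by
      rw [abs_pow]; exact pow_le_one₀ (abs_nonneg u) hu)
  have i2 := integrable_zf_comp (G := G) h h0 h1 S x (φ := rem l) (continuous_rem l).measurable hK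
  rw [integral_add (i1.const_mul _) i2, integral_const_mul]
  unfold qq ze
  ring

/-- **gluing inequality** for the remainder -/
theorem ze_glue (h : FieldData P X) (h0 : 0 ≤ θ) (h1 : θ < 1) {S1 S2 : Finset V} {x c : V}
    (e : Edge1 G S1 S2 x c) (hz1 : ∫ ω, zf G θ S1 (fd X ω) ∂P = 1)
    (hz2 : ∫ ω, zf G θ S2 (fd X ω) ∂P = 1) (l : ℝ) :
    ze P X G θ l (S1 ∪ S2) x ≤ ze P X G θ l S1 x + ze P X G θ (θ * l) S2 c +
      (l ^ 2 * qq P X G θ S1 x / 2 + ze P X G θ l S1 x) *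
      ((θ * l) ^ 2 * qq P X G θ S2 c / 2 + ze P X G θ (θ * l) S2 c) := by
  obtain ⟨K, hK⟩ := exists_bound_rem l
  obtain ⟨K', hK'⟩ := exists_bound_rem (θ * l)
  have key := h.planted_phi h0 h1 e (φ := rem l) (continuous_rem l).measurable (rem_even l) hK
  have hc1 : ∀ (l u : ℝ), |u| ≤ 1 → |Real.cosh (l * u) - 1| ≤ Real.cosh l := by
    intro l u hu
    have h2 := Real.one_le_cosh (l * u)
    have h3 : Real.cosh (l * u) ≤ Real.cosh l := by
      rw [Real.cosh_le_cosh, abs_mul]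
      exact mul_le_of_le_one_right (abs_nonneg _) hu
    rw [abs_of_nonneg (by linarith)]
    linarith
  have m1 : Measurable fun u : ℝ => Real.cosh (l * u) - 1 := by fun_prop
  have m2 : Measurable fun u : ℝ => Real.cosh (θ * l * u) - 1 := by fun_prop
  -- the three products
  have p1 := integral_zf_zf (G := G) (θ := θ) h e.disj x c (φ := rem l) (ψ := fun _ => 1)
    (continuous_rem l).measurable measurable_const
  have p2 := integral_zf_zf (G := G) (θ := θ) h e.disj x c (φ := fun _ => 1) (ψ := rem (θ * l))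
    measurable_const (continuous_rem _).measurable
  have p3 := integral_zf_zf (G := G) (θ := θ) h e.disj x c
    (φ := fun u => Real.cosh (l * u) - 1) (ψ := fun u => Real.cosh (θ * l * u) - 1) m1 m2
  simp only [mul_one] at p1 p2
  rw [hz2, mul_one] at p1
  rw [hz1, one_mul] at p2
  rw [integral_cosh_sub_one h h0 h1, integral_cosh_sub_one h h0 h1] at p3
  have i1 : Integrable (fun ω => zf G θ S1 (fd X ω) * rem l (magf G θ S1 (fd X ω) x) *
      zf G θ S2 (fd X ω)) P :=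
    h.integrable ((measurable_zf_comp S1 x (continuous_rem l).measurable).mul (measurable_zf S2))
      ((bdd_zf_comp h h0 h1 S1 x hK).mul (h.bdd_zf S2))
  have i2 : Integrable (fun ω => zf G θ S1 (fd X ω) * (zf G θ S2 (fd X ω) *
      rem (θ * l) (magf G θ S2 (fd X ω) c))) P :=
    h.integrable ((measurable_zf S1).mul
      (measurable_zf_comp S2 c (continuous_rem (θ * l)).measurable))
      ((h.bdd_zf S1).mul (bdd_zf_comp h h0 h1 S2 c hK'))
  have i3 : Integrable (fun ω => zf G θ S1 (fd X ω) *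
      (Real.cosh (l * magf G θ S1 (fd X ω) x) - 1) *
      (zf G θ S2 (fd X ω) * (Real.cosh (θ * l * magf G θ S2 (fd X ω) c) - 1))) P :=
    h.integrable ((measurable_zf_comp S1 x m1).mul (measurable_zf_comp S2 c m2))
      ((bdd_zf_comp h h0 h1 S1 x (hc1 l)).mul (bdd_zf_comp h h0 h1 S2 c (hc1 (θ * l))))
  have hsum : ze P X G θ l S1 x + ze P X G θ (θ * l) S2 c +
      (l ^ 2 * qq P X G θ S1 x / 2 + ze P X G θ l S1 x) *
      ((θ * l) ^ 2 * qq P X G θ S2 c / 2 + ze P X G θ (θ * l) S2 c) =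
      ∫ ω, ((zf G θ S1 (fd X ω) * rem l (magf G θ S1 (fd X ω) x) * zf G θ S2 (fd X ω) +
        zf G θ S1 (fd X ω) * (zf G θ S2 (fd X ω) * rem (θ * l) (magf G θ S2 (fd X ω) c))) +
        zf G θ S1 (fd X ω) * (Real.cosh (l * magf G θ S1 (fd X ω) x) - 1) *
      (zf G θ S2 (fd X ω) * (Real.cosh (θ * l * magf G θ S2 (fd X ω) c) - 1))) ∂P := by
    have i12 : Integrable (fun ω => zf G θ S1 (fd X ω) * rem l (magf G θ S1 (fd X ω) x) *
        zf G θ S2 (fd X ω) + zf G θ S1 (fd X ω) * (zf G θ S2 (fd X ω) *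
        rem (θ * l) (magf G θ S2 (fd X ω) c))) P := i1.add i2
    rw [integral_add i12 i3, integral_add i1 i2, p1, p2, p3]
    rfl
  rw [hsum]
  unfold ze
  rw [key]
  refine integral_mono_of_nonneg (Filter.Eventually.of_forall fun ω => ?_) ((i1.add i2).add i3)
    (Filter.Eventually.of_forall fun ω => ?_)
  · have a1 := abs_magf_le' (G := G) h0 h1 (h.posf ω) S1 x
    have a2 := abs_magf_le' (G := G) h0 h1 (h.posf ω) S2 c
    have z1 := (zf_pos (G := G) h0 h1 (h.posf ω) S1).le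
    have z2 := (zf_pos (G := G) h0 h1 (h.posf ω) S2).le
    simp only [Pi.zero_apply]
    set u := magf G θ S1 (fd X ω) x
    set w := magf G θ S2 (fd X ω) c
    have b1 : |θ * w| ≤ θ := by
      rw [abs_mul, abs_of_nonneg h0]
      exact mul_le_of_le_one_right h0 a2
    have b2 : |u * (θ * w)| < 1 := by
      rw [abs_mul]
      exact lt_of_le_of_lt (mul_le_of_le_one_left (abs_nonneg _) a1) (lt_of_le_of_lt b1 h1)
    have b3 := abs_lt.1 b2
    refine mul_nonneg (mul_nonneg z1 z2) ?_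
    unfold avg2
    have c1 := mul_nonneg (by linarith : 0 ≤ 1 + u * (θ * w))
      (rem_nonneg l ((u + θ * w) / (1 + u * (θ * w))))
    have c2 := mul_nonneg (by linarith : 0 ≤ 1 - u * (θ * w))
      (rem_nonneg l ((u - θ * w) / (1 - u * (θ * w))))
    linarith
  · have a1 := abs_magf_le' (G := G) h0 h1 (h.posf ω) S1 x
    have a2 := abs_magf_le' (G := G) h0 h1 (h.posf ω) S2 c
    have z1 := (zf_pos (G := G) h0 h1 (h.posf ω) S1).le
    have z2 := (zf_pos (G := G) h0 h1 (h.posf ω) S2).le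
    simp only
    set u := magf G θ S1 (fd X ω) x
    set w := magf G θ S2 (fd X ω) c
    have b1 : |θ * w| ≤ θ := by
      rw [abs_mul, abs_of_nonneg h0]
      exact mul_le_of_le_one_right h0 a2
    have b2 : |u * (θ * w)| < 1 := by
      rw [abs_mul]
      exact lt_of_le_of_lt (mul_le_of_le_one_left (abs_nonneg _) a1) (lt_of_le_of_lt b1 h1)
    have h3 := glue_rem (l := l) a1 (b1.trans h1.le) b2
    have h4 : rem l (θ * w) = rem (θ * l) w := rem_scale l θ w
    have h5 := cosh_eq_rem l u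
    have h6 := cosh_eq_rem (θ * l) w
    have h7 : (l * (θ * w)) ^ 2 = (θ * l * w) ^ 2 := by ring
    rw [h4, h7] at h3
    have h8 : avg2 (rem l) u (θ * w) ≤ rem l u + rem (θ * l) w +
        (Real.cosh (l * u) - 1) * (Real.cosh (θ * l * w) - 1) := by
      rw [h5, h6]
      unfold avg2
      refine h3.trans (le_of_eq ?_)
      ring
    have h9 := mul_le_mul_of_nonneg_left h8 (mul_nonneg z1 z2)
    refine h9.trans (le_of_eq ?_)
    ring

lemma ze_nonneg (h : FieldData P X) (h0 : 0 ≤ θ) (h1 : θ < 1) (l : ℝ) (S : Finset V) (x : V) :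
    0 ≤ ze P X G θ l S x :=
  integral_nonneg fun ω => mul_nonneg (zf_pos h0 h1 (h.posf ω) S).le (rem_nonneg _ _)

/-- remainder of a single vertex -/
lemma ze_singleton (h : FieldData P X) (h0 : 0 ≤ θ) (h1 : θ < 1) {Xb l : ℝ}
    (hL : l ^ 2 * Xb ≤ 1 / 16) (x : V)
    (hmax : ∀ ω, (magf G θ {x} (fd X ω) x) ^ 2 ≤ Xb / 4) (hXx : qq P X G θ {x} x ≤ Xb) :
    ze P X G θ l {x} x ≤ (l ^ 2 * Xb) ^ 2 / 16 := by
  have i1 : Integrable (fun ω => zf G θ {x} (fd X ω) * (magf G θ {x} (fd X ω) x) ^ 2) P :=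
    integrable_zf_comp h h0 h1 {x} x (φ := fun u => u ^ 2) (by fun_prop) (K := 1) (fun u hu => by
      rw [abs_pow]; exact pow_le_one₀ (abs_nonneg u) hu)
  have hp : 0 ≤ l ^ 2 * l ^ 2 := by positivity
  have hX0 : 0 ≤ Xb := by
    have := h.prob
    obtain ⟨ω⟩ := nonempty_of_isProbabilityMeasure P
    have := hmax ω
    nlinarith [sq_nonneg (magf G θ {x} (fd X ω) x)]
  have e : ze P X G θ l {x} x ≤ ∫ ω, (l ^ 4 * Xb / 16) *
      (zf G θ {x} (fd X ω) * (magf G θ {x} (fd X ω) x) ^ 2) ∂P := by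
    unfold ze
    refine integral_mono_of_nonneg (Filter.Eventually.of_forall fun ω => ?_) (i1.const_mul _)
      (Filter.Eventually.of_forall fun ω => ?_)
    · exact mul_nonneg (zf_pos h0 h1 (h.posf ω) {x}).le (rem_nonneg _ _)
    · have z1 := (zf_pos (G := G) h0 h1 (h.posf ω) {x}).le
      simp only
      set u := magf G θ {x} (fd X ω) x
      have h2 := hmax ω
      have h3 : (l * u) ^ 2 ≤ 2 := by
        have := mul_le_mul_of_nonneg_left h2 (sq_nonneg l)
        nlinarith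
      have h4 := rem_le h3
      have h5 : (l * u) ^ 4 / 4 ≤ l ^ 4 * Xb / 16 * u ^ 2 := by
        have h6 : (l * u) ^ 4 / 4 = l ^ 4 * u ^ 2 * u ^ 2 / 4 := by ring
        have h7 : 0 ≤ l ^ 4 * u ^ 2 := by positivity
        rw [h6]
        nlinarith
      calc zf G θ {x} (fd X ω) * rem l u ≤ zf G θ {x} (fd X ω) * (l ^ 4 * Xb / 16 * u ^ 2) :=
            mul_le_mul_of_nonneg_left (h4.trans h5) z1
        _ = _ := by ring
  rw [integral_const_mul] at e
  refine e.trans ?_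
  have h8 : 0 ≤ l ^ 4 * Xb / 16 := by positivity
  have h9 := mul_le_mul_of_nonneg_left hXx h8
  have h10 : ∫ ω, zf G θ {x} (fd X ω) * (magf G θ {x} (fd X ω) x) ^ 2 ∂P = qq P X G θ {x} x := rfl
  rw [h10]
  nlinarith

section tree

variable [G.LocallyFinite]

/-- uniform bound for the second moments of all stars -/
def StarBd (P : Measure Ω) (X : V → Ω → ℝ × ℝ) (G : SimpleGraph V) [G.LocallyFinite] (θ Xb : ℝ) :
    Prop :=
  ∀ (x : V) (T : Finset V) (n : ℕ), (∀ a ∈ T, G.Adj x a) → qq P X G θ (star G x T n) x ≤ Xb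

lemma StarBd.single {Xb : ℝ} (hX : StarBd P X G θ Xb) (x : V) : qq P X G θ {x} x ≤ Xb := by
  have := hX x ∅ 0 (by simp)
  rwa [star_empty] at this

lemma StarBd.BB {Xb : ℝ} (hX : StarBd P X G θ Xb) (hT : G.IsTree) {y x : V} (hxy : G.Adj y x)
    (n : ℕ) : qq P X G θ (BB G y x n) x ≤ Xb := by
  cases n with
  | zero => rw [BB_zero hT hxy]; exact hX.single x
  | succ n =>
    rw [BB_succ_eq hT hxy]
    exact hX x _ n fun a ha =>
      (SimpleGraph.mem_neighborFinset _ _ _).1 (Finset.mem_of_mem_erase ha)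

lemma StarBd.bal {Xb : ℝ} (hX : StarBd P X G θ Xb) (hT : G.IsTree) (x : V)
    (n : ℕ) : qq P X G θ (bal G x n) x ≤ Xb := by
  cases n with
  | zero => exact hX.single x
  | succ n =>
    rw [bal_succ_eq hT]
    exact hX x _ n fun a ha => (SimpleGraph.mem_neighborFinset _ _ _).1 ha

/-- induction over the children -/
theorem ze_star (h : FieldData P X) (h0 : 0 ≤ θ) (h1 : θ < 1) (hT : G.IsTree) {b : ℕ}
    (hb : 2 ≤ b) (hθ : (b : ℝ) * θ ^ 2 ≤ 1) {x : V} {n : ℕ} {T : Finset V}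
    (hTn : ∀ a ∈ T, G.Adj x a) (hTb : T.card ≤ b + 1)
    {Xb l : ℝ} (hX0 : 0 ≤ Xb) (hL : l ^ 2 * Xb ≤ 1 / 16) (hX : StarBd P X G θ Xb)
    (hmax : ∀ ω, (magf G θ {x} (fd X ω) x) ^ 2 ≤ Xb / 4)
    (hchild : ∀ c ∈ T, ze P X G θ (θ * l) (BB G x c n) c ≤ ((θ * l) ^ 2 * Xb) ^ 2) :
    ze P X G θ l (star G x T n) x ≤
      (l ^ 2 * Xb) ^ 2 * (1 / 16 + T.card * (1 / (b : ℝ) ^ 2 + 34 / (100 * b))) := by
  induction T using Finset.induction_on with
  | empty =>
    rw [star_empty]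
    simp only [Finset.card_empty, Nat.cast_zero, zero_mul, add_zero]
    have := ze_singleton (G := G) h h0 h1 hL x hmax (hX.single x)
    linarith
  | insert c T hcT ih =>
    have hTn' : ∀ a ∈ T, G.Adj x a := fun a ha => hTn a (Finset.mem_insert_of_mem ha)
    have hc : G.Adj x c := hTn c (Finset.mem_insert_self _ _)
    rw [Finset.card_insert_of_notMem hcT] at hTb
    have ih' := ih hTn' (by omega) (fun a ha => hchild a (Finset.mem_insert_of_mem ha))
    have hg := ze_glue h h0 h1 (edge1_star hT hTn' hc hcT n) (h.zz_star' hT h0 h1 hTn' n)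
      (h.zz_BB hT h0 h1 n hc) l
    rw [star_insert, Finset.card_insert_of_notMem hcT]
    refine hg.trans ?_
    have hchc := hchild c (Finset.mem_insert_self _ _)
    have e1 : (θ * l) ^ 2 * Xb = θ ^ 2 * (l ^ 2 * Xb) := by ring
    rw [e1] at hchc
    have hL0 : 0 ≤ l ^ 2 * Xb := mul_nonneg (sq_nonneg l) hX0
    have a1 := h.qq_nonneg (G := G) h0 h1 (star G x T n) x
    have a2 := h.qq_nonneg (G := G) h0 h1 (BB G x c n) c
    have a3 := hX x T n hTn'
    have a4 := hX.BB hT hc n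
    have := step_arith hb (L := l ^ 2 * Xb) (th2 := θ ^ 2)
      (z := ze P X G θ l (star G x T n) x) (xs := l ^ 2 * qq P X G θ (star G x T n) x / 2)
      (xc := (θ * l) ^ 2 * qq P X G θ (BB G x c n) c / 2)
      (zc := ze P X G θ (θ * l) (BB G x c n) c) (j := T.card) (by omega) hL0 hL (sq_nonneg θ) hθ
      (by positivity) (by nlinarith [mul_le_mul_of_nonneg_left a3 (sq_nonneg l)]) (by positivity)
      (by
        have := mul_le_mul_of_nonneg_left a4 (sq_nonneg (θ * l))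
        nlinarith)
      (ze_nonneg h h0 h1 l _ _) ih' (ze_nonneg h h0 h1 _ _ _) hchc
    refine (le_trans (le_of_eq ?_) this).trans (le_of_eq ?_)
    · ring
    · push_cast; ring

/-- forward balls -/
theorem ze_BB (h : FieldData P X) (h0 : 0 ≤ θ) (h1 : θ < 1) (hT : G.IsTree) {b : ℕ}
    (hb : 2 ≤ b) (hreg : G.IsRegularOfDegree (b + 1)) (hθ : (b : ℝ) * θ ^ 2 ≤ 1)
    {Xb : ℝ} (hX0 : 0 ≤ Xb) (hX : StarBd P X G θ Xb)
    (hmax : ∀ x ω, (magf G θ {x} (fd X ω) x) ^ 2 ≤ Xb / 4) (n : ℕ) {y x : V}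
    (hxy : G.Adj y x) (l : ℝ) (hL : l ^ 2 * Xb ≤ 1 / 16) :
    ze P X G θ l (BB G y x n) x ≤ (l ^ 2 * Xb) ^ 2 := by
  induction n generalizing x y l with
  | zero =>
    rw [BB_zero hT hxy]
    have := ze_singleton (G := G) h h0 h1 hL x (hmax x) (hX.single x)
    nlinarith [sq_nonneg (l ^ 2 * Xb)]
  | succ n ih =>
    rw [BB_succ_eq hT hxy]
    have hcard := card_neighbor_erase hreg hxy
    have h3 : (θ * l) ^ 2 * Xb ≤ 1 / 16 := by
      have hθ1 : θ ^ 2 ≤ 1 := by nlinarith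
      have hL0 : 0 ≤ l ^ 2 * Xb := mul_nonneg (sq_nonneg l) hX0
      nlinarith
    have := ze_star h h0 h1 hT hb hθ (x := x) (n := n) (T := (G.neighborFinset x).erase y)
      (fun a ha => (SimpleGraph.mem_neighborFinset _ _ _).1 (Finset.mem_of_mem_erase ha))
      (by rw [hcard]; omega) hX0 hL hX (hmax x)
      (fun c hc => ih ((SimpleGraph.mem_neighborFinset _ _ _).1 (Finset.mem_of_mem_erase hc))
        (θ * l) h3)
    rw [hcard] at this
    exact final_arith hb this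

/-- balls -/
theorem ze_bal (h : FieldData P X) (h0 : 0 ≤ θ) (h1 : θ < 1) (hT : G.IsTree) {b : ℕ}
    (hb : 2 ≤ b) (hreg : G.IsRegularOfDegree (b + 1)) (hθ : (b : ℝ) * θ ^ 2 ≤ 1)
    {Xb : ℝ} (hX0 : 0 ≤ Xb) (hX : StarBd P X G θ Xb)
    (hmax : ∀ x ω, (magf G θ {x} (fd X ω) x) ^ 2 ≤ Xb / 4) (n : ℕ) (x : V) (l : ℝ)
    (hL : l ^ 2 * Xb ≤ 1 / 16) :
    ze P X G θ l (bal G x n) x ≤ 2 * (l ^ 2 * Xb) ^ 2 := by
  cases n with
  | zero =>
    rw [bal_zero']
    have := ze_singleton (G := G) h h0 h1 hL x (hmax x) (hX.single x)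
    nlinarith [sq_nonneg (l ^ 2 * Xb)]
  | succ n =>
    rw [bal_succ_eq hT]
    have hcard := card_neighbor hreg x
    have h3 : (θ * l) ^ 2 * Xb ≤ 1 / 16 := by
      have hθ1 : θ ^ 2 ≤ 1 := by nlinarith
      have hL0 : 0 ≤ l ^ 2 * Xb := mul_nonneg (sq_nonneg l) hX0
      nlinarith
    have := ze_star h h0 h1 hT hb hθ (x := x) (n := n) (T := G.neighborFinset x)
      (fun a ha => (SimpleGraph.mem_neighborFinset _ _ _).1 ha)
      (by rw [hcard]) hX0 hL hX (hmax x)
      (fun c hc => ze_BB h h0 h1 hT hb hreg hθ hX0 hX hmax n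
        ((SimpleGraph.mem_neighborFinset _ _ _).1 hc) (θ * l) h3)
    rw [hcard] at this
    push_cast at this
    exact final_arith' hb this

/-- **exponential moment**, uniformly in the depth -/
theorem cosh_bal (h : FieldData P X) (h0 : 0 ≤ θ) (h1 : θ < 1) (hT : G.IsTree) {b : ℕ}
    (hb : 2 ≤ b) (hreg : G.IsRegularOfDegree (b + 1)) (hθ : (b : ℝ) * θ ^ 2 ≤ 1)
    {Xb : ℝ} (hX0 : 0 ≤ Xb) (hX : StarBd P X G θ Xb)
    (hmax : ∀ x ω, (magf G θ {x} (fd X ω) x) ^ 2 ≤ Xb / 4) (n : ℕ) (x : V) (l : ℝ)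
    (hL : l ^ 2 * Xb ≤ 1 / 16) :
    ∫ ω, zf G θ (bal G x n) (fd X ω) * Real.cosh (l * magf G θ (bal G x n) (fd X ω) x) ∂P
      ≤ 2 := by
  have a1 := ze_bal h h0 h1 hT hb hreg hθ hX0 hX hmax n x l hL
  have a2 := hX.bal hT x n
  have hL0 : 0 ≤ l ^ 2 * Xb := mul_nonneg (sq_nonneg l) hX0
  have a3 := mul_le_mul_of_nonneg_left a2 (sq_nonneg l)
  have a4 := integral_cosh_sub_one (G := G) h h0 h1 l (bal G x n) x
  have a5 : ∫ ω, zf G θ (bal G x n) (fd X ω) ∂P = 1 := h.zz_bal hT h0 h1 x n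
  have hc1 : ∀ u : ℝ, |u| ≤ 1 → |Real.cosh (l * u)| ≤ Real.cosh l := by
    intro u hu
    rw [abs_of_pos (Real.cosh_pos _), Real.cosh_le_cosh, abs_mul]
    exact mul_le_of_le_one_right (abs_nonneg _) hu
  have i1 := integrable_zf_comp (G := G) h h0 h1 (bal G x n) x
    (φ := fun u => Real.cosh (l * u)) (by fun_prop) hc1
  have i2 : Integrable (fun ω => zf G θ (bal G x n) (fd X ω)) P :=
    h.integrable (measurable_zf _) (h.bdd_zf _)
  have a6 : ∫ ω, zf G θ (bal G x n) (fd X ω) *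
      (Real.cosh (l * magf G θ (bal G x n) (fd X ω) x) - 1) ∂P =
      ∫ ω, zf G θ (bal G x n) (fd X ω) * Real.cosh (l * magf G θ (bal G x n) (fd X ω) x) ∂P -
        ∫ ω, zf G θ (bal G x n) (fd X ω) ∂P := by
    rw [← integral_sub i1 i2]
    refine integral_congr_ae (Filter.Eventually.of_forall fun ω => ?_)
    simp only
    ring
  rw [a5] at a6
  nlinarith

end tree

end Crest.Agent.R160.StaticConv
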